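import Vale.Agent.P204.Dist

/-! A functional of finite order commutes with integrals of test forms. -/

open scoped ContDiff RealInnerProductSpace Topology
open MeasureTheory Metric

namespace Vale.Agent.P204

namespace DistIntAux

/-- Test forms. -/
def TS : Submodule ℝ (E → W) where
  carrier := {θ | Test 7 θ}
  add_mem' := fun h h' => Test.add h h'
  zero_mem' := Test.zero 7
  smul_mem' := fun t _ h => Test.smul h t

/-- The space of jets on the ball. -/
def JS (k : ℕ) : Type := ∀ j : Fin (k + 1), C(closedBall (0 : E) 7, E [×j]→L[ℝ] W)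

noncomputable instance instNG (k : ℕ) : NormedAddCommGroup (JS k) :=
  inferInstanceAs (NormedAddCommGroup (∀ j : Fin (k + 1), C(closedBall (0 : E) 7, E [×j]→L[ℝ] W)))

noncomputable instance instNS (k : ℕ) : NormedSpace ℝ (JS k) :=
  inferInstanceAs (NormedSpace ℝ (∀ j : Fin (k + 1), C(closedBall (0 : E) 7, E [×j]→L[ℝ] W)))

instance instCS (k : ℕ) : CompleteSpace (JS k) :=
  inferInstanceAs (CompleteSpace (∀ j : Fin (k + 1), C(closedBall (0 : E) 7, E [×j]→L[ℝ] W)))

/-- Evaluation of a jet. -/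
noncomputable def evJ (k : ℕ) (j : Fin (k + 1)) (y : closedBall (0 : E) 7) :
    JS k →L[ℝ] (E [×j]→L[ℝ] W) :=
  (ContinuousMap.evalCLM ℝ y).comp (ContinuousLinearMap.proj (R := ℝ)
    (φ := fun j : Fin (k + 1) => C(closedBall (0 : E) 7, E [×j]→L[ℝ] W)) j)

theorem JS_ext {k : ℕ} {a b : JS k} (h : ∀ j y, evJ k j y a = evJ k j y b) : a = b :=
  funext fun j => ContinuousMap.ext fun y => h j y

/-- The jet of a test form. -/
noncomputable def jet (k : ℕ) : TS →ₗ[ℝ] JS k where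
  toFun θ := fun j => ⟨fun y => iteratedFDeriv ℝ j θ.1 y,
    (Test.iteratedFDeriv θ.2 j).1.continuous.comp continuous_subtype_val⟩
  map_add' θ θ' := by
    refine JS_ext fun j y => ?_
    exact iteratedFDeriv_add_apply (θ.2.1.of_le (by exact_mod_cast le_top)).contDiffAt
      (θ'.2.1.of_le (by exact_mod_cast le_top)).contDiffAt
  map_smul' t θ := by
    refine JS_ext fun j y => ?_
    exact iteratedFDeriv_const_smul_apply (θ.2.1.of_le (by exact_mod_cast le_top)).contDiffAt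

theorem le_jet (k : ℕ) (θ : TS) (j : ℕ) (hj : j ≤ k) (y : E) :
    ‖iteratedFDeriv ℝ j θ.1 y‖ ≤ ‖jet k θ‖ := by
  by_cases hy : 7 < ‖y‖
  · rw [(Test.iteratedFDeriv θ.2 j).2 y hy, norm_zero]
    exact norm_nonneg _
  · exact ((jet k θ ⟨j, Nat.lt_succ_of_le hj⟩).norm_coe_le_norm
      ⟨y, mem_closedBall_zero_iff.2 (not_lt.1 hy)⟩).trans (norm_le_pi_norm (jet k θ) _)

theorem jet_inj (k : ℕ) : Function.Injective (jet k) := by
  rw [injective_iff_map_eq_zero]
  intro θ h
  ext1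
  funext y
  have := le_jet k θ 0 (Nat.zero_le k) y
  rw [h, norm_zero, norm_iteratedFDeriv_zero] at this
  exact norm_le_zero_iff.1 this

theorem exists_ext {k : ℕ} {L : LF} (hL : DistBd k L) :
    ∃ g : JS k →L[ℝ] ℝ, ∀ θ : TS, g (jet k θ) = L θ.1 := by
  obtain ⟨C, hC⟩ := hL
  set e := LinearEquiv.ofInjective (jet k) (jet_inj k) with he
  set f : LinearMap.range (jet k) →ₗ[ℝ] ℝ := L ∘ₗ TS.subtype ∘ₗ e.symm.toLinearMap with hf
  have hfe : ∀ θ : TS, f (e θ) = L θ.1 := fun θ => by simp [hf]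
  have hb : ∀ x, ‖f x‖ ≤ |C| * (k + 1) * ‖x‖ := by
    intro x
    obtain ⟨θ, rfl⟩ := e.surjective x
    rw [hfe, Real.norm_eq_abs]
    have h1 : Ck k θ.1 ≤ (k + 1) * ‖jet k θ‖ := Ck_le (le_jet k θ)
    have h2 := Ck_nonneg k θ.1
    calc |L θ.1| ≤ C * Ck k θ.1 := hC _ θ.2
      _ ≤ |C| * ((k + 1) * ‖jet k θ‖) := by gcongr; exact le_abs_self C
      _ = |C| * (k + 1) * ‖jet k θ‖ := by ring
  obtain ⟨g, hg, -⟩ := exists_extension_norm_eq (LinearMap.range (jet k)) (f.mkContinuous _ hb)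
  exact ⟨g, fun θ => (hg (e θ)).trans (hfe θ)⟩

end DistIntAux

open DistIntAux

variable {Y : Type} [NormedAddCommGroup Y] [NormedSpace ℝ Y] [FiniteDimensional ℝ Y]
  [MeasurableSpace Y] [BorelSpace Y] {k : ℕ} {L : LF} {κ : Y × E → W}

/-- Let `𝓑 = Π j : Fin (k + 1), (E →ᵇ (E [×j]→L[ℝ] W))` and let `jet` send a test form to its
derivatives. By Hahn-Banach (`exists_extension_of_le_sublinear` or
`Real.exists_extension_norm_eq`) `L = L' ∘ jet` on test forms, with `L'` continuous on `𝓑`.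
The map `p ↦ jet κ(p, ·)` is continuous (`contDiff_iter_fst`, uniform continuity on compacts), so
`ContinuousLinearMap.integral_comp_comm` applies, and `∫ jet κ(p, ·) = jet (∫ κ(p, ·))` by
evaluation and `iteratedFDeriv_setInt`. -/
theorem DistBd.setIntegral_comm (hL : DistBd k L) (hκ : ContDiff ℝ ∞ κ)
    (h0 : ∀ p y, 7 < ‖y‖ → κ (p, y) = 0) (ν : Measure Y) [IsFiniteMeasureOnCompacts ν]
    {K : Set Y} (hK : IsCompact K) :
    ∫ p in K, L (fun y => κ (p, y)) ∂ν = L fun y => ∫ p in K, κ (p, y) ∂ν := by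
  obtain ⟨g, hg⟩ := exists_ext hL
  have hκ' : ContDiff ℝ ∞ fun q : E × Y => κ (q.2, q.1) := hκ.comp (contDiff_snd.prodMk contDiff_fst)
  have hT : ∀ p, (fun y => κ (p, y)) ∈ TS := fun p =>
    ⟨hκ.comp (contDiff_const.prodMk contDiff_id), h0 p⟩
  have hT' : (fun y => ∫ p in K, κ (p, y) ∂ν) ∈ TS :=
    ⟨contDiff_setInt hκ' ν hK, fun y hy => by simp [h0 _ y hy]⟩
  have hc : Continuous fun p => jet k ⟨_, hT p⟩ := by
    refine continuous_pi fun j => ContinuousMap.continuous_of_continuous_uncurry _ ?_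
    exact (contDiff_iter_fst hκ' j).continuous.comp
      ((continuous_subtype_val.comp continuous_snd).prodMk continuous_fst)
  have hi : IntegrableOn (fun p => jet k ⟨_, hT p⟩) K ν := hc.continuousOn.integrableOn_compact hK
  have h1 : ∫ p in K, jet k ⟨_, hT p⟩ ∂ν = jet k ⟨_, hT'⟩ := by
    refine JS_ext fun j y => ?_
    have := (evJ k j y).integral_comp_comm hi
    exact this.symm.trans (iteratedFDeriv_setInt hκ' ν hK j y).symm
  calc ∫ p in K, L (fun y => κ (p, y)) ∂ν = ∫ p in K, g (jet k ⟨_, hT p⟩) ∂ν := by simp only [hg]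
    _ = g (jet k ⟨_, hT'⟩) := by rw [g.integral_comp_comm hi, h1]
    _ = _ := hg _

end Vale.Agent.P204
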