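import Vale.Agent.P204.KerS
import Vale.Agent.P204.DistInt

/-! The regularisation of a functional in a chart is smooth and dual to `Kop`. -/

open scoped ContDiff RealInnerProductSpace Topology
open MeasureTheory Metric

namespace Vale.Agent.P204

variable {K : ℝ × E × E → W →L[ℝ] W} {R : ℝ} {k : ℕ} {L : LF} {c : E → ℝ} {ε r : ℝ}

namespace KregDualAux

theorem inner_sum_eq (Λ : W →ₗ[ℝ] ℝ) (u : W) :
    ⟪∑ i : Fin 6, Λ (EuclideanSpace.single i 1) • (EuclideanSpace.single i 1 : W), u⟫ = Λ u := by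
  conv_rhs => rw [← (EuclideanSpace.basisFun (Fin 6) ℝ).sum_repr u]
  rw [sum_inner, map_sum]
  refine Finset.sum_congr rfl fun i _ => ?_
  simp [real_inner_smul_left, EuclideanSpace.inner_single_left, mul_comm]

theorem ker_smooth (hK : SKer K R) (hc : ContDiff ℝ ∞ c) (ε : ℝ) {θ : E → W} (hθ : ContDiff ℝ ∞ θ) :
    ContDiff ℝ ∞ fun z : E × E => kerAt K c ε z.1 (θ z.1) z.2 :=
  ((hc.comp contDiff_snd).mul contDiff_const).smul ((hK.smooth.comp
    (f := fun z : E × E => (ε, z.2, ε⁻¹ • (z.1 - z.2))) (by fun_prop)).clm_apply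
    (hθ.comp contDiff_fst))

theorem ker_zero (hK : SKer K R) (hc : Test r c) (hε : 0 < ε) {x : E} (hx : r + R * ε < ‖x‖) (w : W)
    (y : E) : kerAt K c ε x w y = 0 := by
  unfold kerAt
  rcases lt_or_ge r ‖y‖ with hy | hy
  · rw [hc.2 y hy, zero_mul, zero_smul]
  · rw [hK.supp ε y _ (by
      rw [norm_smul, norm_inv, Real.norm_of_nonneg hε.le, lt_inv_mul_iff₀ hε]
      linarith [norm_sub_norm_le x y]), zero_apply, smul_zero]

end KregDualAux

open KregDualAux

theorem wedge_regLoc (K : ℝ × E × E → W →L[ℝ] W) (L : LF) (c : E → ℝ) (ε : ℝ) (x : E) (w : W) :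
    wedge (regLoc K L c ε x) w = L (kerAt K c ε x w) := by
  rw [wedge_eq_inner]
  refine (inner_sum_eq (L ∘ₗ (LinearMap.pi fun y => (c y * (ε ^ 4)⁻¹) •
    (K (ε, y, ε⁻¹ • (x - y))).toLinearMap) ∘ₗ hstar.toLinearMap) (hstar w)).trans ?_
  change L (kerAt K c ε x (hstar (hstar w))) = _
  rw [hstar_hstar]
theorem regLoc_add (K : ℝ × E × E → W →L[ℝ] W) (L L' : LF) (c : E → ℝ) (ε : ℝ) (x : E) :
    regLoc K (L + L') c ε x = regLoc K L c ε x + regLoc K L' c ε x := by
  simp only [regLoc, LinearMap.add_apply, add_smul, Finset.sum_add_distrib]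
/-- `DistBd.contDiff`. -/
theorem SKer.contDiff_regLoc (hK : SKer K R) (hL : DistBd k L) (hc : Test 7 c) (ε : ℝ) :
    ContDiff ℝ ∞ (regLoc K L c ε) :=
  ContDiff.sum fun i _ => (hL.contDiff (ker_smooth hK hc.1 ε contDiff_const) fun p y hy => by
    simp only [kerAt, hc.2 y hy, zero_mul, zero_smul]).smul contDiff_const
theorem SKer.test_regLoc (hK : SKer K R) (hL : DistBd k L) (hc : Test r c) (hr : r ≤ 7)
    (hε : 0 < ε) : Test (r + R * ε) (regLoc K L c ε) :=
  ⟨hK.contDiff_regLoc hL (hc.mono hr) ε, fun x hx => Finset.sum_eq_zero fun i _ => by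
    rw [show kerAt K c ε x _ = 0 from funext (ker_zero hK hc hε hx _), map_zero, zero_smul]⟩
/-- `DistBd.setIntegral_comm` on `closedBall 0 (7 + R ε)` and `kop_eq_integral`. -/
theorem SKer.integral_wedge_regLoc (hK : SKer K R) (hL : DistBd k L) (hc : Test 7 c)
    (hε : 0 < ε) {θ : E → W} (hθ : ContDiff ℝ ∞ θ) :
    ∫ x, wedge (regLoc K L c ε x) (θ x) = L fun y => c y • Kop K ε θ y := by
  have h0 : ∀ x, x ∉ closedBall (0 : E) (7 + R * ε) → ∀ y, kerAt K c ε x (θ x) y = 0 :=
    fun x hx => ker_zero hK hc hε (not_le.1 fun h => hx (mem_closedBall_zero_iff.2 h)) _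
  have h := hL.setIntegral_comm (ker_smooth hK hc.1 ε hθ) (fun p y hy => by
    simp only [kerAt, hc.2 y hy, zero_mul, zero_smul]) volume
    (isCompact_closedBall (0 : E) (7 + R * ε))
  rw [setIntegral_eq_integral_of_forall_compl_eq_zero fun x hx => by
    simp only [h0 x hx]
    exact map_zero L] at h
  simp only [wedge_regLoc]
  refine h.trans (congrArg L (funext fun y => ?_))
  rw [setIntegral_eq_integral_of_forall_compl_eq_zero fun x hx => h0 x hx y,
    kop_eq_integral K hε, ← integral_smul]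
  simp only [kerAt, mul_smul]
theorem SKer.contDiff_kreg (hK : SKer K R) (hL : DistBd k L) (ε : ℝ) :
    ContDiff ℝ ∞ (kreg K L ε) :=
  hK.contDiff_regLoc hL ((test_bp (by norm_num) (by norm_num)).mono (by norm_num)) ε
theorem SKer.integral_wedge_kreg (hK : SKer K R) (hL : DistBd k L) (hε : 0 < ε)
    (hR : R * ε ≤ 1) {θ : E → W} (hθ : Test 4 θ) :
    ∫ x, wedge (kreg K L ε x) (θ x) = L (Kop K ε θ) := by
  refine (hK.integral_wedge_regLoc hL ((test_bp (a := 5) (b := 6) (by norm_num)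
    (by norm_num)).mono (by norm_num)) hε hθ.1).trans (congrArg L (funext fun y => ?_))
  rcases le_or_gt ‖y‖ 5 with hy | hy
  · rw [bp_eq_one (by norm_num) (by norm_num) hy, one_smul]
  · rw [(hK.kop_test hε.le hθ).2 y (by linarith), smul_zero]

end Vale.Agent.P204
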