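import Vale.Agent.P204.KerIter
import Vale.Agent.P204.KregDual

/-! Estimates for the regularisation of an anti-invariant functional, and reconstruction. -/

open scoped ContDiff RealInnerProductSpace Topology
open MeasureTheory Metric

namespace Vale.Agent.P204

variable {K : ℝ × E × E → W →L[ℝ] W} {R N ε₀ : ℝ} {J : E → E →L[ℝ] E}

namespace AEstAux

theorem wedge_pp {J : E →L[ℝ] E} (hJ : Near J) (a b : W) :
    wedge a (pp J b) = wedge (pp J a) b := by
  rw [hJ.wedge_split a, hJ.wedge_split (pp J a) b, pp_pp hJ.1, pp_pp hJ.1, pm_pp hJ.1, pm_pp hJ.1,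
    wedge_zero_left, wedge_zero_right]

theorem wedge_pm {J : E →L[ℝ] E} (hJ : Near J) (a b : W) :
    wedge a (pm J b) = wedge (pm J a) b := by
  rw [hJ.wedge_split a, hJ.wedge_split (pm J a) b, pm_pm hJ.1, pm_pm hJ.1, pp_pm hJ.1, pp_pm hJ.1,
    wedge_zero_left, wedge_zero_right]

theorem test_th {h : E → W} (hh : ContDiff ℝ ∞ h) :
    Test (3 / 2) fun y => bp 1 (3 / 2) y • bp 1 (3 / 2) y • hstar (h y) :=
  (test_bp zero_le_one (by norm_num)).smul_fun
    ((contDiff_bp _ _).smul (hstar.contDiff.comp hh))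

theorem absorb {h : E → W} (hh : ContDiff ℝ ∞ h) {b : ℝ} (hb : 0 ≤ b)
    (H : ∫ y, wedge (h y) (bp 1 (3 / 2) y • bp 1 (3 / 2) y • hstar (h y)) ≤
      b * nL2 fun y => bp 1 (3 / 2) y • bp 1 (3 / 2) y • hstar (h y)) :
    ∫ x in closedBall (0 : E) 1, ‖h x‖ ^ 2 ≤ b ^ 2 := by
  have t1 : CTest (3 / 2) fun y => bp 1 (3 / 2) y • h y :=
    ((test_bp zero_le_one (by norm_num)).smul_fun hh).ctest
  have e : ∀ y, wedge (h y) (bp 1 (3 / 2) y • bp 1 (3 / 2) y • hstar (h y)) =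
      ‖bp 1 (3 / 2) y • h y‖ ^ 2 := fun y => by
    rw [wedge_smul_right, wedge_smul_right, wedge_hstar_self, norm_smul, mul_pow,
      Real.norm_eq_abs, sq_abs]
    ring
  simp only [e] at H
  have h1 := nL2_le_of_le (f := fun y => bp 1 (3 / 2) y • bp 1 (3 / 2) y • hstar (h y))
    zero_le_one t1 fun y => by
      rw [norm_smul, norm_smul, norm_smul, norm_hstar, Real.norm_of_nonneg (bp_nonneg _ _ _)]
      exact mul_le_mul_of_nonneg_right (bp_le_one _ _ _)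
        (mul_nonneg (bp_nonneg _ _ _) (norm_nonneg _))
  have h2 := nL2_sq fun y => bp 1 (3 / 2) y • h y
  have h3 := nL2_nonneg fun y => bp 1 (3 / 2) y • h y
  have h4 : nL2 (fun y => bp 1 (3 / 2) y • h y) ≤ b := by
    by_contra hc
    have := mul_le_mul_of_nonneg_left h1 hb
    nlinarith [not_le.1 hc]
  have h5 : ∫ x in closedBall (0 : E) 1, ‖h x‖ ^ 2 =
      ∫ x in closedBall (0 : E) 1, ‖bp 1 (3 / 2) x • h x‖ ^ 2 :=
    setIntegral_congr_fun measurableSet_closedBall fun x hx => by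
      rw [bp_eq_one zero_le_one (by norm_num) (mem_closedBall_zero_iff.1 hx), one_smul]
  have t2 : CTest (3 / 2) fun y => ‖bp 1 (3 / 2) y • h y‖ ^ 2 :=
    ⟨t1.1.norm.pow 2, fun y hy => by
      have := t1.2 y hy
      dsimp only at this ⊢
      rw [this, norm_zero]
      norm_num⟩
  rw [h5]
  refine (setIntegral_le_integral (t2.integrable volume)
    (ae_of_all _ fun y => sq_nonneg _)).trans ?_
  rw [← h2]
  exact pow_le_pow_left₀ h3 h4 2

theorem comm_est (hK : IsKer K R N ε₀) (hJ : GoodJ J) {n : ℕ} {L : LF} (hA : AntiF J L) {ε : ℝ}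
    (hε : ε ∈ Set.Ioo 0 ε₀) {r r' a C : ℝ} (ha : 0 ≤ a) (hL : LBd n L ε r' a) {θ : E → W}
    (hθ : Test r θ) (h1 : r + R * ε ≤ r') (h2 : r' ≤ 7)
    (hC : nrm n ε (fun y => pm (J y) (Kop K ε (fun x => pp (J x) (θ x)) y)) ≤ C * ε * nL2 θ) :
    |L (Kop K ε fun x => pp (J x) (θ x))| ≤ a * (C * ε * nL2 θ) := by
  have t1 := (hK.toSKer.kop_test hε.1.le (hθ.clm_apply hJ.contDiff_pp)).mono h1
  rw [hA _ (t1.mono h2)]
  exact (hL _ (t1.clm_apply hJ.contDiff_pm)).trans (mul_le_mul_of_nonneg_left hC ha)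

theorem R_le (hK : IsKer K R N ε₀) {ε : ℝ} (hε : ε ∈ Set.Ioo 0 ε₀) : R * ε ≤ 1 / 4 := by
  have := hK.R_mul_le hε
  linarith [hε.1]

end AEstAux

open AEstAux

/-- Test with `θ = bp 1 (3/2) ^ 2 • hstar (kreg)`, resp.
`θ = pp (J x) (bp 1 (3/2) ^ 2 • hstar (pp (J x) kreg))`: `integral_wedge_kreg`, `nrm_kop_le`,
`AntiF` and `nrm_comm_le` give `X² ≤ C a X` for `X = nL2 (bp • kreg)`. -/
theorem IsKer.anti_est (hK : IsKer K R N ε₀) (hJ : GoodJ J) (n : ℕ) : ∃ C : ℝ, 0 ≤ C ∧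
    ∀ (k : ℕ) (L : LF), DistBd k L → AntiF J L → ∀ ε ∈ Set.Ioo 0 ε₀, ∀ a : ℝ, 0 ≤ a →
      LBd n L ε 2 a →
      ∫ x in closedBall (0 : E) 1, ‖kreg K L ε x‖ ^ 2 ≤ (C * a) ^ 2 ∧
      ∫ x in closedBall (0 : E) 1, ‖pp (J x) (kreg K L ε x)‖ ^ 2 ≤ (C * ε * a) ^ 2 := by
  obtain ⟨C₁, c1, h1⟩ := hK.toSKer.nrm_kop_le n
  obtain ⟨C₂, c2, h2⟩ := hK.nrm_comm_le hJ n
  refine ⟨C₁ + C₂, by positivity, fun k L hL hA ε hε a ha hB => ?_⟩
  have hg := hK.toSKer.contDiff_kreg hL ε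
  have hR := R_le hK hε
  have hε1 : ε ≤ 1 := by linarith [hε.2, hK.eps_le_one]
  have hε0 := hε.1
  constructor
  · have t1 := test_th hg
    refine absorb hg (by positivity) ?_
    rw [hK.toSKer.integral_wedge_kreg hL hε.1 (by linarith) (t1.mono (by norm_num))]
    refine (le_abs_self _).trans
      ((hB _ ((hK.toSKer.kop_test hε.1.le t1).mono (by linarith))).trans ?_)
    refine (mul_le_mul_of_nonneg_left (h1 ε ⟨hε.1, hε1⟩ _ (t1.mono (by norm_num))) ha).trans ?_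
    rw [← mul_assoc]
    exact mul_le_mul_of_nonneg_right (by nlinarith [mul_nonneg c2 ha]) (nL2_nonneg _)
  · have hg' : ContDiff ℝ ∞ fun x => pp (J x) (kreg K L ε x) := hJ.contDiff_pp.clm_apply hg
    have t1 := test_th hg'
    refine absorb hg' (by positivity) ?_
    simp only [← wedge_pp (hJ.near _)]
    rw [hK.toSKer.integral_wedge_kreg hL hε.1 (by linarith)
      ((t1.clm_apply hJ.contDiff_pp).mono (by norm_num))]
    refine (le_abs_self _).trans ((comm_est hK hJ hA hε ha hB t1 (by linarith) (by norm_num)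
      (h2 ε hε _ (t1.mono (by norm_num)))).trans ?_)
    rw [← mul_assoc]
    exact mul_le_mul_of_nonneg_right (by nlinarith [mul_nonneg (mul_nonneg c1 ha) hε0.le])
      (nL2_nonneg _)

/-- `rem_telescope`. With `θ_j = (rem K ε)^[j] θ`:
`L (Kop θ_j) = L (Kop (pm θ_j)) + L (Kop (pp θ_j))`, the first is
`∫ wedge (pm kreg) (pm θ_j) ≤ a' C nL2 θ` (`abs_integral_wedge_le`), the second is at most
`a C ε nL2 θ` (`AntiF`, `nrm_comm_le`), and
`nrm n ε θ_n ≤ C ε^n Hn n θ ≤ C λ^{-n} nrm n (λ ε) θ` (`Hn_rem_iter_le` with `i = n - l`). -/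
theorem IsKer.recon (hK : IsKer K R N ε₀) (hJ : GoodJ J) (n : ℕ) : ∃ C : ℝ, 0 ≤ C ∧
    ∀ (k : ℕ) (L : LF), DistBd k L → AntiF J L → ∀ ε ∈ Set.Ioo 0 ε₀, ∀ lam' r a a' : ℝ,
      1 ≤ lam' → 0 ≤ a → 0 ≤ a' → r + n * (R * ε) ≤ 3 → LBd n L ε (r + n * (R * ε)) a →
      ∫ x in closedBall (0 : E) 3, ‖pm (J x) (kreg K L ε x)‖ ^ 2 ≤ a' ^ 2 →
      LBd n L (lam' * ε) r (C * (a' + ε * a + (lam' ^ n)⁻¹ * a)) := by
  obtain ⟨C₁, c1, h1⟩ := hK.Hn_rem_iter_le n n
  obtain ⟨C₂, c2, h2⟩ := hK.nrm_comm_le hJ n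
  refine ⟨(n + 1) * C₁ * (1 + C₂), by positivity,
    fun k L hL hA ε hε lam r a a' hl ha ha' hr hB hI θ hθ => ?_⟩
  have hg := hK.toSKer.contDiff_kreg hL ε
  have hR := R_le hK hε
  have hε0 := hε.1
  have hR0 : 0 ≤ R * ε := mul_nonneg hK.Rpos hε0.le
  have hle : 0 ≤ lam * ε := by positivity
  have N0 := nrm_nonneg n hle θ
  have N1 := nL2_le_nrm n hle θ
  have tj := fun j => hK.toSKer.test_rem_iter hε0.le hθ j
  have k1 : ∀ j ∈ Finset.range n, |L (Kop K ε ((rem K ε)^[j] θ))| ≤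
      (a' + a * (C₂ * ε)) * (C₁ * nrm n (lam * ε) θ) := fun j hj => by
    have hj' : (j : ℝ) + 1 ≤ n := by exact_mod_cast Finset.mem_range.1 hj
    have hj2 := mul_le_mul_of_nonneg_right hj' hR0
    have t3 : Test 3 ((rem K ε)^[j] θ) := (tj j).mono (by linarith)
    have n1 := h1 ε hε r θ hθ (by linarith) j (Finset.mem_range.1 hj).le 0 (Nat.zero_le _) 0
      (Nat.zero_le _)
    rw [Hn_zero, pow_zero, mul_one, add_zero, Hn_zero] at n1
    have n2 := n1.trans (mul_le_mul_of_nonneg_left N1 c1)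
    have t4 := tj j
    generalize (rem K ε)^[j] θ = η at t3 t4 n2 ⊢
    have e : η = (fun x => pp (J x) (η x)) + fun x => pm (J x) (η x) :=
      funext fun x => (pp_add_pm _ _).symm
    have b1 := comm_est hK hJ hA hε ha hB t4 (by linarith) (by linarith)
      (h2 ε hε _ (t3.mono (by norm_num)))
    have b2 : |L (Kop K ε fun x => pm (J x) (η x))| ≤ a' * nL2 η := by
      rw [← hK.toSKer.integral_wedge_kreg hL hε0 (by linarith)
        ((t3.clm_apply hJ.contDiff_pm).mono (by norm_num))]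
      simp only [wedge_pm (hJ.near _)]
      refine (abs_integral_wedge_le (hJ.contDiff_pm.clm_apply hg).continuous.continuousOn
        t3.ctest).trans (mul_le_mul_of_nonneg_right ?_ (nL2_nonneg _))
      exact Real.sqrt_le_iff.2 ⟨ha', hI⟩
    have e2 : L (Kop K ε η) = L (Kop K ε fun x => pp (J x) (η x)) +
        L (Kop K ε fun x => pm (J x) (η x)) := by
      rw [← map_add, ← hK.toSKer.kop_add ε (t3.clm_apply hJ.contDiff_pp).1.continuous
        (t3.clm_apply hJ.contDiff_pm).1.continuous, ← e]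
    rw [e2]
    refine (abs_add_le _ _).trans ((add_le_add b1 b2).trans ?_)
    have := mul_le_mul_of_nonneg_left n2 (show 0 ≤ a' + a * (C₂ * ε) by positivity)
    linarith
  have hlp : 0 < lam ^ n := by positivity
  have k2 : |L ((rem K ε)^[n] θ)| ≤ a * ((n + 1) * (C₁ * ((lam ^ n)⁻¹ * nrm n (lam * ε) θ))) := by
    refine (hB _ (tj n)).trans (mul_le_mul_of_nonneg_left (nrm_le fun l hl' => ?_) ha)
    have n1 := h1 ε hε r θ hθ (by linarith) n le_rfl (n - l) (Nat.sub_le _ _) l hl'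
    rw [Nat.add_sub_cancel' hl'] at n1
    have n2 : ε ^ n * Hn n θ ≤ (lam ^ n)⁻¹ * nrm n (lam * ε) θ := by
      rw [le_inv_mul_iff₀ hlp, ← mul_assoc, ← mul_pow]
      exact Hn_le_nrm le_rfl hle θ
    refine (mul_le_mul_of_nonneg_left n1 (pow_pos hε0 l).le).trans
      (le_trans (le_of_eq ?_) (mul_le_mul_of_nonneg_left n2 c1))
    rw [← pow_mul_pow_sub ε hl']
    ring
  have k3 := (Finset.abs_sum_le_sum_abs _ _).trans (Finset.sum_le_card_nsmul _ _ _ k1)
  rw [Finset.card_range, nsmul_eq_mul] at k3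
  have e3 := congrArg L (rem_telescope K ε θ n)
  rw [map_add, map_sum] at e3
  rw [e3]
  refine (abs_add_le _ _).trans ((add_le_add k3 k2).trans ?_)
  have hi : 0 < (lam ^ n)⁻¹ := inv_pos.2 hlp
  generalize (lam ^ n)⁻¹ = q at hi
  generalize nrm n (lam * ε) θ = M at N0
  have : 0 ≤ C₁ * M * (a' + C₂ * (ε * a) + (n + 1) * (C₂ * a' + ε * a + C₂ * (q * a))) := by
    positivity
  linarith

end Vale.Agent.P204
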