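import Vale.Agent.P204.Alg2

/-! Bumps, test functions, and the structure `GoodJ`. -/

open scoped ContDiff RealInnerProductSpace Topology
open MeasureTheory Metric

namespace Vale.Agent.P204

namespace Calc0Aux

theorem ev_out {G : Type} {f g : E → G} {r : ℝ} (h : ∀ y, r < ‖y‖ → f y = g y) {y : E}
    (hy : r < ‖y‖) : f =ᶠ[𝓝 y] g :=
  ((isOpen_lt continuous_const continuous_norm).eventually_mem hy).mono h

theorem den_pos {a b : ℝ} (ha : 0 ≤ a) (hab : a < b) : 0 < b ^ 2 - a ^ 2 := by nlinarith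

end Calc0Aux

theorem contDiff_bp (a b : ℝ) : ContDiff ℝ ∞ (bp a b) :=
  Real.smoothTransition.contDiff.comp ((contDiff_const.sub (contDiff_norm_sq ℝ)).div_const _)
theorem continuous_bp (a b : ℝ) : Continuous (bp a b) := (contDiff_bp a b).continuous
theorem bp_nonneg (a b : ℝ) (y : E) : 0 ≤ bp a b y := Real.smoothTransition.nonneg _
theorem bp_le_one (a b : ℝ) (y : E) : bp a b y ≤ 1 := Real.smoothTransition.le_one _
theorem bp_eq_one {a b : ℝ} (ha : 0 ≤ a) (hab : a < b) {y : E} (hy : ‖y‖ ≤ a) : bp a b y = 1 :=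
  Real.smoothTransition.one_of_one_le ((one_le_div (Calc0Aux.den_pos ha hab)).2
    (sub_le_sub_left (pow_le_pow_left₀ (norm_nonneg _) hy 2) _))
theorem bp_eq_zero {a b : ℝ} (ha : 0 ≤ a) (hab : a < b) {y : E} (hy : b ≤ ‖y‖) : bp a b y = 0 :=
  Real.smoothTransition.zero_of_nonpos (div_nonpos_of_nonpos_of_nonneg
    (sub_nonpos.2 (pow_le_pow_left₀ (ha.trans hab.le) hy 2)) (Calc0Aux.den_pos ha hab).le)
theorem test_bp {a b : ℝ} (ha : 0 ≤ a) (hab : a < b) : Test b (bp a b) :=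
  ⟨contDiff_bp a b, fun _ hy => bp_eq_zero ha hab hy.le⟩
theorem fderiv_bp_of_lt {a b : ℝ} (ha : 0 ≤ a) (hab : a < b) {y : E} (hy : ‖y‖ < a) :
    fderiv ℝ (bp a b) y = 0 := by
  have e : bp a b =ᶠ[𝓝 y] fun _ => 1 :=
    ((isOpen_lt continuous_norm continuous_const).eventually_mem hy).mono
      fun _ hz => bp_eq_one ha hab (le_of_lt hz)
  rw [e.fderiv_eq, fderiv_fun_const]
  rfl
theorem fderiv_bp_of_gt {a b : ℝ} (ha : 0 ≤ a) (hab : a < b) {y : E} (hy : b < ‖y‖) :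
    fderiv ℝ (bp a b) y = 0 := by
  have e : bp a b =ᶠ[𝓝 y] fun _ => 0 := Calc0Aux.ev_out (fun _ hz => bp_eq_zero ha hab hz.le) hy
  rw [e.fderiv_eq, fderiv_fun_const]
  rfl
theorem exists_fderiv_bp_le {a b : ℝ} (ha : 0 ≤ a) (hab : a < b) :
    ∃ C : ℝ, 0 ≤ C ∧ ∀ y, ‖fderiv ℝ (bp a b) y‖ ≤ C := by
  obtain ⟨C, hC⟩ := (isCompact_closedBall (0 : E) b).exists_bound_of_continuousOn
    ((contDiff_bp a b).continuous_fderiv (by simp)).continuousOn
  refine ⟨max C 0, le_max_right _ _, fun y => ?_⟩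
  rcases le_or_gt ‖y‖ b with hy | hy
  · exact le_max_of_le_left (hC y (mem_closedBall_zero_iff.2 hy))
  · rw [fderiv_bp_of_gt ha hab hy, norm_zero]
    exact le_max_right _ _

section test
variable {F G : Type} [NormedAddCommGroup F] [NormedSpace ℝ F] [NormedAddCommGroup G]
  [NormedSpace ℝ G] {r r' : ℝ} {θ θ' : E → F}

theorem Test.ctest (h : Test r θ) : CTest r θ := ⟨h.1.continuous, h.2⟩
theorem Test.mono (h : Test r θ) (hr : r ≤ r') : Test r' θ :=
  ⟨h.1, fun y hy => h.2 y (hr.trans_lt hy)⟩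
theorem Test.zero (r : ℝ) : Test r (0 : E → F) := ⟨contDiff_const, fun _ _ => rfl⟩
theorem Test.add (h : Test r θ) (h' : Test r θ') : Test r (θ + θ') :=
  ⟨h.1.add h'.1, fun y hy => by rw [Pi.add_apply, h.2 y hy, h'.2 y hy, add_zero]⟩
theorem Test.sub (h : Test r θ) (h' : Test r θ') : Test r (θ - θ') :=
  ⟨h.1.sub h'.1, fun y hy => by rw [Pi.sub_apply, h.2 y hy, h'.2 y hy, sub_zero]⟩
theorem Test.neg (h : Test r θ) : Test r (-θ) :=
  ⟨h.1.neg, fun y hy => by rw [Pi.neg_apply, h.2 y hy, neg_zero]⟩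
theorem Test.smul (h : Test r θ) (t : ℝ) : Test r (t • θ) :=
  ⟨h.1.const_smul t, fun y hy => by rw [Pi.smul_apply, h.2 y hy, smul_zero]⟩
theorem Test.fun_smul (h : Test r θ) {g : E → ℝ} (hg : ContDiff ℝ ∞ g) :
    Test r fun y => g y • θ y :=
  ⟨hg.smul h.1, fun y hy => by simp only [h.2 y hy, smul_zero]⟩
theorem Test.smul_fun {g : E → ℝ} (hg : Test r g) (h : ContDiff ℝ ∞ θ) :
    Test r fun y => g y • θ y :=
  ⟨hg.1.smul h, fun y hy => by simp only [hg.2 y hy, zero_smul]⟩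
/-- A test function times a function that is smooth on a larger ball. -/
theorem Test.smul_contDiffOn {g : E → ℝ} (hg : Test r g) (hr : r < r')
    (h : ContDiffOn ℝ ∞ θ (ball 0 r')) : Test r fun y => g y • θ y := by
  have z : ∀ y, r < ‖y‖ → g y • θ y = 0 := fun y hy => by rw [hg.2 y hy, zero_smul]
  refine ⟨contDiff_iff_contDiffAt.2 fun y => ?_, z⟩
  rcases lt_or_ge ‖y‖ r' with hy | hy
  · exact hg.1.contDiffAt.smul (h.contDiffAt (isOpen_ball.mem_nhds (mem_ball_zero_iff.2 hy)))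
  · exact contDiffAt_const.congr_of_eventuallyEq
      (Calc0Aux.ev_out (g := fun _ => (0 : F)) z (hr.trans_le hy))
theorem Test.clm_apply (h : Test r θ) {A : E → F →L[ℝ] G} (hA : ContDiff ℝ ∞ A) :
    Test r fun y => A y (θ y) :=
  ⟨hA.clm_apply h.1, fun y hy => by simp only [h.2 y hy, map_zero]⟩
theorem Test.fderiv (h : Test r θ) : Test r (fderiv ℝ θ) :=
  ⟨h.1.fderiv_right (m := ∞) le_rfl, fun y hy => by
    rw [(Calc0Aux.ev_out (g := fun _ => (0 : F)) h.2 hy).fderiv_eq, fderiv_fun_const]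
    rfl⟩
theorem Test.iteratedFDeriv (h : Test r θ) (n : ℕ) : Test r (iteratedFDeriv ℝ n θ) :=
  ⟨h.1.iteratedFDeriv_right (m := ∞) le_rfl, fun y hy => by
    rw [((Calc0Aux.ev_out (g := fun _ => (0 : F)) h.2 hy).iteratedFDeriv ℝ n).eq_of_nhds,
      iteratedFDeriv_fun_zero]
    rfl⟩
theorem Test.sum {ι : Type} (t : Finset ι) {f : ι → E → F} (h : ∀ i ∈ t, Test r (f i)) :
    Test r (∑ i ∈ t, f i) :=
  Finset.sum_induction f (Test r) (fun _ _ => Test.add) (Test.zero r) h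

omit [NormedSpace ℝ F] in
theorem CTest.mono (h : CTest r θ) (hr : r ≤ r') : CTest r' θ :=
  ⟨h.1, fun y hy => h.2 y (hr.trans_lt hy)⟩
omit [NormedSpace ℝ F] in
theorem CTest.add (h : CTest r θ) (h' : CTest r θ') : CTest r (θ + θ') :=
  ⟨h.1.add h'.1, fun y hy => by rw [Pi.add_apply, h.2 y hy, h'.2 y hy, add_zero]⟩
omit [NormedSpace ℝ F] in
theorem CTest.sub (h : CTest r θ) (h' : CTest r θ') : CTest r (θ - θ') :=
  ⟨h.1.sub h'.1, fun y hy => by rw [Pi.sub_apply, h.2 y hy, h'.2 y hy, sub_zero]⟩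
omit [NormedSpace ℝ F] in
theorem CTest.neg (h : CTest r θ) : CTest r (-θ) :=
  ⟨h.1.neg, fun y hy => by rw [Pi.neg_apply, h.2 y hy, neg_zero]⟩
theorem CTest.smul (h : CTest r θ) (t : ℝ) : CTest r (t • θ) :=
  ⟨h.1.const_smul t, fun y hy => by rw [Pi.smul_apply, h.2 y hy, smul_zero]⟩
theorem CTest.fun_smul (h : CTest r θ) {g : E → ℝ} (hg : Continuous g) :
    CTest r fun y => g y • θ y :=
  ⟨hg.smul h.1, fun y hy => by simp only [h.2 y hy, smul_zero]⟩
theorem CTest.smul_fun {g : E → ℝ} (hg : CTest r g) (h : Continuous θ) :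
    CTest r fun y => g y • θ y :=
  ⟨hg.1.smul h, fun y hy => by simp only [hg.2 y hy, zero_smul]⟩
theorem CTest.smul_continuousOn {g : E → ℝ} (hg : CTest r g) (hr : r < r')
    (h : ContinuousOn θ (ball 0 r')) : CTest r fun y => g y • θ y := by
  have z : ∀ y, r < ‖y‖ → g y • θ y = 0 := fun y hy => by rw [hg.2 y hy, zero_smul]
  refine ⟨continuous_iff_continuousAt.2 fun y => ?_, z⟩
  rcases lt_or_ge ‖y‖ r' with hy | hy
  · exact hg.1.continuousAt.smul (h.continuousAt (isOpen_ball.mem_nhds (mem_ball_zero_iff.2 hy)))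
  · exact continuousAt_const.congr
      (Calc0Aux.ev_out (g := fun _ => (0 : F)) z (hr.trans_le hy)).symm
theorem CTest.clm_apply (h : CTest r θ) {A : E → F →L[ℝ] G} (hA : Continuous A) :
    CTest r fun y => A y (θ y) :=
  ⟨hA.clm_apply h.1, fun y hy => by simp only [h.2 y hy, map_zero]⟩
omit [NormedSpace ℝ F] in
theorem CTest.norm (h : CTest r θ) : CTest r fun y => ‖θ y‖ :=
  ⟨h.1.norm, fun y hy => by simp only [h.2 y hy, norm_zero]⟩
omit [NormedSpace ℝ F] in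
theorem CTest.hasCompactSupport (h : CTest r θ) : HasCompactSupport θ :=
  HasCompactSupport.intro (isCompact_closedBall (0 : E) r) fun y hy =>
    h.2 y (not_le.1 fun H => hy (mem_closedBall_zero_iff.2 H))
omit [NormedSpace ℝ F] in
theorem CTest.integrable (h : CTest r θ) (μ : Measure E) [IsFiniteMeasureOnCompacts μ] :
    Integrable θ μ := h.1.integrable_of_hasCompactSupport h.hasCompactSupport
omit [NormedSpace ℝ F] in
theorem CTest.bounded (h : CTest r θ) : ∃ C : ℝ, 0 ≤ C ∧ ∀ y, ‖θ y‖ ≤ C := by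
  obtain ⟨C, hC⟩ := h.1.bounded_above_of_compact_support h.hasCompactSupport
  exact ⟨C, (norm_nonneg _).trans (hC 0), hC⟩
end test

namespace Calc0Aux
variable {F : Type} [NormedAddCommGroup F] [NormedSpace ℝ F] {r : ℝ} {f : E → F} {c : F}

theorem test_sub_const (hf : ContDiff ℝ ∞ f) (h : ∀ y, r < ‖y‖ → f y = c) :
    Test r fun y => f y - c :=
  ⟨hf.sub contDiff_const, fun y hy => by simp only [h y hy, sub_self]⟩

theorem fderiv_le (hf : ContDiff ℝ ∞ f) (h : ∀ y, r < ‖y‖ → f y = c) :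
    ∃ L : ℝ, 0 ≤ L ∧ ∀ y, ‖fderiv ℝ f y‖ ≤ L := by
  obtain ⟨L, hL, H⟩ := (test_sub_const hf h).fderiv.ctest.bounded
  exact ⟨L, hL, fun y => by simpa only [fderiv_sub_const] using H y⟩

theorem iter_le (hf : ContDiff ℝ ∞ f) (h : ∀ y, r < ‖y‖ → f y = c) (j : ℕ) :
    ∃ C : ℝ, 0 ≤ C ∧ ∀ y, ‖iteratedFDeriv ℝ j f y‖ ≤ C := by
  obtain ⟨C, hC⟩ := (isCompact_closedBall (0 : E) r).exists_bound_of_continuousOn
    (hf.continuous_iteratedFDeriv (m := j) (by exact_mod_cast le_top)).continuousOn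
  refine ⟨max C ‖c‖, le_max_of_le_right (norm_nonneg _), fun y => ?_⟩
  rcases le_or_gt ‖y‖ r with hy | hy
  · exact le_max_of_le_left (hC y (mem_closedBall_zero_iff.2 hy))
  · rw [((ev_out (g := fun _ => c) h hy).iteratedFDeriv ℝ j).eq_of_nhds]
    refine le_max_of_le_right ?_
    rcases eq_or_ne j 0 with rfl | hj
    · rw [norm_iteratedFDeriv_zero]
    · rw [iteratedFDeriv_const_of_ne hj, Pi.zero_apply, norm_zero]
      exact norm_nonneg _

theorem iter_le' (hf : ContDiff ℝ ∞ f) (h : ∀ y, r < ‖y‖ → f y = c) (n : ℕ) :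
    ∃ C : ℝ, 0 ≤ C ∧ ∀ j ≤ n, ∀ y, ‖iteratedFDeriv ℝ j f y‖ ≤ C := by
  choose C h0 hC using iter_le hf h
  exact ⟨∑ j ∈ Finset.range (n + 1), C j, Finset.sum_nonneg fun j _ => h0 j, fun j hj y =>
    (hC j y).trans (Finset.single_le_sum (fun j _ => h0 j)
      (Finset.mem_range.2 (Nat.lt_succ_of_le hj)))⟩

end Calc0Aux

namespace GoodJ
variable {J : E → E →L[ℝ] E} (hJ : GoodJ J)
include hJ

theorem sq (y v : E) : J y (J y v) = -v := (hJ.near y).1 v
theorem test_sub : Test 11 fun y => J y - J0 := Calc0Aux.test_sub_const hJ.smooth hJ.far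
theorem lipschitz : ∃ L : ℝ, 0 ≤ L ∧ ∀ x y, ‖J x - J y‖ ≤ L * ‖x - y‖ := by
  obtain ⟨L, h0, hL⟩ := Calc0Aux.fderiv_le hJ.smooth hJ.far
  exact ⟨L, h0, fun x y => convex_univ.norm_image_sub_le_of_norm_fderiv_le
    (fun z _ => hJ.smooth.differentiable (by simp) z) (fun z _ => hL z) (Set.mem_univ y)
    (Set.mem_univ x)⟩
theorem fderiv_le : ∃ L : ℝ, 0 ≤ L ∧ ∀ y, ‖fderiv ℝ J y‖ ≤ L := Calc0Aux.fderiv_le hJ.smooth hJ.far
theorem contDiff_pp : ContDiff ℝ ∞ fun y => pp (J y) := P204.contDiff_pp.comp hJ.smooth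
theorem contDiff_pm : ContDiff ℝ ∞ fun y => pm (J y) := P204.contDiff_pm.comp hJ.smooth
theorem contDiff_Aop : ContDiff ℝ ∞ fun y => Aop (J y) := P204.contDiff_Aop.comp hJ.smooth
/-- All derivatives of positive order of `y ↦ pm (J y)` are bounded. -/
theorem iteratedFDeriv_pm_le (n : ℕ) :
    ∃ C : ℝ, 0 ≤ C ∧ ∀ j ≤ n, ∀ y, ‖iteratedFDeriv ℝ j (fun y => pm (J y)) y‖ ≤ C :=
  Calc0Aux.iter_le' (c := pm J0) hJ.contDiff_pm (fun y hy => by rw [hJ.far y hy]) n
end GoodJ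

end Vale.Agent.P204
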