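import Vale.Agent.P204.Ana
import Vale.Agent.P204.Calc0

/-! Bounded continuous functions, Fubini, and the scaled bump kernel. -/

open scoped ContDiff RealInnerProductSpace Topology
open MeasureTheory Metric

namespace Vale.Agent.P204.EnergyAux

/-- Continuous and bounded. -/
def CB {X : Type} [TopologicalSpace X] (f : X → ℝ) : Prop :=
  Continuous f ∧ ∃ C : ℝ, ∀ x, |f x| ≤ C

section
variable {X Y : Type} [TopologicalSpace X] [TopologicalSpace Y] {f g : X → ℝ}

theorem CB.mul (hf : CB f) (hg : CB g) : CB fun x => f x * g x := by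
  obtain ⟨cf, C, hC⟩ := hf
  obtain ⟨cg, D, hD⟩ := hg
  refine ⟨cf.mul cg, C * D, fun x => ?_⟩
  rw [abs_mul]
  exact mul_le_mul (hC x) (hD x) (abs_nonneg _) ((abs_nonneg _).trans (hC x))

theorem cb_const (c : ℝ) : CB fun _ : X => c := ⟨continuous_const, |c|, fun _ => le_rfl⟩

theorem CB.cmul (hf : CB f) (c : ℝ) : CB fun x => c * f x := (cb_const c).mul hf

theorem CB.sq (hf : CB f) : CB fun x => f x ^ 2 := by
  simpa only [pow_two] using hf.mul hf

theorem CB.comp (hf : CB f) {u : Y → X} (hu : Continuous u) : CB fun y => f (u y) :=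
  ⟨hf.1.comp hu, hf.2.imp fun _ h y => h (u y)⟩

theorem CB.int [MeasurableSpace X] [OpensMeasurableSpace X] (hf : CB f) (ν : Measure X)
    [IsFiniteMeasure ν] : Integrable f ν := by
  obtain ⟨cf, C, hC⟩ := hf
  exact Integrable.of_bound cf.measurable.aestronglyMeasurable C (ae_of_all _ hC)

end

theorem CB.integral {F : E × E → ℝ} (hF : CB F) (ν : Measure E) [IsFiniteMeasure ν] :
    CB fun x => ∫ y, F (x, y) ∂ν := by
  obtain ⟨cF, C, hC⟩ := hF
  refine ⟨continuous_of_dominated (bound := fun _ => C)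
    (fun x => Continuous.aestronglyMeasurable (by fun_prop))
    (fun x => ae_of_all _ fun y => hC _) (integrable_const C)
    (ae_of_all _ fun y => by fun_prop), C * ν.real Set.univ, fun x => ?_⟩
  exact norm_integral_le_of_norm_le_const (f := fun y => F (x, y)) (ae_of_all _ fun y => hC _)

/-- Cauchy-Schwarz. -/
theorem cs {f g : E → ℝ} (hf : CB f) (hg : CB g) (ν : Measure E) [IsFiniteMeasure ν] :
    ∫ x, f x * g x ∂ν ≤ Real.sqrt (∫ x, f x ^ 2 ∂ν) * Real.sqrt (∫ x, g x ^ 2 ∂ν) := by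
  have key : ∀ t : ℝ, 0 ≤ (∫ x, f x ^ 2 ∂ν) * (t * t) + (2 * ∫ x, f x * g x ∂ν) * t +
      ∫ x, g x ^ 2 ∂ν := by
    intro t
    have h : 0 ≤ ∫ x, (t * f x + g x) ^ 2 ∂ν := integral_nonneg fun x => sq_nonneg _
    have e : ∀ x, (t * f x + g x) ^ 2 = t * t * f x ^ 2 + 2 * t * (f x * g x) + g x ^ 2 :=
      fun x => by ring
    have i1 := (hf.sq.cmul (t * t)).int ν
    have i2 := ((hf.mul hg).cmul (2 * t)).int ν
    have i12 : Integrable (fun x => t * t * f x ^ 2 + 2 * t * (f x * g x)) ν := i1.add i2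
    simp only [e] at h
    rw [integral_add i12 (hg.sq.int ν), integral_add i1 i2, integral_const_mul,
      integral_const_mul] at h
    linarith
  have h := discrim_le_zero key
  rw [discrim] at h
  rw [← Real.sqrt_mul (integral_nonneg fun x => sq_nonneg _)]
  exact Real.le_sqrt_of_sq_le (by nlinarith)

/-- The scaled bump. -/
noncomputable def kb (R ε : ℝ) (x y : E) : ℝ := bp R (R + 1) (ε⁻¹ • (x - y))

theorem kb_nonneg (R ε : ℝ) (x y : E) : 0 ≤ kb R ε x y := bp_nonneg _ _ _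

theorem kb_le_one (R ε : ℝ) (x y : E) : kb R ε x y ≤ 1 := bp_le_one _ _ _

theorem kb_comm (R ε : ℝ) (x y : E) : kb R ε x y = kb R ε y x := by
  simp only [kb, bp, norm_smul, norm_sub_rev x y]

theorem cb_kb (R ε : ℝ) : CB fun p : E × E => kb R ε p.1 p.2 :=
  ⟨(continuous_bp R (R + 1)).comp (by fun_prop), 1, fun p => by
    rw [abs_of_nonneg (kb_nonneg _ _ _ _)]
    exact kb_le_one _ _ _ _⟩

theorem cb_kb2 (R ε : ℝ) (x : E) : CB (kb R ε x) :=
  (cb_kb R ε).comp (u := fun y => (x, y)) (by fun_prop)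

theorem cb_kb1 (R ε : ℝ) (y : E) : CB fun x => kb R ε x y :=
  (cb_kb R ε).comp (u := fun x => (x, y)) (by fun_prop)

variable {R ε : ℝ} {x y : E}

theorem kb_eq_one (hR : 0 ≤ R) (hε : 0 < ε) (h : ‖x - y‖ ≤ R * ε) : kb R ε x y = 1 := by
  refine bp_eq_one hR (by linarith) ?_
  rw [norm_smul, norm_inv, Real.norm_of_nonneg hε.le, inv_mul_le_iff₀ hε]
  linarith

theorem kb_eq_zero (hR : 0 ≤ R) (hε : 0 < ε) (h : (R + 1) * ε ≤ ‖x - y‖) : kb R ε x y = 0 := by
  refine bp_eq_zero hR (by linarith) ?_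
  rw [norm_smul, norm_inv, Real.norm_of_nonneg hε.le, le_inv_mul_iff₀ hε]
  linarith

theorem int_kb_le (hR : 0 ≤ R) (hε : 0 < ε) (ν : Measure E) [IsFiniteMeasure ν] (x : E) :
    ∫ y, kb R ε x y ∂ν ≤ ν.real (closedBall x ((R + 1) * ε)) := by
  rw [← integral_indicator_one measurableSet_closedBall]
  refine integral_mono ((cb_kb2 R ε x).int ν)
    ((integrable_const (1 : ℝ)).indicator measurableSet_closedBall) fun y => ?_
  by_cases h : y ∈ closedBall x ((R + 1) * ε)
  · rw [Set.indicator_of_mem h]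
    exact kb_le_one _ _ _ _
  · rw [Set.indicator_of_notMem h]
    rw [mem_closedBall', dist_eq_norm, not_le] at h
    exact (kb_eq_zero hR hε h.le).le

/-- The volume of the unit ball. -/
noncomputable def c0 : ℝ := volume.real (ball (0 : E) 1)

theorem c0_pos : 0 < c0 :=
  ENNReal.toReal_pos (measure_ball_pos _ _ one_pos).ne' measure_ball_lt_top.ne

theorem vol_ball (x : E) {r : ℝ} (hr : 0 ≤ r) : volume.real (closedBall x r) = r ^ 4 * c0 := by
  rw [Measure.addHaar_real_closedBall _ x hr, finrank_euclideanSpace, Fintype.card_fin, c0]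

theorem fin_res (r : ℝ) : IsFiniteMeasure (volume.restrict (closedBall (0 : E) r)) :=
  isFiniteMeasure_restrict.2 measure_closedBall_lt_top.ne

theorem vol_kb_le (hR : 0 ≤ R) (hε : 0 < ε) (r : ℝ) (x : E) :
    ∫ y in closedBall (0 : E) r, kb R ε x y ≤ ((R + 1) * ε) ^ 4 * c0 := by
  haveI := fin_res r
  refine (int_kb_le hR hε _ x).trans ?_
  rw [← vol_ball x (by positivity), measureReal_restrict_apply measurableSet_closedBall]
  exact measureReal_mono Set.inter_subset_left measure_closedBall_lt_top.ne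

theorem cb_conv {g : E → ℝ} (hg : CB g) (R ε : ℝ) (ν : Measure E) [IsFiniteMeasure ν] :
    CB fun x => ∫ z, kb R ε z x * g z ∂ν :=
  (((cb_kb R ε).comp continuous_swap).mul (hg.comp continuous_snd)).integral ν

/-- Fubini for the bump kernel with a weight. -/
theorem fub {g : E → ℝ} (hg : CB g) (R ε : ℝ) (ν μ : Measure E) [IsFiniteMeasure ν]
    [IsFiniteMeasure μ] :
    ∫ x, (∫ z, kb R ε z x * g z ∂ν) ∂μ = ∫ z, (∫ x, kb R ε z x ∂μ) * g z ∂ν := by
  rw [integral_integral_swap (f := fun x z => kb R ε z x * g z)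
    ((((cb_kb R ε).comp continuous_swap).mul (hg.comp continuous_snd)).int (μ.prod ν))]
  simp only [integral_mul_const]

variable (μ : Measure E) [IsFiniteMeasure μ]

omit [IsFiniteMeasure μ] in
theorem lam_eq (R ε : ℝ) (x : E) : lam μ R ε x = (ε ^ 2)⁻¹ * ∫ y, kb R ε x y ∂μ := rfl

theorem cb_lam (R ε : ℝ) : CB (lam μ R ε) := ((cb_kb R ε).integral μ).cmul _

omit [IsFiniteMeasure μ] in
theorem int_kb_eq (hε : 0 < ε) (R : ℝ) (x : E) : ∫ y, kb R ε x y ∂μ = ε ^ 2 * lam μ R ε x := by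
  rw [lam_eq, ← mul_assoc, mul_inv_cancel₀ (by positivity), one_mul]

theorem cb_dens (hε : 0 < ε) (x : E) :
    CB fun y : E => bp (1 / 4) (1 / 2) (y - x) * (ε ^ 2 / (‖y - x‖ ^ 2 + ε ^ 2) ^ 2) := by
  refine CB.mul ⟨(continuous_bp _ _).comp (by fun_prop), 1, fun y => ?_⟩
    ⟨Continuous.div (by fun_prop) (by fun_prop) fun y => by positivity,
      ε ^ 2 / (ε ^ 2) ^ 2, fun y => ?_⟩
  · rw [abs_of_nonneg (bp_nonneg _ _ _)]
    exact bp_le_one _ _ _
  · rw [abs_of_nonneg (by positivity)]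
    exact div_le_div_of_nonneg_left (by positivity) (by positivity)
      (pow_le_pow_left₀ (by positivity) (le_add_of_nonneg_left (by positivity)) 2)

end Vale.Agent.P204.EnergyAux
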