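import Vale.Agent.P204.Ana
import Vale.Agent.P204.Calc0
import Vale.Agent.P204.EnergyX

/-! Density ratios and energies of a finite measure on `E`. -/

open scoped ContDiff RealInnerProductSpace Topology
open MeasureTheory Metric

namespace Vale.Agent.P204
open EnergyAux

variable (μ μ' : Measure E) [IsFiniteMeasure μ] [IsFiniteMeasure μ']

theorem lam_nonneg (R ε : ℝ) (x : E) : 0 ≤ lam μ R ε x :=
  mul_nonneg (by positivity) (integral_nonneg fun _ => bp_nonneg _ _ _)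
theorem continuous_lam (R ε : ℝ) : Continuous (lam μ R ε) := (cb_lam μ R ε).1
theorem En_nonneg (R ε : ℝ) : 0 ≤ En μ R ε := integral_nonneg fun _ => sq_nonneg _
theorem dens_nonneg (x : E) (ε : ℝ) : 0 ≤ dens μ x ε :=
  integral_nonneg fun _ => mul_nonneg (bp_nonneg _ _ _) (by positivity)
theorem lam_le_ball {R ε : ℝ} (hR : 0 ≤ R) (hε : 0 < ε) (x : E) :
    lam μ R ε x ≤ (ε ^ 2)⁻¹ * μ.real (closedBall x ((R + 1) * ε)) :=
  mul_le_mul_of_nonneg_left (int_kb_le hR hε μ x) (by positivity)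
/-- On the ball the integrand of `dens` is at least `ε⁻² (1 + R²)⁻²`. -/
theorem ball_le_dens {R ε : ℝ} (hR : 0 ≤ R) (hε : 0 < ε) (h : R * ε ≤ 1 / 4) (x : E) :
    (ε ^ 2)⁻¹ * μ.real (closedBall x (R * ε)) ≤ (1 + R ^ 2) ^ 2 * dens μ x ε := by
  rw [← integral_indicator_one measurableSet_closedBall, dens, ← integral_const_mul,
    ← integral_const_mul]
  refine integral_mono
    (((integrable_const (1 : ℝ)).indicator measurableSet_closedBall).const_mul _)
    (((cb_dens hε x).int μ).const_mul _) fun y => ?_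
  by_cases hy : y ∈ closedBall x (R * ε)
  · have h1 : ‖y - x‖ ≤ R * ε := mem_closedBall_iff_norm.1 hy
    have h2 : ‖y - x‖ ^ 2 + ε ^ 2 ≤ (1 + R ^ 2) * ε ^ 2 := by
      nlinarith [pow_le_pow_left₀ (norm_nonneg _) h1 2]
    have h3 := pow_le_pow_left₀ (by positivity) h2 2
    simp only [Set.indicator_of_mem hy, Pi.one_apply, mul_one]
    rw [bp_eq_one (by norm_num) (by norm_num) (h1.trans h), one_mul, ← mul_div_assoc,
      le_div_iff₀ (by positivity), inv_mul_le_iff₀ (by positivity)]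
    exact h3.trans (le_of_eq (by ring))
  · simp only [Set.indicator_of_notMem hy, mul_zero]
    exact mul_nonneg (by positivity) (mul_nonneg (bp_nonneg _ _ _) (by positivity))

omit [IsFiniteMeasure μ'] in
theorem EnergyAux.dens_mono (hle : μ' ≤ μ) (x : E) {ε : ℝ} (hε : 0 < ε) :
    dens μ' x ε ≤ dens μ x ε :=
  integral_mono_measure hle
    (ae_of_all _ fun _ => mul_nonneg (bp_nonneg _ _ _) (by positivity)) ((cb_dens hε x).int μ)

omit [IsFiniteMeasure μ] in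
theorem DensBd.restrict {r D : ℝ} [IsFiniteMeasure μ] (h : DensBd μ r D) (A : Set E) :
    DensBd (μ.restrict A) r D := fun x hx ε hε =>
  (dens_mono μ _ Measure.restrict_le_self x hε.1).trans (h x hx ε hε)
theorem DensBd.of_le {r D : ℝ} (h : DensBd μ r D) (hle : μ' ≤ μ) : DensBd μ' r D :=
  fun x hx ε hε => (dens_mono μ μ' hle x hε.1).trans (h x hx ε hε)

theorem EnergyAux.lam_le_dens {R ε : ℝ} (hR : 0 ≤ R) (hε : 0 < ε) (h : (R + 1) * ε ≤ 1 / 4)
    (x : E) : lam μ R ε x ≤ (1 + (R + 1) ^ 2) ^ 2 * dens μ x ε :=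
  (lam_le_ball μ hR hε x).trans (ball_le_dens μ (by linarith) hε h x)

/-- `ε⁻² lam² ≤ (sup lam) ε⁻⁴ ∫ bp(..) dμ`, Fubini, and `∫ bp R (R+1) (ε⁻¹ (z - y)) dz ≤ C ε⁴`. -/
theorem En_le {R : ℝ} (hR : 0 ≤ R) : ∃ C : ℝ, 0 ≤ C ∧ ∀ (μ : Measure E) [IsFiniteMeasure μ]
    (ε D : ℝ), 0 < ε → (R + 1) * ε ≤ 1 / 4 → (∀ z ∈ closedBall (0 : E) (3 / 2), dens μ z ε ≤ D) →
      En μ R ε ≤ C * D * μ.real Set.univ := by
  have hc := c0_pos
  refine ⟨(1 + (R + 1) ^ 2) ^ 2 * ((R + 1) ^ 4 * c0), by positivity, fun μ _ ε D hε h hD => ?_⟩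
  haveI := fin_res (3 / 2)
  have hD0 : 0 ≤ D := (dens_nonneg μ 0 ε).trans (hD 0 (mem_closedBall_self (by norm_num)))
  set A : ℝ := (1 + (R + 1) ^ 2) ^ 2 with hA
  have hA0 : 0 ≤ A := by positivity
  have h1 : En μ R ε ≤ ∫ z in closedBall (0 : E) (3 / 2),
      A * D * (ε ^ 4)⁻¹ * ((∫ x, kb R ε z x ∂μ) * 1) := by
    refine setIntegral_mono_on (((cb_lam μ R ε).cmul _).sq.int _)
      (((((cb_kb R ε).integral μ).mul (cb_const 1)).cmul _).int _) measurableSet_closedBall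
      fun z hz => ?_
    have h2 := (lam_le_dens μ hR hε h z).trans (mul_le_mul_of_nonneg_left (hD z hz) hA0)
    have h3 := mul_le_mul_of_nonneg_right h2
      (mul_nonneg (by positivity : 0 ≤ (ε ^ 2)⁻¹) (lam_nonneg μ R ε z))
    rw [int_kb_eq μ hε]
    refine (le_of_eq ?_).trans (h3.trans (le_of_eq ?_))
    · field_simp
    · rw [hA]
      field_simp
  rw [integral_const_mul, ← fub (cb_const 1)] at h1
  have h4 : ∫ x, (∫ z in closedBall (0 : E) (3 / 2), kb R ε z x * 1) ∂μ ≤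
      ∫ _, ((R + 1) * ε) ^ 4 * c0 ∂μ := by
    refine integral_mono ((cb_conv (cb_const 1) R ε _).int μ) (integrable_const _) fun x => ?_
    simp only [mul_one, kb_comm R ε _ x]
    exact vol_kb_le hR hε _ x
  rw [integral_const, smul_eq_mul] at h4
  refine h1.trans ((mul_le_mul_of_nonneg_left h4 (by positivity)).trans (le_of_eq ?_))
  field_simp

theorem EnergyAux.kb_le_int {R ε : ℝ} (hR : 0 ≤ R) (hε : 0 < ε) (hε' : ε ≤ 1 / 2) {x : E}
    (hx : x ∈ closedBall (0 : E) 1) (y : E) : kb R ε x y ≤ (ε ^ 4 * c0)⁻¹ *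
      ∫ z in closedBall (0 : E) (3 / 2), kb (R + 2) ε z y * kb 1 ε z x := by
  have hc := c0_pos
  haveI := fin_res (3 / 2)
  have hi := ((cb_kb1 (R + 2) ε y).mul (cb_kb1 1 ε x)).int
    (volume.restrict (closedBall (0 : E) (3 / 2)))
  have hn : ∀ z, 0 ≤ kb (R + 2) ε z y * kb 1 ε z x := fun z =>
    mul_nonneg (kb_nonneg _ _ _ _) (kb_nonneg _ _ _ _)
  rcases le_total ((R + 1) * ε) ‖x - y‖ with h | h
  · rw [kb_eq_zero hR hε h]
    exact mul_nonneg (by positivity) (integral_nonneg hn)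
  · refine (kb_le_one _ _ _ _).trans ?_
    rw [le_inv_mul_iff₀ (by positivity), mul_one, ← vol_ball x hε.le]
    have hs : closedBall x ε ⊆ closedBall (0 : E) (3 / 2) :=
      closedBall_subset_closedBall' (by linarith [mem_closedBall.1 hx])
    refine le_trans (le_of_eq ?_)
      (setIntegral_mono_set hi (ae_of_all _ hn) hs.eventuallyLE)
    rw [setIntegral_congr_fun (g := fun _ => (1 : ℝ)) measurableSet_closedBall fun z hz => ?_]
    · simp
    · have h1 : ‖z - x‖ ≤ ε := mem_closedBall_iff_norm.1 hz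
      have h2 : ‖z - y‖ ≤ (R + 2) * ε := by
        have := norm_sub_le_norm_sub_add_norm_sub z x y
        linarith
      simp only [kb_eq_one (by linarith) hε h2, kb_eq_one zero_le_one hε (h1.trans (by linarith)),
        mul_one]

/-- Insert `1 = C ε⁻⁴ ∫_{‖z - x‖ ≤ ε} dz`: for `‖x‖ ≤ 1`,
`bp R (R+1) (ε⁻¹ (x - y)) ≤ C ε⁻⁴ ∫_{closedBall 0 (3/2)} bp 1 2 (ε⁻¹ (z - x)) bp (R+2) (R+3)
(ε⁻¹ (z - y)) dz`; Fubini and Cauchy-Schwarz. -/
theorem integral_lam_le {R : ℝ} (hR : 0 ≤ R) : ∃ C : ℝ, 0 ≤ C ∧ ∀ ε ∈ Set.Ioc (0 : ℝ) (1 / 2),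
    ∫ x in closedBall (0 : E) 1, lam μ' R ε x ∂μ ≤
      C * Real.sqrt (En μ 1 ε) * Real.sqrt (En μ' (R + 2) ε) := by
  have hc := c0_pos
  refine ⟨c0⁻¹, by positivity, fun ε ⟨hε, hε'⟩ => ?_⟩
  haveI := fin_res (3 / 2)
  have hl := cb_lam μ' (R + 2) ε
  have hA : ∀ x ∈ closedBall (0 : E) 1, lam μ' R ε x ≤ (ε ^ 4 * c0)⁻¹ *
      ∫ z in closedBall (0 : E) (3 / 2), kb 1 ε z x * lam μ' (R + 2) ε z := by
    intro x hx
    have h1 := integral_mono ((cb_kb2 R ε x).int μ')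
      (((cb_conv (cb_kb1 1 ε x) (R + 2) ε _).cmul _).int μ') (kb_le_int hR hε hε' hx)
    rw [integral_const_mul, fub (cb_kb1 1 ε x)] at h1
    simp only [int_kb_eq μ' hε, mul_assoc, integral_const_mul] at h1
    simp only [mul_comm (kb 1 ε _ x)]
    refine le_of_mul_le_mul_left (h1.trans (le_of_eq ?_)) (by positivity : 0 < ε ^ 2)
    ring
  have hi := ((cb_conv hl 1 ε (volume.restrict (closedBall (0 : E) (3 / 2)))).cmul
    (ε ^ 4 * c0)⁻¹).int μ
  have h2 := setIntegral_mono_on ((cb_lam μ' R ε).int _) hi.integrableOn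
    measurableSet_closedBall hA
  have h3 := setIntegral_le_integral (s := closedBall (0 : E) 1) hi
    (ae_of_all _ fun x => mul_nonneg (by positivity) (integral_nonneg fun z =>
      mul_nonneg (kb_nonneg _ _ _ _) (lam_nonneg _ _ _ _)))
  have h4 := cs ((cb_lam μ 1 ε).cmul ε⁻¹) (hl.cmul ε⁻¹)
    (volume.restrict (closedBall (0 : E) (3 / 2)))
  refine h2.trans (h3.trans ?_)
  rw [integral_const_mul, fub hl, mul_assoc]
  refine le_trans (le_of_eq ?_) (mul_le_mul_of_nonneg_left h4 (by positivity))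
  rw [← integral_const_mul, ← integral_const_mul]
  refine integral_congr_ae (ae_of_all _ fun z => ?_)
  simp only [int_kb_eq μ hε]
  field_simp

end Vale.Agent.P204
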