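import Vale.Agent.P204.Alg2

/-! Positivity of invariant forms. -/

open scoped ContDiff RealInnerProductSpace
open MeasureTheory Metric

namespace Vale.Agent.P204

namespace Alg3Aux

theorem J0_0 (u : E) : J0 u 0 = -u 1 := rfl
theorem J0_1 (u : E) : J0 u 1 = u 0 := rfl
theorem J0_2 (u : E) : J0 u 2 = -u 3 := rfl
theorem J0_3 (u : E) : J0 u 3 = u 2 := rfl

theorem nsq (u : E) : ‖u‖ ^ 2 = u 0 ^ 2 + u 1 ^ 2 + u 2 ^ 2 + u 3 ^ 2 := by
  rw [EuclideanSpace.real_norm_sq_eq, Fin.sum_univ_four]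

/-- real part of the complex determinant -/
def dr (p q : E) : ℝ := p 0 * q 2 - p 1 * q 3 - p 2 * q 0 + p 3 * q 1

/-- imaginary part of the complex determinant -/
def di (p q : E) : ℝ := p 0 * q 3 + p 1 * q 2 - p 2 * q 1 - p 3 * q 0

theorem d_le (p q : E) : dr p q ^ 2 + di p q ^ 2 ≤ (‖p‖ * ‖q‖) ^ 2 := by
  rw [mul_pow, nsq, nsq, dr, di]
  nlinarith [sq_nonneg (p 0 * q 0 + p 1 * q 1 + p 2 * q 2 + p 3 * q 3),
    sq_nonneg (p 0 * q 1 - p 1 * q 0 + p 2 * q 3 - p 3 * q 2)]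

theorem cs {a b c d x y : ℝ} (hx : 0 ≤ x) (hy : 0 ≤ y) (h1 : a ^ 2 + b ^ 2 ≤ x ^ 2)
    (h2 : c ^ 2 + d ^ 2 ≤ y ^ 2) : a * c + b * d ≤ x * y := by
  refine (abs_le_of_sq_le_sq' ?_ (mul_nonneg hx hy)).2
  calc (a * c + b * d) ^ 2 ≤ (a ^ 2 + b ^ 2) * (c ^ 2 + d ^ 2) := by
        nlinarith [sq_nonneg (a * d - b * c)]
    _ ≤ x ^ 2 * y ^ 2 := mul_le_mul h1 h2 (by positivity) (by positivity)
    _ = _ := by ring

theorem vol4_eq (p q e f : E) : vol4 p (J0 p + e) q (J0 q + f) =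
    dr p q ^ 2 + di p q ^ 2 + dr p q * (di e q + di p f) - di p q * (dr e q + dr p f) +
      vol4 p e q f := by
  simp only [vol4, ev, zeta, dr, di, PiLp.add_apply, J0_0, J0_1, J0_2, J0_3, PiLp.toLp_apply,
    Matrix.cons_val]
  ring

theorem inv_coef {a : W} (h : pull J0 a = a) : a 4 = a 1 ∧ a 3 = -a 2 := by
  have h1 := congrArg (fun w => ev w (eb 0) (eb 2)) h
  have h2 := congrArg (fun w => ev w (eb 0) (eb 3)) h
  simp only [ev_pull] at h1 h2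
  simp [ev, eb, J0_0, J0_1, J0_2, J0_3] at h1 h2
  exact ⟨h1, by linarith⟩

theorem ev_coef {a : W} (h : pull J0 a = a) (x y z : ℝ) :
    ev a !₂[x, y, z, 0] (J0 !₂[x, y, z, 0]) =
      a 0 * (x ^ 2 + y ^ 2) + a 5 * z ^ 2 + 2 * z * (a 1 * y + a 2 * x) := by
  obtain ⟨h1, h2⟩ := inv_coef h
  simp only [ev, J0_0, J0_1, J0_2, J0_3, Matrix.cons_val, h1, h2]
  ring

theorem pos_coef {a : W} (h : pull J0 a = a) (pa : ∀ v, 0 ≤ ev a v (J0 v)) :
    0 ≤ a 0 ∧ 0 ≤ a 5 ∧ a 1 ^ 2 + a 2 ^ 2 ≤ a 0 * a 5 := by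
  have h1 := pa !₂[1, 0, 0, 0]
  have h2 := pa !₂[0, 0, 1, 0]
  rw [ev_coef h] at h1 h2
  have h3 : 0 ≤ a 0 := by linarith
  have h4 : 0 ≤ a 5 := by linarith
  refine ⟨h3, h4, ?_⟩
  have h5 := discrim_le_zero (a := a 5) (b := -2 * (a 1 ^ 2 + a 2 ^ 2))
    (c := a 0 * (a 1 ^ 2 + a 2 ^ 2)) fun z => by
      have := pa !₂[-a 2, -a 1, z, 0]
      rw [ev_coef h] at this
      linarith
  rw [discrim] at h5
  rcases (by positivity : 0 ≤ a 1 ^ 2 + a 2 ^ 2).eq_or_lt with h6 | h6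
  · rw [← h6]
    exact mul_nonneg h3 h4
  · refine le_of_mul_le_mul_left ?_ h6
    linarith

theorem pos_pos {a b : W} (ha : pull J0 a = a) (hb : pull J0 b = b)
    (pa : ∀ v, 0 ≤ ev a v (J0 v)) (pb : ∀ v, 0 ≤ ev b v (J0 v)) : 0 ≤ wedge a b := by
  obtain ⟨a1, a2⟩ := inv_coef ha
  obtain ⟨b1, b2⟩ := inv_coef hb
  obtain ⟨a3, a4, a5⟩ := pos_coef ha pa
  obtain ⟨b3, b4, b5⟩ := pos_coef hb pb
  have h1 : 2 * (a 1 * b 1 + a 2 * b 2) ≤ a 0 * b 5 + a 5 * b 0 := by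
    refine (abs_le_of_sq_le_sq' ?_ (by positivity)).2
    calc (2 * (a 1 * b 1 + a 2 * b 2)) ^ 2 ≤ 4 * ((a 1 ^ 2 + a 2 ^ 2) * (b 1 ^ 2 + b 2 ^ 2)) := by
          nlinarith [sq_nonneg (a 1 * b 2 - a 2 * b 1)]
      _ ≤ 4 * (a 0 * a 5 * (b 0 * b 5)) := by gcongr
      _ ≤ _ := by nlinarith [sq_nonneg (a 0 * b 5 - a 5 * b 0)]
  rw [wedge, a1, a2, b1, b2]
  linarith

theorem self_pos {a : W} (ha : pull J0 a = a) (pa : ∀ v, v ≠ 0 → 0 < ev a v (J0 v)) :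
    0 < wedge a a := by
  obtain ⟨a1, a2⟩ := inv_coef ha
  have h1 := pa !₂[1, 0, 0, 0] fun h => by simpa using congrArg (fun v : E => v 0) h
  rw [ev_coef ha] at h1
  have h2 : 0 < a 0 := by linarith
  have h3 := pa !₂[-a 2, -a 1, a 0, 0] fun h => h2.ne' (by
    simpa using congrArg (fun v : E => v 2) h)
  rw [ev_coef ha] at h3
  have h4 : a 1 ^ 2 + a 2 ^ 2 < a 0 * a 5 := by
    refine lt_of_mul_lt_mul_left ?_ h2.le
    linarith
  rw [wedge, a1, a2]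
  linarith

theorem pull_inv {A B : E →L[ℝ] E} (h : ∀ v, B (A v) = v) (a : W) : pull A (pull B a) = a :=
  ext_ev fun u v => by rw [ev_pull, ev_pull, h, h]

theorem pull_zeta {A B : E →L[ℝ] E} (h : ∀ v, B (A v) = v) (a b : E) :
    pull A (zeta (A a) (A b)) = A.det • zeta a b := by
  refine ext_wedge fun w => ?_
  conv_lhs => rw [← pull_inv h w, wedge_pull, wedge_comm, wedge_zeta, ← ev_pull, pull_inv h]
  rw [wedge_smul_left, wedge_comm, wedge_zeta]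

theorem red {J : E →L[ℝ] E} (hJ : Near J) : ∃ B : E →L[ℝ] E, Function.Injective B ∧
    (∀ a, pull J a = a → pull J0 (pull B a) = pull B a) ∧
    (∀ a v, ev (pull B a) v (J0 v) = ev a (B v) (J (B v))) ∧
    ∀ a b, wedge a b = (Aop J).det * wedge (pull B a) (pull B b) := by
  obtain ⟨B, h1, h2⟩ := hJ.exists_Aop_inv
  have h3 : ∀ u, B (J0 u) = J (B u) := fun u => by
    conv_lhs => rw [← h2 u, ← Aop_J hJ.1, h1]
  refine ⟨B, Function.LeftInverse.injective h2, fun a ha => ext_ev fun u v => ?_,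
    fun a v => by rw [ev_pull, h3], fun a b => ?_⟩
  · rw [ev_pull, ev_pull, h3, h3, ← ev_pull, ha, ev_pull]
  · rw [← wedge_pull, pull_inv h1, pull_inv h1]

end Alg3Aux

open Alg3Aux

/-- In coordinates. With `d = det_ℂ(p, q)`:
`vol4 p (J0 p) q (J0 q) = |d|²`, `|vol4 p e q (J0 q)| ≤ |d| ‖e‖ ‖q‖`
(it equals `Im (conj d * det_ℂ(e, q))`), the same for `vol4 p (J0 p) q f`, and `abs_vol4_le`. -/
theorem vol4_near (p q e f : E) :
    -((‖e‖ * ‖q‖ + ‖f‖ * ‖p‖) ^ 2 / 4 + ‖p‖ * ‖q‖ * ‖e‖ * ‖f‖) ≤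
      vol4 p (J0 p + e) q (J0 q + f) := by
  have h1 := d_le e q
  have h2 := d_le p f
  rw [mul_comm ‖p‖] at h2
  have h3 := cs (by positivity) (by positivity) h1 h2
  have h4 := (abs_le.1 (abs_vol4_le p e q f)).1
  rw [vol4_eq]
  nlinarith [sq_nonneg (dr p q + (di e q + di p f) / 2), sq_nonneg (di p q - (dr e q + dr p f) / 2)]

/-- The linear algebra behind the Kaehler identity; a coordinate computation. -/
theorem pp_kahler (Z p : E) :
    pp J0 (zeta Z p - ev om0 Z p • om0 + w11 (innerSL ℝ Z) (innerSL ℝ p)) = 0 := by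
  have h : pull J0 (zeta Z p - ev om0 Z p • om0 + w11 (innerSL ℝ Z) (innerSL ℝ p)) =
      -(zeta Z p - ev om0 Z p • om0 + w11 (innerSL ℝ Z) (innerSL ℝ p)) := by
    refine ext_ev fun u v => ?_
    simp only [ev_pull, ev_neg, ev_add, ev_sub, ev_smul, ev_w11, innerSL_apply_apply,
      PiLp.inner_apply, Fin.sum_univ_four, RCLike.inner_apply, conj_trivial]
    simp only [ev, zeta, om0, J0_0, J0_1, J0_2, J0_3, PiLp.toLp_apply, Matrix.cons_val]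
    ring
  rw [pp, smul_apply, add_apply, h, ContinuousLinearMap.id_apply, add_neg_cancel, smul_zero]

namespace Near
variable {J : E →L[ℝ] E} (hJ : Near J)
include hJ

/-- Reduce to `J0` by `exists_Aop_inv`, `wedge_pull`, `det_Aop_pos`. For `J0`: an invariant
form has coefficients `(a, s, t, -t, s, d)`, positivity gives `a, d ≥ 0`, `s² + t² ≤ a d`, and
the wedge product is `a d' + d a' - 2 s s' - 2 t t'`. -/
theorem wedge_pos_pos {a b : W} (ha : pull J a = a) (hb : pull J b = b)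
    (pa : ∀ v, 0 ≤ ev a v (J v)) (pb : ∀ v, 0 ≤ ev b v (J v)) : 0 ≤ wedge a b := by
  obtain ⟨B, -, h1, h2, h3⟩ := red hJ
  rw [h3]
  exact mul_nonneg hJ.det_Aop_pos.le (pos_pos (h1 a ha) (h1 b hb)
    (fun v => by rw [h2]; exact pa _) fun v => by rw [h2]; exact pb _)
theorem wedge_self_pos {a : W} (ha : pull J a = a) (pa : ∀ v, v ≠ 0 → 0 < ev a v (J v)) :
    0 < wedge a a := by
  obtain ⟨B, h0, h1, h2, h3⟩ := red hJ
  rw [h3]
  exact mul_pos hJ.det_Aop_pos (self_pos (h1 a ha) fun v hv => by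
    rw [h2]
    exact pa _ fun h => hv (h0 (h.trans (map_zero B).symm)))
/-- Use `ext_wedge`, `wedge_pull`, `det_eq_one`, `wedge_zeta`. -/
theorem zeta_inv (b : E) : pull J (zeta b (J b)) = zeta b (J b) := by
  refine ext_wedge fun w => ?_
  conv_lhs => rw [← pull_pull hJ.1 w, wedge_pull, hJ.det_eq_one, one_mul, wedge_comm, wedge_zeta,
    ev_pull, hJ.1, ev_neg_right, ← ev_swap]
  rw [wedge_comm, wedge_zeta]
/-- Reduce to `J0` by `Aop J` and use `vol4_near` with `e = f = 0`. -/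
theorem zeta_pos (b v : E) : 0 ≤ ev (zeta b (J b)) v (J v) := by
  obtain ⟨B, h1, -⟩ := hJ.exists_Aop_inv
  have h2 := vol4_near (Aop J b) (Aop J v) 0 0
  rw [add_zero, add_zero, ← Aop_J hJ.1, ← Aop_J hJ.1, vol4, ← ev_pull, pull_zeta h1, ev_smul,
    norm_zero] at h2
  refine le_of_mul_le_mul_left ?_ hJ.det_Aop_pos
  linarith
theorem om0_pos (b : E) : ‖b‖ ^ 2 / 2 ≤ ev om0 b (J b) := by
  have h1 : J b = J0 b + (J - J0) b := by simp
  have h2 := (abs_le.1 (abs_real_inner_le_norm (J0 b) ((J - J0) b))).1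
  have h3 := (J - J0).le_of_opNorm_le hJ.2 b
  rw [norm_J0_apply] at h2
  rw [ev_om0, h1, inner_add_right, inner_J0_J0, real_inner_self_eq_norm_sq]
  nlinarith [mul_le_mul_of_nonneg_left h3 (norm_nonneg b), sq_nonneg ‖b‖]
theorem pull_om0_bounds {J' : E →L[ℝ] E} (hJ' : Near J') (b : E) :
    ‖b‖ ^ 2 / 2 ≤ ev (pull (Aop J') om0) b (J b) ∧
      ev (pull (Aop J') om0) b (J b) ≤ 2 * ‖b‖ ^ 2 := by
  have h1 : Aop J' (J b) = J0 (Aop J' b) + Aop J' ((J - J') b) := by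
    rw [← Aop_J hJ'.1, ← map_add]
    simp
  have h2 := abs_le.1 (abs_real_inner_le_norm (J0 (Aop J' b)) (Aop J' ((J - J') b)))
  have h3 : ‖J - J'‖ ≤ 1 / 50 := by
    have := norm_sub_le (J - J0) (J' - J0)
    rw [sub_sub_sub_cancel_right] at this
    linarith [hJ.2, hJ'.2]
  have h4 := (J - J').le_of_opNorm_le h3 b
  have h5 := (Aop J').le_of_opNorm_le hJ'.norm_Aop_le ((J - J') b)
  have h6 := (Aop J').le_of_opNorm_le hJ'.norm_Aop_le b
  have h7 := hJ'.le_norm_Aop b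
  have h8 : ‖Aop J' b‖ * ‖Aop J' ((J - J') b)‖ ≤ 101 / 100 * ‖b‖ * (101 / 100 * (1 / 50 * ‖b‖)) :=
    mul_le_mul h6 (by linarith) (norm_nonneg _) (by positivity)
  have h9 := pow_le_pow_left₀ (norm_nonneg _) h6 2
  have h10 := pow_le_pow_left₀ (by positivity) h7 2
  rw [norm_J0_apply] at h2
  rw [ev_pull, ev_om0, h1, inner_add_right, inner_J0_J0, real_inner_self_eq_norm_sq]
  constructor <;> nlinarith [h2.1, h2.2, sq_nonneg ‖b‖]
/-- `L (J' b) = J (L b) + e` with `‖e‖ ≤ 3 (δ + δ') ‖b‖`; use `near_pos`. -/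
theorem pull_near_pos {J' L : E →L[ℝ] E} (hJ' : Near J') {δ δ' : ℝ}
    (hL : ‖L - ContinuousLinearMap.id ℝ E‖ ≤ δ) (hJJ : ‖J - J'‖ ≤ δ') {ζ : W}
    (h : pull J ζ = ζ) (hpos : ∀ b, 0 ≤ ev ζ b (J b)) (b : E) :
    -(5 * (δ + δ') ^ 2 * ‖ζ‖ * ‖b‖ ^ 2) ≤ ev (pull L ζ) b (J' b) := by
  obtain ⟨e, he⟩ : ∃ e, e = (L - ContinuousLinearMap.id ℝ E) (J' b) - (J - J') b -
    J ((L - ContinuousLinearMap.id ℝ E) b) := ⟨_, rfl⟩
  have h1 : L (J' b) = J (L b) + e := by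
    rw [he]
    simp
  have d0 : 0 ≤ δ := (norm_nonneg _).trans hL
  have d1 : 0 ≤ δ' := (norm_nonneg _).trans hJJ
  have h2 := (L - ContinuousLinearMap.id ℝ E).le_of_opNorm_le hL (J' b)
  have h3 := J'.le_of_opNorm_le hJ'.norm_le b
  have h4 := (J - J').le_of_opNorm_le hJJ b
  have h5 := J.le_of_opNorm_le hJ.norm_le ((L - ContinuousLinearMap.id ℝ E) b)
  have h6 := (L - ContinuousLinearMap.id ℝ E).le_of_opNorm_le hL b
  have h7 : ‖e‖ ≤ 3 * ((δ + δ') * ‖b‖) := by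
    rw [he]
    refine (norm_sub_le _ _).trans ((add_le_add (norm_sub_le _ _) le_rfl).trans ?_)
    nlinarith [mul_le_mul_of_nonneg_left h3 d0, mul_nonneg d0 (norm_nonneg b),
      mul_nonneg d1 (norm_nonneg b)]
  have h8 := near_pos hJ.1 h hpos (L b) e
  have h9 : ‖ζ‖ * ‖J‖ * ‖e‖ ^ 2 ≤ ‖ζ‖ * (101 / 100) * (3 * ((δ + δ') * ‖b‖)) ^ 2 := by
    have := hJ.norm_le
    gcongr
  have h10 : 0 ≤ (δ + δ') ^ 2 * ‖ζ‖ * ‖b‖ ^ 2 := by positivity
  rw [ev_pull, h1]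
  nlinarith [hpos (L b)]
/-- Testing with `ζ = zeta b (J b)` gives `ev a b (J b) ≥ -2 l ‖b‖²`, so
`p = pp J a + 4 l • pp J om0` is invariant and nonnegative;
`wedge a a = wedge a p - 4 l wedge a (pp J om0) + wedge (pm J a) (pm J a)`. -/
theorem wedge_self_lower {a : W} {l Λ : ℝ} (hl : 0 ≤ l) (hΛ : ‖a‖ ≤ Λ)
    (h : ∀ ζ : W, pull J ζ = ζ → (∀ b, 0 ≤ ev ζ b (J b)) → -(l * ‖ζ‖) ≤ wedge a ζ) :
    -(30 * (l * Λ + l ^ 2)) ≤ wedge a a := by
  have Λ0 : 0 ≤ Λ := (norm_nonneg _).trans hΛ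
  have h1 : ∀ b, -(2 * l * ‖b‖ ^ 2) ≤ ev a b (J b) := fun b => by
    have h2 := h _ (hJ.zeta_inv b) (hJ.zeta_pos b)
    have h3 := norm_zeta_le b (J b)
    have h4 := mul_le_mul_of_nonneg_left (J.le_of_opNorm_le hJ.norm_le b) (norm_nonneg b)
    rw [wedge_zeta] at h2
    nlinarith [mul_le_mul_of_nonneg_left (h3.trans h4) hl, mul_nonneg hl (sq_nonneg ‖b‖)]
  have h2 := h (pp J a + (4 * l) • pp J om0)
    (by rw [map_add, map_smul, pull_pp hJ.1, pull_pp hJ.1]) fun b => by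
      rw [ev_add, ev_smul, ev_pp_J hJ.1, ev_pp_J hJ.1]
      nlinarith [h1 b, mul_le_mul_of_nonneg_left (hJ.om0_pos b) hl]
  have h3 : ‖pp J a‖ ≤ 3 * Λ := ((pp J).le_of_opNorm_le hJ.norm_pp_le a).trans (by linarith)
  have h4 : ‖pp J om0‖ ≤ 6 :=
    ((pp J).le_of_opNorm_le hJ.norm_pp_le om0).trans (by linarith [norm_om0_le])
  have h5 : ‖pp J a + (4 * l) • pp J om0‖ ≤ 3 * Λ + 4 * l * 6 := by
    refine (norm_add_le _ _).trans (add_le_add h3 ?_)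
    rw [norm_smul, Real.norm_of_nonneg (by positivity)]
    gcongr
  have h6 : wedge a (pp J om0) ≤ Λ * 6 :=
    ((le_abs_self _).trans (abs_wedge_le _ _)).trans (by gcongr)
  have h7 : wedge a (pp J a) = wedge (pp J a) (pp J a) := by
    conv_lhs => rw [hJ.wedge_split, pp_pp hJ.1, pm_pp hJ.1, wedge_zero_right, add_zero]
  have h8 := hJ.wedge_anti (pull_pm hJ.1 a)
  rw [wedge_add_right, wedge_smul_right, h7] at h2
  rw [hJ.wedge_split a a]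
  nlinarith [mul_le_mul_of_nonneg_left h5 hl, mul_le_mul_of_nonneg_left h6 hl,
    sq_nonneg ‖pm J a‖, mul_nonneg hl Λ0, sq_nonneg l]
end Near

end Vale.Agent.P204
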