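import Vale.Agent.P204.Norms1
import Vale.Agent.P204.Alg3

/-! Elementary properties of positive currents in a chart. -/

open scoped ContDiff RealInnerProductSpace Topology
open MeasureTheory Metric

namespace Vale.Agent.P204

/-- The symmetric bilinear form on one-forms given by a positive current and a weight. -/
noncomputable def Bq (J : E → E →L[ℝ] E) (T : LF) (g : E → ℝ) (p q : E → E →L[ℝ] ℝ) : ℝ :=
  T fun y => g y • w11 (p y) (-(q y ∘L J y))

namespace LocAPIAux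
variable {J : E → E →L[ℝ] E} {T : LF} {μ : Measure E} {c C : ℝ}

theorem ct0 : CTest 9 (fun _ : E => (0 : ℝ)) := ⟨continuous_const, fun _ _ => rfl⟩

theorem ct_neg {θ : E → W} (h : CTest 9 θ) : CTest 9 (-θ) :=
  ⟨h.1.neg, fun y hy => by simp [h.2 y hy]⟩

theorem ct_add {θ θ' : E → W} (h : CTest 9 θ) (h' : CTest 9 θ') : CTest 9 (θ + θ') :=
  ⟨h.1.add h'.1, fun y hy => by simp [h.2 y hy, h'.2 y hy]⟩

theorem ct_sub {θ θ' : E → W} (h : CTest 9 θ) (h' : CTest 9 θ') : CTest 9 (θ - θ') :=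
  ⟨h.1.sub h'.1, fun y hy => by simp [h.2 y hy, h'.2 y hy]⟩

theorem ct_smul {θ : E → W} (h : CTest 9 θ) (t : ℝ) : CTest 9 (t • θ) :=
  ⟨h.1.const_smul t, fun y hy => by simp [h.2 y hy]⟩

theorem low (h : LocPos J T μ c C) {θ : E → W} (hθ : CTest 9 θ) {g : E → ℝ} (hg : CTest 9 g)
    (hg0 : ∀ y, 0 ≤ g y) (hp : ∀ y b, -(g y * ‖b‖ ^ 2) ≤ ev (θ y) b (J y b)) :
    -(C * ∫ y, g y ∂μ) ≤ T θ := by
  have h1 := h.le θ (fun _ => 0) g hθ ct0 hg (fun _ => le_rfl) hg0 fun y b => by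
    have := hp y b
    linarith
  simpa using h1

theorem absb (h : LocPos J T μ c C) {θ : E → W} (hθ : CTest 9 θ) {g : E → ℝ} (hg : CTest 9 g)
    (hg0 : ∀ y, 0 ≤ g y) (hp : ∀ y b, |ev (θ y) b (J y b)| ≤ g y * ‖b‖ ^ 2) :
    |T θ| ≤ C * ∫ y, g y ∂μ := by
  have h1 := low h hθ hg hg0 fun y b => (abs_le.1 (hp y b)).1
  have h2 := low h (ct_neg hθ) hg hg0 fun y b => by
    have := (abs_le.1 (hp y b)).2
    rw [Pi.neg_apply, ev_neg]
    linarith
  rw [map_neg] at h2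
  exact abs_le.2 ⟨h1, by linarith⟩

theorem norm_J {J : E →L[ℝ] E} (hJ : Near J) (b : E) : ‖J b‖ ≤ 101 / 100 * ‖b‖ :=
  (J.le_opNorm b).trans (mul_le_mul_of_nonneg_right hJ.norm_le (norm_nonneg b))

theorem ev_le {J : E →L[ℝ] E} (hJ : Near J) (a : W) (b : E) :
    |ev a b (J b)| ≤ 2 * ‖a‖ * ‖b‖ ^ 2 := by
  refine (abs_ev_le a b (J b)).trans ?_
  have h1 := mul_le_mul_of_nonneg_left (norm_J hJ b) (mul_nonneg (norm_nonneg a) (norm_nonneg b))
  have h2 : 0 ≤ ‖a‖ * ‖b‖ ^ 2 := by positivity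
  nlinarith

/-- The form in the definition of `Bq`. -/
noncomputable def fq (J : E → E →L[ℝ] E) (g : E → ℝ) (p q : E → E →L[ℝ] ℝ) : E → W :=
  fun y => g y • w11 (p y) (-(q y ∘L J y))

theorem ct_fq (hJ : GoodJ J) {g : E → ℝ} {p q : E → E →L[ℝ] ℝ} (hg : CTest 9 g)
    (hp : Continuous p) (hq : Continuous q) : CTest 9 (fq J g p q) := by
  refine ⟨hg.1.smul ?_, fun y hy => by simp [fq, hg.2 y hy]⟩
  exact (contDiff_w112 (n := 0)).continuous.comp
    (hp.prodMk (hq.clm_comp hJ.smooth.continuous).neg)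

theorem ev_fq (hJ : GoodJ J) (g : E → ℝ) (p q : E → E →L[ℝ] ℝ) (y b : E) :
    ev (fq J g p q y) b (J y b) = g y * (p y b * q y b + p y (J y b) * q y (J y b)) := by
  simp only [fq, ev_smul, ev_w11, neg_apply, ContinuousLinearMap.comp_apply,
    (hJ.near y).1 b, map_neg]
  ring

end LocAPIAux
open LocAPIAux

namespace LocPos
variable {J : E → E →L[ℝ] E} {T : LF} {μ : Measure E} {c C : ℝ} (h : LocPos J T μ c C)
  (hJ : GoodJ J)
include h hJ

theorem nonneg {θ : E → W} (hθ : CTest 9 θ) (hp : ∀ y b, 0 ≤ ev (θ y) b (J y b)) : 0 ≤ T θ := by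
  have _ := hJ
  have h1 := low h hθ ct0 (fun _ => le_rfl) fun y b => by simpa using hp y b
  simpa using h1

theorem congr {θ θ' : E → W} (hθ : CTest 9 θ) (hθ' : CTest 9 θ')
    (he : ∀ y b, ev (θ y) b (J y b) = ev (θ' y) b (J y b)) : T θ = T θ' := by
  have h1 := h.nonneg hJ (ct_sub hθ hθ') fun y b => by rw [Pi.sub_apply, ev_sub, he, sub_self]
  have h2 := h.nonneg hJ (ct_sub hθ' hθ) fun y b => by rw [Pi.sub_apply, ev_sub, he, sub_self]
  rw [map_sub] at h1 h2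
  linarith

/-- Use `g₂ = min g (2 ‖θ‖)`. -/
theorem ge_of {θ : E → W} (hθ : CTest 9 θ) {g : E → ℝ} (hg : Continuous g)
    (hi : Integrable g μ) (hg0 : ∀ y, 0 ≤ g y)
    (hp : ∀ y b, -(g y * ‖b‖ ^ 2) ≤ ev (θ y) b (J y b)) : -(C * ∫ y, g y ∂μ) ≤ T θ := by
  have h0 : ∀ y, 0 ≤ min (g y) (2 * ‖θ y‖) := fun y => le_min (hg0 y) (by positivity)
  have h1 := low h hθ (g := fun y => min (g y) (2 * ‖θ y‖))
    ⟨hg.min (continuous_const.mul hθ.1.norm), fun y hy => by simp [hθ.2 y hy, hg0 y]⟩ h0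
    fun y b => by
      rcases min_choice (g y) (2 * ‖θ y‖) with e | e <;> rw [e]
      · exact hp y b
      · exact (abs_le.1 (ev_le (hJ.near y) (θ y) b)).1
  have h2 : ∫ y, min (g y) (2 * ‖θ y‖) ∂μ ≤ ∫ y, g y ∂μ :=
    integral_mono_of_nonneg (Filter.Eventually.of_forall h0) hi
      (Filter.Eventually.of_forall fun y => min_le_left _ _)
  have h3 := mul_le_mul_of_nonneg_left h2 h.Cpos
  linarith

theorem abs_le_of {θ : E → W} (hθ : CTest 9 θ) {g : E → ℝ} (hi : Integrable g μ)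
    (hp : ∀ y, ‖pp (J y) (θ y)‖ ≤ g y) : |T θ| ≤ 2 * C * ∫ y, g y ∂μ := by
  have hc : Continuous fun y => pp (J y) (θ y) :=
    ((contDiff_pp (n := 0)).continuous.comp hJ.smooth.continuous).clm_apply hθ.1
  have h1 := absb h hθ (g := fun y => 2 * ‖pp (J y) (θ y)‖)
    ⟨continuous_const.mul hc.norm, fun y hy => by simp [hθ.2 y hy]⟩ (fun y => by positivity)
    fun y b => by
      rw [← ev_pp_J (hJ.near y).1]
      exact ev_le (hJ.near y) _ b
  have h2 : ∫ y, ‖pp (J y) (θ y)‖ ∂μ ≤ ∫ y, g y ∂μ :=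
    integral_mono_of_nonneg (Filter.Eventually.of_forall fun y => norm_nonneg _) hi
      (Filter.Eventually.of_forall hp)
  rw [integral_const_mul] at h1
  have h3 := mul_le_mul_of_nonneg_left h2 h.Cpos
  linarith

theorem abs_le {θ : E → W} (hθ : CTest 9 θ) : |T θ| ≤ 2 * C * ∫ y, ‖θ y‖ ∂μ := by
  have h1 := absb h hθ (g := fun y => 2 * ‖θ y‖)
    ⟨continuous_const.mul hθ.1.norm, fun y hy => by simp [hθ.2 y hy]⟩ (fun y => by positivity)
    fun y b => ev_le (hJ.near y) _ b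
  rw [integral_const_mul] at h1
  linarith

theorem abs_le_of_norm {θ : E → W} (hθ : CTest 9 θ) {g : E → ℝ} (hi : Integrable g μ)
    (hp : ∀ y, ‖θ y‖ ≤ g y) : |T θ| ≤ 2 * C * ∫ y, g y ∂μ := by
  refine (h.abs_le hJ hθ).trans (mul_le_mul_of_nonneg_left ?_ (mul_nonneg zero_le_two h.Cpos))
  exact integral_mono_of_nonneg (Filter.Eventually.of_forall fun y => norm_nonneg _) hi
    (Filter.Eventually.of_forall hp)

theorem distBd (k : ℕ) : DistBd k T := by
  have := h.fin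
  refine ⟨2 * C * μ.real Set.univ, fun θ hθ => ?_⟩
  have hc : CTest 9 θ := ⟨hθ.1.continuous, fun y hy => hθ.2 y (by linarith)⟩
  have h1 := h.abs_le_of_norm hJ hc (integrable_const (Ck k θ))
    fun y => (norm_le_Ck_zero hc y).trans (Ck_mono (Nat.zero_le k) θ)
  rw [integral_const, smul_eq_mul] at h1
  linarith

variable {g : E → ℝ} {p q : E → E →L[ℝ] ℝ}

theorem Bq_nonneg (hg : CTest 9 g) (hg0 : ∀ y, 0 ≤ g y) (hp : Continuous p) :
    0 ≤ Bq J T g p p :=
  h.nonneg hJ (ct_fq hJ hg hp hp) fun y b =>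
    (mul_nonneg (hg0 y) (add_nonneg (mul_self_nonneg _) (mul_self_nonneg _))).trans_eq
      (ev_fq hJ g p p y b).symm

/-- `ev (w11 p (-(p ∘ J))) b (J b) = p(b)² + p(J b)²`. -/
theorem Bq_le (hg : CTest 9 g) (hg0 : ∀ y, 0 ≤ g y) (hp : Continuous p) :
    Bq J T g p p ≤ 3 * C * ∫ y, g y * ‖p y‖ ^ 2 ∂μ := by
  have h1 := absb h (ct_fq hJ hg hp hp) (g := fun y => 3 * (g y * ‖p y‖ ^ 2))
    ⟨continuous_const.mul (hg.1.mul (hp.norm.pow 2)), fun y hy => by simp [hg.2 y hy]⟩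
    (fun y => by have := hg0 y; positivity) fun y b => by
      have e1 : ∀ v, p y v * p y v ≤ ‖p y‖ ^ 2 * ‖v‖ ^ 2 := by
        intro v
        rw [← mul_pow, ← abs_mul_abs_self, pow_two]
        exact mul_self_le_mul_self (abs_nonneg _) ((p y).le_opNorm v)
      have e2 : ‖J y b‖ ^ 2 ≤ 2 * ‖b‖ ^ 2 := by
        have := mul_self_le_mul_self (norm_nonneg _) (norm_J (hJ.near y) b)
        nlinarith [sq_nonneg ‖b‖]
      have e3 := mul_le_mul_of_nonneg_left e2 (sq_nonneg ‖p y‖)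
      rw [ev_fq hJ, abs_of_nonneg
        (mul_nonneg (hg0 y) (add_nonneg (mul_self_nonneg _) (mul_self_nonneg _)))]
      have e4 : p y b * p y b + p y (J y b) * p y (J y b) ≤ 3 * (‖p y‖ ^ 2 * ‖b‖ ^ 2) := by
        linarith [e1 b, e1 (J y b)]
      have e5 := mul_le_mul_of_nonneg_left e4 (hg0 y)
      linarith
  rw [integral_const_mul] at h1
  have h2 : Bq J T g p p ≤ |T (fq J g p p)| := le_abs_self _
  linarith

/-- Cauchy-Schwarz: `Bq` is bilinear, symmetric (by `congr`) and nonnegative; `discrim_le_zero`. -/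
theorem Bq_sq_le (hg : CTest 9 g) (hg0 : ∀ y, 0 ≤ g y) (hp : Continuous p) (hq : Continuous q) :
    Bq J T g p q ^ 2 ≤ Bq J T g p p * Bq J T g q q := by
  have h1 : ∀ t : ℝ, 0 ≤ T (fq J g q q) * (t * t) + 2 * T (fq J g p q) * t + T (fq J g p p) := by
    intro t
    have h2 := h.nonneg hJ (ct_add (ct_add (ct_smul (ct_fq hJ hg hq hq) (t * t))
      (ct_smul (ct_fq hJ hg hp hq) (2 * t))) (ct_fq hJ hg hp hp)) fun y b => by
        simp only [Pi.add_apply, Pi.smul_apply, ev_add, ev_smul, ev_fq hJ]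
        have := mul_nonneg (hg0 y) (add_nonneg (sq_nonneg (p y b + t * q y b))
          (sq_nonneg (p y (J y b) + t * q y (J y b))))
        linarith
    simp only [map_add, map_smul, smul_eq_mul] at h2
    linarith
  have h3 := discrim_le_zero h1
  rw [discrim] at h3
  have h4 : T (fq J g p q) ^ 2 ≤ T (fq J g p p) * T (fq J g q q) := by linarith
  exact h4

omit h in
theorem w11_eq_Bq (T : LF) (g : E → ℝ) (p q : E → E →L[ℝ] ℝ) :
    (T fun y => g y • w11 (p y) (q y)) = Bq J T g p fun y => q y ∘L J y := by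
  have e : ∀ y, -((q y ∘L J y) ∘L J y) = q y := by
    intro y
    ext v
    simp [(hJ.near y).1 v]
  simp only [Bq, e]
end LocPos

end Vale.Agent.P204
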