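import Vale.Agent.P204.KerD
import Vale.Agent.P204.KregDual
import Vale.Agent.P204.LocAPI
import Vale.Agent.P204.Energy

/-! Pointwise estimates for the regularisation of a positive current. -/

open scoped ContDiff RealInnerProductSpace Topology
open MeasureTheory Metric

namespace Vale.Agent.P204

variable {K : ℝ × E × E → W →L[ℝ] W} {R N ε₀ : ℝ} {J : E → E →L[ℝ] E}

namespace KregEstAux

/-- The bump at scale `ε`. -/
noncomputable def gb (R ε : ℝ) (x y : E) : ℝ := bp R (R + 1) (ε⁻¹ • (x - y))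

theorem gb_cont (R ε : ℝ) (x : E) : Continuous (gb R ε x) :=
  (continuous_bp _ _).comp (by fun_prop)

theorem gb_nonneg (R ε : ℝ) (x y : E) : 0 ≤ gb R ε x y := bp_nonneg _ _ _

theorem gb_int (R ε : ℝ) (x : E) (μ : Measure E) [IsFiniteMeasure μ] :
    Integrable (gb R ε x) μ :=
  Integrable.of_bound (gb_cont R ε x).aestronglyMeasurable 1 (Filter.Eventually.of_forall fun y =>
    by rw [Real.norm_of_nonneg (gb_nonneg _ _ _ _)]; exact bp_le_one _ _ _)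

theorem int_gb (R : ℝ) {ε : ℝ} (hε : 0 < ε) (x : E) (μ : Measure E) (t : ℝ) :
    ∫ y, t * gb R ε x y ∂μ = t * ε ^ 2 * lam μ R ε x := by
  rw [integral_const_mul, lam, mul_assoc, mul_inv_cancel_left₀ (by positivity)]
  rfl

theorem vol_gb (R : ℝ) {ε : ℝ} (hε : 0 < ε) (x : E) :
    ∫ y, gb R ε x y = ε ^ 4 * ∫ z, bp R (R + 1) z := by
  have h := integral_sub_left_eq_self (fun y : E => bp R (R + 1) (ε⁻¹ • y)) volume x
  rw [Measure.integral_comp_inv_smul_of_nonneg _ _ hε.le, finrank_euclideanSpace_fin,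
    smul_eq_mul] at h
  exact h

theorem gb_vol_int {R ε : ℝ} (hR : 0 ≤ R) (hε : 0 < ε) (x : E) : Integrable (gb R ε x) :=
  (((test_bp hR (lt_add_one R)).ctest.integrable volume).comp_smul
    (inv_ne_zero hε.ne')).comp_sub_left x

theorem back {ε : ℝ} (hε : 0 < ε) (x y : E) : y + ε • ε⁻¹ • (x - y) = x := by
  rw [smul_inv_smul₀ hε.ne', add_sub_cancel]

theorem bp_far {y : E} (hy : y ∉ closedBall (0 : E) 6) : bp 5 6 y = 0 :=
  bp_eq_zero (by norm_num) (by norm_num) (not_le.1 fun h => hy (mem_closedBall_zero_iff.2 h)).le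

theorem ctest_ker (hK : IsKer K R N ε₀) (ε : ℝ) (x : E) (w : W) :
    CTest 6 (kerAt K (bp 5 6) ε x w) :=
  (hK.toSKer.test_kerAt (test_bp (by norm_num) (by norm_num)) ε x w).ctest

theorem clm_ker_le (A : W →L[ℝ] W) {ε M : ℝ} {x y : E} {w : W} (hM : 0 ≤ M)
    (h : y ∈ closedBall (0 : E) 6 → ‖A (K (ε, y, ε⁻¹ • (x - y)) w)‖ ≤ M) :
    ‖A (kerAt K (bp 5 6) ε x w y)‖ ≤ (ε ^ 4)⁻¹ * M := by
  rw [kerAt, map_smul, norm_smul]
  by_cases hy : y ∈ closedBall (0 : E) 6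
  · have h0 := bp_nonneg 5 6 y
    rw [Real.norm_of_nonneg (by positivity)]
    exact mul_le_mul (mul_le_of_le_one_left (by positivity) (bp_le_one _ _ _)) (h hy)
      (norm_nonneg _) (by positivity)
  · rw [bp_far hy, zero_mul, norm_zero, zero_mul]
    positivity

theorem ev_ker_ge {ε M : ℝ} {x y u v : E} {w : W}
    (h : y ∈ closedBall (0 : E) 6 → -M ≤ ev (K (ε, y, ε⁻¹ • (x - y)) w) u v) :
    -(bp 5 6 y * (ε ^ 4)⁻¹ * M) ≤ ev (kerAt K (bp 5 6) ε x w y) u v := by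
  rw [kerAt, ev_smul]
  by_cases hy : y ∈ closedBall (0 : E) 6
  · have h0 := bp_nonneg 5 6 y
    rw [← mul_neg]
    exact mul_le_mul_of_nonneg_left (h hy) (by positivity)
  · simp [bp_far hy]

/-- The kernel form is almost nonnegative. -/
theorem ker_pos (hK : IsKer K R N ε₀) (hJ : GoodJ J) : ∃ C : ℝ, 0 ≤ C ∧
    ∀ ε ∈ Set.Ioo 0 ε₀, ∀ (x : E) (ζ : W), pull (J x) ζ = ζ → (∀ b, 0 ≤ ev ζ b (J x b)) →
      ∀ y b, -(bp 5 6 y * (C * (ε ^ 2)⁻¹ * ‖ζ‖ * gb R ε x y) * ‖b‖ ^ 2) ≤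
        ev (kerAt K (bp 5 6) ε x ζ y) b (J y b) := by
  obtain ⟨C, C0, hC⟩ := hK.near_pos hJ
  refine ⟨C, C0, fun ε hε x ζ h1 h2 y b => le_trans (le_of_eq ?_) (ev_ker_ge fun hy =>
    hC ε hε y hy (ε⁻¹ • (x - y)) ζ (by rwa [back hε.1]) (by rwa [back hε.1]) b)⟩
  have := hε.1
  rw [gb]
  field_simp

theorem ctest_wedge {r r' : ℝ} {θ F : E → W} (hθ : CTest r θ) (hr : r < r')
    (h : ContinuousOn F (ball 0 r')) : CTest r fun y => wedge (θ y) (F y) := by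
  have z : ∀ y, r < ‖y‖ → wedge (θ y) (F y) = 0 := fun y hy => by
    rw [hθ.2 y hy, wedge_zero_left]
  refine ⟨continuous_iff_continuousAt.2 fun y => ?_, z⟩
  rcases lt_or_ge ‖y‖ r' with hy | hy
  · exact (contDiff_wedge2 (n := 0)).continuous.continuousAt.comp (f := fun y => (θ y, F y))
      (hθ.1.continuousAt.prodMk (h.continuousAt (isOpen_ball.mem_nhds (mem_ball_zero_iff.2 hy))))
  · exact continuousAt_const.congr
      (Calc0Aux.ev_out (g := fun _ => (0 : ℝ)) z (hr.trans_le hy)).symm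

theorem le_of_sq {a b : ℝ} (ha : 0 ≤ a) (hb : 0 ≤ b) (h : a ^ 2 ≤ b * a) : a ≤ b := by
  rcases ha.eq_or_lt with h0 | h0
  · rwa [← h0]
  · exact le_of_mul_le_mul_right (by rwa [← sq]) h0

end KregEstAux

open KregEstAux

/-- `wedge (kreg x) w = T (kerAt x w)`; take `w = hstar (kreg x)`, resp.
`w = pm (J x) (hstar (pm (J x) (kreg x)))` (`Near.wedge_split`), resp. `w = ζ`, and use
`IsKer.exists_pointwise`, `IsKer.near_pos` at `z = ε⁻¹ (x - y)` with `LocPos.abs_le_of`,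
`LocPos.ge_of`. The last claim is `Near.wedge_self_lower`. -/
theorem IsKer.kreg_est (hK : IsKer K R N ε₀) (hJ : GoodJ J) {T : LF} {μ : Measure E} {c C : ℝ}
    (h : LocPos J T μ c C) : ∃ C' : ℝ, 0 ≤ C' ∧ ∀ ε ∈ Set.Ioo 0 ε₀, ∀ x,
      ‖kreg K T ε x‖ ≤ ε⁻¹ * (C' * (ε⁻¹ * lam μ R ε x)) ∧
      ‖pm (J x) (kreg K T ε x)‖ ≤ C' * (ε⁻¹ * lam μ R ε x) ∧
      -(C' * (ε⁻¹ * lam μ R ε x)) ^ 2 ≤ wedge (kreg K T ε x) (kreg K T ε x) := by
  obtain ⟨C₀, p0, h0⟩ := hK.exists_pointwise hJ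
  obtain ⟨C₁, p1, h1⟩ := ker_pos hK hJ
  have := h.fin
  have pC := h.Cpos
  refine ⟨6 * C * (C₀ + C₁), by positivity, fun ε hε x => ?_⟩
  have e0 := hε.1
  have e1 : 1 ≤ ε⁻¹ := (one_le_inv₀ e0).2 (by linarith [hε.2, hK.eps_le_one])
  have l0 := lam_nonneg μ R ε x
  have hw : ∀ w, wedge (kreg K T ε x) w = T (kerAt K (bp 5 6) ε x w) := wedge_regLoc K T _ ε x
  have hc : ∀ w, CTest 9 (kerAt K (bp 5 6) ε x w) := fun w =>
    (ctest_ker hK ε x w).mono (by norm_num)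
  generalize kreg K T ε x = a at hw
  have k1 : ‖a‖ ≤ ε⁻¹ * (2 * C * C₀ * (ε⁻¹ * lam μ R ε x)) := by
    refine le_of_sq (norm_nonneg _) (by positivity) ?_
    have h2 := h.abs_le_of_norm hJ (hc (hstar a))
      ((gb_int R ε x μ).const_mul ((ε ^ 4)⁻¹ * C₀ * ‖a‖)) fun y => by
        have g0 := gb_nonneg R ε x y
        refine (clm_ker_le (ContinuousLinearMap.id ℝ W) (M := C₀ * gb R ε x y * ‖a‖)
          (by positivity) fun hy => ?_).trans (le_of_eq (by ring))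
        rw [← norm_hstar a]
        exact (h0 ε hε y hy _ _).1
    rw [int_gb R e0, ← hw, wedge_hstar_self] at h2
    refine (le_abs_self _).trans (h2.trans (le_of_eq ?_))
    field_simp
  have k2 : ‖pm (J x) a‖ ≤ 4 * C * C₀ * (ε⁻¹ * lam μ R ε x) := by
    refine le_of_sq (norm_nonneg _) (by positivity) ?_
    have h2 := h.abs_le_of hJ (hc (pm (J x) a))
      ((gb_int R ε x μ).const_mul ((ε ^ 4)⁻¹ * C₀ * ε * ‖pm (J x) a‖)) fun y => by
        have g0 := gb_nonneg R ε x y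
        refine (clm_ker_le (pp (J y)) (M := C₀ * ε * gb R ε x y * ‖pm (J x) a‖)
          (by positivity) fun hy => ?_).trans (le_of_eq (by ring))
        have h3 := (h0 ε hε y hy (ε⁻¹ • (x - y)) (pm (J x) a)).2
        rwa [back e0, pm_pm (hJ.near x).1] at h3
    rw [int_gb R e0, ← hw, (hJ.near x).wedge_split, pp_pm (hJ.near x).1, wedge_zero_right,
      zero_add, pm_pm (hJ.near x).1] at h2
    have h3 := ((hJ.near x).wedge_anti (pull_pm (hJ.near x).1 a)).trans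
      ((le_abs_self _).trans h2)
    rw [div_le_iff₀ two_pos] at h3
    refine h3.trans (le_of_eq ?_)
    field_simp
    ring
  have k3 := (hJ.near x).wedge_self_lower (l := C * C₁ * lam μ R ε x) (by positivity) k1
    fun ζ z1 z2 => by
      have h2 := h.ge_of hJ (hc ζ) (g := fun y => C₁ * (ε ^ 2)⁻¹ * ‖ζ‖ * gb R ε x y)
        (continuous_const.mul (gb_cont R ε x))
        ((gb_int R ε x μ).const_mul (C₁ * (ε ^ 2)⁻¹ * ‖ζ‖))
        (fun y => mul_nonneg (by positivity) (gb_nonneg R ε x y)) fun y b => by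
          have g0 := gb_nonneg R ε x y
          refine le_trans (neg_le_neg (mul_le_mul_of_nonneg_right ?_ (sq_nonneg _)))
            (h1 ε hε x ζ z1 z2 y b)
          exact mul_le_of_le_one_left (by positivity) (bp_le_one _ _ _)
      rw [int_gb R e0, ← hw] at h2
      refine le_trans (le_of_eq ?_) h2
      field_simp
  have m0 : 0 ≤ ε⁻¹ * lam μ R ε x := by positivity
  have m1 : lam μ R ε x ≤ ε⁻¹ * lam μ R ε x := le_mul_of_one_le_left l0 e1
  have m2 : 0 ≤ C * C₀ := by positivity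
  have m3 : 0 ≤ C * C₁ := by positivity
  refine ⟨k1.trans (mul_le_mul_of_nonneg_left (mul_le_mul_of_nonneg_right (by linarith) m0)
    (by positivity)), k2.trans (mul_le_mul_of_nonneg_right (by linarith) m0),
    le_trans (neg_le_neg ?_) k3⟩
  have m4 := pow_le_pow_left₀ (by positivity) (mul_le_mul_of_nonneg_left m1 m3) 2
  have m5 : C * C₁ * lam μ R ε x * (ε⁻¹ * (2 * C * C₀ * (ε⁻¹ * lam μ R ε x))) =
      2 * (C * C₀ * (ε⁻¹ * lam μ R ε x)) * (C * C₁ * (ε⁻¹ * lam μ R ε x)) := by ring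
  have m6 : 6 * C * (C₀ + C₁) * (ε⁻¹ * lam μ R ε x) =
      6 * (C * C₀ * (ε⁻¹ * lam μ R ε x) + C * C₁ * (ε⁻¹ * lam μ R ε x)) := by ring
  rw [m5, m6]
  have m7 := mul_nonneg m2 m0
  have m8 := mul_nonneg m3 m0
  nlinarith [mul_nonneg m7 m8, sq_nonneg (C * C₀ * (ε⁻¹ * lam μ R ε x)),
    sq_nonneg (C * C₁ * (ε⁻¹ * lam μ R ε x))]

/-- `ev (kreg x) b (J x b) = S θ` with `θ = kerAt x ζ`, `ζ = zeta b (J x b)`. The form
`θ + θ'`, `θ' = C ε⁻² ‖ζ‖ bp 5 6 y * bp R (R+1) (ε⁻¹ (x - y)) • om0`, is nonnegative, so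
`S θ ≥ ∫ wedge θ F + ∫ wedge θ' F - S θ'`; use `IsKer.tendsto_wedge`, `|∫ wedge θ' F| ≤ C ε² ‖b‖²`
and `LocPos.abs_le`. -/
theorem IsKer.kreg_lower (hK : IsKer K R N ε₀) (hJ : GoodJ J) {S : LF} {μ : Measure E} {c C : ℝ}
    (h : LocPos J S μ c C) {F : E → W} (hF : ContinuousOn F (ball 0 10)) {c₀ : ℝ} (hc₀ : 0 < c₀)
    (hFpos : ∀ y ∈ closedBall (0 : E) 9, ∀ b, c₀ * ‖b‖ ^ 2 ≤ ev (F y) b (J y b))
    (hge : ∀ θ, CTest 9 θ → (∀ y b, 0 ≤ ev (θ y) b (J y b)) → ∫ y, wedge (θ y) (F y) ≤ S θ) :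
    ∃ C₁ : ℝ, 0 ≤ C₁ ∧ ∃ ε₁ > 0, ∀ ε ∈ Set.Ioo 0 ε₁, ∀ x ∈ closedBall (0 : E) 1, ∀ b,
      (c₀ / 2 - C₁ * lam μ R ε x) * ‖b‖ ^ 2 ≤ ev (kreg K S ε x) b (J x b) := by
  obtain ⟨C₁, p1, h1⟩ := ker_pos hK hJ
  obtain ⟨ε₁, q1, h2⟩ := hK.tendsto_wedge hF (η := c₀ / 8) (by positivity)
  obtain ⟨M, hM⟩ := (isCompact_closedBall (0 : E) 6).exists_bound_of_continuousOn
    (hF.mono (closedBall_subset_ball (by norm_num)))
  have M0 : 0 ≤ M := (norm_nonneg _).trans (hM 0 (mem_closedBall_self (by norm_num)))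
  obtain ⟨V, hV⟩ : ∃ V, V = ∫ z, bp R (R + 1) z := ⟨_, rfl⟩
  have V0 : 0 ≤ V := hV ▸ integral_nonneg (bp_nonneg _ _)
  have := h.fin
  have pC := h.Cpos
  refine ⟨16 * C * C₁, by positivity, min ε₀ (min ε₁ (c₀ / (32 * C₁ * M * V + 1))),
    lt_min hK.epos (lt_min q1 (by positivity)), fun ε hε x hx b => ?_⟩
  have e0 := hε.1
  have hε0 : ε ∈ Set.Ioo 0 ε₀ := ⟨e0, hε.2.trans_le (min_le_left _ _)⟩
  have hε1 : ε ∈ Set.Ioo 0 ε₁ := ⟨e0, hε.2.trans_le ((min_le_right _ _).trans (min_le_left _ _))⟩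
  have e2 := (le_div_iff₀ (by positivity)).1
    (hε.2.le.trans ((min_le_right _ _).trans (min_le_right _ _)))
  have e1 : ε ^ 2 ≤ ε := by nlinarith [hε0.2, hK.eps_le_one]
  have l0 := lam_nonneg μ R ε x
  have z1 := (hJ.near x).zeta_inv b
  have z2 := (hJ.near x).zeta_pos b
  have z3 : ∀ a, ev a b (J x b) = wedge a (zeta b (J x b)) := fun a => (wedge_zeta _ _ _).symm
  have z4 : ‖zeta b (J x b)‖ ≤ 2 * ‖b‖ ^ 2 := by
    have := mul_le_mul_of_nonneg_left ((J x).le_of_opNorm_le (hJ.near x).norm_le b) (norm_nonneg b)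
    nlinarith [norm_zeta_le b (J x b), sq_nonneg ‖b‖]
  have z5 := hFpos x (closedBall_subset_closedBall (by norm_num) hx) b
  rw [z3, wedge_comm] at z5
  rw [z3, kreg, wedge_regLoc]
  generalize zeta b (J x b) = ζ at z1 z2 z4 z5
  obtain ⟨t, ht⟩ : ∃ t, t = C₁ * (ε ^ 2)⁻¹ * ‖ζ‖ := ⟨_, rfl⟩
  have t0 : 0 ≤ t := by rw [ht]; positivity
  have c1 := ctest_ker hK ε x ζ
  have c2 : CTest 6 fun y => bp 5 6 y • (2 * t * gb R ε x y) • om0 :=
    (test_bp (by norm_num) (by norm_num)).ctest.smul_fun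
      ((continuous_const.mul (gb_cont R ε x)).smul continuous_const)
  have n2 : ∀ y, ‖bp 5 6 y • (2 * t * gb R ε x y) • om0‖ ≤ 4 * t * gb R ε x y := fun y => by
    have g0 := gb_nonneg R ε x y
    rw [norm_smul, norm_smul, Real.norm_of_nonneg (bp_nonneg _ _ _),
      Real.norm_of_nonneg (by positivity)]
    refine (mul_le_of_le_one_left (by positivity) (bp_le_one _ _ _)).trans ?_
    linarith [mul_le_mul_of_nonneg_left norm_om0_le (show 0 ≤ 2 * t * gb R ε x y by positivity)]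
  have k1 := hge _ ((c1.add c2).mono (by norm_num)) fun y v => by
    have h3 := h1 ε hε0 x ζ z1 z2 y v
    have g0 := gb_nonneg R ε x y
    have g1 := bp_nonneg 5 6 y
    have h4 := mul_le_mul_of_nonneg_left ((hJ.near y).om0_pos v)
      (show 0 ≤ bp 5 6 y * (2 * t * gb R ε x y) by positivity)
    rw [← ht] at h3
    rw [Pi.add_apply, ev_add, ev_smul, ev_smul]
    linarith
  simp only [Pi.add_apply, wedge_add_left] at k1
  rw [integral_add ((ctest_wedge c1 (by norm_num) hF).integrable _)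
    ((ctest_wedge c2 (by norm_num) hF).integrable _), map_add] at k1
  have k2 := (abs_le.1 (h2 ε hε1 x hx ζ)).1
  have k3 := (le_abs_self _).trans (h.abs_le_of_norm hJ (c2.mono (by norm_num))
    ((gb_int R ε x μ).const_mul (4 * t)) n2)
  rw [int_gb R e0] at k3
  have k4 := norm_integral_le_of_norm_le ((gb_vol_int hK.Rpos e0 x).const_mul (4 * t * M))
    (f := fun y => wedge (bp 5 6 y • (2 * t * gb R ε x y) • om0) (F y))
    (Filter.Eventually.of_forall fun y => by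
      have g0 := gb_nonneg R ε x y
      by_cases hy : y ∈ closedBall (0 : E) 6
      · exact (abs_wedge_le _ _).trans ((mul_le_mul (n2 y) (hM y hy) (norm_nonneg _)
          (by positivity)).trans (le_of_eq (by ring)))
      · rw [bp_far hy, zero_smul, wedge_zero_left, norm_zero]
        positivity)
  rw [integral_const_mul, vol_gb R e0, ← hV] at k4
  have k5 := (abs_le.1 k4).1
  have t1 : t * ε ^ 2 ≤ 2 * C₁ * ‖b‖ ^ 2 := by
    have : t * ε ^ 2 = C₁ * ‖ζ‖ := by rw [ht]; field_simp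
    rw [this]
    linarith [mul_le_mul_of_nonneg_left z4 p1]
  have t2 := mul_le_mul_of_nonneg_left t1 (show 0 ≤ 8 * C * lam μ R ε x by positivity)
  have t3 := mul_le_mul t1 e1 (sq_nonneg _) (by positivity)
  have t4 := mul_le_mul_of_nonneg_left t3 (show 0 ≤ 4 * M * V by positivity)
  have t5 := mul_le_mul_of_nonneg_left e2 (sq_nonneg ‖b‖)
  have t6 := mul_le_mul_of_nonneg_left z4 hc₀.le
  have t7 : 0 ≤ ‖b‖ ^ 2 * ε := by positivity
  linarith

end Vale.Agent.P204
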