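import Vale.Agent.P204.Norms1

/-! Sobolev norms. -/

open scoped ContDiff RealInnerProductSpace Topology
open MeasureTheory Metric

namespace Vale.Agent.P204

variable {F G : Type} [NormedAddCommGroup F] [NormedSpace ℝ F] [NormedAddCommGroup G]
  [NormedSpace ℝ G] {r : ℝ} {θ θ' : E → F}

namespace Norms2Aux

theorem nL2_congr {G G' : Type} [NormedAddCommGroup G] [NormedAddCommGroup G'] {f : E → G}
    {g : E → G'} (h : ∀ y, ‖f y‖ = ‖g y‖) : nL2 f = nL2 g := by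
  simp only [nL2, h]

theorem sum_le {n : ℕ} {f : ℕ → ℝ} {M : ℝ} (h : ∀ l ≤ n, f l ≤ M) :
    ∑ l ∈ Finset.range (n + 1), f l ≤ (n + 1) * M := by
  have := Finset.sum_le_card_nsmul (Finset.range (n + 1)) f M fun l hl =>
    h l (Nat.lt_succ_iff.1 (Finset.mem_range.1 hl))
  rwa [Finset.card_range, nsmul_eq_mul, Nat.cast_succ] at this

theorem exists_bound {A : E → F} (hA : ContDiff ℝ ∞ A) (r : ℝ) (l : ℕ) :
    ∃ M : ℝ, 0 ≤ M ∧ ∀ i ≤ l, ∀ y, ‖y‖ ≤ r → ‖iteratedFDeriv ℝ i A y‖ ≤ M := by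
  have h : ∀ i : ℕ, ∃ M : ℝ, 0 ≤ M ∧ ∀ y, ‖y‖ ≤ r → ‖iteratedFDeriv ℝ i A y‖ ≤ M := fun i => by
    obtain ⟨M, hM⟩ := (isCompact_closedBall (0 : E) r).exists_bound_of_continuousOn
      (hA.continuous_iteratedFDeriv (m := i) (mod_cast le_top)).continuousOn
    exact ⟨max M 0, le_max_right _ _, fun y hy =>
      (hM y (mem_closedBall_zero_iff.2 hy)).trans (le_max_left _ _)⟩
  choose M h0 h1 using h
  refine ⟨∑ i ∈ Finset.range (l + 1), M i, Finset.sum_nonneg fun i _ => h0 i, fun i hi y hy => ?_⟩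
  exact (h1 i y hy).trans (Finset.single_le_sum (fun i _ => h0 i)
    (Finset.mem_range.2 (Nat.lt_succ_of_le hi)))

end Norms2Aux

open Norms2Aux

theorem Hn_nonneg (l : ℕ) (θ : E → F) : 0 ≤ Hn l θ :=
  Finset.sum_nonneg fun _ _ => nL2_nonneg _
theorem Hn_zero (θ : E → F) : Hn 0 θ = nL2 θ := by
  rw [Hn, Finset.sum_range_one]
  exact nL2_congr fun _ => norm_iteratedFDeriv_zero
theorem Hn_mono {l l' : ℕ} (h : l ≤ l') (θ : E → F) : Hn l θ ≤ Hn l' θ :=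
  Finset.sum_le_sum_of_subset_of_nonneg (Finset.range_mono (Nat.succ_le_succ h))
    fun _ _ _ => nL2_nonneg _
theorem nL2_iter_le_Hn {j l : ℕ} (h : j ≤ l) (θ : E → F) :
    nL2 (iteratedFDeriv ℝ j θ) ≤ Hn l θ :=
  Finset.single_le_sum (f := fun j => nL2 (iteratedFDeriv ℝ j θ)) (fun _ _ => nL2_nonneg _)
    (Finset.mem_range.2 (Nat.lt_succ_of_le h))
theorem Hn_add_le (h : Test r θ) (h' : Test r θ') (l : ℕ) :
    Hn l (θ + θ') ≤ Hn l θ + Hn l θ' := by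
  rw [Hn, Hn, Hn, ← Finset.sum_add_distrib]
  refine Finset.sum_le_sum fun j _ => ?_
  rw [iteratedFDeriv_add (h.1.of_le (mod_cast le_top)) (h'.1.of_le (mod_cast le_top))]
  exact nL2_add_le (h.iteratedFDeriv j).ctest (h'.iteratedFDeriv j).ctest
theorem Hn_smul (h : Test r θ) (t : ℝ) (l : ℕ) : Hn l (t • θ) = |t| * Hn l θ := by
  rw [Hn, Hn, Finset.mul_sum]
  refine Finset.sum_congr rfl fun j _ => ?_
  rw [← nL2_smul]
  refine nL2_congr fun y => ?_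
  rw [iteratedFDeriv_const_smul_apply (h.1.of_le (mod_cast le_top)).contDiffAt]
  rfl
theorem Hn_sub_le (h : Test r θ) (h' : Test r θ') (l : ℕ) :
    Hn l (θ - θ') ≤ Hn l θ + Hn l θ' := by
  have e : Hn l (-θ') = Hn l θ' := by simp only [Hn, iteratedFDeriv_neg, nL2_neg]
  rw [sub_eq_add_neg, ← e]
  exact Hn_add_le h h'.neg l
theorem Hn_neg (l : ℕ) (θ : E → F) : Hn l (-θ) = Hn l θ := by
  simp only [Hn, iteratedFDeriv_neg, nL2_neg]
theorem Hn_fderiv_le (l : ℕ) (θ : E → F) : Hn l (fderiv ℝ θ) ≤ Hn (l + 1) θ := by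
  rw [Hn, Hn, Finset.sum_range_succ' _ (l + 1)]
  refine le_add_of_le_of_nonneg (le_of_eq (Finset.sum_congr rfl fun j _ => ?_)) (nL2_nonneg _)
  exact nL2_congr fun _ => norm_iteratedFDeriv_fderiv
theorem Hn_le_Ck (r : ℝ) (l : ℕ) : ∃ C : ℝ, 0 ≤ C ∧ ∀ θ : E → F, Test r θ →
    Hn l θ ≤ C * Ck l θ := by
  obtain ⟨C, hC, h⟩ := nL2_le_of_bound r
  refine ⟨(l + 1) * C, by positivity, fun θ hθ => ?_⟩
  rw [mul_assoc]
  exact sum_le fun j hj => h _ _ _ (hθ.iteratedFDeriv j).2 (norm_iteratedFDeriv_le_Ck hθ hj)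
theorem Hn_clm_le {A : E → F →L[ℝ] G} (hA : ContDiff ℝ ∞ A) (r : ℝ) (l : ℕ) :
    ∃ C : ℝ, 0 ≤ C ∧ ∀ θ : E → F, Test r θ → Hn l (fun y => A y (θ y)) ≤ C * Hn l θ := by
  obtain ⟨M, hM, hb⟩ := exists_bound hA r l
  refine ⟨(l + 1) * (2 ^ l * M * (l + 1)), by positivity, fun θ hθ => ?_⟩
  rw [mul_assoc]
  refine sum_le fun n hn => ?_
  have h1 := nL2_le_sum (Finset.range (n + 1)) (f := iteratedFDeriv ℝ n fun y => A y (θ y))
    (g := fun i y => ‖iteratedFDeriv ℝ (n - i) θ y‖) (C := 2 ^ l * M) (by positivity)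
    (fun i _ => (hθ.iteratedFDeriv (n - i)).ctest.norm) fun y => by
      refine (norm_iteratedFDeriv_clm_apply hA hθ.1 y (mod_cast le_top)).trans ?_
      rw [Finset.mul_sum]
      refine Finset.sum_le_sum fun i hi => ?_
      rcases le_or_gt ‖y‖ r with hy | hy
      · refine mul_le_mul_of_nonneg_right (mul_le_mul ?_
          (hb i ((Nat.lt_succ_iff.1 (Finset.mem_range.1 hi)).trans hn) y hy) (norm_nonneg _)
          (by positivity)) (norm_nonneg _)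
        exact_mod_cast (Nat.choose_le_two_pow n i).trans (Nat.pow_le_pow_right two_pos hn)
      · rw [(hθ.iteratedFDeriv (n - i)).2 y hy, norm_zero, mul_zero, mul_zero]
  refine h1.trans ?_
  rw [mul_assoc (2 ^ l * M)]
  refine mul_le_mul_of_nonneg_left ((sum_le (M := Hn l θ) fun i _ => ?_).trans ?_) (by positivity)
  · rw [nL2_norm]
    exact nL2_iter_le_Hn ((Nat.sub_le n i).trans hn) θ
  · refine mul_le_mul_of_nonneg_right ?_ (Hn_nonneg l θ)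
    exact_mod_cast Nat.succ_le_succ hn

theorem nrm_nonneg (n : ℕ) {t : ℝ} (ht : 0 ≤ t) (θ : E → F) : 0 ≤ nrm n t θ :=
  Finset.sum_nonneg fun l _ => mul_nonneg (pow_nonneg ht l) (Hn_nonneg l θ)
theorem Hn_le_nrm {n l : ℕ} (hl : l ≤ n) {t : ℝ} (ht : 0 ≤ t) (θ : E → F) :
    t ^ l * Hn l θ ≤ nrm n t θ :=
  Finset.single_le_sum (f := fun l => t ^ l * Hn l θ)
    (fun l _ => mul_nonneg (pow_nonneg ht l) (Hn_nonneg l θ))
    (Finset.mem_range.2 (Nat.lt_succ_of_le hl))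
theorem nL2_le_nrm (n : ℕ) {t : ℝ} (ht : 0 ≤ t) (θ : E → F) : nL2 θ ≤ nrm n t θ := by
  have := Hn_le_nrm (Nat.zero_le n) ht θ
  rwa [pow_zero, one_mul, Hn_zero] at this
theorem nrm_le {n : ℕ} {t M : ℝ} (h : ∀ l ≤ n, t ^ l * Hn l θ ≤ M) :
    nrm n t θ ≤ (n + 1) * M := sum_le h
theorem nrm_add_le (h : Test r θ) (h' : Test r θ') (n : ℕ) {t : ℝ} (ht : 0 ≤ t) :
    nrm n t (θ + θ') ≤ nrm n t θ + nrm n t θ' := by
  rw [nrm, nrm, nrm, ← Finset.sum_add_distrib]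
  refine Finset.sum_le_sum fun l _ => ?_
  rw [← mul_add]
  exact mul_le_mul_of_nonneg_left (Hn_add_le h h' l) (pow_nonneg ht l)
theorem nrm_smul (h : Test r θ) (c : ℝ) (n : ℕ) (t : ℝ) :
    nrm n t (c • θ) = |c| * nrm n t θ := by
  rw [nrm, nrm, Finset.mul_sum]
  refine Finset.sum_congr rfl fun l _ => ?_
  rw [Hn_smul h, mul_left_comm]
theorem tendsto_nrm (n : ℕ) (θ : E → F) :
    Filter.Tendsto (fun t => nrm n t θ) (𝓝 0) (𝓝 (nL2 θ)) := by
  have h : Continuous fun t => nrm n t θ := by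
    unfold nrm
    fun_prop
  have e : nrm n 0 θ = nL2 θ := by
    rw [nrm, Finset.sum_range_succ', pow_zero, one_mul, Hn_zero]
    simp
  rw [← e]
  exact h.tendsto 0

theorem LBd.mono_r {n : ℕ} {L : LF} {t r r' a : ℝ} (h : LBd n L t r a) (hr : r' ≤ r) :
    LBd n L t r' a := fun θ hθ => h θ (hθ.mono hr)
theorem LBd.mono_a {n : ℕ} {L : LF} {t r a a' : ℝ} (h : LBd n L t r a) (ht : 0 ≤ t)
    (ha : a ≤ a') : LBd n L t r a' := fun θ hθ =>
  (h θ hθ).trans (mul_le_mul_of_nonneg_right ha (nrm_nonneg n ht θ))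
theorem LBd.of_forall {n : ℕ} {L : LF} {t r a : ℝ} (h : ∀ η > 0, LBd n L t r (a + η)) :
    LBd n L t r a := fun θ hθ => by
  have hc : Continuous fun η : ℝ => (a + η) * nrm n t θ := by fun_prop
  have h1 := (hc.tendsto 0).mono_left (nhdsWithin_le_nhds (s := Set.Ioi 0))
  rw [add_zero] at h1
  exact ge_of_tendsto h1 (eventually_mem_nhdsWithin.mono fun η hη => h η hη θ hθ)
/-- Let the scale tend to zero. -/
theorem abs_le_nL2_of_LBd {n : ℕ} {L : LF} {t₀ r a : ℝ} (ht₀ : 0 < t₀)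
    (h : ∀ t ∈ Set.Ioc 0 t₀, LBd n L t r a) (θ : E → W) (hθ : Test r θ) :
    |L θ| ≤ a * nL2 θ := by
  have h1 := ((tendsto_nrm n θ).const_mul a).mono_left (nhdsWithin_le_nhds (s := Set.Ioi 0))
  exact ge_of_tendsto h1 (Filter.mem_of_superset (Ioc_mem_nhdsGT ht₀) fun t ht => h t ht θ hθ)
theorem LBd_of_nL2 {n : ℕ} {L : LF} {t r a : ℝ} (ht : 0 ≤ t) (ha : 0 ≤ a)
    (h : ∀ θ, Test r θ → |L θ| ≤ a * nL2 θ) : LBd n L t r a := fun θ hθ =>
  (h θ hθ).trans (mul_le_mul_of_nonneg_left (nL2_le_nrm n ht θ) ha)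

end Vale.Agent.P204
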