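import Mathlib

/-! Smooth dependence of integrals on parameters, and Hadamard division. -/

open scoped ContDiff Topology
open MeasureTheory Metric

namespace Vale.Agent.P204

variable {Y P F : Type} [NormedAddCommGroup Y] [NormedSpace ℝ Y] [FiniteDimensional ℝ Y]
  [NormedAddCommGroup P] [NormedSpace ℝ P] [FiniteDimensional ℝ P]
  [NormedAddCommGroup F] [NormedSpace ℝ F]

set_option linter.unusedSectionVars false

theorem contDiff_fderiv_fst {κ : Y × P → F} (hκ : ContDiff ℝ ∞ κ) :
    ContDiff ℝ ∞ fun q : Y × P => fderiv ℝ (fun y => κ (y, q.2)) q.1 :=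
  ContDiff.fderiv (f := fun (q : Y × P) y => κ (y, q.2)) (m := ∞)
    (hκ.comp (contDiff_snd.prodMk contDiff_fst.snd)) contDiff_fst le_rfl

/-- The iterated derivative in the first variable is jointly smooth (induction on `n` with
`ContDiff.fderiv` and `iteratedFDeriv_succ_eq_comp_left`). -/
theorem contDiff_iter_fst {κ : Y × P → F} (hκ : ContDiff ℝ ∞ κ) (n : ℕ) :
    ContDiff ℝ ∞ fun q : Y × P => iteratedFDeriv ℝ n (fun y => κ (y, q.2)) q.1 := by
  induction n with
  | zero => exact (continuousMultilinearCurryFin0 ℝ Y F).symm.contDiff.comp hκ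
  | succ n ih =>
    exact (continuousMultilinearCurryLeftEquiv ℝ (fun _ : Fin (n + 1) => Y) F).symm.contDiff.comp
      (contDiff_fderiv_fst ih)

variable [CompleteSpace F] [MeasurableSpace P] [BorelSpace P]

/-- `hasFDerivAt_integral_of_dominated_of_fderiv_le`, with a bound from compactness. -/
theorem hasFDerivAt_setInt {κ : Y × P → F} (hκ : ContDiff ℝ ∞ κ) (ν : Measure P)
    [IsFiniteMeasureOnCompacts ν] {K : Set P} (hK : IsCompact K) (y : Y) :
    HasFDerivAt (fun y => ∫ p in K, κ (y, p) ∂ν)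
      (∫ p in K, fderiv ℝ (fun y' => κ (y', p)) y ∂ν) y := by
  have h1 := (contDiff_fderiv_fst hκ).continuous
  have := FiniteDimensional.proper_real Y
  obtain ⟨C, hC⟩ :=
    ((isCompact_closedBall y 1).prod hK).exists_bound_of_continuousOn h1.continuousOn
  have h2 : ∀ z : Y, Continuous fun p => κ (z, p) := fun z =>
    hκ.continuous.comp (continuous_const.prodMk continuous_id)
  exact hasFDerivAt_integral_of_dominated_of_fderiv_le (F := fun z p => κ (z, p))
    (F' := fun z p => fderiv ℝ (fun y' => κ (y', p)) z) (bound := fun _ => C)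
    (closedBall_mem_nhds y one_pos)
    (Filter.Eventually.of_forall fun z => (h2 z).aestronglyMeasurable)
    ((h2 y).continuousOn.integrableOn_compact hK)
    (h1.comp (continuous_const.prodMk continuous_id)).aestronglyMeasurable
    ((ae_restrict_mem hK.measurableSet).mono fun p hp z hz => hC (z, p) ⟨hz, hp⟩)
    (continuousOn_const.integrableOn_compact hK)
    (Filter.Eventually.of_forall fun p z _ => ((hκ.comp (contDiff_id.prodMk
      contDiff_const)).differentiable (by simp) z).hasFDerivAt)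

theorem ParAux.nat (ν : Measure P) [IsFiniteMeasureOnCompacts ν] {K : Set P} (hK : IsCompact K)
    (n : ℕ) : ∀ (G : Type) [NormedAddCommGroup G] [NormedSpace ℝ G] [CompleteSpace G]
      (κ : Y × P → G), ContDiff ℝ ∞ κ → ContDiff ℝ n fun y => ∫ p in K, κ (y, p) ∂ν := by
  induction n with
  | zero =>
    intro G _ _ _ κ hκ
    exact contDiff_zero.2 (continuous_iff_continuousAt.2 fun y =>
      (hasFDerivAt_setInt hκ ν hK y).continuousAt)
  | succ n ih =>
    intro G _ _ _ κ hκ
    exact contDiff_succ_iff_hasFDerivAt.2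
      ⟨_, ih _ _ (contDiff_fderiv_fst hκ), hasFDerivAt_setInt hκ ν hK⟩

theorem contDiff_setInt {κ : Y × P → F} (hκ : ContDiff ℝ ∞ κ) (ν : Measure P)
    [IsFiniteMeasureOnCompacts ν] {K : Set P} (hK : IsCompact K) :
    ContDiff ℝ ∞ fun y => ∫ p in K, κ (y, p) ∂ν :=
  contDiff_infty.2 fun n => ParAux.nat ν hK n F κ hκ

theorem iteratedFDeriv_setInt {κ : Y × P → F} (hκ : ContDiff ℝ ∞ κ) (ν : Measure P)
    [IsFiniteMeasureOnCompacts ν] {K : Set P} (hK : IsCompact K) (n : ℕ) (y : Y) :
    iteratedFDeriv ℝ n (fun y => ∫ p in K, κ (y, p) ∂ν) y =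
      ∫ p in K, iteratedFDeriv ℝ n (fun y' => κ (y', p)) y ∂ν := by
  induction n generalizing y with
  | zero =>
    exact ((continuousMultilinearCurryFin0 ℝ Y F).symm.toLinearIsometry.integral_comp_comm
      fun p => κ (y, p)).symm
  | succ n ih =>
    rw [iteratedFDeriv_succ_eq_comp_left, Function.comp_apply, funext ih,
      (hasFDerivAt_setInt (contDiff_iter_fst hκ n) ν hK y).fderiv]
    exact (LinearIsometry.integral_comp_comm (𝕜 := ℝ) (μ := ν.restrict K)
      (E := Y →L[ℝ] Y [×n]→L[ℝ] F)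
      (F := Y [×(n + 1)]→L[ℝ] F) (continuousMultilinearCurryLeftEquiv ℝ
        (fun _ : Fin (n + 1) => Y) F).symm.toLinearIsometry _).symm

omit [MeasurableSpace P] [BorelSpace P] in
/-- `g (t, y) = ∫ s in Icc 0 1, ∂_t f (s t, y)`. -/
theorem hadamard {f : ℝ × Y → F} (hf : ContDiff ℝ ∞ f) (h0 : ∀ y, f (0, y) = 0) :
    ∃ g : ℝ × Y → F, ContDiff ℝ ∞ g ∧ (∀ t y, f (t, y) = t • g (t, y)) ∧
      ∀ y, (∀ t, f (t, y) = 0) → ∀ t, g (t, y) = 0 := by
  have h1 : ContDiff ℝ ∞ fun q : (ℝ × Y) × ℝ => fderiv ℝ f (q.2 * q.1.1, q.1.2) (1, 0) :=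
    ((hf.fderiv_right (m := ∞) le_rfl).comp (by fun_prop)).clm_apply contDiff_const
  have h2 : ∀ t y, HasDerivAt (fun s => f (s, y)) (fderiv ℝ f (t, y) (1, 0)) t := fun t y =>
    (hf.differentiable (by simp) (t, y)).hasFDerivAt.comp_hasDerivAt t
      ((hasDerivAt_id t).prodMk (hasDerivAt_const t y))
  refine ⟨_, contDiff_setInt h1 volume (isCompact_Icc (a := 0) (b := 1)), fun t y => ?_,
    fun y hy t => ?_⟩
  · have h3 := intervalIntegral.integral_eq_sub_of_hasDerivAt (a := 0) (b := 1)
      (f := fun s => f (s * t, y)) (f' := fun s => t • fderiv ℝ f (s * t, y) (1, 0))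
      (fun s _ => HasDerivAt.scomp (g₁ := fun s => f (s, y)) s (h2 (s * t) y)
        (hasDerivAt_mul_const t))
      (((h1.continuous.comp (continuous_const (y := (t, y)).prodMk continuous_id)).const_smul
        t).intervalIntegrable _ _)
    rw [one_mul, zero_mul, h0, sub_zero, intervalIntegral.integral_smul,
      intervalIntegral.integral_of_le zero_le_one, ← integral_Icc_eq_integral_Ioc] at h3
    exact h3.symm
  · refine integral_eq_zero_of_ae (Filter.Eventually.of_forall fun s => ?_)
    have h3 := h2 (s * t) y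
    rw [funext hy] at h3
    exact h3.unique (hasDerivAt_const _ _)

end Vale.Agent.P204
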