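import Vale.Agent.P204.Alg
import Vale.Agent.P204.Par

/-! Symbol estimates for `log (‖w‖² + ε²)`. -/

open scoped ContDiff RealInnerProductSpace Topology
open MeasureTheory Metric

namespace Vale.Agent.P204

namespace SymbAux

/-- A smooth function that agrees with the logarithm on `[1/2, ∞)`. -/
noncomputable def Lg (x : ℝ) : ℝ := Real.smoothTransition (4 * x - 1) * Real.log x

theorem Lg_eq {x : ℝ} (hx : 1 / 2 ≤ x) : Lg x = Real.log x := by
  rw [Lg, Real.smoothTransition.one_of_one_le (by linarith), one_mul]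

theorem Lg_smooth : ContDiff ℝ ∞ Lg := by
  refine contDiff_iff_contDiffAt.2 fun x => ?_
  by_cases hx : x = 0
  · refine (contDiffAt_const (c := (0 : ℝ))).congr_of_eventuallyEq ?_
    filter_upwards [Iio_mem_nhds (show x < 1 / 4 by rw [hx]; norm_num)] with y hy
    rw [Lg, Real.smoothTransition.zero_of_nonpos (by linarith [Set.mem_Iio.1 hy]), zero_mul]
  · have h1 : ContDiff ℝ ∞ fun x : ℝ => Real.smoothTransition (4 * x - 1) :=
      Real.smoothTransition.contDiff.comp ((contDiff_const.mul contDiff_id).sub contDiff_const)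
    exact h1.contDiffAt.mul (Real.contDiffAt_log.2 hx)

theorem kap_smooth : ContDiff ℝ ∞ fun q : E × ℝ => Lg (‖q.1‖ ^ 2 + q.2 ^ 2) :=
  Lg_smooth.comp (((contDiff_norm_sq ℝ).comp contDiff_fst).add (contDiff_snd.pow 2))

theorem kap_bound (l : ℕ) : ∃ C : ℝ, ∀ (z : E) (s : ℝ), ‖z‖ ≤ 1 → |s| ≤ 1 →
    ‖iteratedFDeriv ℝ l (fun z : E => Lg (‖z‖ ^ 2 + s ^ 2)) z‖ ≤ C := by
  obtain ⟨C, hC⟩ := (isCompact_closedBall (0 : E × ℝ) 1).exists_bound_of_continuousOn
    (contDiff_iter_fst kap_smooth l).continuous.continuousOn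
  refine ⟨C, fun z s hz hs => ?_⟩
  have h := hC (z, s) (by
    rw [mem_closedBall_zero_iff, Prod.norm_mk]
    exact max_le hz hs)
  exact h

theorem slice_smooth (l : ℕ) (s : ℝ) : ContDiff ℝ l fun z : E => Lg (‖z‖ ^ 2 + s ^ 2) :=
  (Lg_smooth.of_le (by exact_mod_cast le_top)).comp ((contDiff_norm_sq ℝ).add contDiff_const)

theorem scale {g : E → ℝ} {l : ℕ} (hl : 1 ≤ l) (hg : ContDiff ℝ l g) (c a : ℝ) (w : E) :
    iteratedFDeriv ℝ l ((fun _ => c) + fun w' => g (a • w')) w =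
      a ^ l • iteratedFDeriv ℝ l g (a • w) := by
  have hs : ContDiff ℝ l fun w' : E => g (a • w') := hg.comp (contDiff_id.const_smul a)
  rw [iteratedFDeriv_add_apply contDiffAt_const hs.contDiffAt,
    iteratedFDeriv_const_of_ne (by omega), Pi.zero_apply, zero_add,
    iteratedFDeriv_comp_const_smul a hg]

end SymbAux

open SymbAux

/-- The function `g(w, s) = 2 ⟪w, ·⟫ / (‖w‖² + s²)` is smooth and homogeneous of degree `-1` on
`(E × ℝ) ∖ {0}`. For fixed `ε` put `t = sqrt (‖w‖² + ε²)`; then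
`log (‖w'‖² + ε²) = log t² + log (‖w'/t‖² + (ε/t)²)`, so the `l`-th derivative at `w` is `t^{-l}`
times the `l`-th `w`-derivative of `log (‖·‖² + s²)` at a point `(w/t, ε/t)` of the compact set
`‖w‖² + s² = 1`, where it is bounded by joint continuity (cut off near the origin to use
`contDiff_iter_fst` from `Par.lean`). -/
theorem symb_log (l : ℕ) (hl : 1 ≤ l) : ∃ C : ℝ, 0 ≤ C ∧ ∀ ε : ℝ, 0 < ε → ∀ w : E,
    ‖iteratedFDeriv ℝ l (fun w' : E => Real.log (‖w'‖ ^ 2 + ε ^ 2)) w‖ ≤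
      C * (Real.sqrt (‖w‖ ^ 2 + ε ^ 2) ^ l)⁻¹ := by
  obtain ⟨C, hC⟩ := kap_bound l
  refine ⟨C, (norm_nonneg _).trans (hC 0 0 (by simp) (by simp)), fun ε hε w => ?_⟩
  have hp : ∀ w' : E, 0 < ‖w'‖ ^ 2 + ε ^ 2 := fun w' => by positivity
  obtain ⟨t, ht⟩ : ∃ t, t = Real.sqrt (‖w‖ ^ 2 + ε ^ 2) := ⟨_, rfl⟩
  have ht0 : 0 < t := ht ▸ Real.sqrt_pos.2 (hp w)
  have ht2 : t ^ 2 = ‖w‖ ^ 2 + ε ^ 2 := ht ▸ Real.sq_sqrt (hp w).le
  have e : (fun w' : E => Real.log (‖w'‖ ^ 2 + ε ^ 2)) =ᶠ[𝓝 w]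
      (fun _ => Real.log (t ^ 2)) +
        fun w' => (fun z : E => Lg (‖z‖ ^ 2 + (t⁻¹ * ε) ^ 2)) (t⁻¹ • w') := by
    have hc : Continuous fun w' : E => ‖w'‖ ^ 2 + ε ^ 2 := by fun_prop
    have h1 : t ^ 2 / 2 < ‖w‖ ^ 2 + ε ^ 2 := by rw [ht2]; linarith [hp w]
    filter_upwards [hc.continuousAt.eventually (lt_mem_nhds h1)] with z hz
    have e1 : ‖t⁻¹ • z‖ ^ 2 + (t⁻¹ * ε) ^ 2 = (‖z‖ ^ 2 + ε ^ 2) / t ^ 2 := by
      rw [norm_smul, norm_inv, Real.norm_of_nonneg ht0.le]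
      field_simp
    simp only [Pi.add_apply]
    rw [e1, Lg_eq (by rw [le_div_iff₀ (by positivity)]; linarith),
      Real.log_div (hp z).ne' (by positivity)]
    ring
  rw [(e.iteratedFDeriv ℝ l).eq_of_nhds, scale hl (slice_smooth l _), ← ht, norm_smul, norm_pow,
    norm_inv, Real.norm_of_nonneg ht0.le, inv_pow, mul_comm]
  refine mul_le_mul_of_nonneg_right (hC _ _ ?_ ?_) (by positivity)
  · rw [norm_smul, norm_inv, Real.norm_of_nonneg ht0.le, inv_mul_le_iff₀ ht0, mul_one]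
    exact le_of_sq_le_sq (by linarith [sq_nonneg ε]) ht0.le
  · rw [abs_of_pos (by positivity), inv_mul_le_iff₀ ht0, mul_one]
    exact le_of_sq_le_sq (by linarith [sq_nonneg ‖w‖]) ht0.le

/-- `‖z‖⁻²` is integrable on balls in dimension 4. -/
theorem integral_inv_sq_le : ∃ C : ℝ, 0 ≤ C ∧ ∀ ε : ℝ, 0 < ε → ∀ x : E,
    ∫ y in closedBall x 1, (‖y - x‖ ^ 2 + ε ^ 2)⁻¹ ≤ C := by
  have hi : IntegrableOn (fun y : E => (‖y‖ ^ 2)⁻¹) (closedBall 0 1) := by
    refine (integrableOn_ball_of_norm_le_rpow (μ := volume) (C := 1) (α := 2) (r := 2) (by simp)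
      (by simp; norm_num) (Filter.Eventually.of_forall fun y => ?_)
      (by fun_prop : Measurable fun y : E => (‖y‖ ^ 2)⁻¹).aestronglyMeasurable).mono_set
      (closedBall_subset_ball (by norm_num))
    rw [Real.norm_of_nonneg (by positivity), one_mul, Real.rpow_neg (norm_nonneg _),
      Real.rpow_two]
  refine ⟨∫ y in closedBall (0 : E) 1, (‖y‖ ^ 2)⁻¹, integral_nonneg fun y => by positivity,
    fun ε hε x => ?_⟩
  have e : ∫ y in closedBall x 1, (‖y - x‖ ^ 2 + ε ^ 2)⁻¹ =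
      ∫ y in closedBall (0 : E) 1, (‖y‖ ^ 2 + ε ^ 2)⁻¹ := by
    rw [← integral_indicator measurableSet_closedBall, ← integral_indicator measurableSet_closedBall,
      ← integral_sub_right_eq_self
        ((closedBall (0 : E) 1).indicator fun y => (‖y‖ ^ 2 + ε ^ 2)⁻¹) x]
    refine integral_congr_ae (Filter.Eventually.of_forall fun y => ?_)
    simp only [Set.indicator, mem_closedBall_iff_norm, sub_zero]
  rw [e]
  refine integral_mono_of_nonneg (Filter.Eventually.of_forall fun y => by positivity) hi ?_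
  have h0 : ∀ᵐ y : E, y ≠ 0 := by simp [ae_iff]
  filter_upwards [ae_restrict_of_ae h0] with y hy
  have : 0 < ‖y‖ ^ 2 := pow_pos (norm_pos_iff.2 hy) 2
  exact inv_anti₀ this (by linarith [sq_nonneg ε])

end Vale.Agent.P204
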