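import Vale.Agent.P204.LogPos
import Vale.Agent.P204.Symb
import Vale.Agent.P204.Norms2

/-! The anti-invariant part of the logarithmic test form is bounded at scale `ε`. -/

open scoped ContDiff RealInnerProductSpace Topology
open MeasureTheory Metric

namespace Vale.Agent.P204

namespace LogNrmAux

/-- The parameters: centre and scale. -/
abbrev Pa : Type := E × Set.Ioc (0 : ℝ) 1

/-- The regularised distance to the centre. -/
noncomputable def rho (p : Pa) (y : E) : ℝ := Real.sqrt (‖y - p.1‖ ^ 2 + p.2.1 ^ 2)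

theorem rho_sq (p : Pa) (y : E) : rho p y ^ 2 = ‖y - p.1‖ ^ 2 + p.2.1 ^ 2 :=
  Real.sq_sqrt (by positivity)

theorem eps_le (p : Pa) (y : E) : p.2.1 ≤ rho p y :=
  Real.le_sqrt_of_sq_le (le_add_of_nonneg_left (sq_nonneg _))

theorem rho_pos (p : Pa) (y : E) : 0 < rho p y := p.2.2.1.trans_le (eps_le p y)

theorem dist_le (p : Pa) (y : E) : ‖y - p.1‖ ≤ rho p y :=
  Real.le_sqrt_of_sq_le (le_add_of_nonneg_right (sq_nonneg _))

theorem rho_le (p : Pa) {y : E} (hy : ‖y - p.1‖ ≤ 1) : rho p y ≤ 2 := by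
  have h1 := pow_le_one₀ (n := 2) (norm_nonneg _) hy
  have h2 := pow_le_one₀ (n := 2) p.2.2.1.le p.2.2.2
  exact Real.sqrt_le_iff.2 ⟨zero_le_two, by linarith⟩

theorem zpow_le (p : Pa) {y : E} (hy : ‖y - p.1‖ ≤ 1) (k : ℤ) (j : ℕ) :
    rho p y ^ k ≤ 2 ^ j * rho p y ^ (k - j) := by
  have h0 := rho_pos p y
  rw [zpow_sub₀ h0.ne', zpow_natCast, ← mul_div_assoc, le_div_iff₀ (by positivity), mul_comm]
  exact mul_le_mul_of_nonneg_right (pow_le_pow_left₀ h0.le (rho_le p hy) j) (by positivity)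

theorem nat_le (j : ℕ) : (j : WithTop ℕ∞) ≤ ∞ := by exact_mod_cast le_top

section sy
variable {F G K : Type} [NormedAddCommGroup F] [NormedSpace ℝ F] [NormedAddCommGroup G]
  [NormedSpace ℝ G] [NormedAddCommGroup K] [NormedSpace ℝ K] {m m' : ℤ}

/-- Families of symbols of order `m`. -/
def Sy (m : ℤ) (f : Pa → E → F) : Prop := (∀ p, ContDiff ℝ ∞ (f p)) ∧ ∀ j : ℕ, ∃ C : ℝ, 0 ≤ C ∧
  ∀ (p : Pa) (y : E), ‖y - p.1‖ ≤ 1 → ‖iteratedFDeriv ℝ j (f p) y‖ ≤ C * rho p y ^ (m - j)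

theorem Sy.bil {f : Pa → E → F} {g : Pa → E → G} (B : F →L[ℝ] G →L[ℝ] K) (hf : Sy m f)
    (hg : Sy m' g) : Sy (m + m') fun p y => B (f p y) (g p y) := by
  refine ⟨fun p => (B.contDiff.comp (hf.1 p)).clm_apply (hg.1 p), fun n => ?_⟩
  choose C C0 hC using hf.2
  choose D D0 hD using hg.2
  refine ⟨‖B‖ * ∑ i ∈ Finset.range (n + 1), (n.choose i : ℝ) * C i * D (n - i),
    mul_nonneg B.opNorm_nonneg (Finset.sum_nonneg fun i _ =>
      mul_nonneg (mul_nonneg (Nat.cast_nonneg _) (C0 i)) (D0 _)), fun p y hy => ?_⟩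
  refine (B.norm_iteratedFDeriv_le_of_bilinear (hf.1 p) (hg.1 p) y (nat_le n)).trans ?_
  rw [mul_assoc, Finset.sum_mul]
  refine mul_le_mul_of_nonneg_left (Finset.sum_le_sum fun i hi => ?_) B.opNorm_nonneg
  have h0 := rho_pos p y
  have e : rho p y ^ (m + m' - n) = rho p y ^ (m - i) * rho p y ^ (m' - (n - i : ℕ)) := by
    rw [← zpow_add₀ h0.ne', Nat.cast_sub (Nat.lt_succ_iff.1 (Finset.mem_range.1 hi))]
    congr 1
    ring
  have h1 := mul_le_mul (hC i p y hy) (hD (n - i) p y hy) (norm_nonneg _)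
    (mul_nonneg (C0 i) (by positivity))
  calc _ = (n.choose i : ℝ) * (‖iteratedFDeriv ℝ i (f p) y‖ *
        ‖iteratedFDeriv ℝ (n - i) (g p) y‖) := by ring
    _ ≤ _ := mul_le_mul_of_nonneg_left h1 (Nat.cast_nonneg _)
    _ = _ := by rw [e]; ring

theorem Sy.clm {f : Pa → E → F} (L : F →L[ℝ] G) (hf : Sy m f) : Sy m fun p y => L (f p y) := by
  refine ⟨fun p => L.contDiff.comp (hf.1 p), fun n => ?_⟩
  obtain ⟨C, C0, hC⟩ := hf.2 n
  refine ⟨‖L‖ * C, by positivity, fun p y hy => ?_⟩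
  refine (L.norm_iteratedFDeriv_comp_left (hf.1 p).contDiffAt (nat_le n)).trans ?_
  rw [mul_assoc]
  exact mul_le_mul_of_nonneg_left (hC p y hy) (norm_nonneg _)

theorem Sy.add {f g : Pa → E → F} (hf : Sy m f) (hg : Sy m g) :
    Sy m fun p y => f p y + g p y := by
  refine ⟨fun p => (hf.1 p).add (hg.1 p), fun n => ?_⟩
  obtain ⟨C, C0, hC⟩ := hf.2 n
  obtain ⟨D, D0, hD⟩ := hg.2 n
  refine ⟨C + D, by positivity, fun p y hy => ?_⟩
  rw [fun_iteratedFDeriv_add_apply ((hf.1 p).of_le (nat_le n)).contDiffAt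
    ((hg.1 p).of_le (nat_le n)).contDiffAt, add_mul]
  exact (norm_add_le _ _).trans (add_le_add (hC p y hy) (hD p y hy))

theorem Sy.fderiv {f : Pa → E → F} (hf : Sy m f) : Sy (m - 1) fun p => fderiv ℝ (f p) := by
  refine ⟨fun p => (hf.1 p).fderiv_right (m := ∞) le_rfl, fun n => ?_⟩
  obtain ⟨C, C0, hC⟩ := hf.2 (n + 1)
  refine ⟨C, C0, fun p y hy => ?_⟩
  rw [norm_iteratedFDeriv_fderiv, show m - 1 - n = m - (n + 1 : ℕ) by push_cast; ring]
  exact hC p y hy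

theorem Sy.of_bdd {f : Pa → E → F} (hf : ∀ p, ContDiff ℝ ∞ (f p))
    (h : ∀ j : ℕ, ∃ C : ℝ, 0 ≤ C ∧ ∀ p y, ‖iteratedFDeriv ℝ j (f p) y‖ ≤ C) : Sy 0 f := by
  refine ⟨hf, fun j => ?_⟩
  obtain ⟨C, C0, hC⟩ := h j
  refine ⟨C * 2 ^ j, by positivity, fun p y hy => (hC p y).trans ?_⟩
  have h1 := zpow_le p hy 0 j
  rw [zpow_zero] at h1
  rw [mul_assoc]
  exact le_mul_of_one_le_right C0 h1

theorem Sy.const {c : Pa → F} {M : ℝ} (h : ∀ p, ‖c p‖ ≤ M) : Sy 0 fun p (_ : E) => c p := by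
  refine Sy.of_bdd (fun p => contDiff_const) fun j => ⟨max M 0, le_max_right _ _, fun p y => ?_⟩
  rcases eq_or_ne j 0 with rfl | hj
  · rw [norm_iteratedFDeriv_zero]
    exact le_max_of_le_left (h p)
  · rw [iteratedFDeriv_const_of_ne hj, Pi.zero_apply, norm_zero]
    exact le_max_right _ _

theorem Sy.congr {f g : Pa → E → F} (hf : Sy m f) (hm : m = m') (h : ∀ p y, f p y = g p y) :
    Sy m' g := by
  obtain rfl : f = g := funext₂ h
  exact hm ▸ hf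

omit [NormedSpace ℝ F] in
theorem ev_far {f : E → F} {x y : E} (h : ∀ z, 1 / 2 < ‖z - x‖ → f z = 0)
    (hy : 1 / 2 < ‖y - x‖) : f =ᶠ[𝓝 y] fun _ => 0 :=
  Filter.mem_of_superset
    ((isOpen_lt continuous_const (by fun_prop : Continuous fun y : E => ‖y - x‖)).mem_nhds hy) h

theorem nL2_le : ∃ C : ℝ, 0 ≤ C ∧ ∀ (G : Type) [NormedAddCommGroup G] (g : E → G) (p : Pa)
    (M : ℝ), 0 ≤ M → (∀ y, 1 < ‖y - p.1‖ → g y = 0) →
    (∀ y, ‖y - p.1‖ ≤ 1 → ‖g y‖ ≤ M * (rho p y)⁻¹) → nL2 g ≤ C * M := by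
  obtain ⟨C, C0, hC⟩ := integral_inv_sq_le
  refine ⟨Real.sqrt C, Real.sqrt_nonneg _, fun G _ g p M M0 h0 h1 => ?_⟩
  refine Real.sqrt_le_iff.2 ⟨by positivity, ?_⟩
  have hε := p.2.2.1
  have hc : Continuous fun y : E => M ^ 2 * (‖y - p.1‖ ^ 2 + p.2.1 ^ 2)⁻¹ :=
    continuous_const.mul (Continuous.inv₀ (by fun_prop) fun y => by positivity)
  have h2 : ∫ y, ‖g y‖ ^ 2 ≤ ∫ y, (closedBall p.1 1).indicator
      (fun y => M ^ 2 * (‖y - p.1‖ ^ 2 + p.2.1 ^ 2)⁻¹) y := by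
    refine integral_mono_of_nonneg (Filter.Eventually.of_forall fun y => sq_nonneg _)
      ((integrable_indicator_iff measurableSet_closedBall).2
        (hc.continuousOn.integrableOn_compact (isCompact_closedBall _ _)))
      (Filter.Eventually.of_forall fun y => ?_)
    by_cases hy : y ∈ closedBall p.1 1
    · simp only [Set.indicator_of_mem hy, ← rho_sq, ← inv_pow, ← mul_pow]
      exact pow_le_pow_left₀ (norm_nonneg _) (h1 y (mem_closedBall_iff_norm.1 hy)) 2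
    · simp only [Set.indicator_of_notMem hy]
      rw [h0 y (not_le.1 fun h => hy (mem_closedBall_iff_norm.2 h))]
      simp
  rw [integral_indicator measurableSet_closedBall, integral_const_mul] at h2
  rw [mul_pow, Real.sq_sqrt C0, mul_comm]
  exact h2.trans (mul_le_mul_of_nonneg_left (hC _ hε p.1) (sq_nonneg _))

theorem Sy.nrm_le {f : Pa → E → F} (hf : Sy (-1) f) (h0 : ∀ p y, 1 / 2 < ‖y - p.1‖ → f p y = 0)
    (n : ℕ) : ∃ C : ℝ, 0 ≤ C ∧ ∀ p : Pa, nrm n p.2.1 (f p) ≤ C := by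
  obtain ⟨K, K0, hK⟩ := nL2_le
  choose C C0 hC using hf.2
  have S0 : 0 ≤ ∑ j ∈ Finset.range (n + 1), K * C j :=
    Finset.sum_nonneg fun j _ => mul_nonneg K0 (C0 j)
  refine ⟨(n + 1) * ∑ j ∈ Finset.range (n + 1), K * C j, by positivity,
    fun p => P204.nrm_le fun l hl => ?_⟩
  have hε := p.2.2.1
  rw [Hn, Finset.mul_sum]
  refine le_trans (Finset.sum_le_sum fun j hj => ?_) (Finset.sum_le_sum_of_subset_of_nonneg
    (Finset.range_mono (Nat.succ_le_succ hl)) fun j _ _ => mul_nonneg K0 (C0 j))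
  have h1 : nL2 (iteratedFDeriv ℝ j (f p)) ≤ K * (C j * (p.2.1 ^ j)⁻¹) := by
    refine hK _ _ p _ (mul_nonneg (C0 j) (by positivity)) (fun y hy => ?_) fun y hy => ?_
    · have e : f p =ᶠ[𝓝 y] fun _ => 0 := ev_far (h0 p) (by linarith)
      rw [(e.iteratedFDeriv ℝ j).eq_of_nhds, iteratedFDeriv_fun_zero, Pi.zero_apply]
    · refine (hC j p y hy).trans ?_
      have h2 := rho_pos p y
      rw [mul_assoc, zpow_sub₀ h2.ne', zpow_neg_one, zpow_natCast, div_eq_mul_inv,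
        mul_comm (rho p y)⁻¹]
      refine mul_le_mul_of_nonneg_left (mul_le_mul_of_nonneg_right ?_ (by positivity)) (C0 j)
      exact inv_anti₀ (by positivity) (pow_le_pow_left₀ hε.le (eps_le p y) j)
  have h3 : p.2.1 ^ l ≤ p.2.1 ^ j :=
    pow_le_pow_of_le_one hε.le p.2.2.2 (Nat.lt_succ_iff.1 (Finset.mem_range.1 hj))
  calc _ ≤ p.2.1 ^ j * (K * (C j * (p.2.1 ^ j)⁻¹)) :=
        mul_le_mul h3 h1 (nL2_nonneg _) (by positivity)
    _ = K * C j := by field_simp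

end sy

variable {J : E → E →L[ℝ] E}

/-- The logarithm. -/
noncomputable def lg (J : E → E →L[ℝ] E) (p : Pa) (y : E) : ℝ :=
  Real.log (‖Aop (J p.1) (y - p.1)‖ ^ 2 + p.2.1 ^ 2)

theorem contDiff_log {ε : ℝ} (hε : 0 < ε) :
    ContDiff ℝ ∞ fun w : E => Real.log (‖w‖ ^ 2 + ε ^ 2) :=
  ((contDiff_norm_sq ℝ).add contDiff_const).log fun w => by positivity

theorem contDiff_lg (p : Pa) : ContDiff ℝ ∞ (lg J p) :=
  (contDiff_log p.2.2.1).comp ((Aop (J p.1)).contDiff.comp (contDiff_id.sub contDiff_const))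

theorem sy_lg (hJ : GoodJ J) : Sy (-1) fun p => fderiv ℝ (lg J p) := by
  refine ⟨fun p => (contDiff_lg p).fderiv_right (m := ∞) le_rfl, fun j => ?_⟩
  obtain ⟨C, C0, hC⟩ := symb_log (j + 1) (by omega)
  refine ⟨C * 2 ^ (j + 1) * 2 ^ (j + 1), by positivity, fun p y _ => ?_⟩
  have hε := p.2.2.1
  have h0 := rho_pos p y
  have e := iteratedFDeriv_comp_sub (𝕜 := ℝ)
    (f := (fun w : E => Real.log (‖w‖ ^ 2 + p.2.1 ^ 2)) ∘ Aop (J p.1)) (j + 1) p.1 y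
  rw [(Aop (J p.1)).iteratedFDeriv_comp_right (contDiff_log hε) _ (nat_le _)] at e
  rw [norm_iteratedFDeriv_fderiv]
  refine (congrArg norm e).le.trans
    ((ContinuousMultilinearMap.norm_compContinuousLinearMap_le _ _).trans ?_)
  rw [Finset.prod_const, Finset.card_univ, Fintype.card_fin]
  have h1 : ‖Aop (J p.1)‖ ^ (j + 1) ≤ 2 ^ (j + 1) :=
    pow_le_pow_left₀ (norm_nonneg _) ((hJ.near p.1).norm_Aop_le.trans (by norm_num)) _
  have h2 : rho p y / 2 ≤ Real.sqrt (‖Aop (J p.1) (y - p.1)‖ ^ 2 + p.2.1 ^ 2) := by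
    refine Real.le_sqrt_of_sq_le ?_
    have h3 := pow_le_pow_left₀ (by positivity) ((hJ.near p.1).le_norm_Aop (y - p.1)) 2
    rw [div_pow, rho_sq]
    nlinarith [sq_nonneg ‖y - p.1‖, sq_nonneg p.2.1]
  have h4 := inv_anti₀ (by positivity) (pow_le_pow_left₀ (by positivity) h2 (j + 1))
  have h5 := (hC _ hε (Aop (J p.1) (y - p.1))).trans (mul_le_mul_of_nonneg_left h4 C0)
  refine (mul_le_mul h5 h1 (by positivity) (by positivity)).trans (le_of_eq ?_)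
  rw [show (-1 - j : ℤ) = -((j + 1 : ℕ) : ℤ) by push_cast; ring, zpow_neg, zpow_natCast, div_pow]
  field_simp

/-- The one-form before the cut-off. -/
noncomputable def pz (J : E → E →L[ℝ] E) (p : Pa) (y : E) : E →L[ℝ] ℝ :=
  -(fderiv ℝ (lg J p) y ∘L J p.1)

theorem sy_pz (hJ : GoodJ J) : Sy (-1) (pz J) :=
  (Sy.bil (-ContinuousLinearMap.compL ℝ E E ℝ) (sy_lg hJ)
    (Sy.const (c := fun p => J p.1) fun p => (hJ.near p.1).norm_le)).congr (by norm_num)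
      fun _ _ => rfl

theorem fderiv_pz (p : Pa) (y a b : E) :
    fderiv ℝ (pz J p) y a b = -fderiv ℝ (fderiv ℝ (lg J p)) y a (J p.1 b) := by
  have h1 := Calc1Aux.hasD2 (y := y) ((contDiff_lg (J := J) p).of_le (nat_le 2)).contDiffAt
  have h2 : HasFDerivAt (pz J p) _ y := (h1.clm_comp (hasFDerivAt_const (J p.1) y)).neg
  rw [h2.fderiv]
  simp

theorem pz_inv (hJ : GoodJ J) (p : Pa) (y : E) : pm (J p.1) (d1 (pz J p) y) = 0 := by
  refine pm_of_inv (ext_ev fun u v => ?_)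
  have h := Calc1Aux.symm2 (y := y) ((contDiff_lg (J := J) p).of_le (nat_le 2)).contDiffAt
  simp only [ev_pull, ev_d1, fderiv_pz, hJ.sq, map_neg, neg_neg]
  rw [h (J p.1 u) v, h (J p.1 v) u]
  ring

theorem sy_chi : Sy 0 fun p y => bp (1 / 4) (1 / 2) (y - p.1) := by
  refine Sy.of_bdd (fun p => (contDiff_bp _ _).comp (contDiff_id.sub contDiff_const)) fun j => ?_
  obtain ⟨C, C0, hC⟩ := Calc0Aux.iter_le (contDiff_bp (1 / 4) (1 / 2))
    (test_bp (a := 1 / 4) (b := 1 / 2) (by norm_num) (by norm_num)).2 j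
  exact ⟨C, C0, fun p y => by rw [iteratedFDeriv_comp_sub]; exact hC _⟩

theorem sy_pm (hJ : GoodJ J) : Sy 0 fun _ y => pm (J y) :=
  Sy.of_bdd (fun _ => hJ.contDiff_pm) fun j =>
    (hJ.iteratedFDeriv_pm_le j).imp fun _ h => ⟨h.1, fun _ y => h.2 j le_rfl y⟩

theorem sy_sub (hJ : GoodJ J) : Sy 1 fun p y => pm (J y) - pm (J p.1) := by
  refine ⟨fun p => hJ.contDiff_pm.sub contDiff_const, fun j => ?_⟩
  rcases j with _ | j
  · obtain ⟨L, L0, hL⟩ := hJ.lipschitz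
    refine ⟨4 * L, by positivity, fun p y _ => ?_⟩
    rw [norm_iteratedFDeriv_zero, Nat.cast_zero, sub_zero, zpow_one, mul_assoc]
    exact ((hJ.near y).norm_pm_sub_le (hJ.near p.1)).trans (mul_le_mul_of_nonneg_left
      ((hL y p.1).trans (mul_le_mul_of_nonneg_left (dist_le p y) L0)) (by norm_num))
  · obtain ⟨C, C0, hC⟩ := hJ.iteratedFDeriv_pm_le (j + 1)
    refine ⟨C * 2 ^ j, by positivity, fun p y hy => ?_⟩
    have h1 := zpow_le p hy 0 j
    rw [zpow_zero] at h1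
    rw [fun_iteratedFDeriv_sub_apply (hJ.contDiff_pm.of_le (nat_le _)).contDiffAt contDiffAt_const,
      iteratedFDeriv_succ_const, Pi.zero_apply, sub_zero, mul_assoc,
      show (1 - (j + 1 : ℕ) : ℤ) = 0 - j by push_cast; ring]
    exact (hC _ le_rfl y).trans (le_mul_of_one_le_right C0 h1)

theorem w11_eq (p q : E →L[ℝ] ℝ) :
    w11 p q = Calc1Aux.Dm (ContinuousLinearMap.smulRightL ℝ E (E →L[ℝ] ℝ) p q) :=
  ext_ev fun u v => by simp [ev_w11, Calc1Aux.ev_Dm]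

theorem sy_main (hJ : GoodJ J) : Sy (-1) fun p y => pm (J y) (d1 (logP J p.1 p.2.1) y) := by
  have h1 : Sy (-1) fun (p : Pa) (y : E) =>
      w11 (fderiv ℝ (fun y => bp (1 / 4) (1 / 2) (y - p.1)) y) (pz J p y) := by
    have h : Sy 0 fun (p : Pa) => fderiv ℝ fun y => bp (1 / 4) (1 / 2) (y - p.1) := by
      refine Sy.of_bdd sy_chi.fderiv.1 fun j => ?_
      obtain ⟨C, C0, hC⟩ := Calc0Aux.iter_le (contDiff_bp (1 / 4) (1 / 2))
        (test_bp (a := 1 / 4) (b := 1 / 2) (by norm_num) (by norm_num)).2 (j + 1)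
      exact ⟨C, C0, fun p y => by
        rw [norm_iteratedFDeriv_fderiv, iteratedFDeriv_comp_sub]; exact hC _⟩
    have h' := Sy.bil (K := E →L[ℝ] E →L[ℝ] ℝ)
      (ContinuousLinearMap.smulRightL ℝ E (E →L[ℝ] ℝ)) h (sy_pz hJ)
    exact (Sy.clm (F := E →L[ℝ] E →L[ℝ] ℝ) (G := W) Calc1Aux.Dm h').congr (by norm_num)
      fun p y => (w11_eq _ _).symm
  have h2 := Sy.bil (ContinuousLinearMap.id ℝ (W →L[ℝ] W)) (sy_pm hJ) h1
  have h3 := Sy.bil (ContinuousLinearMap.lsmul ℝ ℝ) sy_chi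
    (Sy.bil (ContinuousLinearMap.id ℝ (W →L[ℝ] W)) (sy_sub hJ) ((sy_pz hJ).fderiv.clm Calc1Aux.Dm))
  rw [show (0 + (1 + (-1 - 1)) : ℤ) = 0 + -1 by norm_num] at h3
  refine (h2.add h3).congr (by norm_num) fun p y => ?_
  have e : d1 (logP J p.1 p.2.1) y = _ := d1_fun_smul
    ((sy_chi.1 p).differentiable (by simp) y) (((sy_pz hJ).1 p).differentiable (by simp) y)
  rw [e, map_add, map_smul]
  simp only [ContinuousLinearMap.id_apply, ContinuousLinearMap.lsmul_apply, sub_apply,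
    ← Calc1Aux.d1_eq, pz_inv hJ, sub_zero]
  rfl

theorem main_zero (p : Pa) (y : E) (hy : 1 / 2 < ‖y - p.1‖) :
    pm (J y) (d1 (logP J p.1 p.2.1) y) = 0 := by
  have e : logP J p.1 p.2.1 =ᶠ[𝓝 y] fun _ => 0 := ev_far (fun z hz => by
    rw [logP, bp_eq_zero (by norm_num) (by norm_num) (le_of_lt hz), zero_smul]) hy
  rw [d1_congr e, d1_const, map_zero]

end LogNrmAux

/-- Let `ρ² = ‖y - x‖² + ε²`, `χ = bp (1/4) (1/2) (· - x)`, `p₀ = -(D u) ∘ J x` with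
`u(y) = log (‖A (y - x)‖² + ε²)`, so `d1 (logP) = w11 (Dχ) p₀ + χ • Φ`, `Φ = d1 p₀`.
By `symb_log` (composition with the affine map), `‖D^j p₀‖ ≤ C ρ^{-1-j}` and
`‖D^j Φ‖ ≤ C ρ^{-2-j}` (`exists_d1_clm`). `Φ y` is `J x`-invariant, hence
`pm (J y) (Φ y) = (pm (J y) - pm (J x)) (Φ y)`, and the Leibniz inequality
(`norm_iteratedFDeriv_clm_apply`) with `‖pm (J y) - pm (J x)‖ ≤ C ρ` gives
`‖D^j (pm (J y) (d1 logP y))‖ ≤ C ρ^{-1-j}` on `closedBall x (1/2)`, zero outside. So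
`ε^j ‖D^j ..‖ ≤ C ρ⁻¹`, square integrable uniformly (`integral_inv_sq_le`). -/
theorem nrm_logP_le {J : E → E →L[ℝ] E} (hJ : GoodJ J) (n : ℕ) : ∃ C : ℝ, 0 ≤ C ∧
    ∀ x ∈ closedBall (0 : E) 5, ∀ ε ∈ Set.Ioc (0 : ℝ) 1,
      nrm n ε (fun y => pm (J y) (d1 (logP J x ε) y)) ≤ C :=
  ((LogNrmAux.sy_main hJ).nrm_le LogNrmAux.main_zero n).imp fun _ h =>
    ⟨h.1, fun x _ ε hε => h.2 (x, ⟨ε, hε⟩)⟩

end Vale.Agent.P204
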