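import Vale.Agent.P204.Atlas2

/-! The trace measure of a positive current. -/

open scoped ContDiff RealInnerProductSpace Topology
open MeasureTheory Metric

namespace Vale.Agent.P204

universe u

namespace Setup

variable {X : Type u} [TopologicalSpace X] [T2Space X] [CompactSpace X]
  [SecondCountableTopology X] [MeasurableSpace X] [BorelSpace X] (s : Setup X)

variable {om : Form X}

/-- `RealRMK.rieszMeasure` for `f ↦ T (f • F)`, `RealRMK.integral_rieszMeasure`. -/
theorem Tame.exists_posCur {s : Setup X} (h : s.Tame om) {T : GF X}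
    (hT : ∀ φ, s.Cont φ → s.Pos φ → 0 ≤ T φ) : ∃ μ : Measure X, s.PosCur (s.ppF om) T μ := by
  have hF : s.Cont (s.ppF om) := h.smooth.cont.ppF
  have hP : s.Pos (s.ppF om) := h.pos_F
  let L : CompactlySupportedContinuousMap X ℝ →ₗ[ℝ] ℝ :=
    { toFun := fun f => T fun x => f x • s.ppF om x
      map_add' := fun f g => by
        rw [← map_add]
        congr 1
        ext1 x
        simp [add_smul]
      map_smul' := fun t f => by
        rw [RingHom.id_apply, ← map_smul]
        congr 1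
        ext1 x
        simp [smul_smul] }
  have hL : ∀ f, 0 ≤ f → 0 ≤ L f := by
    intro f hf
    refine hT _ (hF.fun_smul f.continuous) ?_
    intro x b
    rw [ev_smul]
    exact mul_nonneg (hf x) (hP x b)
  let Λ := PositiveLinearMap.mk₀ L hL
  refine ⟨RealRMK.rieszMeasure Λ, inferInstance, hT, fun f hf => ?_⟩
  let g : CompactlySupportedContinuousMap X ℝ :=
    ⟨⟨f, hf⟩, HasCompactSupport.of_compactSpace _⟩
  exact (RealRMK.integral_rieszMeasure Λ g).symm

theorem measurableSet_source (i : Fin s.m) : MeasurableSet (s.ψ i).source := by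
  exact (s.ψ i).open_source.measurableSet

theorem aemeasurable_chart (μ : Measure X) (i : Fin s.m) :
    AEMeasurable (s.ψ i) (μ.restrict (s.ψ i).source) := by
  exact (s.ψ i).continuousOn.aemeasurable (s.measurableSet_source i)

theorem lm_apply (μ : Measure X) (i : Fin s.m) {A : Set E} (hA : MeasurableSet A) :
    s.lm μ i A = μ ((s.ψ i).source ∩ s.ψ i ⁻¹' A) := by
  rw [lm, Measure.map_apply_of_aemeasurable (s.aemeasurable_chart μ i) hA,
    Measure.restrict_apply' (s.measurableSet_source i), Set.inter_comm]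

theorem isFiniteMeasure_lm (μ : Measure X) [IsFiniteMeasure μ] (i : Fin s.m) :
    IsFiniteMeasure (s.lm μ i) := by
  unfold lm
  infer_instance

theorem lm_mono {μ μ' : Measure X} (h : μ ≤ μ') (i : Fin s.m) : s.lm μ i ≤ s.lm μ' i := by
  refine Measure.le_iff.2 fun A hA => ?_
  rw [s.lm_apply μ i hA, s.lm_apply μ' i hA]
  exact h _

theorem integral_lm (μ : Measure X) (i : Fin s.m) {h : E → ℝ} (hh : Measurable h) :
    ∫ y, h y ∂s.lm μ i = ∫ x, s.glob0 i h x ∂μ := by
  rw [lm, integral_map (s.aemeasurable_chart μ i) hh.aestronglyMeasurable,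
    ← integral_indicator (s.measurableSet_source i)]
  refine integral_congr_ae (Filter.Eventually.of_forall fun x => ?_)
  by_cases hx : x ∈ (s.ψ i).source <;> simp [glob0, hx]

theorem lintegral_lm (μ : Measure X) (i : Fin s.m) {h : E → ENNReal} (hh : Measurable h) :
    ∫⁻ y, h y ∂s.lm μ i = ∫⁻ x in (s.ψ i).source, h (s.ψ i x) ∂μ := by
  rw [lm, lintegral_map' hh.aemeasurable (s.aemeasurable_chart μ i)]

theorem sum_integral_c (μ : Measure X) [IsFiniteMeasure μ] :
    ∑ i, ∫ y, s.c i y ∂s.lm μ i = μ.real Set.univ := by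
  have hc : ∀ i, CTest 9 (s.c i) := fun i => ((s.c_test i).mono (by norm_num)).ctest
  have h1 : ∀ i, ∫ y, s.c i y ∂s.lm μ i = ∫ x, s.glob0 i (s.c i) x ∂μ := fun i =>
    s.integral_lm μ i (hc i).1.measurable
  have h2 : ∀ i, Integrable (s.glob0 i (s.c i)) μ := fun i =>
    (s.continuous_glob0 i (hc i)).integrable_of_hasCompactSupport
      (HasCompactSupport.of_compactSpace _)
  simp only [h1]
  rw [← integral_finsetSum _ fun i _ => h2 i]
  simp only [s.sum_glob0_c]
  simp

theorem PosCur.real_univ {s : Setup X} {F : Form X} {T : GF X} {μ : Measure X}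
    (h : s.PosCur F T μ) : μ.real Set.univ = T F := by
  have h1 := h.trace (fun _ => 1) continuous_const
  simp only [one_smul] at h1
  rw [show F = fun x => F x from rfl, h1]
  simp

/-- With `c₀, C₀` from `Tame.bounds`: `θ - (g₁ / (2 C₀ + 1) - g₂ / c₀) • loc i F` is nonnegative on
complex lines (treat `g₁ ≥ g₂` and `g₁ ≤ g₂`; better: `g₁‖b‖² ≥ g₁ F(b,Jb)/(2C₀+1)` and
`g₂‖b‖² ≤ g₂ F(b,Jb)/c₀`); use `glob0_smul`, `PosCur.trace`, `integral_lm`. -/
theorem Tame.locPos {s : Setup X} (h : s.Tame om) : ∃ c C : ℝ, ∀ (T : GF X) (μ : Measure X),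
    s.PosCur (s.ppF om) T μ → ∀ i, LocPos (s.Jl i) (s.lf T i) (s.lm μ i) c C := by
  obtain ⟨c₀, hc₀, C₀, hC₀, hb⟩ := h.bounds
  have hF : s.Cont (s.ppF om) := h.smooth.cont.ppF
  have hD : 0 < 2 * C₀ + 1 := by linarith
  refine ⟨(2 * C₀ + 1)⁻¹, c₀⁻¹, fun T μ hT i => ?_⟩
  have := hT.fin
  have := s.isFiniteMeasure_lm μ i
  refine ⟨inferInstance, inv_pos.2 hD, (inv_pos.2 hc₀).le, ?_⟩
  intro θ g₁ g₂ hθ hg₁ hg₂ p₁ p₂ hle
  set g : E → ℝ := (2 * C₀ + 1)⁻¹ • g₁ - c₀⁻¹ • g₂ with hgdef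
  have hg : CTest 9 g := (hg₁.smul _).sub (hg₂.smul _)
  have hgF : CTest 9 fun y => g y • s.loc i (s.ppF om) y := hF.ctest_smul i hg (by norm_num)
  have hpos : ∀ y b, 0 ≤ ev ((θ - fun y => g y • s.loc i (s.ppF om) y) y) b (s.Jl i y b) := by
    intro y b
    rw [Pi.sub_apply, ev_sub, ev_smul]
    by_cases hy : 9 < ‖y‖
    · rw [hθ.2 y hy, hg.2 y hy, ev_zero]
      simp
    · have hy' : y ∈ closedBall (0 : E) 9 := by
        rw [mem_closedBall, dist_zero_right]
        linarith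
      obtain ⟨hn, hlow⟩ := hb i y hy'
      have hlow' := hlow b
      have hJ : ‖s.Jl i y b‖ ≤ 101 / 100 * ‖b‖ :=
        ((s.Jl i y).le_opNorm b).trans
          (mul_le_mul_of_nonneg_right ((s.good i).near y).norm_le (norm_nonneg _))
      have hup : ev (s.loc i (s.ppF om) y) b (s.Jl i y b) ≤ (2 * C₀ + 1) * ‖b‖ ^ 2 := by
        have h1 := (le_abs_self _).trans (abs_ev_le (s.loc i (s.ppF om) y) b (s.Jl i y b))
        have h2 : ‖s.loc i (s.ppF om) y‖ * ‖b‖ * ‖s.Jl i y b‖ ≤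
            C₀ * ‖b‖ * (101 / 100 * ‖b‖) :=
          mul_le_mul (mul_le_mul_of_nonneg_right hn (norm_nonneg _)) hJ (norm_nonneg _)
            (mul_nonneg hC₀ (norm_nonneg _))
        have h3 : 0 ≤ C₀ * ‖b‖ ^ 2 := mul_nonneg hC₀ (sq_nonneg _)
        nlinarith [sq_nonneg ‖b‖]
      set e := ev (s.loc i (s.ppF om) y) b (s.Jl i y b) with he
      have k1 : (2 * C₀ + 1)⁻¹ * e ≤ ‖b‖ ^ 2 := by
        rw [inv_mul_le_iff₀ hD]
        exact hup
      have k2 : ‖b‖ ^ 2 ≤ c₀⁻¹ * e := by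
        rw [le_inv_mul_iff₀ hc₀]
        exact hlow'
      have k3 := mul_le_mul_of_nonneg_left k1 (p₁ y)
      have k4 := mul_le_mul_of_nonneg_left k2 (p₂ y)
      have k5 := hle y b
      have k6 : g y = (2 * C₀ + 1)⁻¹ * g₁ y - c₀⁻¹ * g₂ y := rfl
      rw [k6]
      nlinarith
  have h0 := hT.pos _ (s.cont_glob i (hθ.sub hgF)) (s.pos_glob i hpos)
  rw [map_sub, map_sub, ← s.glob0_smul i g, hT.trace _ (s.continuous_glob0 i hg),
    ← s.integral_lm μ i hg.1.measurable] at h0
  have hi : ∫ y, g y ∂s.lm μ i =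
      (2 * C₀ + 1)⁻¹ * ∫ y, g₁ y ∂s.lm μ i - c₀⁻¹ * ∫ y, g₂ y ∂s.lm μ i := by
    rw [← integral_const_mul, ← integral_const_mul, ← integral_sub
      ((hg₁.integrable _).const_mul _) ((hg₂.integrable _).const_mul _)]
    rfl
  rw [hi] at h0
  have h1 : s.lf T i θ = T (s.glob i θ) := rfl
  rw [h1]
  linarith

/-- `‖φ‖` is dominated by a multiple of `F` (`Tame.pos_add`), so `C |f| F ± f φ` is `Pos`. -/
theorem PosCur.abs_le {s : Setup X} (h : s.Tame om) {T : GF X} {μ : Measure X}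
    (hT : s.PosCur (s.ppF om) T μ) {φ : Form X} (hφ : s.Cont φ) : ∃ C : ℝ, 0 ≤ C ∧
      ∀ f : X → ℝ, Continuous f → |T fun x => f x • φ x| ≤ C * ∫ x, |f x| ∂μ := by
  obtain ⟨C, hC, hb⟩ := h.pos_add
  obtain ⟨hp, hm⟩ := hb φ hφ
  have hF : s.Cont (s.ppF om) := h.smooth.cont.ppF
  have hsn : 0 ≤ s.sn 0 φ := Finset.sum_nonneg fun j _ => Ck_nonneg _ _
  set D := C * s.sn 0 φ with hD
  refine ⟨D, mul_nonneg hC hsn, fun f hf => ?_⟩
  have hc : Continuous fun x => D * |f x| := continuous_const.mul hf.abs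
  have hA := hF.fun_smul hc
  have hB := hφ.fun_smul hf
  have htr := hT.trace _ hc
  rw [integral_const_mul] at htr
  have key : ∀ x b, |f x * ev (φ x) b (s.J x b)| ≤
      D * |f x| * ev (s.ppF om x) b (s.J x b) := by
    intro x b
    have h1 := hp x b
    have h2 := hm x b
    rw [Pi.add_apply, ev_add, Pi.smul_apply, ev_smul] at h1
    rw [Pi.sub_apply, ev_sub, Pi.smul_apply, ev_smul] at h2
    have h3 : |ev (φ x) b (s.J x b)| ≤ D * ev (s.ppF om x) b (s.J x b) :=
      _root_.abs_le.2 ⟨by linarith, by linarith⟩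
    rw [abs_mul]
    have h4 := mul_le_mul_of_nonneg_left h3 (abs_nonneg (f x))
    linarith
  have h1 := hT.pos _ (hA.add hB) fun x b => by
    rw [Pi.add_apply, ev_add, ev_smul, ev_smul]
    have := (_root_.abs_le.1 (key x b)).1
    linarith
  have h2 := hT.pos _ (hA.sub hB) fun x b => by
    rw [Pi.sub_apply, ev_sub, ev_smul, ev_smul]
    have := (_root_.abs_le.1 (key x b)).2
    linarith
  rw [map_add, htr] at h1
  rw [map_sub, htr] at h2
  exact _root_.abs_le.2 ⟨by linarith, by linarith⟩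


end Setup

end Vale.Agent.P204
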