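import Vale.Agent.P204.RegLemma
import Vale.Agent.P204.Meas
import Vale.Agent.P204.KregEst
import Vale.Agent.P204.LogNrm

/-! The anti-invariant part is square integrable and the positive part has bounded density. -/

open scoped ContDiff RealInnerProductSpace Topology
open MeasureTheory Metric

namespace Vale.Agent.P204

universe u

namespace Setup

variable {X : Type u} [TopologicalSpace X] [T2Space X] [CompactSpace X]
  [SecondCountableTopology X] [MeasurableSpace X] [BorelSpace X] (s : Setup X)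

variable {s} {M : ℝ → Form X → Form X} {K : Fin s.m → ℝ × E × E → W →L[ℝ] W} {R N ε₀ : ℝ}
  {om : Form X} {T α : GF X} {μ : Measure X} {b : ℝ}

/-- `e = glob i (d1 (logP ..))` is in `Ex` (`Mo.ex_of_test`, `test_logP`), so smooth and closed;
`T e = - α e`; `AntiF`, `nrm_logP_le`, `LocPos.dens_le`. -/
theorem dens_le_of_LBd (h : s.Tame om) (hT : s.PosCur (s.ppF om) T μ)
    (hZ : ∀ σ, s.Smooth σ → s.Closed σ → T σ + α σ = 0)
    (hα : ∀ φ, s.Smooth φ → |α φ| ≤ b * s.sn 5 (s.pmF φ)) (n : ℕ) : ∃ C : ℝ, 0 ≤ C ∧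
    ∀ ε ∈ Set.Ioc (0 : ℝ) 1, ∀ a : ℝ, 0 ≤ a → ∀ i, LBd n (s.lf α i) ε 2 a →
      ∀ z ∈ closedBall (0 : E) (3 / 2), dens (s.lm μ i) z ε ≤ C * (1 + a) := by
  obtain ⟨c, C, hloc⟩ := h.locPos
  have h1 : ∀ i, ∃ C' : ℝ, 0 ≤ C' ∧ ∀ ε ∈ Set.Ioc (0 : ℝ) 1, ∀ a : ℝ, 0 ≤ a →
      LBd n (s.lf α i) ε 2 a →
      ∀ z ∈ closedBall (0 : E) (3 / 2), dens (s.lm μ i) z ε ≤ C' * (1 + a) := by
    intro i
    obtain ⟨C₁, hC₁, hd⟩ := (hloc T μ hT i).dens_le (s.good i)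
    obtain ⟨C₂, hC₂, hn⟩ := nrm_logP_le (s.good i) n
    refine ⟨C₁ * (1 + C₂), by positivity, fun ε hε a ha hL z hz => ?_⟩
    have hz' : ‖z‖ ≤ 3 / 2 := by simpa using hz
    have hz5 : z ∈ closedBall (0 : E) 5 := by
      rw [mem_closedBall_zero_iff]; linarith
    have ht : Test 2 (logP (s.Jl i) z ε) :=
      (test_logP (s.good i) z hε.1).mono (by linarith)
    have hex := s.ex_smooth_closed (Mo.ex_of_test s i (ht.mono (by norm_num)))
    have hTα : s.lf T i (d1 (logP (s.Jl i) z ε)) = -s.lf α i (d1 (logP (s.Jl i) z ε)) := by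
      have := hZ _ hex.1 hex.2
      simp only [lf, LinearMap.comp_apply]
      linarith
    have hanti := s.antiF_of_sn_pm hα i _ (ht.d1.mono (by norm_num : (2 : ℝ) ≤ 7))
    have hb := hL _ (ht.d1.clm_apply (s.good i).contDiff_pm)
    have hn' := hn z hz5 ε hε
    have h2 : |s.lf T i (d1 (logP (s.Jl i) z ε))| ≤ a * C₂ := by
      rw [hTα, abs_neg, hanti]
      exact hb.trans (mul_le_mul_of_nonneg_left hn' ha)
    refine (hd z hz5 ε hε).trans ?_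
    have : 1 + |s.lf T i (d1 (logP (s.Jl i) z ε))| ≤ (1 + C₂) * (1 + a) := by nlinarith
    calc C₁ * (1 + |s.lf T i (d1 (logP (s.Jl i) z ε))|) ≤ C₁ * ((1 + C₂) * (1 + a)) :=
          mul_le_mul_of_nonneg_left this hC₁
      _ = _ := by ring
  choose C' hC' hb using h1
  refine ⟨∑ i, C' i, Finset.sum_nonneg fun i _ => hC' i, fun ε hε a ha i hL z hz => ?_⟩
  refine (hb i ε hε a ha hL z hz).trans ?_
  exact mul_le_mul_of_nonneg_right
    (Finset.single_le_sum (fun j _ => hC' j) (Finset.mem_univ i)) (by linarith)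

/-- The regularisation of `T` is dominated in terms of the bound for `α`. -/
theorem Moll.dom_T (hM : s.Moll M K R N ε₀) (h : s.Tame om) (hT : s.PosCur (s.ppF om) T μ)
    (hZ : ∀ σ, s.Smooth σ → s.Closed σ → T σ + α σ = 0)
    (hα : ∀ φ, s.Smooth φ → |α φ| ≤ b * s.sn 5 (s.pmF φ)) (n : ℕ) : ∃ C : ℝ, 0 ≤ C ∧
    ∀ ε ∈ Set.Ioo 0 ε₀, ∀ a : ℝ, 0 ≤ a → (∀ i, LBd n (s.lf α i) ε 2 a) →
      s.Dom K T ε (C * Real.sqrt (1 + a)) := by
  obtain ⟨c, C, hloc⟩ := h.locPos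
  obtain ⟨Cd, hCd, hd⟩ := dens_le_of_LBd h hT hZ hα n
  have h1 : ∀ i, ∃ C' : ℝ, 0 ≤ C' ∧ ∀ ε ∈ Set.Ioo 0 ε₀, ∀ a : ℝ, 0 ≤ a →
      LBd n (s.lf α i) ε 2 a → ∃ g : E → ℝ, Continuous g ∧ (∀ x, 0 ≤ g x) ∧
      ∫ x in closedBall (0 : E) 1, g x ^ 2 ≤ (C' * Real.sqrt (1 + a)) ^ 2 ∧
      ∀ x ∈ closedBall (0 : E) 1,
        ‖kreg (K i) (s.lf T i) ε x‖ ≤ ε⁻¹ * g x ∧
        ‖pm (s.Jl i x) (kreg (K i) (s.lf T i) ε x)‖ ≤ g x ∧
        -g x ^ 2 ≤ wedge (kreg (K i) (s.lf T i) ε x) (kreg (K i) (s.lf T i) ε x) := by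
    intro i
    have hk := hM.ker i
    have hl := hloc T μ hT i
    have := hl.fin
    obtain ⟨C₁, hC₁, he⟩ := hk.kreg_est (s.good i) hl
    obtain ⟨C₂, hC₂, hE⟩ := En_le hk.Rpos
    have hm : 0 ≤ (s.lm μ i).real Set.univ := measureReal_nonneg
    refine ⟨C₁ * Real.sqrt (C₂ * Cd * (s.lm μ i).real Set.univ), by positivity,
      fun ε hε a ha hL => ⟨fun x => C₁ * (ε⁻¹ * lam (s.lm μ i) R ε x), ?_, ?_, ?_, ?_⟩⟩
    · exact continuous_const.mul (continuous_const.mul (continuous_lam _ R ε))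
    · intro x
      have := lam_nonneg (s.lm μ i) R ε x
      have := hε.1
      positivity
    · have hε1 : ε ∈ Set.Ioc (0 : ℝ) 1 := ⟨hε.1, by have := hk.eps_le_one; linarith [hε.2]⟩
      have h3 := hE (s.lm μ i) ε (Cd * (1 + a)) hε.1 (hk.R_mul_le hε) (hd ε hε1 a ha i hL)
      have hcont : Continuous fun x => (ε⁻¹ * lam (s.lm μ i) R ε x) ^ 2 :=
        (continuous_const.mul (continuous_lam _ R ε)).pow 2
      have h4 : ∫ x in closedBall (0 : E) 1, (ε⁻¹ * lam (s.lm μ i) R ε x) ^ 2 ≤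
          En (s.lm μ i) R ε := by
        refine setIntegral_mono_set
          (hcont.continuousOn.integrableOn_compact (isCompact_closedBall _ _))
          (Filter.Eventually.of_forall fun x => sq_nonneg _) ?_
        exact (closedBall_subset_closedBall (by norm_num)).eventuallyLE
      simp_rw [mul_pow C₁]
      rw [integral_const_mul, mul_pow, mul_pow, Real.sq_sqrt (by positivity),
        Real.sq_sqrt (by linarith), mul_assoc]
      refine mul_le_mul_of_nonneg_left (h4.trans (h3.trans (le_of_eq ?_))) (sq_nonneg _)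
      ring
    · intro x _
      exact he ε hε x
  choose C' hC' hb using h1
  refine ⟨∑ i, C' i, Finset.sum_nonneg fun i _ => hC' i, fun ε hε a ha hL => ⟨fun i => ?_⟩⟩
  obtain ⟨g, g1, g2, g3, g4⟩ := hb i ε hε a ha (hL i)
  refine ⟨g, g1, g2, g3.trans ?_, g4⟩
  have h5 : C' i ≤ ∑ j, C' j := Finset.single_le_sum (fun j _ => hC' j) (Finset.mem_univ i)
  have h6 := hC' i
  have h7 := Real.sqrt_nonneg (1 + a)
  gcongr

/-- `boot` with `k = 10`, `p = 0`, `n = 11`. In the step, `kreg_est`, `En_le` and `dens_le_of_LBd`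
give `Dom K T ε β` with `h = C' ε⁻¹ lam`, `β = C sqrt (1 + a) ≤ C + C² / κ² + κ² a`; use
`Moll.step`. Then `abs_le_nL2_of_LBd`, and `LBd_of_nL2` with `dens_le_of_LBd`.
The case `s.m = 0` is trivial. -/
theorem Moll.alpha_L2 (hM : s.Moll M K R N ε₀) (h : s.Tame om) (hT : s.PosCur (s.ppF om) T μ)
    (hZ : ∀ σ, s.Smooth σ → s.Closed σ → T σ + α σ = 0)
    (hα : ∀ φ, s.Smooth φ → |α φ| ≤ b * s.sn 5 (s.pmF φ)) : ∃ A₀ D : ℝ, 0 ≤ A₀ ∧
    (∀ i θ, Test 2 θ → |s.lf α i θ| ≤ A₀ * nL2 θ) ∧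
      ∀ i, ∀ ε ∈ Set.Ioc (0 : ℝ) 1, ∀ z ∈ closedBall (0 : E) (3 / 2),
        dens (s.lm μ i) z ε ≤ D := by
  rcases isEmpty_or_nonempty (Fin s.m) with hm | ⟨⟨i₀⟩⟩
  · exact ⟨0, 0, le_rfl, fun i => (IsEmpty.false i).elim, fun i => (IsEmpty.false i).elim⟩
  obtain ⟨c, C, hloc⟩ := h.locPos
  have hk := hM.ker i₀
  have hR := hk.Rpos
  have hε₀ := hk.epos
  obtain ⟨Cs, hCs, ε₁, hε₁, hstep⟩ := hM.step 11
  obtain ⟨Cd, hCd, hdom⟩ := hM.dom_T h hT hZ hα 11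
  obtain ⟨Ce, hCe, hdens⟩ := dens_le_of_LBd h hT hZ hα 11
  have hDα : ∀ i, DistBd 5 (s.lf α i) := fun i => s.distBd_of_sn_pm hα i
  have hDT : ∀ i, DistBd 5 (s.lf T i) := fun i => (hloc T μ hT i).distBd (s.good i) 5
  have hA : ∀ i, AntiF (s.Jl i) (s.lf α i) := fun i => s.antiF_of_sn_pm hα i
  choose C₀ hC₀ h0 using fun i => (hDα i).lBd (n := 11) (by norm_num)
  set lam' : ℝ := 8 * Cs + 2 with hlam
  have hl2 : 2 ≤ lam' := by linarith
  have hl0 : 0 < lam' := by linarith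
  set κ : ℝ := (lam' ^ 11)⁻¹ with hκ
  have hκ0 : 0 < κ := by positivity
  have hl11 : 1 ≤ lam' ^ 11 := one_le_pow₀ (by linarith)
  have hκ1 : κ ≤ 1 := inv_le_one_of_one_le₀ hl11
  set t₀ : ℝ := min (min (ε₁ / 2) (ε₀ / 2)) (min κ (1 / (11 * R + 1))) with ht₀
  have ht₀0 : 0 < t₀ := by positivity
  have t1 : t₀ ≤ ε₁ / 2 := (min_le_left _ _).trans (min_le_left _ _)
  have t2 : t₀ ≤ ε₀ / 2 := (min_le_left _ _).trans (min_le_right _ _)
  have t3 : t₀ ≤ κ := (min_le_right _ _).trans (min_le_left _ _)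
  have t4 : t₀ ≤ 1 / (11 * R + 1) := (min_le_right _ _).trans (min_le_right _ _)
  have hq : 4 * Cs * κ * lam' ^ 10 ≤ 1 / 2 := by
    have e : κ * lam' ^ 10 = lam'⁻¹ := by
      rw [hκ]; field_simp
    rw [mul_assoc, e, ← div_eq_mul_inv, div_le_iff₀ hl0]
    linarith
  have hq0 : 4 * Cs * κ * lam' ^ 0 ≤ 1 / 2 := by
    refine le_trans ?_ hq
    have : lam' ^ 0 ≤ lam' ^ 10 := pow_le_pow_right₀ (by linarith) (by norm_num)
    gcongr
  have key := boot (fun t r a => ∀ i, LBd 11 (s.lf α i) t r a) 10 0 (t₀ := t₀) (c := 11 * R)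
    (C₀ := ∑ i, C₀ i) (C₁ := Cs * (Cd / κ + Cd ^ 2 / κ ^ 3)) (q := 4 * Cs * κ) (lam := lam')
    ht₀0 (by positivity)
    (by
      rw [le_div_iff₀ (by positivity)] at t4
      nlinarith)
    hl2 (by positivity) (Finset.sum_nonneg fun i _ => hC₀ i) (by positivity) hq hq0
    (fun t r r' a hr H i => (H i).mono_r hr)
    (fun t r a a' ht ha H i => (H i).mono_a ht.le ha)
    (fun t r a H i => LBd.of_forall fun η hη => H η hη i)
    (fun t ht i => by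
      have ht1 : t ∈ Set.Ioc (0 : ℝ) 1 := ⟨ht.1, ht.2.trans (t3.trans hκ1)⟩
      refine (h0 i t ht1).mono_a ht.1.le ?_
      have := ht.1
      have h5 : C₀ i ≤ ∑ j, C₀ j := Finset.single_le_sum (fun j _ => hC₀ j) (Finset.mem_univ i)
      gcongr)
    (fun ε hε r a hr hr3 ha H i => by
      have hε0 := hε.1
      have hεI : ε ∈ Set.Ioo 0 ε₀ := ⟨hε.1, by linarith [hε.2]⟩
      have hL2 : ∀ j, LBd 11 (s.lf α j) ε 2 a := fun j =>
        (H j).mono_r (by nlinarith [mul_nonneg hR hε0.le])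
      have hs := hstep 5 T α hDT hDα hA hZ ε ⟨hε.1, by linarith [hε.2]⟩ hεI.2
        (Cd * Real.sqrt (1 + a)) a lam' κ r (by positivity) ha (by linarith) hκ0 hκ1 hr
        (by simpa using hr3) (hdom ε hεI a ha hL2) (by simpa using H) i
      refine hs.mono_a (by positivity) ?_
      have hsq : Real.sqrt (1 + a) ≤ 1 + Real.sqrt a := by
        rw [Real.sqrt_le_left (by positivity)]
        nlinarith [Real.sq_sqrt ha, Real.sqrt_nonneg a]
      have hy : Cd * Real.sqrt a ≤ Cd ^ 2 / κ ^ 2 + κ ^ 2 * a := by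
        have e1 : Cd * Real.sqrt a = (Cd / κ) * (κ * Real.sqrt a) := by field_simp
        have e2 : κ ^ 2 * a = (κ * Real.sqrt a) ^ 2 := by rw [mul_pow, Real.sq_sqrt ha]
        rw [e1, e2, ← div_pow]
        nlinarith [sq_nonneg (Cd / κ - κ * Real.sqrt a), sq_nonneg (Cd / κ),
          sq_nonneg (κ * Real.sqrt a)]
      have hβ : Cd * Real.sqrt (1 + a) / κ ≤ Cd / κ + Cd ^ 2 / κ ^ 3 + κ * a := by
        rw [div_le_iff₀ hκ0]
        have e3 : (Cd / κ + Cd ^ 2 / κ ^ 3 + κ * a) * κ = Cd + (Cd ^ 2 / κ ^ 2 + κ ^ 2 * a) := by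
          field_simp
          ring
        rw [e3]
        nlinarith [mul_le_mul_of_nonneg_left hsq hCd]
      have hεκ : ε * a ≤ κ * a := mul_le_mul_of_nonneg_right (hε.2.trans t3) ha
      rw [pow_zero, inv_one, mul_one, ← hκ]
      have : Cd * Real.sqrt (1 + a) / κ + (κ + ε + κ) * a ≤
          (Cd / κ + Cd ^ 2 / κ ^ 3) + 4 * κ * a := by nlinarith
      calc Cs * (Cd * Real.sqrt (1 + a) / κ + (κ + ε + κ) * a)
          ≤ Cs * ((Cd / κ + Cd ^ 2 / κ ^ 3) + 4 * κ * a) := mul_le_mul_of_nonneg_left this hCs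
        _ = _ := by ring)
  set A₀ : ℝ := 2 * (Cs * (Cd / κ + Cd ^ 2 / κ ^ 3)) with hA₀
  have hA0 : 0 ≤ A₀ := by positivity
  have hL2 : ∀ i θ, Test 2 θ → |s.lf α i θ| ≤ A₀ * nL2 θ := fun i θ hθ =>
    abs_le_nL2_of_LBd (n := 11) ht₀0 (fun t ht => by simpa using key t ht i) θ hθ
  exact ⟨A₀, Ce * (1 + A₀), hA0, hL2, fun i ε hε z hz =>
    hdens ε hε A₀ hA0 i (LBd_of_nL2 hε.1.le hA0 (hL2 i)) z hz⟩

end Setup

end Vale.Agent.P204
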