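import Mathlib

/-! Pointwise linear algebra on `ℝ⁴`: two-forms in coordinates. -/

open scoped ContDiff

namespace Vale.Agent.P204

/-- The model space. -/
abbrev E : Type := EuclideanSpace ℝ (Fin 4)

/-- Two-forms on `E`, by their coefficients `01, 02, 03, 12, 13, 23`. -/
abbrev W : Type := EuclideanSpace ℝ (Fin 6)

/-- The standard basis of `E`. -/
noncomputable def eb (i : Fin 4) : E := EuclideanSpace.single i 1

/-- Evaluation of a two-form on two vectors. -/
def ev (θ : W) (u v : E) : ℝ :=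
  θ 0 * (u 0 * v 1 - u 1 * v 0) + θ 1 * (u 0 * v 2 - u 2 * v 0) + θ 2 * (u 0 * v 3 - u 3 * v 0) +
    θ 3 * (u 1 * v 2 - u 2 * v 1) + θ 4 * (u 1 * v 3 - u 3 * v 1) + θ 5 * (u 2 * v 3 - u 3 * v 2)

/-- The two-form with the given values on pairs of basis vectors. -/
noncomputable def mk (f : E → E → ℝ) : W :=
  !₂[f (eb 0) (eb 1), f (eb 0) (eb 2), f (eb 0) (eb 3), f (eb 1) (eb 2), f (eb 1) (eb 3),
    f (eb 2) (eb 3)]

/-- Pull-back of two-forms by a linear map. -/
noncomputable def pull (L : E →L[ℝ] E) : W →L[ℝ] W :=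
  LinearMap.toContinuousLinearMap
    { toFun := fun θ => mk fun u v => ev θ (L u) (L v)
      map_add' := fun a b => by
        ext i; fin_cases i <;> simp [mk, ev] <;> ring
      map_smul' := fun t a => by
        ext i; fin_cases i <;> simp [mk, ev] <;> ring }

/-- The Euclidean Hodge star on two-forms. -/
noncomputable def hstar : W →L[ℝ] W :=
  LinearMap.toContinuousLinearMap
    { toFun := fun θ => !₂[θ 5, -θ 4, θ 3, θ 2, -θ 1, θ 0]
      map_add' := fun a b => by
        ext i; fin_cases i <;> simp <;> ring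
      map_smul' := fun t a => by
        ext i; fin_cases i <;> simp }

/-- The wedge product of two two-forms, as a multiple of the volume form. -/
def wedge (a b : W) : ℝ :=
  a 0 * b 5 - a 1 * b 4 + a 2 * b 3 + a 3 * b 2 - a 4 * b 1 + a 5 * b 0

/-- The standard complex structure. -/
noncomputable def J0 : E →L[ℝ] E :=
  LinearMap.toContinuousLinearMap
    { toFun := fun u => !₂[-u 1, u 0, -u 3, u 2]
      map_add' := fun a b => by
        ext i; fin_cases i <;> simp <;> ring
      map_smul' := fun t a => by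
        ext i; fin_cases i <;> simp }

/-- The standard symplectic form. -/
noncomputable def om0 : W := !₂[1, 0, 0, 0, 0, 1]

/-- Projection to the `J`-invariant two-forms. -/
noncomputable def pp (J : E →L[ℝ] E) : W →L[ℝ] W :=
  (1 / 2 : ℝ) • (ContinuousLinearMap.id ℝ W + pull J)

/-- Projection to the `J`-anti-invariant two-forms. -/
noncomputable def pm (J : E →L[ℝ] E) : W →L[ℝ] W :=
  (1 / 2 : ℝ) • (ContinuousLinearMap.id ℝ W - pull J)

/-- Wedge product of two one-forms. -/
noncomputable def w11 (p q : E →L[ℝ] ℝ) : W := mk fun u v => p u * q v - p v * q u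

/-- The two-form `vol(a, b, ·, ·)`. -/
noncomputable def zeta (a b : E) : W :=
  !₂[a 2 * b 3 - a 3 * b 2, -(a 1 * b 3 - a 3 * b 1), a 1 * b 2 - a 2 * b 1,
    a 0 * b 3 - a 3 * b 0, -(a 0 * b 2 - a 2 * b 0), a 0 * b 1 - a 1 * b 0]

/-- The determinant of four vectors. -/
noncomputable def vol4 (a b c d : E) : ℝ := ev (zeta a b) c d

/-- A complex structure close to the standard one. -/
def Near (J : E →L[ℝ] E) : Prop := (∀ v, J (J v) = -v) ∧ ‖J - J0‖ ≤ 1 / 100

/-- The map `(1 - J0 J) / 2`, which intertwines `J` and `J0`. -/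
noncomputable def Aop (J : E →L[ℝ] E) : E →L[ℝ] E :=
  (1 / 2 : ℝ) • (ContinuousLinearMap.id ℝ E - J0 ∘L J)

/-- Exterior derivative of a one-form. -/
noncomputable def d1 (a : E → E →L[ℝ] ℝ) (y : E) : W :=
  mk fun u v => fderiv ℝ a y u v - fderiv ℝ a y v u

/-- The exterior derivative of the two-form `θ` vanishes at `y`. -/
def ClosedAt (θ : E → W) (y : E) : Prop :=
  ∀ u v w, ev (fderiv ℝ θ y u) v w + ev (fderiv ℝ θ y v) w u + ev (fderiv ℝ θ y w) u v = 0

/-- A smooth bump: `1` on `closedBall 0 a`, `0` outside `ball 0 b` (for `0 ≤ a < b`). -/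
noncomputable def bp (a b : ℝ) (y : E) : ℝ :=
  Real.smoothTransition ((b ^ 2 - ‖y‖ ^ 2) / (b ^ 2 - a ^ 2))

/-- Smooth and zero outside `closedBall 0 r`. -/
def Test {F : Type} [NormedAddCommGroup F] [NormedSpace ℝ F] (r : ℝ) (θ : E → F) : Prop :=
  ContDiff ℝ ∞ θ ∧ ∀ y, r < ‖y‖ → θ y = 0

/-- Continuous and zero outside `closedBall 0 r`. -/
def CTest {F : Type} [NormedAddCommGroup F] (r : ℝ) (θ : E → F) : Prop :=
  Continuous θ ∧ ∀ y, r < ‖y‖ → θ y = 0

/-- A smooth almost complex structure on `E`, close to `J0`, equal to `J0` far away. -/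
structure GoodJ (J : E → E →L[ℝ] E) : Prop where
  smooth : ContDiff ℝ ∞ J
  near : ∀ y, Near (J y)
  far : ∀ y, 11 < ‖y‖ → J y = J0

end Vale.Agent.P204
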