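import Vale.Agent.P204.Alg

/-! Basic algebra of two-forms in coordinates. All proofs are coordinate computations
(`simp [ev, mk, ...]; ring`, `EuclideanSpace.norm_eq`, `Fin.sum_univ_succ`). -/

open scoped ContDiff RealInnerProductSpace
open MeasureTheory Metric

namespace Vale.Agent.P204

namespace Alg1Aux

theorem mk0 (f : E → E → ℝ) : mk f 0 = f (eb 0) (eb 1) := rfl
theorem mk1 (f : E → E → ℝ) : mk f 1 = f (eb 0) (eb 2) := rfl
theorem mk2 (f : E → E → ℝ) : mk f 2 = f (eb 0) (eb 3) := rfl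
theorem mk3 (f : E → E → ℝ) : mk f 3 = f (eb 1) (eb 2) := rfl
theorem mk4 (f : E → E → ℝ) : mk f 4 = f (eb 1) (eb 3) := rfl
theorem mk5 (f : E → E → ℝ) : mk f 5 = f (eb 2) (eb 3) := rfl
theorem hs0 (a : W) : hstar a 0 = a 5 := rfl
theorem hs1 (a : W) : hstar a 1 = -a 4 := rfl
theorem hs2 (a : W) : hstar a 2 = a 3 := rfl
theorem hs3 (a : W) : hstar a 3 = a 2 := rfl
theorem hs4 (a : W) : hstar a 4 = -a 1 := rfl
theorem hs5 (a : W) : hstar a 5 = a 0 := rfl
theorem z0 (a b : E) : zeta a b 0 = a 2 * b 3 - a 3 * b 2 := rfl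
theorem z1 (a b : E) : zeta a b 1 = -(a 1 * b 3 - a 3 * b 1) := rfl
theorem z2 (a b : E) : zeta a b 2 = a 1 * b 2 - a 2 * b 1 := rfl
theorem z3 (a b : E) : zeta a b 3 = a 0 * b 3 - a 3 * b 0 := rfl
theorem z4 (a b : E) : zeta a b 4 = -(a 0 * b 2 - a 2 * b 0) := rfl
theorem z5 (a b : E) : zeta a b 5 = a 0 * b 1 - a 1 * b 0 := rfl
theorem j0 (u : E) : J0 u 0 = -u 1 := rfl
theorem j1 (u : E) : J0 u 1 = u 0 := rfl
theorem j2 (u : E) : J0 u 2 = -u 3 := rfl
theorem j3 (u : E) : J0 u 3 = u 2 := rfl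

theorem normE (u : E) : ‖u‖ ^ 2 = u 0 ^ 2 + u 1 ^ 2 + u 2 ^ 2 + u 3 ^ 2 := by
  rw [EuclideanSpace.real_norm_sq_eq, Fin.sum_univ_four]

theorem normW (a : W) :
    ‖a‖ ^ 2 = a 0 ^ 2 + a 1 ^ 2 + a 2 ^ 2 + a 3 ^ 2 + a 4 ^ 2 + a 5 ^ 2 := by
  rw [EuclideanSpace.real_norm_sq_eq, Fin.sum_univ_six]

theorem innerE (u v : E) : ⟪u, v⟫ = u 0 * v 0 + u 1 * v 1 + u 2 * v 2 + u 3 * v 3 := by
  simp only [PiLp.inner_apply, Fin.sum_univ_four, RCLike.inner_apply, conj_trivial]; ring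

theorem innerW (a b : W) :
    ⟪a, b⟫ = a 0 * b 0 + a 1 * b 1 + a 2 * b 2 + a 3 * b 3 + a 4 * b 4 + a 5 * b 5 := by
  simp only [PiLp.inner_apply, Fin.sum_univ_six, RCLike.inner_apply, conj_trivial]; ring

theorem sum_eb (u : E) : u = u 0 • eb 0 + u 1 • eb 1 + u 2 • eb 2 + u 3 • eb 3 := by
  ext i; fin_cases i <;> simp [eb]

theorem clm_coord (M : E →L[ℝ] E) (u : E) (i : Fin 4) :
    M u i = u 0 * M (eb 0) i + u 1 * M (eb 1) i + u 2 * M (eb 2) i + u 3 * M (eb 3) i := by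
  conv_lhs => rw [sum_eb u]
  simp only [map_add, map_smul, PiLp.add_apply, PiLp.smul_apply, smul_eq_mul]

theorem norm_eb' (i : Fin 4) : ‖eb i‖ = 1 := by simp [eb]

theorem norm_apply_eb {F : Type} [NormedAddCommGroup F] [NormedSpace ℝ F] (L : E →L[ℝ] F)
    (i : Fin 4) : ‖L (eb i)‖ ≤ ‖L‖ := L.unit_le_opNorm _ (norm_eb' i).le

theorem norm_hstar' (a : W) : ‖hstar a‖ = ‖a‖ := by
  refine (pow_left_inj₀ (norm_nonneg _) (norm_nonneg _) two_ne_zero).1 ?_
  rw [normW, normW, hs0, hs1, hs2, hs3, hs4, hs5]; ring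

theorem norm_zeta_le' (a b : E) : ‖zeta a b‖ ≤ ‖a‖ * ‖b‖ := by
  refine (pow_le_pow_iff_left₀ (norm_nonneg _) (by positivity) two_ne_zero).1 ?_
  rw [mul_pow, normW, normE, normE, z0, z1, z2, z3, z4, z5]
  nlinarith [sq_nonneg (a 0 * b 0 + a 1 * b 1 + a 2 * b 2 + a 3 * b 3)]

theorem ev_eq_inner (a : W) (u v : E) : ev a u v = ⟪a, hstar (zeta u v)⟫ := by
  rw [innerW, hs0, hs1, hs2, hs3, hs4, hs5, z0, z1, z2, z3, z4, z5, ev]; ring

theorem toMatrix_eq (L : E →L[ℝ] E) :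
    LinearMap.toMatrix (EuclideanSpace.basisFun (Fin 4) ℝ).toBasis
      (EuclideanSpace.basisFun (Fin 4) ℝ).toBasis (L : E →ₗ[ℝ] E) =
      Matrix.of fun i j => L (eb j) i := by
  ext i j
  simp [LinearMap.toMatrix_apply, eb]

theorem trace_eq (L : E →L[ℝ] E) : LinearMap.trace ℝ E (L : E →ₗ[ℝ] E) =
    L (eb 0) 0 + L (eb 1) 1 + L (eb 2) 2 + L (eb 3) 3 := by
  rw [LinearMap.trace_eq_matrix_trace ℝ (EuclideanSpace.basisFun (Fin 4) ℝ).toBasis, toMatrix_eq]
  simp [Matrix.trace, Fin.sum_univ_four]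

theorem det_eq (L : E →L[ℝ] E) : L.det =
    (L (eb 0) 0 * L (eb 1) 1 - L (eb 0) 1 * L (eb 1) 0) *
        (L (eb 2) 2 * L (eb 3) 3 - L (eb 2) 3 * L (eb 3) 2) -
      (L (eb 0) 0 * L (eb 1) 2 - L (eb 0) 2 * L (eb 1) 0) *
        (L (eb 2) 1 * L (eb 3) 3 - L (eb 2) 3 * L (eb 3) 1) +
      (L (eb 0) 0 * L (eb 1) 3 - L (eb 0) 3 * L (eb 1) 0) *
        (L (eb 2) 1 * L (eb 3) 2 - L (eb 2) 2 * L (eb 3) 1) +
      (L (eb 0) 1 * L (eb 1) 2 - L (eb 0) 2 * L (eb 1) 1) *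
        (L (eb 2) 0 * L (eb 3) 3 - L (eb 2) 3 * L (eb 3) 0) -
      (L (eb 0) 1 * L (eb 1) 3 - L (eb 0) 3 * L (eb 1) 1) *
        (L (eb 2) 0 * L (eb 3) 2 - L (eb 2) 2 * L (eb 3) 0) +
      (L (eb 0) 2 * L (eb 1) 3 - L (eb 0) 3 * L (eb 1) 2) *
        (L (eb 2) 0 * L (eb 3) 1 - L (eb 2) 1 * L (eb 3) 0) := by
  rw [ContinuousLinearMap.det, ← LinearMap.det_toMatrix (EuclideanSpace.basisFun (Fin 4) ℝ).toBasis,
    toMatrix_eq, Matrix.det_succ_row_zero]
  simp [Fin.sum_univ_four, Matrix.det_fin_three, Fin.succAbove]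
  ring

theorem contDiffAt_mk' {Y : Type} [NormedAddCommGroup Y] [NormedSpace ℝ Y] {n : WithTop ℕ∞}
    {f : Y → E → E → ℝ} {y : Y} (h : ∀ i j, ContDiffAt ℝ n (fun x => f x (eb i) (eb j)) y) :
    ContDiffAt ℝ n (fun x => mk (f x)) y := by
  refine contDiffAt_euclidean.2 fun i => ?_
  fin_cases i
  exacts [h 0 1, h 0 2, h 0 3, h 1 2, h 1 3, h 2 3]

end Alg1Aux

open Alg1Aux

theorem ev_add (a b : W) (u v : E) : ev (a + b) u v = ev a u v + ev b u v := by
  simp only [ev, PiLp.add_apply]; ring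
theorem ev_sub (a b : W) (u v : E) : ev (a - b) u v = ev a u v - ev b u v := by
  simp only [ev, PiLp.sub_apply]; ring
theorem ev_neg (a : W) (u v : E) : ev (-a) u v = -ev a u v := by
  simp only [ev, PiLp.neg_apply]; ring
theorem ev_smul (t : ℝ) (a : W) (u v : E) : ev (t • a) u v = t * ev a u v := by
  simp only [ev, PiLp.smul_apply, smul_eq_mul]; ring
theorem ev_zero (u v : E) : ev 0 u v = 0 := by
  simp [ev]
theorem ev_add_left (a : W) (u u' v : E) : ev a (u + u') v = ev a u v + ev a u' v := by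
  simp only [ev, PiLp.add_apply]; ring
theorem ev_add_right (a : W) (u v v' : E) : ev a u (v + v') = ev a u v + ev a u v' := by
  simp only [ev, PiLp.add_apply]; ring
theorem ev_smul_left (a : W) (t : ℝ) (u v : E) : ev a (t • u) v = t * ev a u v := by
  simp only [ev, PiLp.smul_apply, smul_eq_mul]; ring
theorem ev_smul_right (a : W) (t : ℝ) (u v : E) : ev a u (t • v) = t * ev a u v := by
  simp only [ev, PiLp.smul_apply, smul_eq_mul]; ring
theorem ev_neg_left (a : W) (u v : E) : ev a (-u) v = -ev a u v := by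
  simp only [ev, PiLp.neg_apply]; ring
theorem ev_neg_right (a : W) (u v : E) : ev a u (-v) = -ev a u v := by
  simp only [ev, PiLp.neg_apply]; ring
theorem ev_swap (a : W) (u v : E) : ev a u v = -ev a v u := by
  simp only [ev]; ring
theorem ev_self (a : W) (u : E) : ev a u u = 0 := by
  simp only [ev]; ring

/-- Expand `u, v` in the basis `eb`. -/
theorem ev_mk (f : E → E → ℝ) (hadd : ∀ u u' v, f (u + u') v = f u v + f u' v)
    (hsmul : ∀ (t : ℝ) u v, f (t • u) v = t * f u v) (hanti : ∀ u v, f u v = -f v u) (u v : E) :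
    ev (mk f) u v = f u v := by
  have hadd' : ∀ u v v', f u (v + v') = f u v + f u v' := fun u v v' => by
    rw [hanti, hadd, hanti v, hanti v']; ring
  have hsmul' : ∀ (t : ℝ) u v, f u (t • v) = t * f u v := fun t u v => by
    rw [hanti, hsmul, hanti v]; ring
  have h0 : ∀ u, f u u = 0 := fun u => by linarith [hanti u u]
  conv_rhs => rw [sum_eb u, sum_eb v]
  simp only [hadd, hadd', hsmul, hsmul', h0, ev, mk0, mk1, mk2, mk3, mk4, mk5]
  rw [hanti (eb 1) (eb 0), hanti (eb 2) (eb 0), hanti (eb 3) (eb 0), hanti (eb 2) (eb 1),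
    hanti (eb 3) (eb 1), hanti (eb 3) (eb 2)]
  ring
theorem mk_ev (a : W) : mk (ev a) = a := by
  ext i; fin_cases i <;> simp [mk, ev, eb]
theorem ext_ev {a b : W} (h : ∀ u v, ev a u v = ev b u v) : a = b := by
  rw [← mk_ev a, ← mk_ev b, show ev a = ev b from funext fun u => funext (h u)]
theorem ev_pull (L : E →L[ℝ] E) (a : W) (u v : E) : ev (pull L a) u v = ev a (L u) (L v) :=
  ev_mk (fun u v => ev a (L u) (L v)) (fun u u' v => by rw [map_add, ev_add_left])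
    (fun t u v => by rw [map_smul, ev_smul_left]) (fun _ _ => ev_swap _ _ _) u v
theorem pull_id : pull (ContinuousLinearMap.id ℝ E) = ContinuousLinearMap.id ℝ W :=
  ContinuousLinearMap.ext fun a => ext_ev fun u v => ev_pull _ a u v
theorem pull_comp (L L' : E →L[ℝ] E) (a : W) : pull (L ∘L L') a = pull L' (pull L a) :=
  ext_ev fun u v => by rw [ev_pull, ev_pull, ev_pull]; rfl
theorem ev_w11 (p q : E →L[ℝ] ℝ) (u v : E) : ev (w11 p q) u v = p u * q v - p v * q u :=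
  ev_mk (fun u v => p u * q v - p v * q u) (fun u u' v => by simp only [map_add]; ring)
    (fun t u v => by simp only [map_smul, smul_eq_mul]; ring) (fun _ _ => by ring) u v
theorem pull_w11 (L : E →L[ℝ] E) (p q : E →L[ℝ] ℝ) :
    pull L (w11 p q) = w11 (p ∘L L) (q ∘L L) :=
  ext_ev fun u v => by rw [ev_pull, ev_w11, ev_w11]; rfl

/-- Cauchy-Schwarz and Lagrange identity. -/
theorem abs_ev_le (a : W) (u v : E) : |ev a u v| ≤ ‖a‖ * ‖u‖ * ‖v‖ := by
  rw [ev_eq_inner, mul_assoc]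
  exact (abs_real_inner_le_norm _ _).trans
    (mul_le_mul_of_nonneg_left ((norm_hstar' _).trans_le (norm_zeta_le' u v)) (norm_nonneg _))
theorem norm_mk_le (f : E → E → ℝ) (M : ℝ) (h : ∀ i j, |f (eb i) (eb j)| ≤ M) :
    ‖mk f‖ ≤ 3 * M := by
  have hM : 0 ≤ M := (abs_nonneg _).trans (h 0 0)
  have h2 : ∀ i j, f (eb i) (eb j) ^ 2 ≤ M ^ 2 := fun i j => sq_le_sq' (abs_le.1 (h i j)).1
    (abs_le.1 (h i j)).2
  refine (pow_le_pow_iff_left₀ (norm_nonneg _) (by positivity) two_ne_zero).1 ?_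
  rw [normW, mk0, mk1, mk2, mk3, mk4, mk5]
  nlinarith [h2 0 1, h2 0 2, h2 0 3, h2 1 2, h2 1 3, h2 2 3, sq_nonneg M]
theorem norm_pull_le (L : E →L[ℝ] E) : ‖pull L‖ ≤ 3 * ‖L‖ ^ 2 := by
  refine ContinuousLinearMap.opNorm_le_bound _ (by positivity) fun a => ?_
  refine (norm_mk_le (fun u v => ev a (L u) (L v)) (‖a‖ * ‖L‖ * ‖L‖)
    fun i j => (abs_ev_le _ _ _).trans ?_).trans_eq (by ring)
  gcongr <;> exact norm_apply_eb L _
theorem norm_pull_sub_le (L L' : E →L[ℝ] E) :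
    ‖pull L - pull L'‖ ≤ 3 * (‖L‖ + ‖L'‖) * ‖L - L'‖ := by
  refine ContinuousLinearMap.opNorm_le_bound _ (by positivity) fun a => ?_
  rw [← mk_ev ((pull L - pull L') a)]
  refine (norm_mk_le _ (‖a‖ * ‖L - L'‖ * ‖L‖ + ‖a‖ * ‖L'‖ * ‖L - L'‖) fun i j => ?_).trans_eq
    (by ring)
  have e : ev ((pull L - pull L') a) (eb i) (eb j) =
      ev a ((L - L') (eb i)) (L (eb j)) + ev a (L' (eb i)) ((L - L') (eb j)) := by
    rw [sub_apply, ev_sub, ev_pull, ev_pull]
    simp only [ev, sub_apply, PiLp.sub_apply]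
    ring
  rw [e]
  refine (abs_add_le _ _).trans (add_le_add ((abs_ev_le _ _ _).trans ?_)
    ((abs_ev_le _ _ _).trans ?_)) <;> gcongr <;> exact norm_apply_eb _ _
theorem norm_w11_le (p q : E →L[ℝ] ℝ) : ‖w11 p q‖ ≤ 6 * ‖p‖ * ‖q‖ := by
  refine (norm_mk_le _ (‖p‖ * ‖q‖ + ‖p‖ * ‖q‖) fun i j => (abs_sub _ _).trans ?_).trans_eq
    (by ring)
  rw [abs_mul, abs_mul]
  gcongr
  exacts [norm_apply_eb p _, norm_apply_eb q _, norm_apply_eb p _, norm_apply_eb q _]
theorem norm_zeta_le (a b : E) : ‖zeta a b‖ ≤ ‖a‖ * ‖b‖ := norm_zeta_le' a b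
theorem norm_eb (i : Fin 4) : ‖eb i‖ = 1 := norm_eb' i

theorem wedge_comm (a b : W) : wedge a b = wedge b a := by
  simp only [wedge]; ring
theorem wedge_add_left (a a' b : W) : wedge (a + a') b = wedge a b + wedge a' b := by
  simp only [wedge, PiLp.add_apply]; ring
theorem wedge_add_right (a b b' : W) : wedge a (b + b') = wedge a b + wedge a b' := by
  simp only [wedge, PiLp.add_apply]; ring
theorem wedge_sub_left (a a' b : W) : wedge (a - a') b = wedge a b - wedge a' b := by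
  simp only [wedge, PiLp.sub_apply]; ring
theorem wedge_sub_right (a b b' : W) : wedge a (b - b') = wedge a b - wedge a b' := by
  simp only [wedge, PiLp.sub_apply]; ring
theorem wedge_smul_left (t : ℝ) (a b : W) : wedge (t • a) b = t * wedge a b := by
  simp only [wedge, PiLp.smul_apply, smul_eq_mul]; ring
theorem wedge_smul_right (t : ℝ) (a b : W) : wedge a (t • b) = t * wedge a b := by
  simp only [wedge, PiLp.smul_apply, smul_eq_mul]; ring
theorem wedge_zero_left (b : W) : wedge 0 b = 0 := by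
  simp [wedge]
theorem wedge_zero_right (a : W) : wedge a 0 = 0 := by
  simp [wedge]
theorem wedge_eq_inner (a b : W) : wedge a b = ⟪a, hstar b⟫ := by
  rw [innerW, hs0, hs1, hs2, hs3, hs4, hs5, wedge]; ring
theorem hstar_hstar (a : W) : hstar (hstar a) = a := by
  ext i; fin_cases i <;> simp [hs0, hs1, hs2, hs3, hs4, hs5]
theorem norm_hstar (a : W) : ‖hstar a‖ = ‖a‖ := norm_hstar' a
theorem wedge_hstar_self (a : W) : wedge a (hstar a) = ‖a‖ ^ 2 := by
  rw [wedge_eq_inner, hstar_hstar, real_inner_self_eq_norm_sq]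
theorem abs_wedge_le (a b : W) : |wedge a b| ≤ ‖a‖ * ‖b‖ := by
  rw [wedge_eq_inner, ← norm_hstar b]
  exact abs_real_inner_le_norm _ _
theorem wedge_zeta (a : W) (u v : E) : wedge a (zeta u v) = ev a u v := by
  rw [wedge_eq_inner, ev_eq_inner]
theorem ext_wedge {a b : W} (h : ∀ w, wedge a w = wedge b w) : a = b :=
  ext_ev fun u v => by rw [← wedge_zeta, ← wedge_zeta, h]
/-- Write the determinant through `LinearMap.det_toLin` or `LinearMap.det_eq_det_toMatrix_of_finset`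
in the basis `EuclideanSpace.basisFun`, expand the 4 by 4 determinant, `ring`. -/
theorem wedge_pull (L : E →L[ℝ] E) (a b : W) :
    wedge (pull L a) (pull L b) = L.det * wedge a b := by
  rw [det_eq]
  change wedge (mk fun u v => ev a (L u) (L v)) (mk fun u v => ev b (L u) (L v)) = _
  simp only [wedge, mk0, mk1, mk2, mk3, mk4, mk5, ev]
  ring

theorem J0_J0 (u : E) : J0 (J0 u) = -u := by
  ext i; fin_cases i <;> simp [j0, j1, j2, j3]
theorem norm_J0_apply (u : E) : ‖J0 u‖ = ‖u‖ := by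
  refine (pow_left_inj₀ (norm_nonneg _) (norm_nonneg _) two_ne_zero).1 ?_
  rw [normE, normE, j0, j1, j2, j3]; ring
theorem norm_J0_le : ‖J0‖ ≤ 1 :=
  ContinuousLinearMap.opNorm_le_bound _ zero_le_one fun u => by rw [norm_J0_apply, one_mul]
theorem inner_J0_J0 (u v : E) : ⟪J0 u, J0 v⟫ = ⟪u, v⟫ := by
  rw [innerE, innerE]; simp only [j0, j1, j2, j3]; ring
theorem inner_J0_left (u v : E) : ⟪J0 u, v⟫ = -⟪u, J0 v⟫ := by
  rw [innerE, innerE]; simp only [j0, j1, j2, j3]; ring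
theorem ev_om0 (u v : E) : ev om0 u v = ⟪J0 u, v⟫ := by
  rw [innerE]; simp [j0, j1, j2, j3, ev, om0]; ring
theorem norm_om0_le : ‖om0‖ ≤ 2 := by
  refine (pow_le_pow_iff_left₀ (norm_nonneg _) zero_le_two two_ne_zero).1 ?_
  rw [normW]; simp [om0]; norm_num

theorem abs_vol4_le (a b c d : E) : |vol4 a b c d| ≤ ‖a‖ * ‖b‖ * ‖c‖ * ‖d‖ :=
  (abs_ev_le _ _ _).trans (by gcongr; exact norm_zeta_le a b)
theorem vol4_trace (M : E →L[ℝ] E) (a b c d : E) :
    vol4 (M a) b c d + vol4 a (M b) c d + vol4 a b (M c) d + vol4 a b c (M d) =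
      LinearMap.trace ℝ E (M : E →ₗ[ℝ] E) * vol4 a b c d := by
  rw [trace_eq]
  simp only [vol4, ev, z0, z1, z2, z3, z4, z5, clm_coord M a, clm_coord M b, clm_coord M c,
    clm_coord M d]
  ring

section smooth
variable {Y : Type} [NormedAddCommGroup Y] [NormedSpace ℝ Y] {n : WithTop ℕ∞}

theorem contDiff_pull : ContDiff ℝ n pull :=
  contDiff_clm_apply_iff.2 fun a => contDiff_iff_contDiffAt.2 fun _ =>
    contDiffAt_mk' (f := fun (L : E →L[ℝ] E) u v => ev a (L u) (L v)) fun i j =>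
      ContDiff.contDiffAt (by unfold ev; fun_prop)
theorem contDiff_ev3 : ContDiff ℝ n fun p : W × E × E => ev p.1 p.2.1 p.2.2 := by
  unfold ev; fun_prop
theorem contDiff_wedge2 : ContDiff ℝ n fun p : W × W => wedge p.1 p.2 := by
  unfold wedge; fun_prop
theorem contDiff_w112 :
    ContDiff ℝ n fun p : (E →L[ℝ] ℝ) × (E →L[ℝ] ℝ) => w11 p.1 p.2 :=
  contDiff_iff_contDiffAt.2 fun _ => contDiffAt_mk'
    (f := fun (p : (E →L[ℝ] ℝ) × (E →L[ℝ] ℝ)) u v => p.1 u * p.2 v - p.1 v * p.2 u) fun i j =>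
      ContDiff.contDiffAt (by fun_prop)
theorem contDiff_zeta2 : ContDiff ℝ n fun p : E × E => zeta p.1 p.2 := by
  refine contDiff_euclidean.2 fun i => ?_
  fin_cases i <;> simp [zeta] <;> fun_prop
theorem contDiffAt_mk {f : Y → E → E → ℝ} {y : Y}
    (h : ∀ i j, ContDiffAt ℝ n (fun x => f x (eb i) (eb j)) y) :
    ContDiffAt ℝ n (fun x => mk (f x)) y := contDiffAt_mk' h
theorem contDiffOn_mk {f : Y → E → E → ℝ} {U : Set Y}
    (h : ∀ i j, ContDiffOn ℝ n (fun x => f x (eb i) (eb j)) U) :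
    ContDiffOn ℝ n (fun x => mk (f x)) U := by
  refine contDiffOn_euclidean.2 fun i => ?_
  fin_cases i
  exacts [h 0 1, h 0 2, h 0 3, h 1 2, h 1 3, h 2 3]
/-- `ev` with constant vectors commutes with the derivative. -/
theorem fderiv_ev {θ : Y → W} {y : Y} (h : DifferentiableAt ℝ θ y) (u v : E) (a : Y) :
    fderiv ℝ (fun x => ev (θ x) u v) y a = ev (fderiv ℝ θ y a) u v := by
  have e : ∀ w : W, ev w u v = innerSL ℝ (hstar (zeta u v)) w := fun w => by
    rw [ev_eq_inner, real_inner_comm]; rfl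
  simp only [e]
  exact congrArg (· a) ((innerSL ℝ (hstar (zeta u v))).hasFDerivAt.comp y h.hasFDerivAt).fderiv
end smooth

end Vale.Agent.P204
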