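import Vale.Agent.P204.Alg1

/-! Complex structures on `E`: the projections `pp`, `pm`, and the map `Aop`. -/

open scoped ContDiff RealInnerProductSpace
open MeasureTheory Metric

namespace Vale.Agent.P204

namespace Alg2Aux

theorem pp_apply (J : E →L[ℝ] E) (a : W) : pp J a = (1 / 2 : ℝ) • (a + pull J a) := rfl
theorem pm_apply (J : E →L[ℝ] E) (a : W) : pm J a = (1 / 2 : ℝ) • (a - pull J a) := rfl
theorem Aop_apply (J : E →L[ℝ] E) (v : E) : Aop J v = (1 / 2 : ℝ) • (v - J0 (J v)) := rfl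

theorem pull_comm {J J' L : E →L[ℝ] E} (h : ∀ v, L (J v) = J' (L v)) (a : W) :
    pull L (pull J' a) = pull J (pull L a) :=
  ext_ev fun u v => by simp only [ev_pull, h]

theorem det_ne_zero {L : E →L[ℝ] E} (h : Function.Injective L) : L.det ≠ 0 :=
  (LinearEquiv.ofInjectiveEndo (L : E →ₗ[ℝ] E) h).isUnit_det'.ne_zero

theorem det_J0 : J0.det = 1 := by
  have h1 : pull J0 om0 = om0 := ext_ev fun u v => by rw [ev_pull, ev_om0, ev_om0, inner_J0_J0]
  have h2 := wedge_pull J0 om0 om0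
  have h3 : wedge om0 om0 = 2 := by simp [wedge, om0]; norm_num
  rw [h1, h3] at h2
  linarith

theorem hstar_of_anti {a : W} (h : pull J0 a = -a) : hstar a = a := by
  have e : ∀ u v, ev a (J0 u) (J0 v) = -ev a u v := fun u v => by rw [← ev_pull, h, ev_neg]
  have h1 := e (eb 0) (eb 1)
  have h2 := e (eb 0) (eb 2)
  have h3 := e (eb 0) (eb 3)
  have h4 := e (eb 2) (eb 3)
  simp [ev, eb, J0] at h1 h2 h3 h4
  ext i
  fin_cases i <;> simp [hstar] <;> linarith

theorem half_norm {F : Type} [NormedAddCommGroup F] [NormedSpace ℝ F] (x : F) :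
    ‖(1 / 2 : ℝ) • x‖ = ‖x‖ / 2 := by
  rw [norm_smul, Real.norm_eq_abs, abs_of_pos (by norm_num)]; ring

end Alg2Aux

open Alg2Aux

section general
variable {J : E →L[ℝ] E} (hJ : ∀ v, J (J v) = -v)
include hJ

theorem pull_pull (a : W) : pull J (pull J a) = a :=
  ext_ev fun u v => by rw [ev_pull, ev_pull, hJ, hJ, ev_neg_left, ev_neg_right, neg_neg]
theorem pull_pp (a : W) : pull J (pp J a) = pp J a := by
  rw [pp_apply, map_smul, map_add, pull_pull hJ, add_comm]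
theorem pull_pm (a : W) : pull J (pm J a) = -pm J a := by
  rw [pm_apply, map_smul, map_sub, pull_pull hJ, ← smul_neg, neg_sub]
theorem pp_pp (a : W) : pp J (pp J a) = pp J a := by
  rw [pp_apply J (pp J a), pull_pp hJ]; module
theorem pm_pm (a : W) : pm J (pm J a) = pm J a := by
  rw [pm_apply J (pm J a), pull_pm hJ]; module
theorem pp_pm (a : W) : pp J (pm J a) = 0 := by
  rw [pp_apply J (pm J a), pull_pm hJ]; module
theorem pm_pp (a : W) : pm J (pp J a) = 0 := by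
  rw [pm_apply J (pp J a), pull_pp hJ]; module
theorem ev_pp_J (a : W) (b : E) : ev (pp J a) b (J b) = ev a b (J b) := by
  rw [pp_apply, ev_smul, ev_add, ev_pull, hJ, ev_neg_right, ← ev_swap]; ring
theorem ev_pm_J (a : W) (b : E) : ev (pm J a) b (J b) = 0 := by
  rw [pm_apply, ev_smul, ev_sub, ev_pull, hJ, ev_neg_right, ← ev_swap]; ring
theorem Aop_J (v : E) : Aop J (J v) = J0 (Aop J v) := by
  rw [Aop_apply, Aop_apply, hJ, map_neg, map_smul, map_sub, J0_J0]; module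
/-- For an invariant form, `h(u, v) = ev ζ u (J v)` is symmetric. -/
theorem ev_inv_symm {ζ : W} (h : pull J ζ = ζ) (u v : E) : ev ζ u (J v) = ev ζ v (J u) := by
  conv_lhs => rw [← h, ev_pull, hJ, ev_neg_right, ← ev_swap]
/-- With `h` as above, positive semidefinite:
`ev ζ q (J q + e) = h(q,q) - h(q, J e) ≥ h(q,q)/2 - h(J e, J e)/2`, and
`h(J e, J e) = ev ζ e (J e) ≤ ‖ζ‖ ‖e‖ ‖J e‖`. -/
theorem near_pos {ζ : W} (h : pull J ζ = ζ) (hpos : ∀ b, 0 ≤ ev ζ b (J b)) (q e : E) :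
    ev ζ q (J q) / 2 - ‖ζ‖ * ‖J‖ * ‖e‖ ^ 2 / 2 ≤ ev ζ q (J q + e) := by
  have h1 := hpos (q + -J e)
  rw [map_add, map_neg, hJ, neg_neg, ev_add_left, ev_add_right, ev_add_right, ev_neg_left,
    ev_neg_left, ev_inv_symm hJ h (J e) q, hJ, ev_neg_right, neg_neg, ← ev_swap] at h1
  have h2 := (le_abs_self _).trans (abs_ev_le ζ e (J e))
  have h3 : ‖ζ‖ * ‖e‖ * ‖J e‖ ≤ ‖ζ‖ * ‖e‖ * (‖J‖ * ‖e‖) :=
    mul_le_mul_of_nonneg_left (J.le_opNorm e) (by positivity)
  rw [ev_add_right]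
  nlinarith
end general

theorem pp_add_pm (J : E →L[ℝ] E) (a : W) : pp J a + pm J a = a := by
  rw [pp_apply, pm_apply]; module
theorem pp_of_inv {J : E →L[ℝ] E} {a : W} (h : pull J a = a) : pp J a = a := by
  rw [pp_apply, h]; module
theorem pm_of_inv {J : E →L[ℝ] E} {a : W} (h : pull J a = a) : pm J a = 0 := by
  rw [pm_apply, h]; module
theorem inv_of_pm {J : E →L[ℝ] E} {a : W} (h : pm J a = 0) : pull J a = a := by
  rw [pm_apply, smul_eq_zero, sub_eq_zero] at h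
  exact (h.resolve_left (by norm_num)).symm
theorem pull_pp_comm {J J' L : E →L[ℝ] E} (h : ∀ v, L (J v) = J' (L v)) (a : W) :
    pull L (pp J' a) = pp J (pull L a) := by
  rw [pp_apply, pp_apply, map_smul, map_add, pull_comm h]
theorem pull_pm_comm {J J' L : E →L[ℝ] E} (h : ∀ v, L (J v) = J' (L v)) (a : W) :
    pull L (pm J' a) = pm J (pull L a) := by
  rw [pm_apply, pm_apply, map_smul, map_sub, pull_comm h]
theorem contDiff_pp {n : WithTop ℕ∞} : ContDiff ℝ n pp :=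
  (contDiff_const.add contDiff_pull).const_smul (1 / 2 : ℝ)
theorem contDiff_pm {n : WithTop ℕ∞} : ContDiff ℝ n pm :=
  (contDiff_const.sub contDiff_pull).const_smul (1 / 2 : ℝ)
theorem contDiff_Aop {n : WithTop ℕ∞} : ContDiff ℝ n Aop :=
  (contDiff_const.sub (contDiff_const.clm_comp contDiff_id)).const_smul (1 / 2 : ℝ)
theorem norm_Aop_sub_Aop (J J' : E →L[ℝ] E) : ‖Aop J - Aop J'‖ ≤ ‖J - J'‖ := by
  refine ContinuousLinearMap.opNorm_le_bound _ (norm_nonneg _) fun v => ?_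
  have e : (Aop J - Aop J') v = (1 / 2 : ℝ) • -J0 ((J - J') v) := by
    rw [sub_apply, sub_apply, Aop_apply, Aop_apply, map_sub]; module
  rw [e, half_norm, norm_neg, norm_J0_apply]
  have := (J - J').le_opNorm v
  have := norm_nonneg ((J - J') v)
  linarith
theorem near_J0 : Near J0 := ⟨J0_J0, by rw [sub_self, norm_zero]; norm_num⟩

namespace Near
variable {J : E →L[ℝ] E} (hJ : Near J)
include hJ

theorem norm_le : ‖J‖ ≤ 101 / 100 := by
  have h1 := norm_add_le (J - J0) J0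
  rw [sub_add_cancel] at h1
  have := hJ.2
  have := norm_J0_le
  linarith
theorem norm_pp_le : ‖pp J‖ ≤ 3 := by
  have h1 := norm_add_le (ContinuousLinearMap.id ℝ W) (pull J)
  have h2 := ContinuousLinearMap.norm_id_le (𝕜 := ℝ) (E := W)
  have h3 := norm_pull_le J
  have h4 := pow_le_pow_left₀ (norm_nonneg _) hJ.norm_le 2
  rw [pp, half_norm (F := W →L[ℝ] W)]
  linarith
theorem norm_pm_le : ‖pm J‖ ≤ 3 := by
  have h1 := norm_sub_le (ContinuousLinearMap.id ℝ W) (pull J)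
  have h2 := ContinuousLinearMap.norm_id_le (𝕜 := ℝ) (E := W)
  have h3 := norm_pull_le J
  have h4 := pow_le_pow_left₀ (norm_nonneg _) hJ.norm_le 2
  rw [pm, half_norm (F := W →L[ℝ] W)]
  linarith
theorem norm_pp_sub_le {J' : E →L[ℝ] E} (hJ' : Near J') : ‖pp J - pp J'‖ ≤ 4 * ‖J - J'‖ := by
  have e : pp J - pp J' = (1 / 2 : ℝ) • (pull J - pull J') := by rw [pp, pp]; module
  have h1 := norm_pull_sub_le J J'
  have h2 := hJ.norm_le
  have h3 := hJ'.norm_le
  rw [e, half_norm (F := W →L[ℝ] W)]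
  nlinarith [norm_nonneg (J - J')]
theorem norm_pm_sub_le {J' : E →L[ℝ] E} (hJ' : Near J') : ‖pm J - pm J'‖ ≤ 4 * ‖J - J'‖ := by
  have e : pm J - pm J' = (1 / 2 : ℝ) • -(pull J - pull J') := by rw [pm, pm]; module
  have h1 := norm_pull_sub_le J J'
  have h2 := hJ.norm_le
  have h3 := hJ'.norm_le
  rw [e, half_norm (F := W →L[ℝ] W), norm_neg]
  nlinarith [norm_nonneg (J - J')]
theorem norm_Aop_sub : ‖Aop J - ContinuousLinearMap.id ℝ E‖ ≤ 1 / 100 := by
  have e : Aop J0 = ContinuousLinearMap.id ℝ E := by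
    refine ContinuousLinearMap.ext fun v => ?_
    rw [Aop_apply, J0_J0, ContinuousLinearMap.id_apply]; module
  rw [← e]
  exact (norm_Aop_sub_Aop J J0).trans hJ.2
theorem norm_Aop_le : ‖Aop J‖ ≤ 101 / 100 := by
  have h1 := norm_add_le (Aop J - ContinuousLinearMap.id ℝ E) (ContinuousLinearMap.id ℝ E)
  rw [sub_add_cancel] at h1
  have := hJ.norm_Aop_sub
  have := ContinuousLinearMap.norm_id_le (𝕜 := ℝ) (E := E)
  linarith
theorem le_norm_Aop (v : E) : 99 / 100 * ‖v‖ ≤ ‖Aop J v‖ := by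
  have h1 := (Aop J - ContinuousLinearMap.id ℝ E).le_of_opNorm_le hJ.norm_Aop_sub v
  rw [sub_apply, ContinuousLinearMap.id_apply, norm_sub_rev] at h1
  have := norm_sub_norm_le v (Aop J v)
  linarith

theorem alg2_inj : Function.Injective (Aop J) := by
  refine (injective_iff_map_eq_zero _).2 fun v hv => ?_
  have := hJ.le_norm_Aop v
  rw [hv, norm_zero] at this
  exact norm_le_zero_iff.1 (by linarith)

/-- `Aop J` is injective, hence bijective. -/
theorem exists_Aop_inv : ∃ B : E →L[ℝ] E, (∀ v, B (Aop J v) = v) ∧ ∀ v, Aop J (B v) = v := by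
  set e := LinearEquiv.ofInjectiveEndo (Aop J : E →ₗ[ℝ] E) hJ.alg2_inj
  exact ⟨LinearMap.toContinuousLinearMap (e.symm : E →ₗ[ℝ] E), e.symm_apply_apply,
    e.apply_symm_apply⟩
/-- `J` is conjugate to `J0` by `Aop J`, and `det J0 = 1`
(for instance from `wedge_pull J0 om0 om0`). -/
theorem det_eq_one : J.det = 1 := by
  have e : (Aop J : E →ₗ[ℝ] E) ∘ₗ (J : E →ₗ[ℝ] E) = (J0 : E →ₗ[ℝ] E) ∘ₗ (Aop J : E →ₗ[ℝ] E) :=
    LinearMap.ext fun v => Aop_J hJ.1 v
  have h1 := congrArg LinearMap.det e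
  rw [LinearMap.det_comp, LinearMap.det_comp] at h1
  have h2 : (Aop J).det * J.det = J0.det * (Aop J).det := h1
  rw [det_J0, mul_comm 1] at h2
  exact mul_left_cancel₀ (det_ne_zero hJ.alg2_inj) h2
theorem wedge_pp_pm (a b : W) : wedge (pp J a) (pm J b) = 0 := by
  have h := wedge_pull J (pp J a) (pm J b)
  rw [pull_pp hJ.1, pull_pm hJ.1, hJ.det_eq_one, ← neg_one_smul ℝ, wedge_smul_right] at h
  linarith
theorem wedge_split (a b : W) :
    wedge a b = wedge (pp J a) (pp J b) + wedge (pm J a) (pm J b) := by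
  conv_lhs => rw [← pp_add_pm J a, ← pp_add_pm J b]
  rw [wedge_add_left, wedge_add_right, wedge_add_right, hJ.wedge_pp_pm,
    wedge_comm (pm J a) (pp J b), hJ.wedge_pp_pm, add_zero, zero_add]
/-- For `J0`-anti-invariant `γ₀` one has `wedge γ₀ γ₀ = ‖γ₀‖²`; write
`γ = pm J0 γ + e` with `‖e‖ ≤ ‖γ‖ / 25`. -/
theorem wedge_anti {γ : W} (h : pull J γ = -γ) : ‖γ‖ ^ 2 / 2 ≤ wedge γ γ := by
  have h1 : pm J γ = γ := by rw [pm_apply, h]; module
  have h2 := (pm J - pm J0).le_of_opNorm_le (hJ.norm_pm_sub_le near_J0) γ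
  rw [sub_apply, h1] at h2
  have h3 := wedge_hstar_self (pm J0 γ)
  rw [hstar_of_anti (pull_pm J0_J0 γ)] at h3
  set x := pm J0 γ
  set e := γ - x with he
  have h4 : γ = x + e := by rw [he]; abel
  have h5 : wedge γ γ = ‖x‖ ^ 2 + 2 * wedge x e + wedge e e := by
    conv_lhs => rw [h4]
    rw [wedge_add_left, wedge_add_right, wedge_add_right, wedge_comm e x, h3]; ring
  have h6 := (abs_le.1 (abs_wedge_le x e)).1
  have h7 := (abs_le.1 (abs_wedge_le e e)).1
  have h8 : ‖γ‖ ≤ ‖x‖ + ‖e‖ := by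
    conv_lhs => rw [h4]
    exact norm_add_le _ _
  have h9 : ‖e‖ ≤ ‖γ‖ / 25 := by nlinarith [hJ.2, norm_nonneg γ]
  have a1 := norm_nonneg γ
  have a2 := norm_nonneg e
  have a3 : 24 / 25 * ‖γ‖ ≤ ‖x‖ := by linarith
  have a4 : 24 / 25 * ‖γ‖ * (22 / 25 * ‖γ‖) ≤ ‖x‖ * (‖x‖ - 2 * ‖e‖) :=
    mul_le_mul a3 (by linarith) (by positivity) (norm_nonneg _)
  have a5 : ‖e‖ * ‖e‖ ≤ ‖γ‖ / 25 * (‖γ‖ / 25) := mul_self_le_mul_self a2 h9
  rw [h5]
  nlinarith

theorem alg2_det_pos {J' L : E →L[ℝ] E} (hJ' : Near J') (hL : Function.Injective L)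
    (h : ∀ v, L (J v) = J' (L v)) : 0 < L.det := by
  obtain ⟨a, ha, a0⟩ : ∃ a : W, pm J0 a = a ∧ a ≠ 0 := by
    refine ⟨pm J0 (EuclideanSpace.single 1 1), pm_pm J0_J0 _, fun e => ?_⟩
    have := congrArg (fun x => ev x (eb 0) (eb 2)) e
    simp only [pm_apply, ev_smul, ev_sub, ev_pull, ev_zero] at this
    simp [ev, eb, J0] at this
  have h1 := (pm J' - pm J0).le_of_opNorm_le (hJ'.norm_pm_sub_le near_J0) a
  have h2 : pm J' a ≠ 0 := by
    intro e
    rw [sub_apply, ha, e, zero_sub, norm_neg] at h1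
    nlinarith [hJ'.2, norm_pos_iff.2 a0]
  have h3 := hJ'.wedge_anti (pull_pm hJ'.1 a)
  have h4 := hJ.wedge_anti (γ := pull L (pm J' a))
    (by rw [← pull_comm h, pull_pm hJ'.1, map_neg])
  rw [wedge_pull] at h4
  have h5 : 0 < wedge (pm J' a) (pm J' a) := lt_of_lt_of_le (by positivity) h3
  exact lt_of_le_of_ne (nonneg_of_mul_nonneg_left (le_trans (by positivity) h4) h5)
    (det_ne_zero hL).symm

/-- Apply `wedge_anti` to `pull (Aop J) γ₀` with `γ₀` a nonzero `J0`-anti-invariant form. -/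
theorem det_Aop_pos : 0 < (Aop J).det := hJ.alg2_det_pos near_J0 hJ.alg2_inj (Aop_J hJ.1)
/-- An injective map intertwining two complex structures near `J0` preserves orientation:
pull back a nonzero `J'`-anti-invariant form and use `wedge_anti` twice. -/
theorem det_pos_of_intertwine {J' L : E →L[ℝ] E} (hJ' : Near J') (hL : Function.Injective L)
    (h : ∀ v, L (J v) = J' (L v)) : 0 < L.det := hJ.alg2_det_pos hJ' hL h
end Near

end Vale.Agent.P204
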