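import Vale.Agent.P204.Alg

/-! Analytic definitions in one chart: norms, currents, kernels, potentials. -/

open scoped ContDiff ENNReal
open MeasureTheory Metric

namespace Vale.Agent.P204

section norms
variable {F : Type} [NormedAddCommGroup F] [NormedSpace ℝ F]

/-- The `L²` norm. -/
noncomputable def nL2 {G : Type} [NormedAddCommGroup G] (f : E → G) : ℝ :=
  Real.sqrt (∫ y, ‖f y‖ ^ 2)

/-- The Sobolev norm of order `l`. -/
noncomputable def Hn (l : ℕ) (θ : E → F) : ℝ :=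
  ∑ j ∈ Finset.range (l + 1), nL2 (iteratedFDeriv ℝ j θ)

/-- The Sobolev norm of order `n` at scale `t`. -/
noncomputable def nrm (n : ℕ) (t : ℝ) (θ : E → F) : ℝ :=
  ∑ l ∈ Finset.range (n + 1), t ^ l * Hn l θ

/-- The `C^k` norm. -/
noncomputable def Ck (k : ℕ) (θ : E → F) : ℝ :=
  ∑ j ∈ Finset.range (k + 1), ⨆ y, ‖iteratedFDeriv ℝ j θ y‖

/-- The operator with kernel `K` at scale `ε`. -/
noncomputable def Kop (K : ℝ × E × E → F →L[ℝ] W) (ε : ℝ) (θ : E → F) (y : E) : W :=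
  ∫ z, K (ε, y, z) (θ (y + ε • z))

end norms

/-- Linear functionals on two-forms in a chart. -/
abbrev LF : Type := (E → W) →ₗ[ℝ] ℝ

/-- A functional of order `k` on test forms. -/
def DistBd (k : ℕ) (L : LF) : Prop := ∃ C : ℝ, ∀ θ, Test 7 θ → |L θ| ≤ C * Ck k θ

/-- Bound of a functional by the Sobolev norm at scale `t`, on test forms of radius `r`. -/
def LBd (n : ℕ) (L : LF) (t r a : ℝ) : Prop := ∀ θ, Test r θ → |L θ| ≤ a * nrm n t θ

/-- The functional only sees the anti-invariant part of a test form. -/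
def AntiF (J : E → E →L[ℝ] E) (L : LF) : Prop :=
  ∀ θ, Test 7 θ → L θ = L fun y => pm (J y) (θ y)

/-- The functional vanishes on exact test forms. -/
def KillsD (L : LF) : Prop := ∀ p : E → E →L[ℝ] ℝ, Test 9 p → L (d1 p) = 0

/-- A positive current in a chart, comparable with the finite measure `μ`. -/
structure LocPos (J : E → E →L[ℝ] E) (T : LF) (μ : Measure E) (c C : ℝ) : Prop where
  fin : IsFiniteMeasure μ
  cpos : 0 < c
  Cpos : 0 ≤ C
  le : ∀ (θ : E → W) (g₁ g₂ : E → ℝ), CTest 9 θ → CTest 9 g₁ → CTest 9 g₂ →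
    (∀ y, 0 ≤ g₁ y) → (∀ y, 0 ≤ g₂ y) →
    (∀ y b, (g₁ y - g₂ y) * ‖b‖ ^ 2 ≤ ev (θ y) b (J y b)) →
    c * ∫ y, g₁ y ∂μ - C * ∫ y, g₂ y ∂μ ≤ T θ

/-- A smooth kernel with support in `‖z‖ ≤ R`. -/
structure SKer {F : Type} [NormedAddCommGroup F] [NormedSpace ℝ F]
    (K : ℝ × E × E → F →L[ℝ] W) (R : ℝ) : Prop where
  smooth : ContDiff ℝ ∞ K
  supp : ∀ ε y z, R < ‖z‖ → K (ε, y, z) = 0
  Rpos : 0 ≤ R

/-- A regularising kernel: an average of pull-backs by linear maps close to the identity. -/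
structure IsKer (K : ℝ × E × E → W →L[ℝ] W) (R N ε₀ : ℝ) : Prop extends SKer K R where
  zero : ∃ k : E → E → ℝ,
    (∀ y ∈ closedBall (0 : E) 6, ∀ z, K (0, y, z) = k y z • ContinuousLinearMap.id ℝ W) ∧
      ∀ y ∈ closedBall (0 : E) 6, ∫ z, k y z = 1
  np : ∀ ε ∈ Set.Ioo 0 ε₀, ∀ y ∈ closedBall (0 : E) 6, ∀ z, ∀ ℓ : (W →L[ℝ] W) →L[ℝ] ℝ,
    (∀ L : E →L[ℝ] E, ‖L - ContinuousLinearMap.id ℝ E‖ ≤ N * ε → 0 ≤ ℓ (pull L)) →
      0 ≤ ℓ (K (ε, y, z))
  Npos : 0 ≤ N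
  epos : 0 < ε₀
  eR : ε₀ * (R + 1) ≤ 1 / 4
  eN : N * ε₀ ≤ 1 / 10

/-- The test form `y ↦ c(y) ε⁻⁴ K(ε, y, (x - y)/ε) w`. -/
noncomputable def kerAt (K : ℝ × E × E → W →L[ℝ] W) (c : E → ℝ) (ε : ℝ) (x : E) (w : W)
    (y : E) : W :=
  (c y * (ε ^ 4)⁻¹) • K (ε, y, ε⁻¹ • (x - y)) w

/-- Regularisation of the functional `c L`: the form with
`wedge (regLoc K L c ε x) w = L (kerAt K c ε x w)`. -/
noncomputable def regLoc (K : ℝ × E × E → W →L[ℝ] W) (L : LF) (c : E → ℝ) (ε : ℝ) (x : E) : W :=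
  ∑ i : Fin 6, L (kerAt K c ε x (hstar (EuclideanSpace.single i 1))) •
    (EuclideanSpace.single i 1 : W)

/-- Regularisation of a functional in the middle of a chart. -/
noncomputable def kreg (K : ℝ × E × E → W →L[ℝ] W) (L : LF) (ε : ℝ) (x : E) : W :=
  regLoc K L (bp 5 6) ε x

/-- Smoothed density ratio `ε⁻² μ(B(x, R ε))`. -/
noncomputable def lam (μ : Measure E) (R ε : ℝ) (x : E) : ℝ :=
  (ε ^ 2)⁻¹ * ∫ y, bp R (R + 1) (ε⁻¹ • (x - y)) ∂μ

/-- The energy at scale `ε`. -/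
noncomputable def En (μ : Measure E) (R ε : ℝ) : ℝ :=
  ∫ z in closedBall (0 : E) (3 / 2), (ε⁻¹ * lam μ R ε z) ^ 2

/-- The density quantity controlled by the logarithmic test form. -/
noncomputable def dens (μ : Measure E) (x : E) (ε : ℝ) : ℝ :=
  ∫ y, bp (1 / 4) (1 / 2) (y - x) * (ε ^ 2 / (‖y - x‖ ^ 2 + ε ^ 2) ^ 2) ∂μ

/-- Uniform density bound on `closedBall 0 r`. -/
def DensBd (μ : Measure E) (r D : ℝ) : Prop :=
  ∀ x ∈ closedBall (0 : E) r, ∀ ε ∈ Set.Ioc (0 : ℝ) 1, dens μ x ε ≤ D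

/-- The two-dimensional density vanishes almost everywhere on `closedBall 0 2`. -/
def ZeroDens (μ : Measure E) : Prop :=
  ∀ᵐ y ∂μ, y ∈ closedBall (0 : E) 2 →
    Filter.Tendsto (fun r : ℝ => (r ^ 2)⁻¹ * μ.real (closedBall y r)) (nhdsWithin 0 (Set.Ioi 0))
      (nhds 0)

/-- The logarithmic test one-form centred at `x`. -/
noncomputable def logP (J : E → E →L[ℝ] E) (x : E) (ε : ℝ) (y : E) : E →L[ℝ] ℝ :=
  bp (1 / 4) (1 / 2) (y - x) •
    -((fderiv ℝ (fun y' => Real.log (‖Aop (J x) (y' - x)‖ ^ 2 + ε ^ 2)) y) ∘L J x)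

/-- The map `w(x, y) = A(x) (x - y)`. -/
noncomputable def wv (J : E → E →L[ℝ] E) (x y : E) : E := Aop (J x) (x - y)

/-- The derivative of `w` in `x`. -/
noncomputable def Bm (J : E → E →L[ℝ] E) (x y : E) : E →L[ℝ] E :=
  fderiv ℝ (fun x' => wv J x' y) x

/-- Regularised fundamental solution. -/
noncomputable def Gk (ε : ℝ) (w : E) : ℝ := -(‖w‖ ^ 2 + ε ^ 2)⁻¹

/-- The gradient of `Gk`. -/
noncomputable def Zk (ε : ℝ) (w : E) : E := (2 / (‖w‖ ^ 2 + ε ^ 2) ^ 2) • w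

/-- The potential of a positive closed current. -/
noncomputable def potU (J : E → E →L[ℝ] E) (S : LF) (ε : ℝ) (x : E) : ℝ :=
  S fun y => (bp 3 4 y * Gk ε (wv J x y)) • pull (Aop (J x)) om0

/-- A primitive of the regularised current. -/
noncomputable def potA (J : E → E →L[ℝ] E) (S : LF) (ε : ℝ) (x : E) : E →L[ℝ] ℝ :=
  ∑ i : Fin 4, S (fun y => bp 3 4 y •
      pull (Aop (J x)) (zeta (Zk ε (wv J x y)) (Bm J x y (eb i)))) •
    (EuclideanSpace.proj i : E →L[ℝ] ℝ)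

/-- The regularised Riesz potential. -/
noncomputable def Ipot (μ : Measure E) (ε : ℝ) (x : E) : ℝ :=
  ∫ y, bp 3 4 y * (‖x - y‖ ^ 2 + ε ^ 2)⁻¹ ∂μ

/-- The set where the Riesz potential is finite. -/
def Epol (μ : Measure E) : Set E :=
  {x | ∫⁻ y, ENNReal.ofReal (bp 3 4 y) * (edist x y)⁻¹ ^ 2 ∂μ < ⊤}

end Vale.Agent.P204
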