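import Vale.Agent.P204.RegLemma

/-! Approximate solvability by Hahn-Banach. -/

open scoped ContDiff RealInnerProductSpace Topology
open MeasureTheory Metric

namespace Vale.Agent.P204

universe u

namespace ApproxAux

theorem abs_le {V : Type u} [AddCommGroup V] [Module ℝ V] {p : V → ℝ}
    (hs : ∀ (t : ℝ) v, p (t • v) = |t| * p v) {A : V →ₗ[ℝ] ℝ} (h : ∀ v, A v ≤ p v) (v : V) :
    |A v| ≤ p v := by
  refine abs_le'.2 ⟨h v, ?_⟩
  have := h ((-1 : ℝ) • v)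
  rw [hs, map_smul] at this
  simpa using this

theorem hb {V : Type u} [AddCommGroup V] [Module ℝ V] (Z : Submodule ℝ V) {p q : V → ℝ}
    (p0 : ∀ v, 0 ≤ p v) (q0 : ∀ v, 0 ≤ q v)
    (ps : ∀ (t : ℝ) v, p (t • v) = |t| * p v) (qs : ∀ (t : ℝ) v, q (t • v) = |t| * q v)
    (pa : ∀ u v, p (u + v) ≤ p u + p v) (qa : ∀ u v, q (u + v) ≤ q u + q v) {f : V}
    (h : ∀ σ ∈ Z, 1 ≤ p σ + q (f - σ)) : ∃ B A : V →ₗ[ℝ] ℝ, (∀ v, |B v| ≤ p v) ∧
      (∀ v, |A v| ≤ q v) ∧ (∀ σ ∈ Z, B σ + A σ = 0) ∧ A f = 1 := by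
  have p00 : p 0 = 0 := by simpa using ps 0 0
  have q00 : q 0 = 0 := by simpa using qs 0 0
  let D : Submodule ℝ (V × V) := Z.map (LinearMap.prod LinearMap.id LinearMap.id)
  have hD : ((0, f) : V × V) ∉ D := by
    rintro ⟨σ, -, e⟩
    have e1 : σ = 0 := congrArg Prod.fst e
    have e2 : σ = f := congrArg Prod.snd e
    have := h 0 Z.zero_mem
    rw [← e2, e1, sub_zero, p00, q00] at this
    linarith
  obtain ⟨g₀, hg1, hg2⟩ := LinearMap.exists_extend_of_notMem (0 : D →ₗ[ℝ] ℝ) hD (1 : ℝ)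
  have hg1' : ∀ σ ∈ Z, g₀ (σ, σ) = 0 := fun σ hσ =>
    LinearMap.congr_fun hg1 ⟨(σ, σ), σ, hσ, rfl⟩
  obtain ⟨g, e1, e2⟩ := exists_extension_of_le_sublinear (g₀.toPMap (D ⊔ ℝ ∙ ((0, f) : V × V)))
    (fun x => p x.1 + q x.2)
    (fun c hc x => by simp only [Prod.smul_fst, Prod.smul_snd, ps, qs, abs_of_pos hc]; ring)
    (fun x y => by
      simp only [Prod.fst_add, Prod.snd_add]
      linarith [pa x.1 y.1, qa x.2 y.2])
    (by
      rintro ⟨x, hx⟩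
      obtain ⟨_, ⟨σ, hσ, rfl⟩, _, hz, rfl⟩ := Submodule.mem_sup.1 hx
      obtain ⟨c, rfl⟩ := Submodule.mem_span_singleton.1 hz
      change g₀ ((σ, σ) + c • (0, f)) ≤ p (σ + c • 0) + q (σ + c • f)
      rw [map_add, map_smul, hg1' σ hσ, hg2, zero_add, smul_eq_mul, mul_one, smul_zero, add_zero]
      rcases le_or_gt c 0 with hc | hc
      · exact hc.trans (add_nonneg (p0 _) (q0 _))
      · have k := h ((-c⁻¹) • σ) (Z.smul_mem _ hσ)
        have k1 : σ = (-c) • (-c⁻¹) • σ := by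
          rw [smul_smul, neg_mul_neg, mul_inv_cancel₀ hc.ne', one_smul]
        have k2 : σ + c • f = c • (f - (-c⁻¹) • σ) := by
          rw [smul_sub, smul_smul, mul_neg, mul_inv_cancel₀ hc.ne', neg_smul, one_smul]
          abel
        rw [k2, qs, abs_of_pos hc]
        nth_rw 1 [k1]
        rw [ps, abs_neg, abs_of_pos hc]
        nlinarith)
  refine ⟨g.comp (LinearMap.inl ℝ V V), g.comp (LinearMap.inr ℝ V V), abs_le ps fun v => ?_,
    abs_le qs fun v => ?_, fun σ hσ => ?_, ?_⟩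
  · simpa [q00] using e2 (v, 0)
  · simpa [p00] using e2 (0, v)
  · have := e1 ⟨(σ, σ), Submodule.mem_sup_left ⟨σ, hσ, rfl⟩⟩
    rw [LinearMap.comp_apply, LinearMap.comp_apply, ← map_add]
    simpa [hg1' σ hσ] using this
  · have := e1 ⟨(0, f), Submodule.mem_sup_right (Submodule.mem_span_singleton_self _)⟩
    simpa [hg2] using this

end ApproxAux

namespace Setup

variable {X : Type u} [TopologicalSpace X] [T2Space X] [CompactSpace X] (s : Setup X)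

/-- Let `C = C_reg + 1`, `F₀ = sn (k+5) f > 0` (else `f = 0`). On `smSub` put
`p φ = inf over σ ∈ zSub of (sn k σ / (C F₀) + sn k' (pmF φ - pmF σ) / η)`, a sublinear function.
If `p f < 1` we are done. Otherwise `exists_extension_of_le_sublinear` gives `A ≤ p` with
`A f = p f ≥ 1`; `|A φ| ≤ sn k' (pmF φ) / η`, and `|A σ| ≤ sn k σ / (C F₀)` on `zSub`. Extend `-A`
from `zSub` to `B` with `|B φ| ≤ sn k φ / (C F₀)`, extend both to all forms
(`LinearMap.exists_extend`); `reg_lemma` gives `1 ≤ C_reg / C < 1`. -/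
theorem approx (k k' : ℕ) : ∃ C : ℝ, 0 ≤ C ∧ ∀ f, s.Smooth f → s.pmF f = f → ∀ η > (0 : ℝ),
    ∃ σ, s.Smooth σ ∧ s.Closed σ ∧ s.sn k σ ≤ C * s.sn (k + 5) f ∧
      s.sn k' (f - s.pmF σ) ≤ η := by
  obtain ⟨C, hC, hreg⟩ := s.reg_lemma k k'
  refine ⟨C + 1, by positivity, fun f hf hpm η hη => ?_⟩
  rcases (s.sn_nonneg (k + 5) f).eq_or_lt with h0 | h0
  · obtain rfl := s.eq_zero_of_sn hf h0.symm
    refine ⟨0, s.smooth_zero, s.closed_zero, ?_, ?_⟩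
    · simp [sn_zero]
    · simp [sn_zero, pmF_zero, hη.le]
  have hb : 0 < (C + 1) * s.sn (k + 5) f := by positivity
  by_contra hcon
  have h : ∀ σ ∈ s.zSub.comap s.smSub.subtype,
      1 ≤ ((C + 1) * s.sn (k + 5) f)⁻¹ * s.sn k σ +
        η⁻¹ * s.sn k' (s.pmF ((⟨f, hf⟩ : s.smSub) - σ : s.smSub)) := by
    intro σ hσ
    by_contra hlt
    push Not at hlt
    have k1 : 0 ≤ ((C + 1) * s.sn (k + 5) f)⁻¹ * s.sn k σ :=
      mul_nonneg (inv_pos.2 hb).le (s.sn_nonneg _ _)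
    have k2 : 0 ≤ η⁻¹ * s.sn k' (s.pmF ((⟨f, hf⟩ : s.smSub) - σ : s.smSub)) :=
      mul_nonneg (inv_pos.2 hη).le (s.sn_nonneg _ _)
    refine hcon ⟨σ, hσ.1, hσ.2, (inv_mul_le_one₀ hb).1 (by linarith), ?_⟩
    have k3 : η⁻¹ * s.sn k' (s.pmF (f - σ)) ≤ 1 := by
      refine le_trans (le_of_eq rfl) (?_ : η⁻¹ *
        s.sn k' (s.pmF ((⟨f, hf⟩ : s.smSub) - σ : s.smSub)) ≤ 1)
      linarith
    rw [pmF_sub, hpm] at k3
    exact (inv_mul_le_one₀ hη).1 k3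
  obtain ⟨B, A, hB, hA, hZ, hAf⟩ := ApproxAux.hb (V := s.smSub) (s.zSub.comap s.smSub.subtype)
    (p := fun φ => ((C + 1) * s.sn (k + 5) f)⁻¹ * s.sn k φ)
    (q := fun φ => η⁻¹ * s.sn k' (s.pmF φ))
    (fun φ => mul_nonneg (inv_pos.2 hb).le (s.sn_nonneg _ _))
    (fun φ => mul_nonneg (inv_pos.2 hη).le (s.sn_nonneg _ _))
    (fun t φ => by rw [Submodule.coe_smul, s.sn_smul φ.2]; ring)
    (fun t φ => by rw [Submodule.coe_smul, pmF_smul, s.sn_smul (Smooth.pmF φ.2)]; ring)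
    (fun φ φ' => by
      rw [← mul_add]
      exact mul_le_mul_of_nonneg_left (s.sn_add_le φ.2 φ'.2 k) (inv_pos.2 hb).le)
    (fun φ φ' => by
      rw [← mul_add, Submodule.coe_add, pmF_add]
      exact mul_le_mul_of_nonneg_left (s.sn_add_le (Smooth.pmF φ.2) (Smooth.pmF φ'.2) k')
        (inv_pos.2 hη).le) h
  obtain ⟨B', hB'⟩ := B.exists_extend
  obtain ⟨A', hA'⟩ := A.exists_extend
  have eB : ∀ φ (hφ : s.Smooth φ), B' φ = B ⟨φ, hφ⟩ := fun φ hφ =>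
    LinearMap.congr_fun hB' ⟨φ, hφ⟩
  have eA : ∀ φ (hφ : s.Smooth φ), A' φ = A ⟨φ, hφ⟩ := fun φ hφ =>
    LinearMap.congr_fun hA' ⟨φ, hφ⟩
  have := hreg B' A' _ η⁻¹ (inv_pos.2 hb).le (fun φ hφ => by rw [eB φ hφ]; exact hB _)
    (fun φ hφ => by rw [eA φ hφ]; exact hA _)
    (fun σ h1 h2 => by rw [eB σ h1, eA σ h1]; exact hZ _ ⟨h1, h2⟩) f hf
  rw [eA f hf, hAf, hpm, abs_one, mul_assoc, mul_left_comm, ← div_eq_inv_mul,
    one_le_div hb] at this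
  linarith

end Setup

end Vale.Agent.P204
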