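import Vale.Agent.P204.Calc0

/-! The exterior derivative of one-forms and closed two-forms in a chart. -/

open scoped ContDiff RealInnerProductSpace Topology
open MeasureTheory Metric

namespace Vale.Agent.P204

namespace Calc1Aux

/-- Antisymmetrisation of a bilinear map. -/
noncomputable def Dm : (E →L[ℝ] E →L[ℝ] ℝ) →L[ℝ] W :=
  LinearMap.toContinuousLinearMap
    { toFun := fun B : E →L[ℝ] E →L[ℝ] ℝ => mk fun u v => B u v - B v u
      map_add' := fun a b => by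
        ext i; fin_cases i <;> simp [mk] <;> ring
      map_smul' := fun t a => by
        ext i; fin_cases i <;> simp [mk] <;> ring }

theorem d1_eq (a : E → E →L[ℝ] ℝ) (y : E) : d1 a y = Dm (fderiv ℝ a y) := rfl

theorem Dm_smooth : ContDiff ℝ ∞ Dm :=
  ContinuousLinearMap.contDiff (𝕜 := ℝ) (E := E →L[ℝ] E →L[ℝ] ℝ) (F := W) Dm

theorem Dm_deriv (B : E →L[ℝ] E →L[ℝ] ℝ) : HasFDerivAt Dm Dm B :=
  ContinuousLinearMap.hasFDerivAt (𝕜 := ℝ) (E := E →L[ℝ] E →L[ℝ] ℝ) (F := W) Dm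

theorem ev_Dm (B : E →L[ℝ] E →L[ℝ] ℝ) (u v : E) : ev (Dm B) u v = B u v - B v u :=
  ev_mk (fun u v => B u v - B v u) (fun u u' v => by simp; ring) (fun t u v => by simp; ring)
    (fun u v => by ring) u v

/-- A two-form as a continuous bilinear map. -/
noncomputable def evB (θ : W) : E →L[ℝ] E →L[ℝ] ℝ :=
  LinearMap.mkContinuous₂ (LinearMap.mk₂ ℝ (ev θ) (ev_add_left θ) (ev_smul_left θ)
    (ev_add_right θ) (ev_smul_right θ)) ‖θ‖ fun u v => abs_ev_le θ u v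

/-- Evaluation as a continuous trilinear map. -/
noncomputable def evL : W →L[ℝ] E →L[ℝ] E →L[ℝ] ℝ :=
  LinearMap.toContinuousLinearMap
    { toFun := evB
      map_add' := fun a b => by ext u v; exact ev_add a b u v
      map_smul' := fun t a => by ext u v; exact ev_smul t a u v }

theorem exists_evL : ∃ L : W →L[ℝ] E →L[ℝ] E →L[ℝ] ℝ, ∀ θ u v, ev θ u v = L θ u v :=
  ⟨evL, fun _ _ _ => rfl⟩

theorem fderiv_ev3 {θ : E → W} {p q : E → E} {θ' : E →L[ℝ] W} {p' q' : E →L[ℝ] E} {y : E}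
    (hθ : HasFDerivAt θ θ' y) (hp : HasFDerivAt p p' y) (hq : HasFDerivAt q q' y) (a : E) :
    fderiv ℝ (fun x => ev (θ x) (p x) (q x)) y a =
      ev (θ' a) (p y) (q y) + ev (θ y) (p' a) (q y) + ev (θ y) (p y) (q' a) := by
  obtain ⟨L, hL⟩ := exists_evL
  simp only [hL]
  have h1 : HasFDerivAt (fun x => L (θ x) (p x) (q x)) _ y :=
    (((ContinuousLinearMap.hasFDerivAt (𝕜 := ℝ) (E := W) (F := E →L[ℝ] E →L[ℝ] ℝ) L).comp y
      hθ).clm_apply hp).clm_apply hq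
  rw [h1.fderiv]
  simp
  ring

theorem hasD2 {F : Type} [NormedAddCommGroup F] [NormedSpace ℝ F] {a : E → F} {y : E}
    (h : ContDiffAt ℝ 2 a y) : HasFDerivAt (fderiv ℝ a) (fderiv ℝ (fderiv ℝ a) y) y :=
  ((h.fderiv_right (m := 1) (by norm_num)).differentiableAt one_ne_zero).hasFDerivAt

theorem symm2 {F : Type} [NormedAddCommGroup F] [NormedSpace ℝ F] {a : E → F} {y : E}
    (h : ContDiffAt ℝ 2 a y) (u v : E) :
    fderiv ℝ (fderiv ℝ a) y u v = fderiv ℝ (fderiv ℝ a) y v u :=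
  h.isSymmSndFDerivAt (by simp) u v

end Calc1Aux
open Calc1Aux

theorem ev_d1 (a : E → E →L[ℝ] ℝ) (y u v : E) :
    ev (d1 a y) u v = fderiv ℝ a y u v - fderiv ℝ a y v u := ev_Dm _ u v
theorem d1_congr {a a' : E → E →L[ℝ] ℝ} {y : E} (h : a =ᶠ[𝓝 y] a') : d1 a y = d1 a' y := by
  rw [d1_eq, d1_eq, h.fderiv_eq]
theorem d1_add {a a' : E → E →L[ℝ] ℝ} {y : E} (h : DifferentiableAt ℝ a y)
    (h' : DifferentiableAt ℝ a' y) : d1 (a + a') y = d1 a y + d1 a' y := by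
  rw [d1_eq, d1_eq, d1_eq, fderiv_add h h', map_add]
theorem d1_sub {a a' : E → E →L[ℝ] ℝ} {y : E} (h : DifferentiableAt ℝ a y)
    (h' : DifferentiableAt ℝ a' y) : d1 (a - a') y = d1 a y - d1 a' y := by
  refine ext_ev fun u v => ?_
  rw [ev_sub, ev_d1, ev_d1, ev_d1, fderiv_sub h h']
  simp
  ring
theorem d1_smul (t : ℝ) (a : E → E →L[ℝ] ℝ) (y : E) : d1 (t • a) y = t • d1 a y := by
  rw [d1_eq, d1_eq, fderiv_const_smul_field (𝕜 := ℝ) (f := a) t, Pi.smul_apply, map_smul]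
theorem d1_const (p : E →L[ℝ] ℝ) (y : E) : d1 (fun _ => p) y = 0 := by
  rw [d1_eq, fderiv_fun_const, Pi.zero_apply, map_zero]
theorem d1_sum {ι : Type} (t : Finset ι) {a : ι → E → E →L[ℝ] ℝ} {y : E}
    (h : ∀ i ∈ t, DifferentiableAt ℝ (a i) y) :
    d1 (∑ i ∈ t, a i) y = ∑ i ∈ t, d1 (a i) y := by
  simp only [d1_eq]
  rw [fderiv_sum h, map_sum]
/-- Leibniz rule. -/
theorem d1_fun_smul {g : E → ℝ} {a : E → E →L[ℝ] ℝ} {y : E} (hg : DifferentiableAt ℝ g y)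
    (ha : DifferentiableAt ℝ a y) :
    d1 (fun x => g x • a x) y = w11 (fderiv ℝ g y) (a y) + g y • d1 a y := by
  refine ext_ev fun u v => ?_
  rw [ev_add, ev_smul, ev_w11, ev_d1, ev_d1, fderiv_fun_smul hg ha]
  simp
  ring
theorem norm_d1_le (a : E → E →L[ℝ] ℝ) (y : E) : ‖d1 a y‖ ≤ 6 * ‖fderiv ℝ a y‖ := by
  have h1 : ∀ i j, |fderiv ℝ a y (eb i) (eb j)| ≤ ‖fderiv ℝ a y‖ := fun i j => by
    have := (fderiv ℝ a y).le_opNorm₂ (eb i) (eb j)
    rwa [norm_eb, norm_eb, mul_one, mul_one] at this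
  refine (norm_mk_le _ (2 * ‖fderiv ℝ a y‖) fun i j => (abs_sub _ _).trans ?_).trans
    (le_of_eq (by ring))
  linarith [h1 i j, h1 j i]
/-- `d1` is a fixed continuous linear map applied to the derivative. -/
theorem exists_d1_clm : ∃ D : (E →L[ℝ] E →L[ℝ] ℝ) →L[ℝ] W,
    ∀ (a : E → E →L[ℝ] ℝ) (y : E), d1 a y = D (fderiv ℝ a y) := ⟨Dm, d1_eq⟩
theorem contDiff_d1 {a : E → E →L[ℝ] ℝ} (h : ContDiff ℝ ∞ a) : ContDiff ℝ ∞ (d1 a) :=
  Dm_smooth.comp (h.fderiv_right (m := ∞) le_rfl)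
theorem contDiffOn_d1 {a : E → E →L[ℝ] ℝ} {U : Set E} (hU : IsOpen U)
    (h : ContDiffOn ℝ ∞ a U) : ContDiffOn ℝ ∞ (d1 a) U :=
  Dm_smooth.comp_contDiffOn (h.fderiv_of_isOpen (m := ∞) hU le_rfl)
theorem Test.d1 {r : ℝ} {a : E → E →L[ℝ] ℝ} (h : Test r a) : Test r (d1 a) :=
  ⟨contDiff_d1 h.1, fun y hy => by rw [d1_eq, h.fderiv.2 y hy, map_zero]⟩
/-- `d d = 0`: symmetry of the second derivative (`ContDiffAt.isSymmSndFDerivAt`). -/
theorem closedAt_d1 {a : E → E →L[ℝ] ℝ} {y : E} (h : ContDiffAt ℝ 2 a y) : ClosedAt (d1 a) y := by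
  have h0 := (Dm_deriv _).comp y (hasD2 h)
  have h1 : HasFDerivAt (d1 a) _ y := h0
  intro u v w
  simp only [h1.fderiv, ContinuousLinearMap.comp_apply, ev_Dm]
  rw [symm2 h u v, symm2 h v w, symm2 h w u]
  ring
theorem d1_fderiv {u : E → ℝ} {y : E} (h : ContDiffAt ℝ 2 u y) : d1 (fderiv ℝ u) y = 0 := by
  refine ext_ev fun v w => ?_
  rw [ev_d1, symm2 h v w, sub_self, ev_zero]
/-- Pull-back commutes with `d` on one-forms. -/
theorem d1_pull {τ : E → E} {a : E → E →L[ℝ] ℝ} {y : E} (hτ : ContDiffAt ℝ 2 τ y)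
    (ha : DifferentiableAt ℝ a (τ y)) :
    d1 (fun x => a (τ x) ∘L fderiv ℝ τ x) y = pull (fderiv ℝ τ y) (d1 a (τ y)) := by
  have h1 : HasFDerivAt (fun x => a (τ x) ∘L fderiv ℝ τ x) _ y :=
    (ha.hasFDerivAt.comp y (hτ.differentiableAt two_ne_zero).hasFDerivAt).clm_comp (hasD2 hτ)
  refine ext_ev fun u v => ?_
  rw [ev_pull, ev_d1, ev_d1, h1.fderiv]
  simp
  rw [symm2 hτ u v]
  ring

theorem ClosedAt.congr {θ θ' : E → W} {y : E} (h : ClosedAt θ y) (he : θ' =ᶠ[𝓝 y] θ) :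
    ClosedAt θ' y := fun u v w => by
  rw [he.fderiv_eq]; exact h u v w
theorem ClosedAt.add {θ θ' : E → W} {y : E} (h : ClosedAt θ y) (h' : ClosedAt θ' y)
    (d : DifferentiableAt ℝ θ y) (d' : DifferentiableAt ℝ θ' y) : ClosedAt (θ + θ') y :=
  fun u v w => by
    simp only [fderiv_add d d', _root_.add_apply, ev_add]
    linarith [h u v w, h' u v w]
theorem ClosedAt.smul {θ : E → W} {y : E} (h : ClosedAt θ y) (t : ℝ) : ClosedAt (t • θ) y :=
  fun u v w => by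
    simp only [fderiv_const_smul_field, Pi.smul_apply, smul_apply, ev_smul]
    rw [← mul_add, ← mul_add, h u v w, mul_zero]
theorem closedAt_zero (y : E) : ClosedAt (0 : E → W) y := fun u v w => by
  simp [ev_zero]
/-- The pull-back of a closed two-form is closed: differentiate
`x ↦ ev (θ (τ x)) (Dτ x v) (Dτ x w)`; the second derivatives of `τ` cancel in the cyclic sum. -/
theorem ClosedAt.pull {τ : E → E} {θ : E → W} {y : E} (hτ : ContDiffAt ℝ 2 τ y)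
    (hθ : DifferentiableAt ℝ θ (τ y)) (h : ClosedAt θ (τ y)) :
    ClosedAt (fun x => pull (fderiv ℝ τ x) (θ (τ x))) y := by
  have h1 : HasFDerivAt (fun x => θ (τ x)) _ y :=
    hθ.hasFDerivAt.comp y (hτ.differentiableAt two_ne_zero).hasFDerivAt
  have h2 : DifferentiableAt ℝ (fun x => P204.pull (fderiv ℝ τ x) (θ (τ x))) y :=
    (((contDiff_pull (n := 1)).differentiable one_ne_zero _).comp y
      (hasD2 hτ).differentiableAt).clm_apply h1.differentiableAt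
  have h3 : ∀ v, HasFDerivAt (fun x => fderiv ℝ τ x v) _ y := fun v =>
    (hasD2 hτ).clm_apply (hasFDerivAt_const v y)
  intro u v w
  simp only [← fderiv_ev h2, ev_pull, fderiv_ev3 h1 (h3 _) (h3 _)]
  have h4 := h (fderiv ℝ τ y u) (fderiv ℝ τ y v) (fderiv ℝ τ y w)
  simp
  rw [symm2 hτ u v, symm2 hτ v w, symm2 hτ w u, ev_swap (θ (τ y)) (fderiv ℝ τ y u),
    ev_swap (θ (τ y)) (fderiv ℝ τ y v), ev_swap (θ (τ y)) (fderiv ℝ τ y w)]
  linarith

end Vale.Agent.P204
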