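import Vale.Agent.P204.MoAtl
import Vale.Agent.P204.Calc1

/-! Forms on `X` and their expressions in charts. See `MoAtl.lean` for `Mo.cover`, `Mo.loc_glob`,
`Mo.pull_loc`, `Mo.loc_trans`, `Mo.smooth_of_local`, `Mo.closed_of_local`, `Mo.smooth_glob`. -/

open scoped ContDiff RealInnerProductSpace Topology
open MeasureTheory Metric

namespace Vale.Agent.P204

universe u

namespace Setup

open Mo Mo.MoAtlAux

variable {X : Type u} [TopologicalSpace X] [T2Space X] (s : Setup X)

omit [T2Space X] in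
theorem symm_mem_source (i : Fin s.m) {y : E} (hy : ‖y‖ < 10) :
    (s.ψ i).symm y ∈ (s.ψ i).source :=
  (s.ψ i).map_target (mem_tgt s i (mem_ball_zero_iff.2 hy))
omit [T2Space X] in
theorem apply_symm (i : Fin s.m) {y : E} (hy : ‖y‖ < 10) : s.ψ i ((s.ψ i).symm y) = y :=
  (s.ψ i).right_inv (mem_tgt s i (mem_ball_zero_iff.2 hy))
omit [T2Space X] in
theorem norm_lt_of_mem (i : Fin s.m) {x : X} (hx : x ∈ (s.ψ i).source) : ‖s.ψ i x‖ < 10 :=
  mem_ball_zero_iff.1 (mem_ball' s i hx)
omit [T2Space X] in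
/-- Some `c i` is positive at `x`, and `c i` vanishes on the unit sphere by continuity. -/
theorem cover_lt (x : X) : ∃ i, x ∈ (s.ψ i).source ∧ ‖s.ψ i x‖ < 1 ∧ 0 < s.c i (s.ψ i x) := by
  obtain ⟨i, -, hi⟩ := Finset.exists_ne_zero_of_sum_ne_zero ((s.c_sum x).trans_ne one_ne_zero)
  split_ifs at hi with hx
  · refine ⟨i, hx, not_le.1 fun h => hi ?_, (s.c_nonneg i _).lt_of_ne' hi⟩
    have h1 : (closedBall (0 : E) 1)ᶜ ⊆ {z | s.c i z = 0} := fun z hz =>
      (s.c_test i).2 z (not_le.1 fun h' => hz (mem_closedBall_zero_iff.2 h'))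
    refine closure_minimal h1 (isClosed_eq (s.c_test i).1.continuous continuous_const) ?_
    rw [closure_compl, interior_closedBall _ one_ne_zero]
    exact fun h' => (mem_ball_zero_iff.1 h').not_ge h
  · exact absurd rfl hi
omit [T2Space X] in
theorem c_le_one (i : Fin s.m) (y : E) : s.c i y ≤ 1 := by
  classical
  by_cases hy : ‖y‖ < 10
  · have h := Finset.single_le_sum (f := fun j => if (s.ψ i).symm y ∈ (s.ψ j).source then
      s.c j (s.ψ j ((s.ψ i).symm y)) else 0) (s := Finset.univ) (fun j _ => by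
        split_ifs
        · exact s.c_nonneg j _
        · exact le_rfl) (Finset.mem_univ i)
    rwa [s.c_sum, if_pos (s.symm_mem_source i hy), s.apply_symm i hy] at h
  · rw [(s.c_test i).2 y (by linarith [not_lt.1 hy])]
    exact zero_le_one
omit [T2Space X] in
theorem isCompact_piece (i : Fin s.m) {r : ℝ} (hr : r < 10) :
    IsCompact ((s.ψ i).symm '' closedBall 0 r) :=
  (isCompact_closedBall _ _).image_of_continuousOn ((s.ψ i).continuousOn_symm.mono fun _ hz =>
    mem_tgt s i (closedBall_subset_ball hr hz))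
omit [T2Space X] in
theorem Q_J (i : Fin s.m) {x : X} (hx : x ∈ (s.ψ i).source) (v : E) :
    s.Q i x (s.J x v) = s.Jl i (s.ψ i x) (s.Q i x v) := by
  simp only [s.Jl_eq i x hx, ContinuousLinearMap.comp_apply, s.PQ i x hx]
omit [T2Space X] in
theorem P_J (i : Fin s.m) {x : X} (hx : x ∈ (s.ψ i).source) (v : E) :
    s.P i x (s.Jl i (s.ψ i x) v) = s.J x (s.P i x v) := by
  simp only [s.Jl_eq i x hx, ContinuousLinearMap.comp_apply, s.PQ i x hx]

omit [T2Space X] in
theorem partition (φ : Form X) : φ = ∑ j, s.glob j fun y => s.c j y • s.loc j φ y := by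
  classical
  funext x
  rw [Finset.sum_apply, ← one_smul ℝ (φ x), ← s.c_sum x, Finset.sum_smul]
  refine Finset.sum_congr rfl fun j _ => ?_
  rw [glob_apply]
  split_ifs with hx
  · rw [map_smul, pull_loc s j φ hx]
  · exact zero_smul _ _
omit [T2Space X] in
theorem ext_loc {φ φ' : Form X} (h : ∀ i, ∀ y : E, ‖y‖ < 1 → s.loc i φ y = s.loc i φ' y) :
    φ = φ' := by
  funext x
  obtain ⟨i, hx, h1, -⟩ := s.cover_lt x
  rw [← pull_loc s i φ hx, h i _ h1, pull_loc s i φ' hx]
omit [T2Space X] in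
theorem glob_congr (i : Fin s.m) {θ θ' : E → W} (h : ∀ y, ‖y‖ < 10 → θ y = θ' y) :
    s.glob i θ = s.glob i θ' := by
  funext x
  rw [glob_apply, glob_apply]
  split_ifs with hx
  · rw [h _ (s.norm_lt_of_mem i hx)]
  · rfl
omit [T2Space X] in
theorem glob0_smul (i : Fin s.m) (h : E → ℝ) (φ : Form X) :
    (fun x => s.glob0 i h x • φ x) = s.glob i fun y => h y • s.loc i φ y := by
  funext x
  rw [glob_apply, glob0]
  split_ifs with hx
  · rw [map_smul, pull_loc s i φ hx]
  · exact zero_smul _ _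
omit [T2Space X] in
theorem fun_smul_glob (i : Fin s.m) (f : X → ℝ) (θ : E → W) :
    (fun x => f x • s.glob i θ x) = s.glob i fun y => f ((s.ψ i).symm y) • θ y := by
  funext x
  rw [glob_apply, glob_apply]
  split_ifs with hx
  · rw [map_smul, (s.ψ i).left_inv hx]
  · exact smul_zero _
omit [T2Space X] in
theorem loc_fun_smul (i : Fin s.m) (f : X → ℝ) (φ : Form X) (y : E) :
    s.loc i (fun x => f x • φ x) y = f ((s.ψ i).symm y) • s.loc i φ y := by
  rw [loc_apply, loc_apply, map_smul]
omit [T2Space X] in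
theorem sum_glob0_c (x : X) : ∑ i, s.glob0 i (s.c i) x = 1 := s.c_sum x
theorem far_nhds (i : Fin s.m) {x : X} (hx : x ∉ (s.ψ i).source) :
    ∀ᶠ z in 𝓝 x, z ∈ (s.ψ i).source → 9 < ‖s.ψ i z‖ := by
  have h1 : ((s.ψ i).symm '' closedBall (0 : E) 9)ᶜ ∈ 𝓝 x :=
    (s.isCompact_piece i (by norm_num)).isClosed.isOpen_compl.mem_nhds (by
      rintro ⟨z, hz, e⟩
      exact hx (e ▸ s.symm_mem_source i (by linarith [mem_closedBall_zero_iff.1 hz])))
  filter_upwards [h1] with z hz hz'
  exact not_le.1 fun h' => hz ⟨_, mem_closedBall_zero_iff.2 h', (s.ψ i).left_inv hz'⟩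
theorem continuous_glob0 (i : Fin s.m) {h : E → ℝ} (hh : CTest 9 h) :
    Continuous (s.glob0 i h) := by
  refine continuous_iff_continuousAt.2 fun x => ?_
  by_cases hx : x ∈ (s.ψ i).source
  · refine (hh.1.continuousAt.comp ((s.ψ i).continuousAt hx)).congr ?_
    filter_upwards [(s.ψ i).open_source.mem_nhds hx] with z hz
    rw [glob0, if_pos hz, Function.comp_apply]
  · refine (continuousAt_const (y := (0 : ℝ))).congr ?_
    filter_upwards [s.far_nhds i hx] with z hz
    rw [glob0]
    split_ifs with hz'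
    · exact (hh.2 _ (hz hz')).symm
    · rfl
theorem cont_glob (i : Fin s.m) {θ : E → W} (hθ : CTest 9 θ) : s.Cont (s.glob i θ) := by
  intro j y hy
  have ht := mem_tgt s j hy
  refine ContinuousAt.continuousWithinAt ?_
  by_cases hx : (s.ψ j).symm y ∈ (s.ψ i).source
  · obtain ⟨k1, k2⟩ := loc_trans s j i (s.glob i θ) ((s.ψ j).map_target ht) hx
    rw [(s.ψ j).right_inv ht] at k1 k2
    refine ContinuousAt.congr ?_ k2.symm
    have k3 : ContinuousAt (s.loc i (s.glob i θ)) (s.ψ i ((s.ψ j).symm y)) := by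
      refine hθ.1.continuousAt.congr ?_
      filter_upwards [isOpen_ball.mem_nhds (mem_ball' s i hx)] with z hz
      exact (loc_glob s i θ (mem_ball_zero_iff.1 hz)).symm
    exact (Mo.contDiff_pull.continuous.continuousAt.comp
      (k1.fderiv_right (m := 0) (by simp)).continuousAt).clm_apply
        (k3.comp (f := fun y => s.ψ i ((s.ψ j).symm y)) k1.continuousAt)
  · refine (continuousAt_const (y := (0 : W))).congr ?_
    filter_upwards [((s.ψ j).continuousAt_symm ht).eventually (s.far_nhds i hx)] with z hz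
    rw [loc_apply, glob_apply]
    split_ifs with hz'
    · rw [hθ.2 _ (hz hz'), map_zero, map_zero]
    · exact (map_zero _).symm

variable {s}
omit [T2Space X] in
theorem Smooth.cont {φ : Form X} (h : s.Smooth φ) : s.Cont φ := fun i => (h i).continuousOn
omit [T2Space X] in
theorem Smooth.add {φ φ' : Form X} (h : s.Smooth φ) (h' : s.Smooth φ') : s.Smooth (φ + φ') :=
  fun i => by rw [map_add]; exact (h i).add (h' i)
omit [T2Space X] in
theorem Smooth.sub {φ φ' : Form X} (h : s.Smooth φ) (h' : s.Smooth φ') : s.Smooth (φ - φ') :=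
  fun i => by rw [map_sub]; exact (h i).sub (h' i)
omit [T2Space X] in
theorem Smooth.smul {φ : Form X} (h : s.Smooth φ) (t : ℝ) : s.Smooth (t • φ) :=
  fun i => by rw [map_smul]; exact (h i).const_smul t
omit [T2Space X] in
theorem Smooth.test_smul {φ : Form X} (h : s.Smooth φ) (i : Fin s.m) {g : E → ℝ} {r : ℝ}
    (hg : Test r g) (hr : r < 10) : Test r fun y => g y • s.loc i φ y :=
  hg.smul_contDiffOn hr (h i)
omit [T2Space X] in
theorem Cont.add {φ φ' : Form X} (h : s.Cont φ) (h' : s.Cont φ') : s.Cont (φ + φ') :=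
  fun i => by rw [map_add]; exact (h i).add (h' i)
omit [T2Space X] in
theorem Cont.sub {φ φ' : Form X} (h : s.Cont φ) (h' : s.Cont φ') : s.Cont (φ - φ') :=
  fun i => by rw [map_sub]; exact (h i).sub (h' i)
omit [T2Space X] in
theorem Cont.smul {φ : Form X} (h : s.Cont φ) (t : ℝ) : s.Cont (t • φ) :=
  fun i => by rw [map_smul]; exact (h i).const_smul t
omit [T2Space X] in
theorem Cont.fun_smul {φ : Form X} (h : s.Cont φ) {f : X → ℝ} (hf : Continuous f) :
    s.Cont fun x => f x • φ x := fun i => by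
  rw [funext (s.loc_fun_smul i f φ)]
  refine ContinuousOn.smul (hf.comp_continuousOn ?_) (h i)
  rw [← s.target i]
  exact (s.ψ i).continuousOn_symm
omit [T2Space X] in
theorem Cont.ctest_smul {φ : Form X} (h : s.Cont φ) (i : Fin s.m) {g : E → ℝ} {r : ℝ}
    (hg : CTest r g) (hr : r < 10) : CTest r fun y => g y • s.loc i φ y :=
  hg.smul_continuousOn hr (h i)
omit [T2Space X] in
theorem Closed.add {φ φ' : Form X} (h : s.Closed φ) (h' : s.Closed φ') (d : s.Smooth φ)
    (d' : s.Smooth φ') : s.Closed (φ + φ') := fun i y hy => by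
  rw [map_add]
  exact (h i y hy).add (h' i y hy) ((cda s d i hy).differentiableAt (by simp))
    ((cda s d' i hy).differentiableAt (by simp))
omit [T2Space X] in
theorem Closed.smul {φ : Form X} (h : s.Closed φ) (t : ℝ) : s.Closed (t • φ) :=
  fun i y hy => by rw [map_smul]; exact (h i y hy).smul t
omit [T2Space X] in
theorem Closed.sub {φ φ' : Form X} (h : s.Closed φ) (h' : s.Closed φ') (d : s.Smooth φ)
    (d' : s.Smooth φ') : s.Closed (φ - φ') := by
  rw [sub_eq_add_neg, ← neg_one_smul ℝ φ']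
  exact h.add (h'.smul _) d (d'.smul _)
variable (s)
omit [T2Space X] in
theorem smooth_zero : s.Smooth 0 := fun i => by rw [map_zero]; exact contDiffOn_const
omit [T2Space X] in
theorem closed_zero : s.Closed 0 := fun i y _ => by rw [map_zero]; exact closedAt_zero y

/-- The continuous forms. -/
def contSub : Submodule ℝ (Form X) where
  carrier := {φ | s.Cont φ}
  add_mem' h h' := Cont.add h h'
  zero_mem' := s.smooth_zero.cont
  smul_mem' t _ h := Cont.smul h t

/-- The smooth forms. -/
def smSub : Submodule ℝ (Form X) where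
  carrier := {φ | s.Smooth φ}
  add_mem' h h' := Smooth.add h h'
  zero_mem' := s.smooth_zero
  smul_mem' t _ h := Smooth.smul h t

/-- The smooth closed forms. -/
def zSub : Submodule ℝ (Form X) where
  carrier := {φ | s.Smooth φ ∧ s.Closed φ}
  add_mem' h h' := ⟨h.1.add h'.1, h.2.add h'.2 h.1 h'.1⟩
  zero_mem' := ⟨s.smooth_zero, s.closed_zero⟩
  smul_mem' t _ h := ⟨h.1.smul t, h.2.smul t⟩

end Setup

end Vale.Agent.P204
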