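import Vale.Agent.P204.MoAtl

/-! Exterior derivatives of test one-forms lie in the span of the small ones. -/

open scoped ContDiff Topology
open MeasureTheory Metric Filter

namespace Vale.Agent.P204.Mo

universe u

variable {X : Type u} [TopologicalSpace X] [T2Space X] (s : Setup X)

namespace MoExAux

/-- transition map -/
noncomputable def tr (k i : Fin s.m) (y : E) : E := s.ψ i ((s.ψ k).symm y)

/-- its domain -/
def A (k i : Fin s.m) : Set E := (s.ψ k).target ∩ (s.ψ k).symm ⁻¹' (s.ψ i).source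

open Classical in
/-- the piece of `p` in chart `k` -/
noncomputable def pk (i : Fin s.m) (p : E → E →L[ℝ] ℝ) (k : Fin s.m) (y : E) : E →L[ℝ] ℝ :=
  if y ∈ A s k i then s.c k y • (p (tr s k i y) ∘L fderiv ℝ (tr s k i) y) else 0

open Classical in
/-- the partition of unity in chart `i` -/
noncomputable def ak (i k : Fin s.m) (y : E) : ℝ := if y ∈ A s i k then s.c k (tr s i k y) else 0

omit [T2Space X] in
theorem isOpen_A (k i : Fin s.m) : IsOpen (A s k i) :=
  (s.ψ k).isOpen_inter_preimage_symm (s.ψ i).open_source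

omit [T2Space X] in
theorem tr_smooth {k i : Fin s.m} {y : E} (hy : y ∈ A s k i) : ContDiffAt ℝ ∞ (tr s k i) y :=
  (s.trans_smooth k i).contDiffAt ((isOpen_A s k i).mem_nhds hy)

theorem ev_far {k i : Fin s.m} {y : E} (hy : y ∈ (s.ψ k).target)
    (h : (s.ψ k).symm y ∉ (s.ψ i).source) {r : ℝ} (hr : r < 10) :
    ∀ᶠ z in 𝓝 y, z ∈ A s k i → r < ‖tr s k i z‖ := by
  have hsub : closedBall (0 : E) r ⊆ (s.ψ i).target := by
    rw [s.target]; exact closedBall_subset_ball hr
  have hK : IsClosed ((s.ψ i).symm '' closedBall (0 : E) r) :=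
    ((isCompact_closedBall _ _).image_of_continuousOn
      ((s.ψ i).continuousOn_symm.mono hsub)).isClosed
  have h1 : (s.ψ k).symm y ∈ ((s.ψ i).symm '' closedBall (0 : E) r)ᶜ := by
    rintro ⟨z, hz, e⟩
    exact h (e ▸ (s.ψ i).map_target (hsub hz))
  filter_upwards [((s.ψ k).continuousAt_symm hy).eventually (hK.isOpen_compl.mem_nhds h1)]
    with z hz hA
  by_contra hn
  exact hz ⟨_, mem_closedBall_zero_iff.2 (not_lt.1 hn), (s.ψ i).left_inv hA.2⟩

theorem pk_ev {i k : Fin s.m} {p : E → E →L[ℝ] ℝ} (hp : Test 9 p) {y : E}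
    (hy : y ∈ (s.ψ k).target) (h : (s.ψ k).symm y ∉ (s.ψ i).source) :
    pk s i p k =ᶠ[𝓝 y] fun _ => 0 := by
  filter_upwards [ev_far s hy h (r := 9) (by norm_num)] with z hz
  unfold pk
  split_ifs with h1
  · rw [hp.2 _ (hz h1), ContinuousLinearMap.zero_comp, smul_zero]
  · rfl

theorem ak_ev {i k : Fin s.m} {y : E} (hy : y ∈ (s.ψ i).target)
    (h : (s.ψ i).symm y ∉ (s.ψ k).source) : ak s i k =ᶠ[𝓝 y] fun _ => 0 := by
  filter_upwards [ev_far s hy h (r := 1) (by norm_num)] with z hz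
  unfold ak
  split_ifs with h1
  · exact (s.c_test k).2 _ (hz h1)
  · rfl

theorem ak_smooth (i k : Fin s.m) {y : E} (hy : y ∈ (s.ψ i).target) :
    ContDiffAt ℝ ∞ (ak s i k) y := by
  by_cases h : (s.ψ i).symm y ∈ (s.ψ k).source
  · have hA : y ∈ A s i k := ⟨hy, h⟩
    refine ((s.c_test k).1.contDiffAt.comp y (tr_smooth s hA)).congr_of_eventuallyEq ?_
    filter_upwards [(isOpen_A s i k).mem_nhds hA] with z hz
    exact if_pos hz
  · exact contDiffAt_const.congr_of_eventuallyEq (ak_ev s hy h)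

omit [T2Space X] in
theorem pk_far (i : Fin s.m) (p : E → E →L[ℝ] ℝ) (k : Fin s.m) {y : E} (hy : 1 < ‖y‖) :
    pk s i p k y = 0 := by
  unfold pk
  rw [(s.c_test k).2 y hy, zero_smul, ite_self]

theorem pk_test (i : Fin s.m) {p : E → E →L[ℝ] ℝ} (hp : Test 9 p) (k : Fin s.m) :
    Test 1 (pk s i p k) := by
  refine ⟨contDiff_iff_contDiffAt.2 fun y => ?_, fun y hy => pk_far s i p k hy⟩
  by_cases hA : y ∈ A s k i
  · have ht := tr_smooth s hA
    refine ((s.c_test k).1.contDiffAt.smul ((hp.1.contDiffAt.comp y ht).clm_comp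
      (ht.fderiv_right (m := ∞) le_rfl))).congr_of_eventuallyEq ?_
    filter_upwards [(isOpen_A s k i).mem_nhds hA] with z hz
    exact if_pos hz
  rcases lt_or_ge 1 ‖y‖ with h | h
  · refine (contDiffAt_const (c := (0 : E →L[ℝ] ℝ))).congr_of_eventuallyEq ?_
    filter_upwards [(isOpen_lt continuous_const continuous_norm).mem_nhds h] with z hz
    exact pk_far s i p k hz
  · have hy : y ∈ (s.ψ k).target := by
      rw [s.target, mem_ball_zero_iff]; linarith
    exact contDiffAt_const.congr_of_eventuallyEq (pk_ev s hp hy fun h' => hA ⟨hy, h'⟩)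

omit [T2Space X] in
theorem ak_sum (i : Fin s.m) {y : E} (hy : y ∈ (s.ψ i).target) : ∑ k, ak s i k y = 1 := by
  rw [← s.c_sum ((s.ψ i).symm y)]
  refine Finset.sum_congr rfl fun k _ => ?_
  unfold ak
  by_cases h : (s.ψ i).symm y ∈ (s.ψ k).source
  · rw [if_pos h, if_pos (show y ∈ A s i k from ⟨hy, h⟩)]; rfl
  · rw [if_neg h, if_neg (show y ∉ A s i k from fun h' => h h'.2)]

theorem dzero (y : E) : d1 (fun _ => 0) y = 0 :=
  W_ext fun u v => by rw [ev_d1]; simp [ev]

theorem dsum {n : ℕ} {f : Fin n → E → E →L[ℝ] ℝ} {y : E}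
    (h : ∀ k, DifferentiableAt ℝ (f k) y) :
    d1 (fun z => ∑ k, f k z) y = ∑ k, d1 (f k) y := by
  refine W_ext fun u v => ?_
  have h1 : ev (∑ k, d1 (f k) y) u v = ∑ k, ev (d1 (f k) y) u v := map_sum (evL u v) _ _
  rw [h1, ev_d1, fderiv_fun_sum fun k _ => h k]
  simp only [ev_d1, Finset.sum_sub_distrib, sum_apply]

theorem piece {i : Fin s.m} {p : E → E →L[ℝ] ℝ} (hp : Test 9 p) (k : Fin s.m) {x : X}
    (hx : x ∈ (s.ψ i).source) :
    pull (s.Q i x) (d1 (fun z => ak s i k z • p z) (s.ψ i x)) = s.glob k (d1 (pk s i p k)) x := by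
  have hy := (s.ψ i).map_source hx
  by_cases h : x ∈ (s.ψ k).source
  · have hA : s.ψ k x ∈ A s k i := ⟨(s.ψ k).map_source h, by
      rw [Set.mem_preimage, (s.ψ k).left_inv h]; exact hx⟩
    have h1 : tr s k i (s.ψ k x) = s.ψ i x := by rw [tr, (s.ψ k).left_inv h]
    have h2 : pk s i p k =ᶠ[𝓝 (s.ψ k x)] fun z =>
        (fun z => ak s i k z • p z) (tr s k i z) ∘L fderiv ℝ (tr s k i) z := by
      filter_upwards [(isOpen_A s k i).mem_nhds hA] with z hz
      have h3 : (s.ψ i).symm (tr s k i z) = (s.ψ k).symm z := (s.ψ i).left_inv hz.2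
      have h4 : tr s k i z ∈ A s i k := ⟨(s.ψ i).map_source hz.2, by
        rw [Set.mem_preimage, h3]; exact (s.ψ k).map_target hz.1⟩
      have h5 : tr s i k (tr s k i z) = z := by
        rw [tr, h3, (s.ψ k).right_inv hz.1]
      rw [pk, if_pos hz, ak, if_pos h4, h5, ContinuousLinearMap.smul_comp]
    have h3 : fderiv ℝ (tr s k i) (s.ψ k x) = s.Q i x ∘L s.P k x :=
      (s.trans_deriv k i x h hx).fderiv
    have h4 : s.glob k (d1 (pk s i p k)) x = pull (s.Q k x) (d1 (pk s i p k) (s.ψ k x)) :=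
      if_pos h
    rw [h4, d1_congr h2, d1_pull (p := fun z => ak s i k z • p z) (tr_smooth s hA)
      (by rw [h1]; exact (ak_smooth s i k hy).smul hp.1.contDiffAt), h3, h1, pull_pull,
      pull_congr (L₁ := (s.Q i x ∘L s.P k x) ∘L s.Q k x) (L₂ := s.Q i x) fun v => by
        simp [s.PQ k x h]]
  · have h1 : (fun z => ak s i k z • p z) =ᶠ[𝓝 (s.ψ i x)] fun _ => 0 := by
      filter_upwards [ak_ev s hy (k := k) (by rw [(s.ψ i).left_inv hx]; exact h)] with z hz
      rw [hz, zero_smul]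
    have h4 : s.glob k (d1 (pk s i p k)) x = 0 := if_neg h
    rw [h4, d1_congr h1, dzero, map_zero]

end MoExAux

open MoExAux in
theorem ex_of_test (i : Fin s.m) {p : E → E →L[ℝ] ℝ} (hp : Test 9 p) :
    s.glob i (d1 p) ∈ s.Ex := by
  have key : s.glob i (d1 p) = ∑ k, s.glob k (d1 (pk s i p k)) := by
    funext x
    rw [Finset.sum_apply]
    by_cases hx : x ∈ (s.ψ i).source
    · have hy := (s.ψ i).map_source hx
      have h1 : p =ᶠ[𝓝 (s.ψ i x)] fun z => ∑ k, ak s i k z • p z := by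
        filter_upwards [(s.ψ i).open_target.mem_nhds hy] with z hz
        rw [← Finset.sum_smul, ak_sum s i hz, one_smul]
      have h2 : s.glob i (d1 p) x = pull (s.Q i x) (d1 p (s.ψ i x)) := if_pos hx
      rw [h2, d1_congr h1, dsum (f := fun k z => ak s i k z • p z) fun k =>
        ((ak_smooth s i k hy).smul hp.1.contDiffAt).differentiableAt (by simp), map_sum]
      exact Finset.sum_congr rfl fun k _ => piece s hp k hx
    · have h2 : s.glob i (d1 p) x = 0 := if_neg hx
      rw [h2]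
      refine (Finset.sum_eq_zero fun k _ => ?_).symm
      by_cases h : x ∈ (s.ψ k).source
      · have h4 : s.glob k (d1 (pk s i p k)) x = pull (s.Q k x) (d1 (pk s i p k) (s.ψ k x)) :=
          if_pos h
        rw [h4, d1_congr (pk_ev s hp ((s.ψ k).map_source h)
          (by rw [(s.ψ k).left_inv h]; exact hx)), dzero, map_zero]
      · exact if_neg h
  rw [key]
  exact Submodule.sum_mem _ fun k _ => Submodule.subset_span ⟨k, _, pk_test s i hp k, rfl⟩

end Vale.Agent.P204.Mo
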