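import Vale.Agent.P204.Ana
import Vale.Agent.P204.Calc0

/-! The `L²` norm, Young type inequality, and the `C^k` norm. -/

open scoped ContDiff RealInnerProductSpace Topology
open MeasureTheory Metric

namespace Vale.Agent.P204

namespace Norms1Aux

theorem real_cs {x A B : ℝ} (hA : 0 ≤ A) (hB : 0 ≤ B)
    (h : ∀ t, 0 < t → 2 * x ≤ t * A + t⁻¹ * B) : x ≤ Real.sqrt A * Real.sqrt B := by
  have ha := Real.sqrt_nonneg A
  have hb := Real.sqrt_nonneg B
  have ha2 := Real.mul_self_sqrt hA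
  have hb2 := Real.mul_self_sqrt hB
  set a := Real.sqrt A
  set b := Real.sqrt B
  refine le_of_forall_pos_le_add fun η hη => ?_
  set ε := η / (a + b + 1) with hε
  have hε0 : 0 < ε := by positivity
  have h1 := h ((b + ε) / (a + ε)) (by positivity)
  have h2 : (b + ε) / (a + ε) * A ≤ (b + ε) * a := by
    rw [← ha2, div_mul_eq_mul_div, div_le_iff₀ (by positivity)]
    have : 0 ≤ (b + ε) * a * ε := by positivity
    nlinarith
  have h3 : ((b + ε) / (a + ε))⁻¹ * B ≤ (a + ε) * b := by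
    rw [← hb2, inv_div, div_mul_eq_mul_div, div_le_iff₀ (by positivity)]
    have : 0 ≤ (a + ε) * b * ε := by positivity
    nlinarith
  have h4 : ε * (a + b + 1) = η := by rw [hε]; field_simp
  nlinarith

theorem cs {α : Type*} [MeasurableSpace α] {μ : Measure α} {h u v : α → ℝ} (h0 : ∀ y, 0 ≤ h y)
    (hle : ∀ y, h y ≤ u y * v y) (hu : Integrable (fun y => u y ^ 2) μ)
    (hv : Integrable (fun y => v y ^ 2) μ) :
    ∫ y, h y ∂μ ≤ Real.sqrt (∫ y, u y ^ 2 ∂μ) * Real.sqrt (∫ y, v y ^ 2 ∂μ) := by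
  refine real_cs (integral_nonneg fun y => sq_nonneg _) (integral_nonneg fun y => sq_nonneg _)
    fun t ht => ?_
  rw [← integral_const_mul, ← integral_const_mul, ← integral_const_mul,
    ← integral_add (hu.const_mul _) (hv.const_mul _)]
  refine integral_mono_of_nonneg (Filter.Eventually.of_forall fun y => ?_)
    ((hu.const_mul _).add (hv.const_mul _)) (Filter.Eventually.of_forall fun y => ?_)
  · have := h0 y
    simp only [Pi.zero_apply]; positivity
  · have h1 := hle y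
    have h2 : t * u y ^ 2 + t⁻¹ * v y ^ 2 - 2 * (u y * v y) = t⁻¹ * (t * u y - v y) ^ 2 := by
      field_simp; ring
    have h3 : 0 ≤ t⁻¹ * (t * u y - v y) ^ 2 := by positivity
    simp only
    linarith

theorem int_sq {G : Type} [NormedAddCommGroup G] {r : ℝ} {f : E → G} (hf : CTest r f) :
    Integrable (fun y => ‖f y‖ ^ 2) := by
  have : CTest r (fun y => ‖f y‖ ^ 2) :=
    ⟨hf.1.norm.pow 2, fun y hy => by simp [hf.2 y hy]⟩
  exact this.integrable _

theorem int_ind (r M : ℝ) :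
    Integrable (fun y : E => ((closedBall (0 : E) r).indicator (fun _ => M) y) ^ 2) := by
  have : (fun y : E => ((closedBall (0 : E) r).indicator (fun _ => M) y) ^ 2) =
      (closedBall (0 : E) r).indicator (fun _ => M ^ 2) := by
    funext y; by_cases hy : y ∈ closedBall (0 : E) r <;> simp [hy]
  rw [this, integrable_indicator_iff measurableSet_closedBall]
  exact integrableOn_const measure_closedBall_lt_top.ne

theorem integral_ind (r M : ℝ) :
    ∫ y : E, ((closedBall (0 : E) r).indicator (fun _ => M) y) ^ 2 =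
      (volume : Measure E).real (closedBall 0 r) * M ^ 2 := by
  have : (fun y : E => ((closedBall (0 : E) r).indicator (fun _ => M) y) ^ 2) =
      (closedBall (0 : E) r).indicator (fun _ => M ^ 2) := by
    funext y; by_cases hy : y ∈ closedBall (0 : E) r <;> simp [hy]
  rw [this, integral_indicator measurableSet_closedBall]
  simp

theorem ctest_sum {ι : Type} (t : Finset ι) {r : ℝ} {g : ι → E → ℝ}
    (hg : ∀ i ∈ t, CTest r (g i)) : CTest r (∑ i ∈ t, g i) := by
  refine ⟨?_, fun y hy => ?_⟩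
  · have : (∑ i ∈ t, g i) = fun y => ∑ i ∈ t, g i y := by funext y; simp
    rw [this]
    exact continuous_finsetSum _ fun i hi => (hg i hi).1
  · rw [Finset.sum_apply]
    exact Finset.sum_eq_zero fun i hi => (hg i hi).2 y hy

theorem bdd {F : Type} [NormedAddCommGroup F] [NormedSpace ℝ F] {r : ℝ} {θ : E → F}
    (h : Test r θ) (j : ℕ) : BddAbove (Set.range fun y => ‖iteratedFDeriv ℝ j θ y‖) := by
  obtain ⟨C, -, hC⟩ := (h.iteratedFDeriv j).ctest.bounded
  exact ⟨C, by rintro _ ⟨y, rfl⟩; exact hC y⟩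

theorem nat_le (j : ℕ) : (j : WithTop ℕ∞) ≤ ∞ := by exact_mod_cast le_top

end Norms1Aux

open Norms1Aux

section l2
variable {G G' : Type} [NormedAddCommGroup G] [NormedAddCommGroup G'] {r : ℝ}

theorem nL2_nonneg (f : E → G) : 0 ≤ nL2 f := Real.sqrt_nonneg _
theorem nL2_sq (f : E → G) : nL2 f ^ 2 = ∫ y, ‖f y‖ ^ 2 :=
  Real.sq_sqrt (integral_nonneg fun _ => sq_nonneg _)
theorem nL2_add_le {f g : E → G} (hf : CTest r f) (hg : CTest r g) :
    nL2 (f + g) ≤ nL2 f + nL2 g := by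
  have h1 := nL2_nonneg f
  have h2 := nL2_nonneg g
  have hm : CTest r (fun y => ‖f y‖ * ‖g y‖) :=
    ⟨hf.1.norm.mul hg.1.norm, fun y hy => by simp [hf.2 y hy]⟩
  have h3 : ∫ y, ‖f y‖ * ‖g y‖ ≤ nL2 f * nL2 g :=
    cs (fun y => by positivity) (fun y => le_rfl) (int_sq hf) (int_sq hg)
  have h4 : ∫ y, ‖(f + g) y‖ ^ 2 ≤ ∫ y, (‖f y‖ ^ 2 + 2 * (‖f y‖ * ‖g y‖) + ‖g y‖ ^ 2) := by
    refine integral_mono (int_sq (hf.add hg))
      (((int_sq hf).add ((hm.integrable _).const_mul 2)).add (int_sq hg)) fun y => ?_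
    have := norm_add_le (f y) (g y)
    have h5 : ‖f y + g y‖ ^ 2 ≤ (‖f y‖ + ‖g y‖) ^ 2 := by gcongr
    simp only [Pi.add_apply]
    nlinarith
  have h6 : ∫ y, (‖f y‖ ^ 2 + 2 * (‖f y‖ * ‖g y‖) + ‖g y‖ ^ 2) =
      nL2 f ^ 2 + 2 * (∫ y, ‖f y‖ * ‖g y‖) + nL2 g ^ 2 := by
    have h7 : Integrable (fun y => ‖f y‖ ^ 2 + 2 * (‖f y‖ * ‖g y‖)) :=
      (int_sq hf).add ((hm.integrable _).const_mul 2)
    rw [integral_add h7 (int_sq hg),
      integral_add (int_sq hf) ((hm.integrable _).const_mul 2), integral_const_mul, nL2_sq, nL2_sq]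
  refine Real.sqrt_le_iff.2 ⟨by positivity, ?_⟩
  nlinarith
theorem nL2_neg (f : E → G) : nL2 (-f) = nL2 f := by simp [nL2]
theorem nL2_smul [NormedSpace ℝ G] (t : ℝ) (f : E → G) : nL2 (t • f) = |t| * nL2 f := by
  unfold nL2
  simp only [Pi.smul_apply, norm_smul, mul_pow, Real.norm_eq_abs]
  rw [integral_const_mul, Real.sqrt_mul (sq_nonneg _), Real.sqrt_sq (abs_nonneg _)]
/-- No measurability of `f` is needed: `integral_mono_of_nonneg`. -/
theorem nL2_le_of_le {f : E → G} {g : E → G'} {C : ℝ} (hC : 0 ≤ C) (hg : CTest r g)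
    (h : ∀ y, ‖f y‖ ≤ C * ‖g y‖) : nL2 f ≤ C * nL2 g := by
  have h2 := nL2_nonneg g
  refine Real.sqrt_le_iff.2 ⟨by positivity, ?_⟩
  rw [mul_pow, nL2_sq, ← integral_const_mul]
  refine integral_mono_of_nonneg (Filter.Eventually.of_forall fun y => sq_nonneg _)
    ((int_sq hg).const_mul _) (Filter.Eventually.of_forall fun y => ?_)
  have := h y
  simp only
  rw [← mul_pow]
  gcongr
theorem nL2_le_sum {ι : Type} (t : Finset ι) {f : E → G} {g : ι → E → ℝ} {C : ℝ} (hC : 0 ≤ C)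
    (hg : ∀ i ∈ t, CTest r (g i)) (h : ∀ y, ‖f y‖ ≤ C * ∑ i ∈ t, g i y) :
    nL2 f ≤ C * ∑ i ∈ t, nL2 (g i) := by
  have h1 : nL2 f ≤ C * nL2 (∑ i ∈ t, g i) := by
    refine nL2_le_of_le hC (ctest_sum t hg) fun y => (h y).trans ?_
    rw [Finset.sum_apply]
    gcongr
    exact le_abs_self _
  refine h1.trans (mul_le_mul_of_nonneg_left ?_ hC)
  clear h1 h
  classical
  induction t using Finset.induction_on with
  | empty => simp [nL2]
  | insert i s hi ih =>
    rw [Finset.sum_insert hi, Finset.sum_insert hi]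
    have hs : ∀ j ∈ s, CTest r (g j) := fun j hj => hg j (Finset.mem_insert_of_mem hj)
    exact (nL2_add_le (hg i (Finset.mem_insert_self _ _)) (ctest_sum s hs)).trans
      (by have := ih hs; linarith)
theorem nL2_norm (f : E → G) : nL2 (fun y => ‖f y‖) = nL2 f := by simp [nL2]
theorem nL2_le_of_bound (r : ℝ) : ∃ C : ℝ, 0 ≤ C ∧ ∀ (G : Type) [NormedAddCommGroup G]
    (f : E → G) (M : ℝ), (∀ y, r < ‖y‖ → f y = 0) → (∀ y, ‖f y‖ ≤ M) → nL2 f ≤ C * M := by
  refine ⟨Real.sqrt ((volume : Measure E).real (closedBall 0 r)), Real.sqrt_nonneg _,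
    fun G _ f M h0 hM => ?_⟩
  have hM0 : 0 ≤ M := (norm_nonneg _).trans (hM 0)
  refine Real.sqrt_le_iff.2 ⟨by positivity, ?_⟩
  rw [mul_pow, Real.sq_sqrt measureReal_nonneg, ← integral_ind]
  refine integral_mono_of_nonneg (Filter.Eventually.of_forall fun y => sq_nonneg _)
    (int_ind r M) (Filter.Eventually.of_forall fun y => ?_)
  by_cases hy : y ∈ closedBall (0 : E) r
  · have := hM y
    simp only [Set.indicator_of_mem hy]
    gcongr
  · have : f y = 0 := h0 y (by simpa using hy)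
    simp [this, hy]
theorem integral_norm_le_nL2 (r : ℝ) : ∃ C : ℝ, 0 ≤ C ∧ ∀ (G : Type) [NormedAddCommGroup G]
    (f : E → G), CTest r f → ∫ y, ‖f y‖ ≤ C * nL2 f := by
  refine ⟨Real.sqrt ((volume : Measure E).real (closedBall 0 r)), Real.sqrt_nonneg _,
    fun G _ f hf => ?_⟩
  have := cs (μ := volume) (h := fun y => ‖f y‖)
    (u := (closedBall (0 : E) r).indicator (fun _ => (1 : ℝ))) (v := fun y => ‖f y‖)
    (fun y => norm_nonneg _) (fun y => ?_) (int_ind r 1) (int_sq hf)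
  · rwa [integral_ind, one_pow, mul_one] at this
  · by_cases hy : y ∈ closedBall (0 : E) r
    · simp [hy]
    · have : f y = 0 := hf.2 y (by simpa using hy)
      simp [this]
/-- Cauchy-Schwarz. -/
theorem abs_integral_wedge_le {a θ : E → W} (ha : ContinuousOn a (closedBall 0 r))
    (hθ : CTest r θ) :
    |∫ y, wedge (a y) (θ y)| ≤ Real.sqrt (∫ y in closedBall (0 : E) r, ‖a y‖ ^ 2) * nL2 θ := by
  have e : (fun y : E => ((closedBall (0 : E) r).indicator (fun y => ‖a y‖) y) ^ 2) =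
      (closedBall (0 : E) r).indicator (fun y => ‖a y‖ ^ 2) := by
    funext y; by_cases hy : y ∈ closedBall (0 : E) r <;> simp [hy]
  have hi : Integrable (fun y : E => ((closedBall (0 : E) r).indicator (fun y => ‖a y‖) y) ^ 2) := by
    rw [e, integrable_indicator_iff measurableSet_closedBall]
    exact (ha.norm.pow 2).integrableOn_compact (isCompact_closedBall _ _)
  have := cs (μ := volume) (h := fun y => |wedge (a y) (θ y)|)
    (u := (closedBall (0 : E) r).indicator (fun y => ‖a y‖)) (v := fun y => ‖θ y‖)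
    (fun y => abs_nonneg _) (fun y => ?_) hi (int_sq hθ)
  · rw [e, integral_indicator measurableSet_closedBall] at this
    exact abs_integral_le_integral_abs.trans this
  · by_cases hy : y ∈ closedBall (0 : E) r
    · simpa [hy] using abs_wedge_le (a y) (θ y)
    · have : θ y = 0 := hθ.2 y (by simpa using hy)
      simp [this, wedge_zero_right]
/-- Cauchy-Schwarz in `p`, Fubini, translation invariance of Lebesgue measure. -/
theorem nL2_young {P : Type} [MeasurableSpace P] (ν : Measure P) [IsFiniteMeasure ν] {a : P → E}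
    (ha : Measurable a) {g : E → ℝ} (hg : CTest r g) (hg0 : ∀ y, 0 ≤ g y) {f : E → G} {C : ℝ}
    (hC : 0 ≤ C) (h : ∀ y, ‖f y‖ ≤ C * ∫ p, g (y + a p) ∂ν) :
    nL2 f ≤ C * ν.real Set.univ * nL2 g := by
  have h2 := nL2_nonneg g
  have hν : 0 ≤ ν.real Set.univ := measureReal_nonneg
  have hg2 : Integrable (fun y => g y ^ 2) := by simpa using int_sq hg
  have hg3 : nL2 g ^ 2 = ∫ y, g y ^ 2 := by rw [nL2_sq]; simp
  have hm : Measurable (fun z : E × P => g (z.1 + a z.2) ^ 2) :=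
    (hg.1.measurable.comp (measurable_fst.add (ha.comp measurable_snd))).pow_const 2
  have hc : ∀ p, ∫ y, g (y + a p) ^ 2 = ∫ y, g y ^ 2 := fun p =>
    integral_add_right_eq_self (fun y => g y ^ 2) (a p)
  have hI : Integrable (fun z : E × P => g (z.1 + a z.2) ^ 2) ((volume : Measure E).prod ν) := by
    rw [integrable_prod_iff' hm.aestronglyMeasurable]
    refine ⟨Filter.Eventually.of_forall fun p => hg2.comp_add_right (a p), ?_⟩
    have : (fun p => ∫ y, ‖g (y + a p) ^ 2‖) = fun _ => ∫ y, g y ^ 2 := by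
      funext p
      rw [← hc p]
      simp
    rw [this]
    exact integrable_const _
  obtain ⟨B, hB0, hB⟩ := hg.bounded
  have hp : ∀ y, ‖f y‖ ^ 2 ≤ C ^ 2 * ν.real Set.univ * ∫ p, g (y + a p) ^ 2 ∂ν := by
    intro y
    have hi : Integrable (fun p => g (y + a p) ^ 2) ν := by
      refine Integrable.of_bound
        ((hg.1.measurable.comp (measurable_const.add ha)).pow_const 2).aestronglyMeasurable (B ^ 2)
        (Filter.Eventually.of_forall fun p => ?_)
      rw [norm_pow]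
      have := hB (y + a p)
      gcongr
    have h3 := cs (μ := ν) (h := fun p => g (y + a p)) (u := fun _ => 1) (v := fun p => g (y + a p))
      (fun p => hg0 _) (fun p => by simp) (integrable_const _) hi
    have h4 : ∫ _ : P, (1 : ℝ) ^ 2 ∂ν = ν.real Set.univ := by simp
    rw [h4] at h3
    have h5 : ‖f y‖ ≤ C * (Real.sqrt (ν.real Set.univ) * Real.sqrt (∫ p, g (y + a p) ^ 2 ∂ν)) :=
      (h y).trans (by gcongr)
    calc ‖f y‖ ^ 2
        ≤ (C * (Real.sqrt (ν.real Set.univ) * Real.sqrt (∫ p, g (y + a p) ^ 2 ∂ν))) ^ 2 := by gcongr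
      _ = _ := by
        rw [mul_pow, mul_pow, Real.sq_sqrt hν, Real.sq_sqrt (integral_nonneg fun _ => sq_nonneg _),
          mul_assoc]
  refine Real.sqrt_le_iff.2 ⟨by positivity, ?_⟩
  have h6 : ∫ y, ‖f y‖ ^ 2 ≤ ∫ y, C ^ 2 * ν.real Set.univ * ∫ p, g (y + a p) ^ 2 ∂ν :=
    integral_mono_of_nonneg (Filter.Eventually.of_forall fun y => sq_nonneg _)
      (hI.integral_prod_left.const_mul _) (Filter.Eventually.of_forall hp)
  refine h6.trans (le_of_eq ?_)
  rw [integral_const_mul, integral_integral_swap (f := fun y p => g (y + a p) ^ 2) hI]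
  simp only [hc]
  rw [integral_const, mul_pow, mul_pow, hg3, smul_eq_mul]
  ring
end l2

section ck
variable {F G : Type} [NormedAddCommGroup F] [NormedSpace ℝ F] [NormedAddCommGroup G]
  [NormedSpace ℝ G] {r : ℝ} {θ θ' : E → F}

theorem Ck_nonneg (k : ℕ) (θ : E → F) : 0 ≤ Ck k θ :=
  Finset.sum_nonneg fun _ _ => Real.iSup_nonneg fun _ => norm_nonneg _
theorem Ck_mono {k k' : ℕ} (h : k ≤ k') (θ : E → F) : Ck k θ ≤ Ck k' θ :=
  Finset.sum_le_sum_of_subset_of_nonneg (Finset.range_mono (Nat.succ_le_succ h))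
    fun _ _ _ => Real.iSup_nonneg fun _ => norm_nonneg _
theorem norm_iteratedFDeriv_le_Ck (h : Test r θ) {j k : ℕ} (hj : j ≤ k) (y : E) :
    ‖iteratedFDeriv ℝ j θ y‖ ≤ Ck k θ :=
  (le_ciSup (bdd h j) y).trans
    (Finset.single_le_sum (f := fun j => ⨆ y, ‖iteratedFDeriv ℝ j θ y‖)
      (fun _ _ => Real.iSup_nonneg fun _ => norm_nonneg _)
      (Finset.mem_range.2 (Nat.lt_succ_of_le hj)))
theorem norm_le_Ck_zero (h : CTest r θ) (y : E) : ‖θ y‖ ≤ Ck 0 θ := by
  obtain ⟨C, -, hC⟩ := h.bounded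
  have hb : BddAbove (Set.range fun y => ‖θ y‖) := ⟨C, by rintro _ ⟨y, rfl⟩; exact hC y⟩
  simpa [Ck] using le_ciSup hb y
theorem Ck_le {k : ℕ} {M : ℝ} (h : ∀ j ≤ k, ∀ y, ‖iteratedFDeriv ℝ j θ y‖ ≤ M) :
    Ck k θ ≤ (k + 1) * M := by
  have : Ck k θ ≤ ∑ _j ∈ Finset.range (k + 1), M :=
    Finset.sum_le_sum fun j hj => ciSup_le (h j (Nat.lt_succ_iff.1 (Finset.mem_range.1 hj)))
  simpa using this
theorem Ck_add_le (h : Test r θ) (h' : Test r θ') (k : ℕ) :
    Ck k (θ + θ') ≤ Ck k θ + Ck k θ' := by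
  unfold Ck
  rw [← Finset.sum_add_distrib]
  refine Finset.sum_le_sum fun j _ => ciSup_le fun y => ?_
  rw [iteratedFDeriv_add_apply (h.1.of_le (nat_le j)).contDiffAt (h'.1.of_le (nat_le j)).contDiffAt]
  exact (norm_add_le _ _).trans (add_le_add (le_ciSup (bdd h j) y) (le_ciSup (bdd h' j) y))
theorem Ck_smul (h : Test r θ) (t : ℝ) (k : ℕ) : Ck k (t • θ) = |t| * Ck k θ := by
  unfold Ck
  rw [Finset.mul_sum]
  refine Finset.sum_congr rfl fun j _ => ?_
  rw [Real.mul_iSup_of_nonneg (abs_nonneg t)]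
  refine iSup_congr fun y => ?_
  rw [iteratedFDeriv_const_smul_apply (h.1.of_le (nat_le j)).contDiffAt, norm_smul,
    Real.norm_eq_abs]
theorem Ck_zero (k : ℕ) : Ck k (0 : E → F) = 0 := by
  have := Ck_smul (Test.zero (F := F) 0) 0 k
  simpa using this
/-- `norm_iteratedFDeriv_clm_apply` and compactness. -/
theorem Ck_clm_le {A : E → F →L[ℝ] G} (hA : ContDiff ℝ ∞ A) (r : ℝ) (k : ℕ) :
    ∃ C : ℝ, 0 ≤ C ∧ ∀ θ : E → F, Test r θ → Ck k (fun y => A y (θ y)) ≤ C * Ck k θ := by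
  have hb : ∀ i : ℕ, ∃ B : ℝ, ∀ y ∈ closedBall (0 : E) r, ‖iteratedFDeriv ℝ i A y‖ ≤ B := fun i =>
    (isCompact_closedBall _ _).exists_bound_of_continuousOn
      (hA.continuous_iteratedFDeriv (nat_le i)).continuousOn
  choose B hB using hb
  set D : ℝ := ∑ n ∈ Finset.range (k + 1), ∑ i ∈ Finset.range (n + 1), (n.choose i : ℝ) * |B i|
    with hD
  have hD0 : 0 ≤ D := Finset.sum_nonneg fun _ _ => Finset.sum_nonneg fun _ _ => by positivity
  refine ⟨(k + 1) * D, by positivity, fun θ hθ => ?_⟩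
  rw [mul_assoc]
  have h0 := Ck_nonneg k θ
  refine Ck_le fun j hj y => ?_
  by_cases hy : y ∈ closedBall (0 : E) r
  · refine (norm_iteratedFDeriv_clm_apply hA hθ.1 y (nat_le j)).trans ?_
    have h1 : ∑ i ∈ Finset.range (j + 1), (j.choose i : ℝ) * |B i| ≤ D :=
      Finset.single_le_sum
        (f := fun n => ∑ i ∈ Finset.range (n + 1), (n.choose i : ℝ) * |B i|)
        (fun _ _ => Finset.sum_nonneg fun _ _ => by positivity)
        (Finset.mem_range.2 (Nat.lt_succ_of_le hj))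
    refine le_trans ?_ (mul_le_mul_of_nonneg_right h1 h0)
    rw [Finset.sum_mul]
    refine Finset.sum_le_sum fun i _ => ?_
    have h2 := (hB i y hy).trans (le_abs_self _)
    have h3 := norm_iteratedFDeriv_le_Ck hθ ((Nat.sub_le j i).trans hj) y
    gcongr
  · rw [((hθ.clm_apply hA).iteratedFDeriv j).2 y (by simpa using hy), norm_zero]
    positivity
end ck

end Vale.Agent.P204
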