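import Vale.Agent.P204.Atlas1
import Vale.Agent.P204.MoEx
import Vale.Agent.P204.Alg3
import Vale.Agent.P204.Norms1

/-! Projections, positivity, exact forms, and comparison with the reference form. -/

open scoped ContDiff RealInnerProductSpace Topology
open MeasureTheory Metric

namespace Vale.Agent.P204

universe u

namespace Setup

variable {X : Type u} [TopologicalSpace X] [T2Space X] (s : Setup X)

theorem atlas2_PJ (i : Fin s.m) {y : E} (hy : ‖y‖ < 10) (v : E) :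
    s.P i ((s.ψ i).symm y) (s.Jl i y v) = s.J ((s.ψ i).symm y) (s.P i ((s.ψ i).symm y) v) := by
  have h := s.P_J i (s.symm_mem_source i hy) v
  rwa [s.apply_symm i hy] at h

theorem atlas2_ev_loc (i : Fin s.m) (φ : Form X) {y : E} (hy : ‖y‖ < 10) (b : E) :
    ev (s.loc i φ y) b (s.Jl i y b) = ev (φ ((s.ψ i).symm y)) (s.P i ((s.ψ i).symm y) b)
      (s.J ((s.ψ i).symm y) (s.P i ((s.ψ i).symm y) b)) := by
  rw [Mo.MoAtlAux.loc_apply, ev_pull, s.atlas2_PJ i hy]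

theorem atlas2_pos_at {φ : Form X} (i : Fin s.m) {x : X} (hx : x ∈ (s.ψ i).source)
    (h : ∀ b, 0 ≤ ev (s.loc i φ (s.ψ i x)) b (s.Jl i (s.ψ i x) b)) (b : E) :
    0 ≤ ev (φ x) b (s.J x b) := by
  rw [← Mo.pull_loc s i φ hx, ev_pull, s.Q_J i hx]
  exact h _

theorem loc_pmF (i : Fin s.m) (φ : Form X) {y : E} (hy : ‖y‖ < 10) :
    s.loc i (s.pmF φ) y = pm (s.Jl i y) (s.loc i φ y) :=
  pull_pm_comm (s.atlas2_PJ i hy) _
theorem loc_ppF (i : Fin s.m) (φ : Form X) {y : E} (hy : ‖y‖ < 10) :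
    s.loc i (s.ppF φ) y = pp (s.Jl i y) (s.loc i φ y) :=
  pull_pp_comm (s.atlas2_PJ i hy) _
theorem pmF_glob (i : Fin s.m) (θ : E → W) :
    s.pmF (s.glob i θ) = s.glob i fun y => pm (s.Jl i y) (θ y) := by
  funext x
  change pm (s.J x) (s.glob i θ x) = _
  rw [Mo.MoAtlAux.glob_apply, Mo.MoAtlAux.glob_apply]
  split_ifs with hx
  · exact (pull_pm_comm (s.Q_J i hx) _).symm
  · exact map_zero _
theorem ppF_add_pmF (φ : Form X) : s.ppF φ + s.pmF φ = φ :=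
  funext fun x => pp_add_pm (s.J x) (φ x)
theorem pmF_add (φ φ' : Form X) : s.pmF (φ + φ') = s.pmF φ + s.pmF φ' :=
  funext fun x => map_add (pm (s.J x)) (φ x) (φ' x)
theorem pmF_sub (φ φ' : Form X) : s.pmF (φ - φ') = s.pmF φ - s.pmF φ' :=
  funext fun x => map_sub (pm (s.J x)) (φ x) (φ' x)
theorem pmF_smul (t : ℝ) (φ : Form X) : s.pmF (t • φ) = t • s.pmF φ :=
  funext fun x => map_smul (pm (s.J x)) t (φ x)
theorem pmF_zero : s.pmF 0 = 0 := funext fun x => map_zero (pm (s.J x))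
theorem pmF_pmF (φ : Form X) : s.pmF (s.pmF φ) = s.pmF φ :=
  funext fun x => pm_pm (s.J_sq x) (φ x)
theorem pmF_ppF (φ : Form X) : s.pmF (s.ppF φ) = 0 :=
  funext fun x => pm_pp (s.J_sq x) (φ x)
theorem pos_ppF_iff (φ : Form X) : s.Pos (s.ppF φ) ↔ s.Pos φ := by
  refine forall_congr' fun x => forall_congr' fun b => ?_
  change 0 ≤ ev (pp (s.J x) (φ x)) b (s.J x b) ↔ _
  rw [ev_pp_J (s.J_sq x)]
theorem pos_loc {φ : Form X} (h : s.Pos φ) (i : Fin s.m) {y : E} (hy : ‖y‖ < 10) (b : E) :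
    0 ≤ ev (s.loc i φ y) b (s.Jl i y b) := by
  rw [s.atlas2_ev_loc i φ hy]
  exact h _ _
theorem pos_of_loc {φ : Form X}
    (h : ∀ i, ∀ y : E, ‖y‖ < 1 → ∀ b, 0 ≤ ev (s.loc i φ y) b (s.Jl i y b)) : s.Pos φ := by
  intro x
  obtain ⟨i, hx, h1, -⟩ := s.cover_lt x
  exact s.atlas2_pos_at i hx (h i _ h1)
theorem pos_glob (i : Fin s.m) {θ : E → W} (h : ∀ y b, 0 ≤ ev (θ y) b (s.Jl i y b)) :
    s.Pos (s.glob i θ) := by
  intro x b
  rw [Mo.MoAtlAux.glob_apply]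
  split_ifs with hx
  · rw [ev_pull, s.Q_J i hx]
    exact h _ _
  · rw [ev_zero]
theorem Smooth.pmF {s : Setup X} {φ : Form X} (h : s.Smooth φ) : s.Smooth (s.pmF φ) :=
  fun i => ((contDiff_pm.comp (s.good i).smooth).contDiffOn.clm_apply (h i)).congr
    fun _ hy => s.loc_pmF i φ (mem_ball_zero_iff.1 hy)
theorem Smooth.ppF {s : Setup X} {φ : Form X} (h : s.Smooth φ) : s.Smooth (s.ppF φ) :=
  fun i => ((contDiff_pp.comp (s.good i).smooth).contDiffOn.clm_apply (h i)).congr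
    fun _ hy => s.loc_ppF i φ (mem_ball_zero_iff.1 hy)
theorem Cont.pmF {s : Setup X} {φ : Form X} (h : s.Cont φ) : s.Cont (s.pmF φ) :=
  fun i => ((contDiff_pm.comp (s.good i).smooth).continuous.continuousOn.clm_apply (h i)).congr
    fun _ hy => s.loc_pmF i φ (mem_ball_zero_iff.1 hy)
theorem Cont.ppF {s : Setup X} {φ : Form X} (h : s.Cont φ) : s.Cont (s.ppF φ) :=
  fun i => ((contDiff_pp.comp (s.good i).smooth).continuous.continuousOn.clm_apply (h i)).congr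
    fun _ hy => s.loc_ppF i φ (mem_ball_zero_iff.1 hy)

theorem atlas2_closed_glob (i : Fin s.m) {p : E → E →L[ℝ] ℝ} (hp : Test 9 p) :
    s.Closed (s.glob i (d1 p)) := by
  intro j y hy
  have ht := Mo.MoAtlAux.mem_tgt s j hy
  by_cases hx : (s.ψ j).symm y ∈ (s.ψ i).source
  · obtain ⟨k1, k2⟩ := Mo.loc_trans s j i (s.glob i (d1 p)) ((s.ψ j).map_target ht) hx
    rw [(s.ψ j).right_inv ht] at k1 k2
    have e : s.loc i (s.glob i (d1 p)) =ᶠ[𝓝 (s.ψ i ((s.ψ j).symm y))] d1 p := by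
      filter_upwards [isOpen_ball.mem_nhds (Mo.MoAtlAux.mem_ball' s i hx)] with z hz
      exact Mo.loc_glob s i _ (mem_ball_zero_iff.1 hz)
    refine Mo.closedAt_congr k2 (Mo.closedAt_pull k1
      (hp.d1.1.contDiffAt.congr_of_eventuallyEq e) (Mo.closedAt_congr e ?_))
    exact closedAt_d1 (hp.1.contDiffAt.of_le (WithTop.coe_le_coe.2 (le_top : (2 : ℕ∞) ≤ ⊤)))
  · refine Mo.closedAt_congr ?_ (closedAt_zero y)
    filter_upwards [Mo.MoExAux.ev_far s ht hx (r := 9) (by norm_num),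
      (s.ψ j).open_target.mem_nhds ht] with z hz hzt
    rw [Mo.MoAtlAux.loc_apply, Mo.MoAtlAux.glob_apply]
    split_ifs with hz'
    · have h9 : 9 < ‖s.ψ i ((s.ψ j).symm z)‖ := hz ⟨hzt, hz'⟩
      rw [hp.d1.2 _ h9, map_zero, map_zero]
      rfl
    · exact map_zero _

/-- `Submodule.span_induction`; generators: `Mo.smooth_glob`, and near a point of chart `j` the form
is either zero or a pull-back of `d1 p` (`Mo.loc_trans`, `ClosedAt.pull`, `closedAt_d1`). -/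
theorem ex_smooth_closed {e : Form X} (he : e ∈ s.Ex) : s.Smooth e ∧ s.Closed e := by
  have h : s.Ex ≤ s.zSub := by
    refine Submodule.span_le.2 ?_
    rintro φ ⟨i, p, hp, rfl⟩
    have hp9 : Test 9 p := hp.mono (by norm_num)
    exact ⟨Mo.smooth_glob s i hp9.d1, s.atlas2_closed_glob i hp9⟩
  exact h he

variable {s} {om : Form X}

omit [TopologicalSpace X] [T2Space X] in
theorem atlas2_lower {θ : E → W} {J : E → E →L[ℝ] E} (hc : ContinuousOn θ (closedBall 0 9))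
    (hJ : Continuous J)
    (hp : ∀ y ∈ closedBall (0 : E) 9, ∀ b : E, ‖b‖ = 1 → 0 < ev (θ y) b (J y b)) :
    ∃ c₀ > (0 : ℝ), ∀ y ∈ closedBall (0 : E) 9, ∀ b : E, ‖b‖ = 1 → c₀ ≤ ev (θ y) b (J y b) := by
  have hK : IsCompact (closedBall (0 : E) 9 ×ˢ sphere (0 : E) 1) :=
    (isCompact_closedBall _ _).prod (isCompact_sphere _ _)
  have c1 : ContinuousOn (fun q : E × E => θ q.1) (closedBall (0 : E) 9 ×ˢ sphere (0 : E) 1) :=
    hc.comp continuousOn_fst fun _ hq => hq.1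
  have c2 : Continuous fun q : E × E => J q.1 q.2 :=
    (hJ.comp continuous_fst).clm_apply continuous_snd
  have c4 : Continuous fun p : W × E × E => ev p.1 p.2.1 p.2.2 :=
    (contDiff_ev3 (n := 0)).continuous
  have c5 : ContinuousOn (fun q : E × E => ((θ q.1, q.2, J q.1 q.2) : W × E × E))
      (closedBall (0 : E) 9 ×ˢ sphere (0 : E) 1) :=
    c1.prodMk (continuous_snd.prodMk c2).continuousOn
  have c3 := c4.comp_continuousOn c5
  obtain ⟨c, hc0, hc1⟩ := hK.exists_forall_le' c3 (a := 0) fun q hq =>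
    hp q.1 hq.1 q.2 (mem_sphere_zero_iff_norm.1 hq.2)
  exact ⟨c, hc0, fun y hy b hb => hc1 (y, b) ⟨hy, mem_sphere_zero_iff_norm.2 hb⟩⟩

theorem Tame.atlas2_bounds (h : s.Tame om) (i : Fin s.m) : ∃ c₀ > (0 : ℝ), ∃ C₀ : ℝ,
    ∀ y ∈ closedBall (0 : E) 9, ‖s.loc i (s.ppF om) y‖ ≤ C₀ ∧
      ∀ b : E, ‖b‖ = 1 → c₀ ≤ ev (s.loc i (s.ppF om) y) b (s.Jl i y b) := by
  have hsub : closedBall (0 : E) 9 ⊆ ball 0 10 := closedBall_subset_ball (by norm_num)
  have hc : ContinuousOn (s.loc i (s.ppF om)) (closedBall 0 9) :=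
    (h.smooth.ppF i).continuousOn.mono hsub
  obtain ⟨C, hC⟩ := (isCompact_closedBall (0 : E) 9).exists_bound_of_continuousOn hc
  obtain ⟨c, hc0, hc1⟩ := atlas2_lower hc (s.good i).smooth.continuous (by
    intro y hy b hb'
    have hy' : ‖y‖ < 10 := mem_ball_zero_iff.1 (hsub hy)
    rw [s.loc_ppF i om hy', ev_pp_J ((s.good i).near y).1, s.atlas2_ev_loc i om hy']
    refine h.pos _ _ fun h0 => ?_
    have h1 := s.QP i _ (s.symm_mem_source i hy') b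
    rw [h0, map_zero] at h1
    rw [← h1, norm_zero] at hb'
    exact zero_ne_one hb')
  exact ⟨c, hc0, C, fun y hy => ⟨hC y hy, hc1 y hy⟩⟩

/-- Compactness of `closedBall 0 9 ×ˢ sphere 0 1`. -/
theorem Tame.bounds (h : s.Tame om) : ∃ c₀ > (0 : ℝ), ∃ C₀ : ℝ, 0 ≤ C₀ ∧ ∀ i,
    ∀ y ∈ closedBall (0 : E) 9, ‖s.loc i (s.ppF om) y‖ ≤ C₀ ∧
      ∀ b, c₀ * ‖b‖ ^ 2 ≤ ev (s.loc i (s.ppF om) y) b (s.Jl i y b) := by
  choose c hc C hC using h.atlas2_bounds
  have h1 : ∀ᶠ t in 𝓝[>] (0 : ℝ), ∀ i, t < c i :=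
    Filter.eventually_all.2 fun i => (eventually_lt_nhds (hc i)).filter_mono nhdsWithin_le_nhds
  obtain ⟨c₀, h2, h3⟩ := (h1.and self_mem_nhdsWithin).exists
  refine ⟨c₀, h3, ∑ i, |C i|, Finset.sum_nonneg fun i _ => abs_nonneg _, fun i y hy => ⟨?_, ?_⟩⟩
  · exact ((hC i y hy).1.trans (le_abs_self _)).trans
      (Finset.single_le_sum (f := fun i => |C i|) (fun i _ => abs_nonneg _) (Finset.mem_univ i))
  · intro b
    rcases eq_or_ne b 0 with rfl | hb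
    · rw [map_zero, ev_self, norm_zero]
      simp
    · have hn : 0 < ‖b‖ := norm_pos_iff.2 hb
      have h4 := (hC i y hy).2 (‖b‖⁻¹ • b) (by
        rw [norm_smul, norm_inv, norm_norm, inv_mul_cancel₀ hn.ne'])
      rw [map_smul, ev_smul_left, ev_smul_right] at h4
      have h5 := mul_le_mul_of_nonneg_right ((h2 i).le.trans h4) (sq_nonneg ‖b‖)
      refine h5.trans (le_of_eq ?_)
      field_simp
theorem Tame.pos_F (h : s.Tame om) : s.Pos (s.ppF om) := by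
  rw [s.pos_ppF_iff]
  intro x b
  rcases eq_or_ne b 0 with rfl | hb
  · rw [map_zero, ev_self]
  · exact (h.pos x b hb).le

theorem atlas2_pick (x : X) : ∃ i, x ∈ (s.ψ i).source ∧ ‖s.ψ i x‖ ≤ 1 ∧
    1 ≤ (s.m : ℝ) * s.c i (s.ψ i x) := by
  obtain ⟨i₀, -⟩ := s.cover_lt x
  have hm : (0 : ℝ) < s.m := by exact_mod_cast Fin.pos i₀
  have h1 : ∑ _i : Fin s.m, (1 : ℝ) ≤ ∑ i, (s.m : ℝ) * s.glob0 i (s.c i) x := by
    rw [← Finset.mul_sum, s.sum_glob0_c]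
    simp
  obtain ⟨i, -, hi⟩ := Finset.exists_le_of_sum_le ⟨i₀, Finset.mem_univ _⟩ h1
  unfold glob0 at hi
  split_ifs at hi with hx
  · refine ⟨i, hx, not_lt.1 fun h2 => ?_, hi⟩
    rw [(s.c_test i).2 _ h2] at hi
    linarith
  · linarith

/-- At `x` choose `i` with `c i (ψ i x) ≥ 1 / m`; then `‖loc i φ‖ ≤ m * sn 0 φ` there
(`norm_le_Ck_zero`). -/
theorem Tame.pos_add (h : s.Tame om) : ∃ C : ℝ, 0 ≤ C ∧ ∀ φ, s.Cont φ →
    s.Pos ((C * s.sn 0 φ) • s.ppF om + φ) ∧ s.Pos ((C * s.sn 0 φ) • s.ppF om - φ) := by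
  obtain ⟨c₀, hc₀, C₀, -, hb⟩ := h.bounds
  refine ⟨2 * s.m / c₀, by positivity, fun φ hφ => ?_⟩
  have hsn : 0 ≤ s.sn 0 φ := Finset.sum_nonneg fun j _ => Ck_nonneg _ _
  have key : ∀ x, ∃ i, x ∈ (s.ψ i).source ∧ ∀ b,
      |ev (s.loc i φ (s.ψ i x)) b (s.Jl i (s.ψ i x) b)| ≤ (2 * s.m / c₀ * s.sn 0 φ) *
        ev (s.loc i (s.ppF om) (s.ψ i x)) b (s.Jl i (s.ψ i x) b) := by
    intro x
    obtain ⟨i, hx, h1, h2⟩ := atlas2_pick (s := s) x
    refine ⟨i, hx, fun b => ?_⟩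
    set y := s.ψ i x
    have a1 := norm_le_Ck_zero (hφ.ctest_smul i (s.c_test i).ctest (by norm_num)) y
    have a2 : (Ck 0 fun y => s.c i y • s.loc i φ y) ≤ s.sn 0 φ :=
      Finset.single_le_sum (f := fun j => Ck 0 fun y => s.c j y • s.loc j φ y)
        (fun j _ => Ck_nonneg _ _) (Finset.mem_univ i)
    rw [norm_smul, Real.norm_of_nonneg (s.c_nonneg i y)] at a1
    have a3 : ‖s.loc i φ y‖ ≤ s.m * s.sn 0 φ := by
      have b1 := mul_le_mul_of_nonneg_right h2 (norm_nonneg (s.loc i φ y))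
      have b2 := mul_le_mul_of_nonneg_left (a1.trans a2) (Nat.cast_nonneg (α := ℝ) s.m)
      linarith
    have a4 : ‖s.Jl i y b‖ ≤ 2 * ‖b‖ :=
      ((s.Jl i y).le_opNorm b).trans (mul_le_mul_of_nonneg_right
        (((s.good i).near y).norm_le.trans (by norm_num)) (norm_nonneg b))
    have a5 := (hb i y (mem_closedBall_zero_iff.2 (h1.trans (by norm_num)))).2 b
    have a6 : (0 : ℝ) ≤ 2 * s.m / c₀ * s.sn 0 φ := by positivity
    calc |ev (s.loc i φ y) b (s.Jl i y b)| ≤ ‖s.loc i φ y‖ * ‖b‖ * ‖s.Jl i y b‖ := abs_ev_le _ _ _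
      _ ≤ (s.m * s.sn 0 φ) * ‖b‖ * (2 * ‖b‖) := by gcongr
      _ = (2 * s.m / c₀ * s.sn 0 φ) * (c₀ * ‖b‖ ^ 2) := by field_simp
      _ ≤ _ := mul_le_mul_of_nonneg_left a5 a6
  constructor
  · intro x
    obtain ⟨i, hx, hk⟩ := key x
    refine s.atlas2_pos_at i hx fun b => ?_
    rw [map_add, map_smul, Pi.add_apply, Pi.smul_apply, ev_add, ev_smul]
    have := (abs_le.1 (hk b)).1
    linarith
  · intro x
    obtain ⟨i, hx, hk⟩ := key x
    refine s.atlas2_pos_at i hx fun b => ?_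
    rw [map_sub, map_smul, Pi.sub_apply, Pi.smul_apply, ev_sub, ev_smul]
    have := (abs_le.1 (hk b)).2
    linarith
/-- A positive functional is bounded. -/
theorem Tame.abs_le_sn (h : s.Tame om) : ∃ C : ℝ, 0 ≤ C ∧ ∀ T : GF X,
    (∀ φ, s.Cont φ → s.Pos φ → 0 ≤ T φ) → ∀ φ, s.Cont φ →
      |T φ| ≤ C * T (s.ppF om) * s.sn 0 φ := by
  obtain ⟨C, hC, h1⟩ := h.pos_add
  refine ⟨C, hC, fun T hT φ hφ => ?_⟩
  have cF := (h.smooth.ppF.cont).smul (C * s.sn 0 φ)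
  have a1 := hT _ (cF.add hφ) (h1 φ hφ).1
  have a2 := hT _ (cF.sub hφ) (h1 φ hφ).2
  rw [map_add, map_smul, smul_eq_mul] at a1
  rw [map_sub, map_smul, smul_eq_mul] at a2
  rw [abs_le]
  constructor <;> linarith

end Setup

end Vale.Agent.P204
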