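import Vale.Agent.P204.Atlas2

/-! The integral of a wedge product: change of variables. -/

open scoped ContDiff RealInnerProductSpace Topology
open MeasureTheory Metric

namespace Vale.Agent.P204

universe u

namespace AtlasIntAux

theorem contOn_wedge {U : Set E} {a b : E → W} (ha : ContinuousOn a U) (hb : ContinuousOn b U) :
    ContinuousOn (fun y => wedge (a y) (b y)) U :=
  (contDiff_wedge2 (n := 0)).continuous.comp_continuousOn (f := fun y => (a y, b y)) (ha.prodMk hb)

theorem ctest_wedge {r r' : ℝ} {θ F : E → W} (hθ : CTest r θ) (hr : r < r')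
    (h : ContinuousOn F (ball 0 r')) : CTest r fun y => wedge (θ y) (F y) := by
  have z : ∀ y, r < ‖y‖ → wedge (θ y) (F y) = 0 := fun y hy => by
    rw [hθ.2 y hy, wedge_zero_left]
  refine ⟨continuous_iff_continuousAt.2 fun y => ?_, z⟩
  rcases lt_or_ge ‖y‖ r' with hy | hy
  · exact (contOn_wedge hθ.1.continuousOn h).continuousAt
      (isOpen_ball.mem_nhds (mem_ball_zero_iff.2 hy))
  · exact continuousAt_const.congr
      (Calc0Aux.ev_out (g := fun _ => (0 : ℝ)) z (hr.trans_le hy)).symm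

end AtlasIntAux

namespace Setup

variable {X : Type u} [TopologicalSpace X] [T2Space X] (s : Setup X)

omit [T2Space X] in
theorem Int_comm (φ φ' : Form X) : s.Int φ φ' = s.Int φ' φ := by
  simp only [Int, wedge_comm (s.loc _ φ _)]
omit [T2Space X] in
theorem integrable_Int {φ φ' : Form X} (h : s.Cont φ) (h' : s.Cont φ') (j : Fin s.m) :
    Integrable fun y => s.c j y * wedge (s.loc j φ y) (s.loc j φ' y) :=
  ((s.c_test j).ctest.smul_continuousOn (by norm_num)
    (AtlasIntAux.contOn_wedge (h j) (h' j))).integrable _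
omit [T2Space X] in
theorem Int_add_left {φ₁ φ₂ φ' : Form X} (h₁ : s.Cont φ₁) (h₂ : s.Cont φ₂) (h' : s.Cont φ') :
    s.Int (φ₁ + φ₂) φ' = s.Int φ₁ φ' + s.Int φ₂ φ' := by
  simp only [Int, map_add, Pi.add_apply, wedge_add_left, mul_add, ← Finset.sum_add_distrib]
  exact Finset.sum_congr rfl fun j _ =>
    integral_add (s.integrable_Int h₁ h' j) (s.integrable_Int h₂ h' j)
omit [T2Space X] in
theorem Int_add_right {φ φ₁ φ₂ : Form X} (h : s.Cont φ) (h₁ : s.Cont φ₁) (h₂ : s.Cont φ₂) :
    s.Int φ (φ₁ + φ₂) = s.Int φ φ₁ + s.Int φ φ₂ := by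
  rw [s.Int_comm, s.Int_add_left h₁ h₂ h, s.Int_comm φ₁, s.Int_comm φ₂]
omit [T2Space X] in
theorem Int_sub_left {φ₁ φ₂ φ' : Form X} (h₁ : s.Cont φ₁) (h₂ : s.Cont φ₂) (h' : s.Cont φ') :
    s.Int (φ₁ - φ₂) φ' = s.Int φ₁ φ' - s.Int φ₂ φ' := by
  simp only [Int, map_sub, Pi.sub_apply, wedge_sub_left, mul_sub, ← Finset.sum_sub_distrib]
  exact Finset.sum_congr rfl fun j _ =>
    integral_sub (s.integrable_Int h₁ h' j) (s.integrable_Int h₂ h' j)
omit [T2Space X] in
theorem Int_smul_left (t : ℝ) (φ φ' : Form X) : s.Int (t • φ) φ' = t * s.Int φ φ' := by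
  simp only [Int, map_smul, Pi.smul_apply, wedge_smul_left, mul_left_comm _ t, integral_const_mul,
    Finset.mul_sum]
omit [T2Space X] in
theorem Int_smul_right (t : ℝ) (φ φ' : Form X) : s.Int φ (t • φ') = t * s.Int φ φ' := by
  rw [s.Int_comm, s.Int_smul_left, s.Int_comm]
omit [T2Space X] in
theorem Int_zero_left (φ : Form X) : s.Int 0 φ = 0 := by
  simp [Int, wedge_zero_left]
theorem Int_sum_left {ι : Type} (t : Finset ι) {φ : ι → Form X} {φ' : Form X}
    (h : ∀ i ∈ t, s.Cont (φ i)) (h' : s.Cont φ') :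
    s.Int (∑ i ∈ t, φ i) φ' = ∑ i ∈ t, s.Int (φ i) φ' := by
  classical
  induction t using Finset.induction_on with
  | empty => simpa using s.Int_zero_left φ'
  | insert a t ha ih =>
    have ht : ∀ i ∈ t, s.Cont (φ i) := fun i hi => h i (Finset.mem_insert_of_mem hi)
    rw [Finset.sum_insert ha, Finset.sum_insert ha, s.Int_add_left
      (h a (Finset.mem_insert_self _ _)) (s.contSub.sum_mem ht) h', ih ht]
/-- `Near.det_pos_of_intertwine`. -/
theorem det_trans_pos (i j : Fin s.m) {x : X} (hi : x ∈ (s.ψ i).source)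
    (hj : x ∈ (s.ψ j).source) : 0 < (s.Q i x ∘L s.P j x).det := by
  refine ((s.good j).near (s.ψ j x)).det_pos_of_intertwine ((s.good i).near (s.ψ i x))
    (fun u v h => ?_) fun v => ?_
  · have h1 := congrArg (fun w => s.Q j x (s.P i x w)) h
    simpa only [ContinuousLinearMap.comp_apply, s.PQ i x hi, s.QP j x hj] using h1
  · simp only [ContinuousLinearMap.comp_apply, s.P_J j hj, s.Q_J i hi]

theorem Int_glob_term (i j : Fin s.m) {θ : E → W} (hθ : CTest 9 θ) (φ : Form X) :
    ∫ y, s.c j y * wedge (s.loc j (s.glob i θ) y) (s.loc j φ y) =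
      ∫ y, wedge (θ y) (s.loc i φ y) * s.glob0 j (s.c j) ((s.ψ i).symm y) := by
  have h := integral_target_eq_integral_abs_det_fderiv_smul volume
    (f := (s.ψ j).symm.trans (s.ψ i))
    (f' := fun y => s.Q i ((s.ψ j).symm y) ∘L s.P j ((s.ψ j).symm y)) (fun y hy => by
      have h1 := s.trans_deriv j i _ ((s.ψ j).map_target hy.1) hy.2
      rwa [(s.ψ j).right_inv hy.1] at h1)
    fun y => wedge (θ y) (s.loc i φ y) * s.glob0 j (s.c j) ((s.ψ i).symm y)
  rw [setIntegral_eq_integral_of_forall_compl_eq_zero fun y hy => ?_] at h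
  · rw [h, ← setIntegral_eq_integral_of_forall_compl_eq_zero
      (s := ((s.ψ j).symm.trans (s.ψ i)).source) fun y hy => ?_]
    · refine setIntegral_congr_fun ((s.ψ j).symm.trans (s.ψ i)).open_source.measurableSet
        fun y hy => ?_
      have h1 : (s.ψ j).symm y ∈ (s.ψ j).source := (s.ψ j).map_target hy.1
      have h2 : (s.ψ j).symm y ∈ (s.ψ i).source := hy.2
      have h3 : s.loc j φ y = pull (s.Q i ((s.ψ j).symm y) ∘L s.P j ((s.ψ j).symm y))
          (s.loc i φ (s.ψ i ((s.ψ j).symm y))) := by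
        rw [pull_comp, Mo.pull_loc s i φ h2, Mo.MoAtlAux.loc_apply]
      simp only [OpenPartialHomeomorph.trans_apply, smul_eq_mul]
      rw [h3, Mo.MoAtlAux.loc_apply s j, Mo.MoAtlAux.glob_apply, if_pos h2, ← pull_comp,
        wedge_pull, abs_of_pos (s.det_trans_pos i j h2 h1), (s.ψ i).left_inv h2, glob0, if_pos h1,
        (s.ψ j).right_inv hy.1]
      ring
    · by_cases h1 : ‖y‖ < 10
      · have h2 : (s.ψ j).symm y ∉ (s.ψ i).source := fun h2 =>
          hy ⟨Mo.MoAtlAux.mem_tgt s j (mem_ball_zero_iff.2 h1), h2⟩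
        rw [Mo.MoAtlAux.loc_apply s j, Mo.MoAtlAux.glob_apply, if_neg h2, map_zero,
          wedge_zero_left, mul_zero]
      · rw [(s.c_test j).2 y (by linarith [not_lt.1 h1]), zero_mul]
  · by_cases h1 : ‖y‖ < 10
    · have h2 : (s.ψ i).symm y ∉ (s.ψ j).source := fun h2 =>
        hy ⟨Mo.MoAtlAux.mem_tgt s i (mem_ball_zero_iff.2 h1), h2⟩
      rw [glob0, if_neg h2, mul_zero]
    · rw [hθ.2 y (by linarith [not_lt.1 h1]), wedge_zero_left, zero_mul]

/-- For each `j`, change variables `y' = ψ i ((ψ j).symm y)` on the overlap with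
`integral_image_eq_integral_abs_det_fderiv_smul`, `wedge_pull`, `det_trans_pos`: the `j`-th term
is `∫ glob0 j (c j) ((ψ i).symm y') * wedge (θ y') (loc i φ y') dy'`; sum with `sum_glob0_c`. -/
theorem Int_glob (i : Fin s.m) {θ : E → W} (hθ : CTest 9 θ) {φ : Form X} (hφ : s.Cont φ) :
    s.Int (s.glob i θ) φ = ∫ y, wedge (θ y) (s.loc i φ y) := by
  simp only [Int, s.Int_glob_term i _ hθ]
  rw [← integral_finsetSum _ fun j _ => ?_]
  · simp only [← Finset.mul_sum, s.sum_glob0_c, mul_one]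
  · refine ((AtlasIntAux.ctest_wedge hθ (by norm_num) (hφ i)).smul_continuousOn (r' := 10)
      (by norm_num) ?_).integrable _
    rw [← s.target i]
    exact (s.continuous_glob0 j ((s.c_test j).ctest.mono (by norm_num))).comp_continuousOn
      (s.ψ i).continuousOn_symm

end Setup

end Vale.Agent.P204
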