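import Vale.Agent.P204.Calc1

/-! Integration by parts in a chart. -/

open scoped ContDiff RealInnerProductSpace Topology
open MeasureTheory Metric

namespace Vale.Agent.P204

namespace Calc3Aux

/-- Integrable with integral zero. -/
def Z (f : E → ℝ) : Prop := Integrable f ∧ ∫ y, f y = 0

theorem Z.add {f g : E → ℝ} (h : Z f) (h' : Z g) : Z fun y => f y + g y :=
  ⟨h.1.add h'.1, by rw [integral_add h.1 h'.1, h.2, h'.2, add_zero]⟩

theorem Z.sub {f g : E → ℝ} (h : Z f) (h' : Z g) : Z fun y => f y - g y :=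
  ⟨h.1.sub h'.1, by rw [integral_sub h.1 h'.1, h.2, h'.2, sub_zero]⟩

theorem Z.congr {f g : E → ℝ} (h : Z f) (e : ∀ y, f y = g y) : Z g := funext e ▸ h

theorem z_fderiv {r : ℝ} {g : E → ℝ} (h : Test r g) (v : E) : Z fun y => fderiv ℝ g y v := by
  have h1 : Integrable fun y => fderiv ℝ g y v :=
    (h.fderiv.ctest.integrable volume).apply_continuousLinearMap v
  have := integral_mul_fderiv_eq_neg_fderiv_mul_of_integrable (μ := (volume : Measure E))
    (f := fun _ : E => (1 : ℝ)) (g := g) (v := v) (by simp) (by simpa using h1)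
    (by simpa using h.ctest.integrable volume) (fun _ _ => differentiableAt_const _)
    fun x _ => h.1.differentiable (by simp) x
  exact ⟨h1, by simpa using this⟩

variable {r r' : ℝ} {p : E → E →L[ℝ] ℝ} {φ : E → W}

theorem z_one (hr : r < r') (hp : Test r p) (hφ : ContDiffOn ℝ ∞ φ (ball 0 r')) (a b : Fin 4)
    (c : Fin 6) :
    Z fun y => fderiv ℝ p y (eb a) (eb b) * φ y c + p y (eb b) * fderiv ℝ φ y (eb a) c := by
  have h1 : Test r fun y => p y (eb b) :=
    hp.clm_apply (A := fun _ => ContinuousLinearMap.apply ℝ ℝ (eb b)) contDiff_const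
  have h2 : Test r fun y => p y (eb b) * φ y c :=
    h1.smul_contDiffOn hr ((EuclideanSpace.proj c : W →L[ℝ] ℝ).contDiff.comp_contDiffOn hφ)
  refine (z_fderiv h2 (eb a)).congr fun y => ?_
  by_cases hy : y ∈ ball (0 : E) r'
  · have d1 := (ContinuousLinearMap.apply ℝ ℝ (eb b)).hasFDerivAt.comp y
      (hp.1.differentiable (by simp) y).hasFDerivAt
    have d2 := (EuclideanSpace.proj c : W →L[ℝ] ℝ).hasFDerivAt.comp y
      ((hφ.contDiffAt (isOpen_ball.mem_nhds hy)).differentiableAt (by simp)).hasFDerivAt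
    refine (congrArg (fun L : E →L[ℝ] ℝ => L (eb a)) (d1.mul d2).fderiv).trans ?_
    simp [add_comm, mul_comm]
  · have h3 : r < ‖y‖ := hr.trans_le (by simpa using hy)
    simp [h2.fderiv.2 y h3, hp.fderiv.2 y h3, hp.2 y h3]

/-- The components of the exterior derivative. -/
noncomputable def cc (L : E →L[ℝ] W) : Fin 4 → ℝ :=
  ![-L (eb 1) 5 + L (eb 2) 4 - L (eb 3) 3, L (eb 0) 5 - L (eb 2) 2 + L (eb 3) 1,
    -L (eb 0) 4 + L (eb 1) 2 - L (eb 3) 0, L (eb 0) 3 - L (eb 1) 1 + L (eb 2) 0]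

theorem z_all (hr : r < r') (hp : Test r p) (hφ : ContDiffOn ℝ ∞ φ (ball 0 r')) :
    Z fun y => wedge (d1 p y) (φ y) + ∑ b, p y (eb b) * cc (fderiv ℝ φ y) b := by
  have h := z_one hr hp hφ
  refine ((((((((((((h 0 1 5).sub (h 0 2 4)).add (h 0 3 3)).sub
    (h 1 0 5)).add (h 1 2 2)).sub (h 1 3 1)).add (h 2 0 4)).sub (h 2 1 2)).add (h 2 3 0)).sub
    (h 3 0 3)).add (h 3 1 1)).sub (h 3 2 0)).congr fun y => ?_
  simp [wedge, d1, mk, cc, Fin.sum_univ_four]
  ring

theorem cc_iff (L : E →L[ℝ] W) :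
    (∀ u v w, ev (L u) v w + ev (L v) w u + ev (L w) u v = 0) ↔ ∀ b, cc L b = 0 := by
  constructor
  · intro h b
    have h0 := h (eb 1) (eb 2) (eb 3)
    have h1 := h (eb 0) (eb 2) (eb 3)
    have h2 := h (eb 0) (eb 1) (eb 3)
    have h3 := h (eb 0) (eb 1) (eb 2)
    unfold cc
    generalize L (eb 0) = a0, L (eb 1) = a1, L (eb 2) = a2, L (eb 3) = a3 at *
    simp [ev, eb] at h0 h1 h2 h3
    fin_cases b <;> simp <;> linarith
  · intro h u v w
    have e : ∀ u : E, L u = u 0 • L (eb 0) + u 1 • L (eb 1) + u 2 • L (eb 2) + u 3 • L (eb 3) :=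
      fun u => by
        simp only [← map_smul, ← map_add]
        congr 1
        ext i
        fin_cases i <;> simp [eb]
    have h0 := h 0
    have h1 := h 1
    have h2 := h 2
    have h3 := h 3
    rw [e u, e v, e w]
    simp only [cc, ev, PiLp.add_apply, PiLp.smul_apply, smul_eq_mul, Matrix.cons_val] at *
    linear_combination
      -(u 1 * (v 2 * w 3 - v 3 * w 2) - u 2 * (v 1 * w 3 - v 3 * w 1) +
        u 3 * (v 1 * w 2 - v 2 * w 1)) * h0 +
      (u 0 * (v 2 * w 3 - v 3 * w 2) - u 2 * (v 0 * w 3 - v 3 * w 0) +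
        u 3 * (v 0 * w 2 - v 2 * w 0)) * h1 -
      (u 0 * (v 1 * w 3 - v 3 * w 1) - u 1 * (v 0 * w 3 - v 3 * w 0) +
        u 3 * (v 0 * w 1 - v 1 * w 0)) * h2 +
      (u 0 * (v 1 * w 2 - v 2 * w 1) - u 1 * (v 0 * w 2 - v 2 * w 0) +
        u 2 * (v 0 * w 1 - v 1 * w 0)) * h3

theorem fund {f : E → ℝ} (hf : ContinuousOn f (ball 0 r))
    (h : ∀ (r' : ℝ) (g : E → ℝ), r' < r → Test r' g → ∫ y, g y * f y = 0) :
    ∀ y ∈ ball (0 : E) r, f y = 0 := by
  refine Measure.eqOn_open_of_ae_eq (μ := volume) ((ae_restrict_iff' measurableSet_ball).2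
    (isOpen_ball.ae_eq_zero_of_integral_contDiff_smul_eq_zero
      (hf.locallyIntegrableOn measurableSet_ball) fun g h1 _ h2 => ?_)) isOpen_ball hf
        continuousOn_const
  obtain ⟨r', h3, h4⟩ := exists_lt_subset_ball (isClosed_tsupport g) h2
  exact h r' g h3 ⟨h1, fun y hy => image_eq_zero_of_notMem_tsupport fun h5 =>
    hy.not_gt (mem_ball_zero_iff.1 (h4 h5))⟩

end Calc3Aux

open Calc3Aux

/-- Put `φ' = bp r r'' • φ` (smooth, `r < r'' < r'`). In coordinates
`wedge (d1 p) φ = ∑ ± ∂_a p_b φ_{cd}`; integrate by parts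
(`integral_mul_fderiv_eq_neg_fderiv_mul_of_integrable`), and get
`∑_b p_b (dφ)_{acd}`, zero on the support of `p` by `ClosedAt` on basis vectors.
It is best to prove first the general formula
`∫ wedge (d1 p) φ = ∑_b ± ∫ p y (eb b) * (cyclic sum on the other three basis vectors)`. -/
theorem integral_wedge_d1 {r r' : ℝ} (hr : r < r') {p : E → E →L[ℝ] ℝ} (hp : Test r p)
    {φ : E → W} (hφ : ContDiffOn ℝ ∞ φ (ball 0 r')) (hc : ∀ y ∈ ball (0 : E) r', ClosedAt φ y) :
    ∫ y, wedge (d1 p y) (φ y) = 0 := by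
  refine Eq.trans (integral_congr_ae (Filter.Eventually.of_forall fun y => ?_)) (z_all hr hp hφ).2
  by_cases hy : y ∈ ball (0 : E) r'
  · simp [(cc_iff _).1 (hc y hy)]
  · simp [hp.2 y (hr.trans_le (by simpa using hy))]

/-- Converse: take `p = g • proj b`, use the general formula and
`IsOpen.ae_eq_zero_of_integral_contDiff_smul_eq_zero` with continuity; the cyclic sum is an
alternating trilinear expression, so it is enough to know it on increasing basis triples. -/
theorem closedAt_of_weak {r r' : ℝ} (hr : r < r') {φ : E → W}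
    (hφ : ContDiffOn ℝ ∞ φ (ball 0 r'))
    (h : ∀ p : E → E →L[ℝ] ℝ, Test r p → ∫ y, wedge (d1 p y) (φ y) = 0) :
    ∀ y ∈ ball (0 : E) r, ClosedAt φ y := by
  have c1 : ∀ a c, ContinuousOn (fun y => fderiv ℝ φ y (eb a) c) (ball 0 r') := fun a c =>
    (EuclideanSpace.proj c : W →L[ℝ] ℝ).continuous.comp_continuousOn
      ((hφ.continuousOn_fderiv_of_isOpen isOpen_ball (by simp)).clm_apply continuousOn_const)
  have c2 : ∀ b, ContinuousOn (fun y => cc (fderiv ℝ φ y) b) (ball 0 r') := fun b => by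
    fin_cases b
    exacts [((c1 1 5).neg.add (c1 2 4)).sub (c1 3 3), ((c1 0 5).sub (c1 2 2)).add (c1 3 1),
      ((c1 0 4).neg.add (c1 1 2)).sub (c1 3 0), ((c1 0 3).sub (c1 1 1)).add (c1 2 0)]
  refine fun y hy => (cc_iff _).2 fun b => fund ((c2 b).mono (ball_subset_ball hr.le))
    (fun s g hs hg => ?_) y hy
  have hp := (hg.mono hs.le).smul_fun (contDiff_const (c := (EuclideanSpace.proj b : E →L[ℝ] ℝ)))
  have h1 := z_all hr hp hφ
  have h2 : Integrable fun y => g y * cc (fderiv ℝ φ y) b :=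
    (hg.ctest.smul_continuousOn (hs.trans hr) (c2 b)).integrable volume
  have e : ∀ y, ∑ b', (g y • (EuclideanSpace.proj b : E →L[ℝ] ℝ)) (eb b') * cc (fderiv ℝ φ y) b' =
      g y * cc (fderiv ℝ φ y) b := fun y => by
    simp [eb]
  simp only [Z, e] at h1
  have h3 := integral_sub h1.1 h2
  simp only [add_sub_cancel_right, h _ hp, h1.2] at h3
  linarith

/-- Fundamental lemma of the calculus of variations for two-forms. -/
theorem eqOn_of_weak {r : ℝ} {a b : E → W} (ha : ContinuousOn a (ball 0 r))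
    (hb : ContinuousOn b (ball 0 r))
    (h : ∀ (r' : ℝ) (θ : E → W), r' < r → Test r' θ →
      ∫ y, wedge (a y) (θ y) = ∫ y, wedge (b y) (θ y)) :
    ∀ y ∈ ball (0 : E) r, a y = b y := by
  have c : ∀ {a : E → W} (_ : ContinuousOn a (ball 0 r)) (w : W),
      ContinuousOn (fun y => wedge (a y) w) (ball 0 r) := fun {a} ha w =>
    (contDiff_wedge2 (n := 0)).continuous.comp_continuousOn (f := fun y => (a y, w))
      (ha.prodMk continuousOn_const)
  refine fun y hy => ext_wedge fun w => sub_eq_zero.1 (fund (f := fun y => wedge (a y) w -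
    wedge (b y) w) ((c ha w).sub (c hb w)) (fun s g hs hg => ?_) y hy)
  have h1 := h s _ hs (hg.smul_fun (contDiff_const (c := w)))
  simp only [wedge_smul_right] at h1
  simp only [mul_sub]
  exact (integral_sub ((hg.ctest.smul_continuousOn hs (c ha w)).integrable volume)
    ((hg.ctest.smul_continuousOn hs (c hb w)).integrable volume)).trans (sub_eq_zero.2 h1)

end Vale.Agent.P204
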