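import Vale.Agent.P204.AtlasInt
import Vale.Agent.P204.Calc3

/-! Stokes, weak closedness, and signs of the integral of a wedge product. -/

open scoped ContDiff RealInnerProductSpace Topology
open MeasureTheory Metric

namespace Vale.Agent.P204

universe u

namespace AtlasInt2Aux
open Setup

variable {X : Type u} [TopologicalSpace X] (s : Setup X)

theorem c_le (j : Fin s.m) (y : E) {a b : ℝ} (h : ‖y‖ < 10 → a ≤ b) :
    s.c j y * a ≤ s.c j y * b := by
  by_cases hy : ‖y‖ < 10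
  · exact mul_le_mul_of_nonneg_left (h hy) (s.c_nonneg j y)
  · rw [(s.c_test j).2 y (by linarith [not_lt.1 hy]), zero_mul, zero_mul]

theorem c_eq (j : Fin s.m) (y : E) {a b : ℝ} (h : ‖y‖ < 10 → a = b) :
    s.c j y * a = s.c j y * b :=
  le_antisymm (c_le s j y fun hy => (h hy).le) (c_le s j y fun hy => (h hy).ge)

theorem c_nn (j : Fin s.m) (y : E) {a : ℝ} (h : ‖y‖ < 10 → 0 ≤ a) : 0 ≤ s.c j y * a := by
  simpa using c_le s j y h

theorem Int_nn {φ φ' : Form X}
    (h : ∀ j y, ‖y‖ < 10 → 0 ≤ wedge (s.loc j φ y) (s.loc j φ' y)) : 0 ≤ s.Int φ φ' :=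
  Finset.sum_nonneg fun j _ => integral_nonneg fun y => c_nn s j y (h j y)

variable [T2Space X]

theorem ex_zero {φ : Form X} (hφ : s.Cont φ)
    (h : ∀ (i : Fin s.m) (p : E → E →L[ℝ] ℝ), Test 1 p → s.Int (s.glob i (d1 p)) φ = 0)
    {e : Form X} (he : e ∈ s.Ex) : s.Int e φ = 0 := by
  induction he using Submodule.span_induction with
  | mem x hx =>
    obtain ⟨i, p, hp, rfl⟩ := hx
    exact h i p hp
  | zero => exact s.Int_zero_left φ
  | add x y hx hy ix iy =>
    rw [s.Int_add_left (s.ex_smooth_closed hx).1.cont (s.ex_smooth_closed hy).1.cont hφ, ix, iy,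
      add_zero]
  | smul t x _ ix => rw [s.Int_smul_left, ix, mul_zero]

theorem pp_nn {φ φ' : Form X} (h : s.Pos φ) (h' : s.Pos φ') (j : Fin s.m) (y : E)
    (hy : ‖y‖ < 10) : 0 ≤ wedge (s.loc j (s.ppF φ) y) (s.loc j (s.ppF φ') y) := by
  have hJ := (s.good j).near y
  rw [s.loc_ppF j φ hy, s.loc_ppF j φ' hy]
  refine hJ.wedge_pos_pos (pull_pp hJ.1 _) (pull_pp hJ.1 _) (fun v => ?_) fun v => ?_
  · rw [ev_pp_J hJ.1]
    exact s.pos_loc h j hy v
  · rw [ev_pp_J hJ.1]
    exact s.pos_loc h' j hy v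

theorem pm_ge (φ : Form X) (j : Fin s.m) (y : E) (hy : ‖y‖ < 10) :
    ‖pm (s.Jl j y) (s.loc j φ y)‖ ^ 2 / 2 ≤
      wedge (s.loc j (s.pmF φ) y) (s.loc j (s.pmF φ) y) := by
  have hJ := (s.good j).near y
  rw [s.loc_pmF j φ hy]
  exact hJ.wedge_anti (pull_pm hJ.1 _)

theorem pm_nn (φ : Form X) (j : Fin s.m) (y : E) (hy : ‖y‖ < 10) :
    0 ≤ wedge (s.loc j (s.pmF φ) y) (s.loc j (s.pmF φ) y) :=
  le_trans (by positivity) (pm_ge s φ j y hy)

end AtlasInt2Aux
open AtlasInt2Aux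

namespace Setup

variable {X : Type u} [TopologicalSpace X] [T2Space X] (s : Setup X)

/-- `Int_glob` and `integral_wedge_d1`. -/
theorem stokes {e φ : Form X} (he : e ∈ s.Ex) (hφ : s.Smooth φ) (hc : s.Closed φ) :
    s.Int e φ = 0 := by
  refine ex_zero s hφ.cont (fun i p hp => ?_) he
  rw [s.Int_glob i (hp.d1.ctest.mono (by norm_num)) hφ.cont]
  exact integral_wedge_d1 (by norm_num) hp (hφ i) (hc i)
/-- `closedAt_of_weak` with radius 2 (`Mo.ex_of_test`, but note the hypothesis is only for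
generators: extend it to `s.Ex` by `Submodule.span_induction` and additivity), then
`Mo.closed_of_local`. -/
theorem closed_of_weak {φ : Form X} (hφ : s.Smooth φ)
    (h : ∀ (i : Fin s.m) (p : E → E →L[ℝ] ℝ), Test 1 p → s.Int (s.glob i (d1 p)) φ = 0) :
    s.Closed φ := by
  refine Mo.closed_of_local s hφ fun i y hy => ?_
  refine closedAt_of_weak (r := 2) (by norm_num) (hφ i) (fun p hp => ?_) y
    (mem_ball_zero_iff.2 (by linarith))
  have hp' : Test 9 p := hp.mono (by norm_num)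
  rw [← s.Int_glob i hp'.d1.ctest hφ.cont]
  exact ex_zero s hφ.cont h (Mo.ex_of_test s i hp')
theorem Int_split {φ φ' : Form X} (h : s.Cont φ) (h' : s.Cont φ') :
    s.Int φ φ' = s.Int (s.ppF φ) (s.ppF φ') + s.Int (s.pmF φ) (s.pmF φ') := by
  simp only [Int, ← Finset.sum_add_distrib]
  refine Finset.sum_congr rfl fun j _ => ?_
  rw [← integral_add (s.integrable_Int h.ppF h'.ppF j) (s.integrable_Int h.pmF h'.pmF j)]
  refine integral_congr_ae (Filter.Eventually.of_forall fun y => ?_)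
  simp only [← mul_add]
  refine c_eq s j y fun hy => ?_
  rw [s.loc_ppF j φ hy, s.loc_ppF j φ' hy, s.loc_pmF j φ hy, s.loc_pmF j φ' hy]
  exact ((s.good j).near y).wedge_split _ _
theorem Int_ppF_right {φ φ' : Form X} (h : s.Cont φ) (h' : s.Cont φ') :
    s.Int φ (s.ppF φ') = s.Int (s.ppF φ) (s.ppF φ') := by
  have _ := h
  have _ := h'
  refine Finset.sum_congr rfl fun j _ => ?_
  refine integral_congr_ae (Filter.Eventually.of_forall fun y => c_eq s j y fun hy => ?_)
  have hJ := (s.good j).near y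
  rw [s.loc_ppF j φ hy, s.loc_ppF j φ' hy, hJ.wedge_split, pp_pp hJ.1, pm_pp hJ.1,
    wedge_zero_right, add_zero]
theorem Int_pp_nonneg {φ φ' : Form X} (h : s.Pos φ) (h' : s.Pos φ') :
    0 ≤ s.Int (s.ppF φ) (s.ppF φ') := Int_nn s (pp_nn s h h')
theorem Int_pm_nonneg (φ : Form X) : 0 ≤ s.Int (s.pmF φ) (s.pmF φ) := Int_nn s (pm_nn s φ)
theorem Int_pm_sq_le {φ φ' : Form X} (h : s.Cont φ) (h' : s.Cont φ') :
    s.Int (s.pmF φ) (s.pmF φ') ^ 2 ≤
      s.Int (s.pmF φ) (s.pmF φ) * s.Int (s.pmF φ') (s.pmF φ') := by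
  have h1 : ∀ t : ℝ, 0 ≤ s.Int (s.pmF φ') (s.pmF φ') * (t * t) +
      2 * s.Int (s.pmF φ) (s.pmF φ') * t + s.Int (s.pmF φ) (s.pmF φ) := by
    intro t
    have h2 := s.Int_pm_nonneg (φ + t • φ')
    have a := h.pmF
    have b := h'.pmF.smul t
    rw [s.pmF_add, s.pmF_smul, s.Int_add_left a b (a.add b), s.Int_add_right a a b,
      s.Int_add_right b a b, s.Int_smul_right, s.Int_smul_left, s.Int_smul_left, s.Int_smul_right,
      s.Int_comm (s.pmF φ') (s.pmF φ)] at h2
    linarith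
  have h3 := discrim_le_zero h1
  rw [discrim] at h3
  linarith
/-- `Near.wedge_self_pos`, `cover_lt`, `Continuous.integral_pos_of_hasCompactSupport_nonneg_nonzero`. -/
theorem Tame.Int_F_pos [Nonempty X] {s : Setup X} {om : Form X} (h : s.Tame om) :
    0 < s.Int (s.ppF om) (s.ppF om) := by
  have hp : s.Pos om := (s.pos_ppF_iff om).1 h.pos_F
  obtain ⟨i, -, hy, hc⟩ := s.cover_lt (Classical.arbitrary X)
  obtain ⟨c₀, hc₀, C₀, -, hb⟩ := h.bounds
  generalize s.ψ i (Classical.arbitrary X) = y₀ at hy hc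
  refine Finset.sum_pos' (fun j _ => integral_nonneg fun y => c_nn s j y (pp_nn s hp hp j y))
    ⟨i, Finset.mem_univ i, ?_⟩
  have hF := h.smooth.cont.ppF
  have ht : CTest 1 fun y => s.c i y * wedge (s.loc i (s.ppF om) y) (s.loc i (s.ppF om) y) :=
    (s.c_test i).ctest.smul_continuousOn (by norm_num) (AtlasIntAux.contOn_wedge (hF i) (hF i))
  refine ht.1.integral_pos_of_hasCompactSupport_nonneg_nonzero ht.hasCompactSupport
    (fun y => c_nn s i y (pp_nn s hp hp i y)) (x := y₀) (mul_pos hc ?_).ne'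
  have hJ := (s.good i).near y₀
  refine hJ.wedge_self_pos ?_ fun v hv => ?_
  · rw [s.loc_ppF i om (by linarith)]
    exact pull_pp hJ.1 _
  · refine lt_of_lt_of_le ?_ ((hb i y₀ (mem_closedBall_zero_iff.2 (by linarith))).2 v)
    exact mul_pos hc₀ (pow_pos (norm_pos_iff.2 hv) 2)
/-- With `γ = pmF φ` and `g = bp 3 4`: `∫ g ‖γ_i‖² ≤ 2 ∫ wedge (g • γ_i) γ_i = 2 Int (glob0 i g • γ) γ
≤ 2 Int γ γ` by `Near.wedge_anti`, `Int_glob`, `glob0_smul`. -/
theorem setIntegral_pm_le {φ : Form X} (h : s.Cont φ) (i : Fin s.m) :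
    ∫ y in closedBall (0 : E) 3, ‖pm (s.Jl i y) (s.loc i φ y)‖ ^ 2 ≤
      2 * s.Int (s.pmF φ) (s.pmF φ) := by
  have hγ := h.pmF
  have hg : CTest 9 (bp 3 4) := (test_bp (by norm_num) (by norm_num)).ctest.mono (by norm_num)
  have hθ : CTest 9 fun y => bp 3 4 y • s.loc i (s.pmF φ) y := hγ.ctest_smul i hg (by norm_num)
  have hw := AtlasIntAux.ctest_wedge hθ (by norm_num) (hγ i)
  have h1 := s.Int_glob i hθ hγ
  rw [← s.glob0_smul] at h1
  have h2 : s.Int (fun x => s.glob0 i (bp 3 4) x • s.pmF φ x) (s.pmF φ) ≤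
      s.Int (s.pmF φ) (s.pmF φ) := by
    refine Finset.sum_le_sum fun j _ => integral_mono
      (s.integrable_Int (hγ.fun_smul (s.continuous_glob0 i hg)) hγ j) (s.integrable_Int hγ hγ j)
      fun y => c_le s j y fun hy => ?_
    rw [s.loc_fun_smul, wedge_smul_left]
    refine mul_le_of_le_one_left (pm_nn s φ j y hy) ?_
    unfold glob0
    split_ifs
    · exact bp_le_one _ _ _
    · exact zero_le_one
  have h3 : ∫ y in closedBall (0 : E) 3, ‖pm (s.Jl i y) (s.loc i φ y)‖ ^ 2 / 2 ≤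
      ∫ y in closedBall (0 : E) 3,
        wedge (bp 3 4 y • s.loc i (s.pmF φ) y) (s.loc i (s.pmF φ) y) := by
    refine integral_mono_of_nonneg (Filter.Eventually.of_forall fun y => by positivity)
      (hw.integrable volume).integrableOn ?_
    filter_upwards [ae_restrict_mem measurableSet_closedBall] with y hy
    have hy' := mem_closedBall_zero_iff.1 hy
    rw [bp_eq_one (by norm_num) (by norm_num) hy', one_smul]
    exact pm_ge s φ i y (by linarith)
  have h4 : ∫ y in closedBall (0 : E) 3,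
      wedge (bp 3 4 y • s.loc i (s.pmF φ) y) (s.loc i (s.pmF φ) y) ≤
        ∫ y, wedge (bp 3 4 y • s.loc i (s.pmF φ) y) (s.loc i (s.pmF φ) y) := by
    refine setIntegral_le_integral (hw.integrable volume)
      (Filter.Eventually.of_forall fun y => ?_)
    by_cases hy : ‖y‖ < 10
    · simp only [wedge_smul_left]
      exact mul_nonneg (bp_nonneg _ _ _) (pm_nn s φ i y hy)
    · exact (hw.2 y (by linarith [not_lt.1 hy])).ge
  rw [integral_div] at h3
  linarith
theorem abs_Int_le_sn : ∃ C : ℝ, 0 ≤ C ∧ ∀ φ φ' : Form X, s.Cont φ → s.Cont φ' →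
    |s.Int φ φ'| ≤ C * s.sn 0 φ * ∑ j, ⨆ y : closedBall (0 : E) 1, ‖s.loc j φ' y‖ := by
  refine ⟨(volume : Measure E).real (closedBall 0 1), measureReal_nonneg, fun φ φ' h h' => ?_⟩
  rw [Finset.mul_sum]
  refine (Finset.abs_sum_le_sum_abs _ _).trans (Finset.sum_le_sum fun j _ => ?_)
  have ht : CTest 1 fun y => s.c j y • s.loc j φ y :=
    h.ctest_smul j (s.c_test j).ctest (by norm_num)
  have h1 : Ck 0 (fun y => s.c j y • s.loc j φ y) ≤ s.sn 0 φ :=
    Finset.single_le_sum (f := fun j => Ck 0 fun y => s.c j y • s.loc j φ y)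
      (fun j _ => Ck_nonneg 0 _) (Finset.mem_univ j)
  obtain ⟨M, hM⟩ := (isCompact_closedBall (0 : E) 1).exists_bound_of_continuousOn
    ((h' j).mono (closedBall_subset_ball (by norm_num)))
  have hb : BddAbove (Set.range fun y : closedBall (0 : E) 1 => ‖s.loc j φ' y‖) :=
    ⟨M, by rintro _ ⟨y, rfl⟩; exact hM y y.2⟩
  rw [← setIntegral_eq_integral_of_forall_compl_eq_zero (s := closedBall (0 : E) 1)
    fun y hy => by rw [(s.c_test j).2 y (by simpa using hy), zero_mul]]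
  have h2 := norm_setIntegral_le_of_norm_le_const (μ := (volume : Measure E))
    (s := closedBall (0 : E) 1)
    (f := fun y => s.c j y * wedge (s.loc j φ y) (s.loc j φ' y))
    (C := s.sn 0 φ * ⨆ y : closedBall (0 : E) 1, ‖s.loc j φ' y‖) measure_closedBall_lt_top
    fun y hy => by
      rw [← wedge_smul_left]
      refine (abs_wedge_le _ _).trans (mul_le_mul ((norm_le_Ck_zero ht y).trans h1)
        (le_ciSup hb ⟨y, hy⟩) (norm_nonneg _) ((Ck_nonneg 0 _).trans h1))
  refine h2.trans (le_of_eq ?_)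
  ring

end Setup

end Vale.Agent.P204
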