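import Vale.Agent.P204.AtlasSn
import Vale.Agent.P204.AtlasInt2

/-! Series of smooth closed forms. -/

open scoped ContDiff RealInnerProductSpace Topology
open MeasureTheory Metric

namespace Vale.Agent.P204

universe u

namespace Setup

variable {X : Type u} [TopologicalSpace X] [T2Space X] (s : Setup X)

omit [T2Space X] in
theorem atlasLim_loc {φ : ℕ → Form X} {ρ : Form X} (h : ∀ x, HasSum (fun n => φ n x) (ρ x))
    (j : Fin s.m) (y : E) :
    HasSum (fun n => s.c j y • s.loc j (φ n) y) (s.c j y • s.loc j ρ y) :=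
  ((h _).mapL (pull (s.P j ((s.ψ j).symm y)))).const_smul (s.c j y)

omit [T2Space X] in
theorem atlasLim_Ck (k : ℕ) (φ : Form X) (j : Fin s.m) :
    Ck k (fun y => s.c j y • s.loc j φ y) ≤ s.sn k φ :=
  Finset.single_le_sum (f := fun j => Ck k fun y => s.c j y • s.loc j φ y)
    (fun _ _ => Ck_nonneg _ _) (Finset.mem_univ j)

theorem atlasLim_sn {φ : ℕ → Form X} {ρ : Form X} (hs : ∀ n, s.Smooth (φ n))
    (h : ∀ x, HasSum (fun n => φ n x) (ρ x)) {b : ℕ → ℝ} {B : ℝ} (hb : ∀ n, s.sn 0 (φ n) ≤ b n)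
    (hB : HasSum b B) : s.sn 0 ρ ≤ B := by
  have h1 : ∀ j, Summable fun n => Ck 0 fun y => s.c j y • s.loc j (φ n) y := fun j =>
    Summable.of_nonneg_of_le (fun _ => Ck_nonneg _ _)
      (fun n => (s.atlasLim_Ck 0 _ j).trans (hb n)) hB.summable
  have h2 : ∀ j, Ck 0 (fun y => s.c j y • s.loc j ρ y) ≤
      ∑' n, Ck 0 fun y => s.c j y • s.loc j (φ n) y := by
    intro j
    refine (Ck_le (M := ∑' n, Ck 0 fun y => s.c j y • s.loc j (φ n) y) fun i hi y => ?_).trans
      (by simp)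
    obtain rfl : i = 0 := by omega
    rw [norm_iteratedFDeriv_zero]
    exact (s.atlasLim_loc h j y).norm_le_of_bounded (h1 j).hasSum fun n =>
      norm_le_Ck_zero ((hs n).test_smul j (s.c_test j) (by norm_num)).ctest y
  exact (Finset.sum_le_sum fun j _ => h2 j).trans
    (hasSum_le hb (hasSum_sum fun j _ => (h1 j).hasSum) hB)

theorem atlasLim_sum {φ : ℕ → Form X} (hs : ∀ n, s.Smooth (φ n)) (hc : ∀ n, s.Closed (φ n))
    (N : ℕ) : s.Smooth (∑ n ∈ Finset.range N, φ n) ∧ s.Closed (∑ n ∈ Finset.range N, φ n) :=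
  s.zSub.sum_mem fun n _ => ⟨hs n, hc n⟩

/-- `θ_i = ∑' n, c i • loc i (σ n)` is a test form (`contDiff_tsum_of_eventually`), and
`τ = ∑ i, glob i θ_i`. Pointwise `HasSum` by `partition`; this gives
`c i • loc i τ = θ_i`, hence the bound. Closedness by `closed_of_weak`:
`Int e τ = ∑' Int e (σ n) = 0` (`stokes`; uniform convergence, `abs_Int_le_sn` or
`hasSum_integral_of_summable_norm`). -/
theorem exists_sum {σ : ℕ → Form X} (hs : ∀ n, s.Smooth (σ n)) (hc : ∀ n, s.Closed (σ n))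
    {a : ℝ} (hb : ∀ n, 1 ≤ n → s.sn n (σ n) ≤ a * (1 / 2) ^ n) :
    ∃ τ : Form X, s.Smooth τ ∧ s.Closed τ ∧ (∀ x, HasSum (fun n => σ n x) (τ x)) ∧
      s.sn 0 τ ≤ s.sn 0 (σ 0) + a := by
  have hg : ∀ j n, Test 1 fun y => s.c j y • s.loc j (σ n) y := fun j n =>
    (hs n).test_smul j (s.c_test j) (by norm_num)
  have hgeo : HasSum (fun n : ℕ => (1 / 2 : ℝ) ^ n) 2 := hasSum_geometric_two
  have hder : ∀ j k, ∀ᶠ n in (Filter.cofinite : Filter ℕ), ∀ y,
      ‖iteratedFDeriv ℝ k (fun y => s.c j y • s.loc j (σ n) y) y‖ ≤ a * (1 / 2) ^ n := by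
    intro j k
    rw [Nat.cofinite_eq_atTop]
    filter_upwards [Filter.eventually_ge_atTop k, Filter.eventually_ge_atTop 1] with n h1 h2 y
    exact (norm_iteratedFDeriv_le_Ck (hg j n) h1 y).trans ((s.atlasLim_Ck n _ j).trans (hb n h2))
  have hθ : ∀ j, Test 1 fun y => ∑' n, s.c j y • s.loc j (σ n) y := fun j =>
    ⟨contDiff_tsum_of_eventually (N := ⊤) (v := fun _ n => a * (1 / 2) ^ n) (fun n => (hg j n).1)
      (fun _ _ => hgeo.summable.mul_left a) (fun k _ => hder j k), fun y hy => by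
      simp [(s.c_test j).2 y hy]⟩
  have hsum : ∀ j y, Summable fun n => s.c j y • s.loc j (σ n) y := fun j y =>
    Summable.of_norm_bounded_eventually (hgeo.summable.mul_left a) (by
      filter_upwards [hder j 0] with n hn
      simpa using hn y)
  obtain ⟨τ, hτ⟩ : ∃ τ : Form X,
      τ = ∑ j, s.glob j fun y => ∑' n, s.c j y • s.loc j (σ n) y := ⟨_, rfl⟩
  have hτs : s.Smooth τ := by
    rw [hτ]
    exact s.smSub.sum_mem fun j _ => Mo.smooth_glob s j ((hθ j).mono (by norm_num))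
  have hτh : ∀ x, HasSum (fun n => σ n x) (τ x) := by
    intro x
    have e : (fun n => σ n x) =
        fun n => ∑ j, s.glob j (fun y => s.c j y • s.loc j (σ n) y) x := by
      funext n
      rw [← Finset.sum_apply, ← s.partition]
    rw [e, hτ, Finset.sum_apply]
    refine hasSum_sum fun j _ => ?_
    by_cases hx : x ∈ (s.ψ j).source
    · simp only [Mo.MoAtlAux.glob_apply, if_pos hx]
      exact (hsum j _).hasSum.mapL _
    · simp only [Mo.MoAtlAux.glob_apply, if_neg hx]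
      exact hasSum_zero
  have htail : ∀ N, s.sn 0 (τ - ∑ n ∈ Finset.range (N + 1), σ n) ≤ a * (1 / 2) ^ N := by
    intro N
    refine s.atlasLim_sn (φ := fun n => σ (n + (N + 1))) (fun n => hs _) (fun x => ?_)
      (b := fun n => a * (1 / 2) ^ (N + 1) * (1 / 2) ^ n) (fun n => ?_) ?_
    · rw [Pi.sub_apply, Finset.sum_apply]
      exact (hasSum_nat_add_iff' (N + 1)).2 (hτh x)
    · refine (s.sn_mono (Nat.zero_le _) _).trans ((hb _ (by omega)).trans (le_of_eq ?_))
      ring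
    · have := hgeo.mul_left (a * (1 / 2) ^ (N + 1))
      rwa [show a * (1 / 2) ^ (N + 1) * 2 = a * (1 / 2) ^ N by ring] at this
  refine ⟨τ, hτs, s.closed_of_weak hτs fun i p hp => ?_, hτh, ?_⟩
  · have he : s.glob i (d1 p) ∈ s.Ex := Submodule.subset_span ⟨i, p, hp, rfl⟩
    have hec := (s.ex_smooth_closed he).1.cont
    obtain ⟨C, hC, hI⟩ := s.abs_Int_le_sn
    rw [s.Int_comm]
    have hM : 0 ≤ ∑ j, ⨆ y : closedBall (0 : E) 1, ‖s.loc j (s.glob i (d1 p)) y‖ :=
      Finset.sum_nonneg fun j _ => Real.iSup_nonneg fun _ => norm_nonneg _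
    have key : ∀ N, |s.Int τ (s.glob i (d1 p))| ≤ C * (a * (1 / 2) ^ N) *
        ∑ j, ⨆ y : closedBall (0 : E) 1, ‖s.loc j (s.glob i (d1 p)) y‖ := by
      intro N
      obtain ⟨k1, k2⟩ := s.atlasLim_sum hs hc (N + 1)
      have k3 := hI _ _ (hτs.sub k1).cont hec
      rw [s.Int_sub_left hτs.cont k1.cont hec, s.Int_comm (∑ n ∈ Finset.range (N + 1), σ n),
        s.stokes he k1 k2, sub_zero] at k3
      exact k3.trans (mul_le_mul_of_nonneg_right (mul_le_mul_of_nonneg_left (htail N) hC) hM)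
    have lim := (((tendsto_pow_atTop_nhds_zero_of_lt_one (r := (1 / 2 : ℝ)) (by norm_num)
      (by norm_num)).const_mul a).const_mul C).mul_const
        (∑ j, ⨆ y : closedBall (0 : E) 1, ‖s.loc j (s.glob i (d1 p)) y‖)
    have := ge_of_tendsto' lim key
    rw [mul_zero, mul_zero, zero_mul] at this
    exact abs_nonpos_iff.1 this
  · have k1 := htail 0
    rw [zero_add, Finset.sum_range_one, pow_zero, mul_one] at k1
    have k2 := s.sn_add_le (hs 0) (hτs.sub (hs 0)) 0
    rw [add_sub_cancel] at k2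
    linarith

end Setup

end Vale.Agent.P204
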