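import Vale.Agent.P204.Atlas2
import Vale.Agent.P204.Norms2

/-! The `C^k` norms of forms on `X`. -/

open scoped ContDiff RealInnerProductSpace Topology
open MeasureTheory Metric

namespace Vale.Agent.P204

universe u

namespace AtlasSnAux

theorem nat_le (j : ℕ) : (j : WithTop ℕ∞) ≤ ∞ := mod_cast le_top

theorem bound_on {F : Type} [NormedAddCommGroup F] [NormedSpace ℝ F] {U K : Set E}
    (hU : IsOpen U) (hK : IsCompact K) (hKU : K ⊆ U) {A : E → F} (hA : ContDiffOn ℝ ∞ A U)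
    (k : ℕ) : ∃ M : ℝ, 1 ≤ M ∧ ∀ i ≤ k, ∀ y ∈ K, ‖iteratedFDerivWithin ℝ i A U y‖ ≤ M := by
  have h : ∀ i : ℕ, ∃ M : ℝ, ∀ y ∈ K, ‖iteratedFDerivWithin ℝ i A U y‖ ≤ M := fun i =>
    hK.exists_bound_of_continuousOn
      ((hA.continuousOn_iteratedFDerivWithin (nat_le i) hU.uniqueDiffOn).mono hKU)
  choose B hB using h
  have h0 : 0 ≤ ∑ i ∈ Finset.range (k + 1), |B i| := Finset.sum_nonneg fun _ _ => abs_nonneg _
  refine ⟨1 + ∑ i ∈ Finset.range (k + 1), |B i|, by linarith, fun i hi y hy => ?_⟩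
  have h1 : |B i| ≤ ∑ i ∈ Finset.range (k + 1), |B i| :=
    Finset.single_le_sum (f := fun i => |B i|) (fun _ _ => abs_nonneg _)
      (Finset.mem_range.2 (Nat.lt_succ_of_le hi))
  have h2 := (hB i y hy).trans (le_abs_self _)
  linarith

/-- Transfer of the `C^k` norm along a smooth map defined on an open set. -/
theorem Ck_transfer {U K : Set E} (hU : IsOpen U) (hK : IsCompact K) (hKU : K ⊆ U)
    {A : E → W →L[ℝ] W} (hA : ContDiffOn ℝ ∞ A U) {τ : E → E} (hτ : ContDiffOn ℝ ∞ τ U)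
    (r : ℝ) (k : ℕ) : ∃ C : ℝ, 0 ≤ C ∧ ∀ θ g : E → W, Test r θ →
      (∀ y ∈ U, g y = A y (θ (τ y))) → (∀ y ∉ K, g y = 0) → Ck k g ≤ C * Ck k θ := by
  obtain ⟨M, hM1, hM⟩ := bound_on hU hK hKU hA k
  obtain ⟨D, hD1, hD⟩ := bound_on hU hK hKU hτ k
  refine ⟨(k + 1) * (2 ^ k * M * (k.factorial * D ^ k)), by positivity, fun θ g hθ h1 h2 => ?_⟩
  have h0 := Ck_nonneg k θ
  rw [mul_assoc]
  refine Ck_le fun j hj y => ?_
  by_cases hy : y ∈ K
  · have hyU := hKU hy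
    have hθτ : ContDiffOn ℝ ∞ (θ ∘ τ) U := hθ.1.comp_contDiffOn hτ
    have h3 : ∀ n ≤ k, ‖iteratedFDerivWithin ℝ n (θ ∘ τ) U y‖ ≤
        k.factorial * D ^ k * Ck k θ := by
      intro n hn
      have h4 := norm_iteratedFDerivWithin_comp_le (t := Set.univ) (n := n) (C := Ck k θ) (D := D)
        hθ.1.contDiffOn hτ (nat_le n) uniqueDiffOn_univ hU.uniqueDiffOn (Set.mapsTo_univ _ _) hyU
        (fun i hi => by
          rw [iteratedFDerivWithin_univ]
          exact norm_iteratedFDeriv_le_Ck hθ (hi.trans hn) _)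
        (fun i hi hi' => (hD i (hi'.trans hn) y hy).trans (le_self_pow₀ hD1 (by omega)))
      refine h4.trans ?_
      have h5 : (n.factorial : ℝ) ≤ k.factorial := by exact_mod_cast Nat.factorial_le hn
      have h6 : D ^ n ≤ D ^ k := pow_le_pow_right₀ hD1 hn
      calc (n.factorial : ℝ) * Ck k θ * D ^ n ≤ k.factorial * Ck k θ * D ^ k := by gcongr
        _ = _ := by ring
    rw [← iteratedFDerivWithin_of_isOpen j hU hyU,
      iteratedFDerivWithin_congr (f := fun y => A y ((θ ∘ τ) y)) h1 hyU j]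
    refine (norm_iteratedFDerivWithin_clm_apply hA hθτ hU.uniqueDiffOn hyU (nat_le j)).trans ?_
    have h7 : ∀ i ∈ Finset.range (j + 1), (j.choose i : ℝ) * ‖iteratedFDerivWithin ℝ i A U y‖ *
        ‖iteratedFDerivWithin ℝ (j - i) (θ ∘ τ) U y‖ ≤
          (j.choose i : ℝ) * (M * (k.factorial * D ^ k * Ck k θ)) := by
      intro i hi
      have hi' : i ≤ k := (Nat.lt_succ_iff.1 (Finset.mem_range.1 hi)).trans hj
      have h8 := hM i hi' y hy
      have h9 := h3 (j - i) ((Nat.sub_le j i).trans hj)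
      rw [mul_assoc]
      gcongr
    refine (Finset.sum_le_sum h7).trans ?_
    rw [← Finset.sum_mul, ← Nat.cast_sum, Nat.sum_range_choose]
    have h10 : ((2 ^ j : ℕ) : ℝ) ≤ 2 ^ k := by
      rw [Nat.cast_pow, Nat.cast_ofNat]
      exact pow_le_pow_right₀ one_le_two hj
    calc ((2 ^ j : ℕ) : ℝ) * (M * (k.factorial * D ^ k * Ck k θ))
        ≤ 2 ^ k * (M * (k.factorial * D ^ k * Ck k θ)) := by gcongr
      _ = _ := by ring
  · have h3 : g =ᶠ[𝓝 y] fun _ => (0 : W) := by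
      filter_upwards [hK.isClosed.isOpen_compl.mem_nhds hy] with z hz
      exact h2 z hz
    rw [(h3.iteratedFDeriv ℝ j).self_of_nhds, iteratedFDeriv_fun_zero, Pi.zero_apply, norm_zero]
    positivity

variable {X : Type u} [TopologicalSpace X] [T2Space X] (s : Setup X)

theorem pair_le (k : ℕ) (i j : Fin s.m) : ∃ C : ℝ, 0 ≤ C ∧ ∀ θ : E → W, Test 7 θ →
    Ck k (fun y => s.c j y • s.loc j (s.glob i θ) y) ≤ C * Ck k θ := by
  set τ : E → E := fun y => s.ψ i ((s.ψ j).symm y) with hτ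
  set U : Set E := (s.ψ j).target ∩ (s.ψ j).symm ⁻¹' (s.ψ i).source with hU
  have hUo : IsOpen U := (s.ψ j).isOpen_inter_preimage_symm (s.ψ i).open_source
  have hτs : ContDiffOn ℝ ∞ τ U := s.trans_smooth j i
  have hsub : ∀ (l : Fin s.m) {r : ℝ}, r < 10 → closedBall (0 : E) r ⊆ (s.ψ l).target :=
    fun l r hr z hz => Mo.MoAtlAux.mem_tgt s l (closedBall_subset_ball hr hz)
  set P : Set X := (s.ψ i).symm '' closedBall (0 : E) 7 with hP
  have hPc : IsCompact P := (isCompact_closedBall _ _).image_of_continuousOn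
    ((s.ψ i).continuousOn_symm.mono (hsub i (by norm_num)))
  set K : Set E := closedBall (0 : E) 1 ∩ (s.ψ j).symm ⁻¹' P with hK
  have hKc : IsCompact K := by
    refine (isCompact_closedBall (0 : E) 1).of_isClosed_subset ?_ Set.inter_subset_left
    exact ((s.ψ j).continuousOn_symm.mono (hsub j (by norm_num))).preimage_isClosed_of_isClosed
      isClosed_closedBall hPc.isClosed
  have hKU : K ⊆ U := by
    rintro y ⟨hy, z, hz, e⟩
    refine ⟨hsub j (by norm_num) hy, ?_⟩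
    rw [Set.mem_preimage, ← e]
    exact (s.ψ i).map_target (hsub i (by norm_num) hz)
  have hA : ContDiffOn ℝ ∞ (fun y => s.c j y • pull (fderiv ℝ τ y)) U :=
    (s.c_test j).1.contDiffOn.smul
      (contDiff_pull.comp_contDiffOn (hτs.fderiv_of_isOpen hUo le_rfl))
  obtain ⟨C, hC0, hC⟩ := Ck_transfer hUo hKc hKU hA hτs 7 k
  refine ⟨C, hC0, fun θ hθ => hC θ _ hθ (fun y hy => ?_) fun y hy => ?_⟩
  · have h1 := (Mo.loc_trans s j i (s.glob i θ) ((s.ψ j).map_target hy.1) hy.2).2.self_of_nhds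
    rw [(s.ψ j).right_inv hy.1] at h1
    beta_reduce at h1
    rw [h1, Mo.loc_glob s i θ (mem_ball_zero_iff.1 (Mo.MoAtlAux.mem_ball' s i hy.2))]
    rfl
  · by_cases h1 : ‖y‖ ≤ 1
    · have h2 : (s.ψ j).symm y ∉ P := fun h => hy ⟨mem_closedBall_zero_iff.2 h1, h⟩
      rw [Mo.MoAtlAux.loc_apply, Mo.MoAtlAux.glob_apply]
      split_ifs with h3
      · rw [hθ.2 _ (not_le.1 fun h' =>
          h2 ⟨_, mem_closedBall_zero_iff.2 h', (s.ψ i).left_inv h3⟩), map_zero, map_zero,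
          smul_zero]
      · rw [map_zero, smul_zero]
    · rw [(s.c_test j).2 y (not_le.1 h1), zero_smul]

theorem test_c {s : Setup X} {φ : Form X} (h : s.Smooth φ) (j : Fin s.m) :
    Test 1 fun y => s.c j y • s.loc j φ y := h.test_smul j (s.c_test j) (by norm_num)

end AtlasSnAux

open AtlasSnAux

namespace Setup

variable {X : Type u} [TopologicalSpace X] [T2Space X] (s : Setup X)

theorem sn_nonneg (k : ℕ) (φ : Form X) : 0 ≤ s.sn k φ :=
  Finset.sum_nonneg fun _ _ => Ck_nonneg _ _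

theorem sn_mono {k k' : ℕ} (h : k ≤ k') (φ : Form X) : s.sn k φ ≤ s.sn k' φ :=
  Finset.sum_le_sum fun _ _ => Ck_mono h _

theorem sn_zero (k : ℕ) : s.sn k 0 = 0 := by
  refine Finset.sum_eq_zero fun j _ => ?_
  have : (fun y => s.c j y • s.loc j 0 y) = 0 := by
    funext y
    rw [map_zero, Pi.zero_apply, smul_zero]
  rw [this, Ck_zero]

theorem sn_add_le {φ φ' : Form X} (h : s.Smooth φ) (h' : s.Smooth φ') (k : ℕ) :
    s.sn k (φ + φ') ≤ s.sn k φ + s.sn k φ' := by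
  unfold sn
  rw [← Finset.sum_add_distrib]
  refine Finset.sum_le_sum fun j _ => ?_
  have : (fun y => s.c j y • s.loc j (φ + φ') y) =
      (fun y => s.c j y • s.loc j φ y) + fun y => s.c j y • s.loc j φ' y := by
    funext y
    rw [map_add, Pi.add_apply, Pi.add_apply, smul_add]
  rw [this]
  exact Ck_add_le (test_c h j) (test_c h' j) k

theorem sn_smul {φ : Form X} (h : s.Smooth φ) (t : ℝ) (k : ℕ) :
    s.sn k (t • φ) = |t| * s.sn k φ := by
  unfold sn
  rw [Finset.mul_sum]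
  refine Finset.sum_congr rfl fun j _ => ?_
  have : (fun y => s.c j y • s.loc j (t • φ) y) = t • fun y => s.c j y • s.loc j φ y := by
    funext y
    rw [map_smul, Pi.smul_apply, Pi.smul_apply, smul_comm]
  rw [this]
  exact Ck_smul (test_c h j) t k

theorem sn_neg {φ : Form X} (h : s.Smooth φ) (k : ℕ) : s.sn k (-φ) = s.sn k φ := by
  rw [← neg_one_smul ℝ φ, s.sn_smul h, abs_neg, abs_one, one_mul]

theorem eq_zero_of_sn {φ : Form X} (h : s.Smooth φ) {k : ℕ} (h0 : s.sn k φ = 0) : φ = 0 := by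
  rw [s.partition φ]
  refine Finset.sum_eq_zero fun j _ => ?_
  have h1 : Ck k (fun y => s.c j y • s.loc j φ y) = 0 :=
    (Finset.sum_eq_zero_iff_of_nonneg fun _ _ => Ck_nonneg _ _).1 h0 j (Finset.mem_univ j)
  have h2 : (fun y => s.c j y • s.loc j φ y) = 0 := by
    funext y
    have h3 := (norm_le_Ck_zero (test_c h j).ctest y).trans (Ck_mono (Nat.zero_le k) _)
    rw [h1] at h3
    exact norm_le_zero_iff.1 h3
  rw [h2, map_zero]

/-- In chart `j`, `c j y • loc j (glob i θ) y = A y (θ (τ y))` with globally smooth `A, τ`: let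
`τ₀ = ψ i ∘ (ψ j).symm` on the overlap, let `β` be a smooth cut-off with compact support in the
overlap, equal to 1 near the compact set `closedBall 0 1 ∩ τ₀⁻¹ (closedBall 0 7)`
(`exists_contMDiff_support_eq...` or `exists_smooth_one_nhds_of_subset_interior`,
`exists_contDiff_tsupport_subset` and a finite cover), `τ = β • τ₀`,
`A = (c j * β') • pull (fderiv τ₀)` where `β'` is a second such cut-off with support inside
`{β = 1}`. Then `norm_iteratedFDeriv_clm_apply` and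
`norm_iteratedFDeriv_comp_le`. -/
theorem sn_glob_le (k : ℕ) : ∃ C : ℝ, 0 ≤ C ∧ ∀ (i : Fin s.m) (θ : E → W), Test 7 θ →
    s.sn k (s.glob i θ) ≤ C * Ck k θ := by
  choose C hC0 hC using pair_le s k
  refine ⟨∑ i, ∑ j, C i j, Finset.sum_nonneg fun i _ => Finset.sum_nonneg fun j _ => hC0 i j,
    fun i θ hθ => ?_⟩
  have h1 : ∑ j, C i j ≤ ∑ i, ∑ j, C i j :=
    Finset.single_le_sum (f := fun i => ∑ j, C i j)
      (fun i _ => Finset.sum_nonneg fun j _ => hC0 i j) (Finset.mem_univ i)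
  refine le_trans ?_ (mul_le_mul_of_nonneg_right h1 (Ck_nonneg k θ))
  rw [Finset.sum_mul]
  exact Finset.sum_le_sum fun j _ => hC i j θ hθ

theorem lf_le_of_sn (k : ℕ) : ∃ C : ℝ, 0 ≤ C ∧ ∀ (L : GF X) (b : ℝ), 0 ≤ b →
    (∀ φ, s.Smooth φ → |L φ| ≤ b * s.sn k φ) →
      ∀ i θ, Test 7 θ → |s.lf L i θ| ≤ C * b * Ck k θ := by
  obtain ⟨C, hC0, hC⟩ := s.sn_glob_le k
  refine ⟨C, hC0, fun L b hb h i θ hθ => ?_⟩
  refine (h _ (Mo.smooth_glob s i (hθ.mono (by norm_num)))).trans ?_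
  calc b * s.sn k (s.glob i θ) ≤ b * (C * Ck k θ) := mul_le_mul_of_nonneg_left (hC i θ hθ) hb
    _ = _ := by ring

/-- `pmF_glob`, `sn_glob_le`, `Ck_clm_le`. -/
theorem distBd_of_sn_pm {k : ℕ} {L : GF X} {b : ℝ}
    (h : ∀ φ, s.Smooth φ → |L φ| ≤ b * s.sn k (s.pmF φ)) (i : Fin s.m) :
    DistBd k (s.lf L i) := by
  obtain ⟨C, hC0, hC⟩ := s.sn_glob_le k
  obtain ⟨D, hD0, hD⟩ := Ck_clm_le (s.good i).contDiff_pm 7 k
  refine ⟨|b| * (C * D), fun θ hθ => ?_⟩
  refine (h _ (Mo.smooth_glob s i (hθ.mono (by norm_num)))).trans ?_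
  rw [s.pmF_glob]
  have h1 := hC i _ (hθ.clm_apply (s.good i).contDiff_pm)
  have h2 := hD θ hθ
  have h3 := s.sn_nonneg k (s.glob i fun y => pm (s.Jl i y) (θ y))
  calc b * s.sn k (s.glob i fun y => pm (s.Jl i y) (θ y))
      ≤ |b| * s.sn k (s.glob i fun y => pm (s.Jl i y) (θ y)) :=
        mul_le_mul_of_nonneg_right (le_abs_self b) h3
    _ ≤ |b| * (C * (D * Ck k θ)) :=
        mul_le_mul_of_nonneg_left (h1.trans (mul_le_mul_of_nonneg_left h2 hC0)) (abs_nonneg b)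
    _ = _ := by ring

/-- A functional bounded by the norm of the anti-invariant part only sees that part. -/
theorem _root_.Vale.Agent.P204.AtlasSnAux.eq_pmF {k : ℕ} {L : GF X} {b : ℝ}
    (h : ∀ φ, s.Smooth φ → |L φ| ≤ b * s.sn k (s.pmF φ)) {φ : Form X} (hφ : s.Smooth φ) :
    L φ = L (s.pmF φ) := by
  have h1 := h _ hφ.ppF
  rw [s.pmF_ppF, s.sn_zero, mul_zero] at h1
  have h2 : L (s.ppF φ) = 0 := abs_nonpos_iff.1 h1
  have h3 : L φ = L (s.ppF φ + s.pmF φ) := by rw [s.ppF_add_pmF]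
  rw [h3, map_add, h2, zero_add]

theorem antiF_of_sn_pm {k : ℕ} {L : GF X} {b : ℝ}
    (h : ∀ φ, s.Smooth φ → |L φ| ≤ b * s.sn k (s.pmF φ)) (i : Fin s.m) :
    AntiF (s.Jl i) (s.lf L i) := by
  intro θ hθ
  have h1 := eq_pmF s h (Mo.smooth_glob s i (hθ.mono (by norm_num)))
  rw [s.pmF_glob] at h1
  exact h1

/-- `L φ = L (pmF φ)`, `partition`, `Hn_le_Ck`. -/
theorem abs_le_sn_of_Hn (l : ℕ) : ∃ C : ℝ, 0 ≤ C ∧ ∀ (k : ℕ) (L : GF X) (b a : ℝ), 0 ≤ a →
    (∀ φ, s.Smooth φ → |L φ| ≤ b * s.sn k (s.pmF φ)) →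
    (∀ i θ, Test 1 θ → |s.lf L i θ| ≤ a * Hn l θ) →
      ∀ φ, s.Smooth φ → |L φ| ≤ C * a * s.sn l (s.pmF φ) := by
  obtain ⟨C, hC0, hC⟩ := Hn_le_Ck (F := W) 1 l
  refine ⟨C, hC0, fun k L b a ha h h' φ hφ => ?_⟩
  have h1 : L φ = ∑ j, s.lf L j fun y => s.c j y • s.loc j (s.pmF φ) y := by
    rw [eq_pmF s h hφ]
    have h2 : L (s.pmF φ) = L (∑ j, s.glob j fun y => s.c j y • s.loc j (s.pmF φ) y) := by
      rw [← s.partition]
    rw [h2, map_sum]
    rfl
  rw [h1]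
  refine (Finset.abs_sum_le_sum_abs _ _).trans ?_
  unfold sn
  rw [Finset.mul_sum]
  refine Finset.sum_le_sum fun j _ => ?_
  have h3 := test_c hφ.pmF j
  refine (h' j _ h3).trans ?_
  calc a * Hn l (fun y => s.c j y • s.loc j (s.pmF φ) y)
      ≤ a * (C * Ck l fun y => s.c j y • s.loc j (s.pmF φ) y) :=
        mul_le_mul_of_nonneg_left (hC _ h3) ha
    _ = _ := by ring


end Setup

end Vale.Agent.P204
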