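import Mathlib

/-! An abstract bootstrap over geometric scales. -/

namespace Vale.Agent.P204

/-- Let `t_j = t λ^{-j}`, `r_j = 2 + c (t_1 + ... + t_j) ≤ 3`. Start from `P t_M r_M (C₀ t_M^{-k})`
and apply the step `M` times: `P t 2 (2 C₁ λ^p t^{-p} + 2^{-M} C₀ t^{-k})`. -/
theorem boot (P : ℝ → ℝ → ℝ → Prop) (k p : ℕ) {t₀ c C₀ C₁ q lam : ℝ} (ht₀ : 0 < t₀) (hc : 0 ≤ c)
    (hct : c * t₀ ≤ 1) (hlam : 2 ≤ lam) (hq : 0 ≤ q) (hC₀ : 0 ≤ C₀) (hC₁ : 0 ≤ C₁)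
    (hk : q * lam ^ k ≤ 1 / 2) (hp : q * lam ^ p ≤ 1 / 2)
    (mono_r : ∀ t r r' a, r' ≤ r → P t r a → P t r' a)
    (mono_a : ∀ t r a a', 0 < t → a ≤ a' → P t r a → P t r a')
    (closed : ∀ t r a, (∀ η > 0, P t r (a + η)) → P t r a)
    (h0 : ∀ t ∈ Set.Ioc 0 t₀, P t 3 (C₀ * (t ^ k)⁻¹))
    (step : ∀ ε ∈ Set.Ioc 0 t₀, ∀ r a, 2 ≤ r → r + c * ε ≤ 3 → 0 ≤ a → P ε (r + c * ε) a →
      P (lam * ε) r (C₁ * (ε ^ p)⁻¹ + q * a)) :
    ∀ t ∈ Set.Ioc 0 t₀, P t 2 (2 * C₁ * lam ^ p * (t ^ p)⁻¹) := by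
  have hl0 : 0 < lam := by linarith
  have key : ∀ M : ℕ, ∀ t ∈ Set.Ioc 0 t₀, ∀ r, 2 ≤ r → r + c * t ≤ 3 →
      P t r (2 * C₁ * lam ^ p * (t ^ p)⁻¹ + (1 / 2) ^ M * (C₀ * (t ^ k)⁻¹)) := by
    intro M
    induction M with
    | zero =>
      intro t ht r _ hr
      have h1 : 0 ≤ c * t := mul_nonneg hc ht.1.le
      have h2 : 0 ≤ 2 * C₁ * lam ^ p * (t ^ p)⁻¹ := by have := ht.1; positivity
      refine mono_a t r _ _ ht.1 ?_ (mono_r t 3 r _ (by linarith) (h0 t ht))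
      rw [pow_zero, one_mul]
      linarith
    | succ M ih =>
      intro t ht r hr2 hr
      have ht0 := ht.1
      have he0 : 0 < t / lam := div_pos ht0 hl0
      have he1 : 2 * (t / lam) ≤ t := by
        rw [← mul_div_assoc, div_le_iff₀ hl0]
        nlinarith
      have he : t / lam ∈ Set.Ioc 0 t₀ := ⟨he0, by linarith [ht.2]⟩
      have h1 : 0 ≤ c * (t / lam) := mul_nonneg hc he0.le
      have h2 : c * (2 * (t / lam)) ≤ c * t := mul_le_mul_of_nonneg_left he1 hc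
      have h3 := step _ he r _ hr2 (by linarith) (by positivity)
        (ih _ he (r + c * (t / lam)) (by linarith) (by linarith))
      rw [mul_div_cancel₀ _ hl0.ne'] at h3
      refine mono_a t r _ _ ht0 ?_ h3
      have e : ∀ n : ℕ, ((t / lam) ^ n)⁻¹ = lam ^ n * (t ^ n)⁻¹ := fun n => by
        rw [div_pow, inv_div, div_eq_mul_inv]
      rw [e, e, pow_succ]
      have h4 : 0 ≤ C₁ * lam ^ p * (t ^ p)⁻¹ := by positivity
      have h5 : 0 ≤ (1 / 2 : ℝ) ^ M * (C₀ * (t ^ k)⁻¹) := by positivity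
      have h6 := mul_le_mul_of_nonneg_right hp h4
      have h7 := mul_le_mul_of_nonneg_right hk h5
      nlinarith
  intro t ht
  refine closed _ _ _ fun η hη => ?_
  have ht0 := ht.1
  have hA : 0 < C₀ * (t ^ k)⁻¹ + 1 := by positivity
  obtain ⟨M, hM⟩ := exists_pow_lt_of_lt_one (div_pos hη hA) (show (1 / 2 : ℝ) < 1 by norm_num)
  rw [lt_div_iff₀ hA] at hM
  have h1 : c * t ≤ c * t₀ := mul_le_mul_of_nonneg_left ht.2 hc
  refine mono_a t 2 _ _ ht0 ?_ (key M t ht 2 le_rfl (by linarith))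
  have h2 : (0 : ℝ) ≤ (1 / 2) ^ M := by positivity
  nlinarith

end Vale.Agent.P204
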