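import Mathlib

/-! Almost complex structures and symplectic forms on a smooth manifold modelled on `V`.
Tangent spaces are those of Mathlib, `TangentSpace 𝓘(ℝ, V) x`. -/

open scoped Manifold ContDiff

namespace Vale.Agent.P204

variable {V : Type*} [NormedAddCommGroup V] [NormedSpace ℝ V]
  {X : Type*} [TopologicalSpace X] [ChartedSpace V X]

variable (V X) in
/-- Fields of endomorphisms of the tangent spaces. -/
abbrev EndField : Type _ := ∀ x : X, TangentSpace 𝓘(ℝ, V) x →L[ℝ] TangentSpace 𝓘(ℝ, V) x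

variable (V X) in
/-- Fields of bilinear forms on the tangent spaces. -/
abbrev BilField : Type _ :=
  ∀ x : X, TangentSpace 𝓘(ℝ, V) x →L[ℝ] TangentSpace 𝓘(ℝ, V) x →L[ℝ] ℝ

/-- The vector `J u` in the chart `e`, at the point `z` of the target of `e`, where `u` is a
vector of the chart. -/
noncomputable def jcoef (J : EndField V X) (e : OpenPartialHomeomorph X V) (u z : V) : V :=
  mfderiv 𝓘(ℝ, V) 𝓘(ℝ, V) e (e.symm z) (J (e.symm z) (mfderiv 𝓘(ℝ, V) 𝓘(ℝ, V) e.symm z u))

/-- The coefficient `σ(u,v)` of the field of bilinear forms `σ` in the chart `e`, at the point `z`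
of the target of `e`. -/
noncomputable def coef (σ : BilField V X) (e : OpenPartialHomeomorph X V) (u v z : V) : ℝ :=
  σ (e.symm z) (mfderiv 𝓘(ℝ, V) 𝓘(ℝ, V) e.symm z u) (mfderiv 𝓘(ℝ, V) 𝓘(ℝ, V) e.symm z v)

/-- `J` is a smooth almost complex structure. -/
structure IsAlmostComplex (J : EndField V X) : Prop where
  sq : ∀ x v, J x (J x v) = -v
  smooth : ∀ e ∈ atlas V X, ∀ u, ContDiffOn ℝ ∞ (jcoef J e u) e.target

/-- `σ` is a symplectic form: a smooth, closed, nondegenerate two-form. -/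
structure IsSymplectic (σ : BilField V X) : Prop where
  alt : ∀ x v, σ x v v = 0
  smooth : ∀ e ∈ atlas V X, ∀ u v, ContDiffOn ℝ ∞ (coef σ e u v) e.target
  closed : ∀ e ∈ atlas V X, ∀ z ∈ e.target, ∀ u v w,
    fderiv ℝ (coef σ e v w) z u + fderiv ℝ (coef σ e w u) z v + fderiv ℝ (coef σ e u v) z w = 0
  nondeg : ∀ x u, (∀ v, σ x u v = 0) → u = 0

/-- `σ` tames `J`. -/
def Tames (σ : BilField V X) (J : EndField V X) : Prop :=
  ∀ x v, v ≠ 0 → 0 < σ x v (J x v)

/-- `σ` is compatible with `J`: it tames `J` and is `J`-invariant. -/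
def Compatible (σ : BilField V X) (J : EndField V X) : Prop :=
  Tames σ J ∧ ∀ x u v, σ x (J x u) (J x v) = σ x u v

end Vale.Agent.P204
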