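import Vale.Agent.P204.Norms1
import Vale.Agent.P204.Par

/-! Functionals of finite order applied to families of test forms. -/

open scoped ContDiff RealInnerProductSpace Topology
open MeasureTheory Metric

namespace Vale.Agent.P204

theorem DistBd.mono {k k' : ℕ} {L : LF} (h : DistBd k L) (hk : k ≤ k') : DistBd k' L := by
  obtain ⟨C, hC⟩ := h
  exact ⟨|C|, fun θ hθ => (hC θ hθ).trans
    (mul_le_mul (le_abs_self C) (Ck_mono hk θ) (Ck_nonneg _ _) (abs_nonneg C))⟩

theorem DistBd.add {k : ℕ} {L L' : LF} (h : DistBd k L) (h' : DistBd k L') :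
    DistBd k (L + L') := by
  obtain ⟨C, hC⟩ := h
  obtain ⟨C', hC'⟩ := h'
  refine ⟨C + C', fun θ hθ => ?_⟩
  rw [LinearMap.add_apply, add_mul]
  exact (abs_add_le _ _).trans (add_le_add (hC θ hθ) (hC' θ hθ))

variable {Y : Type} [NormedAddCommGroup Y] [NormedSpace ℝ Y] [FiniteDimensional ℝ Y]
  {k : ℕ} {L : LF} {κ : Y × E → W}

namespace DistAux
open Filter Set

theorem small {F : Type} [NormedAddCommGroup F] [NormedSpace ℝ F] {A : Y × E → F}
    (hA : ContDiff ℝ ∞ A) {p : Y} (hp : ∀ y, A (p, y) = 0) (h0 : ∀ q y, 7 < ‖y‖ → A (q, y) = 0)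
    (k : ℕ) {ε : ℝ} (hε : 0 < ε) :
    ∀ᶠ q in 𝓝 p, ∀ j ≤ k, ∀ y, ‖iteratedFDeriv ℝ j (fun y => A (q, y)) y‖ ≤ ε := by
  refine (eventually_all_finite (finite_Iic k)).2 fun j _ => ?_
  have hc := (contDiff_iter_fst (κ := fun z : E × Y => A (z.2, z.1))
    (hA.comp (contDiff_snd.prodMk contDiff_fst)) j).continuous.comp
    (continuous_swap (X := Y) (Y := E))
  have h1 : ∀ᶠ q in 𝓝 p, ∀ y ∈ closedBall (0 : E) 7,
      ‖iteratedFDeriv ℝ j (fun y => A (q, y)) y‖ ≤ ε := by
    refine (isCompact_closedBall _ _).eventually_forall_of_forall_eventually fun y _ => ?_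
    refine (hc.norm.tendsto (p, y)).eventually (eventually_le_nhds ?_)
    simp [hp, iteratedFDeriv_fun_zero, hε]
  filter_upwards [h1] with q hq y
  by_cases hy : y ∈ closedBall (0 : E) 7
  · exact hq y hy
  · have : (fun y => A (q, y)) =ᶠ[𝓝 y] fun _ => 0 := by
      filter_upwards [isClosed_closedBall.isOpen_compl.mem_nhds hy] with z hz
      exact h0 q z (by simpa using hz)
    rw [(this.iteratedFDeriv ℝ j).eq_of_nhds, iteratedFDeriv_fun_zero]
    simpa using hε.le

omit [FiniteDimensional ℝ Y] in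
theorem fd_zero (h0 : ∀ p y, 7 < ‖y‖ → κ (p, y) = 0) (p : Y) (y : E) (hy : 7 < ‖y‖) :
    fderiv ℝ (fun p' => κ (p', y)) p = 0 := by
  simp [fun p' => h0 p' y hy]

omit [FiniteDimensional ℝ Y] in
theorem remainder (hκ : ContDiff ℝ ∞ κ) (p h : Y) (y : E) :
    κ (p + h, y) - κ (p, y) - fderiv ℝ (fun p' => κ (p', y)) p h =
      ∫ t in Icc (0 : ℝ) 1, (fderiv ℝ (fun p' => κ (p', y)) (p + t • h)
        - fderiv ℝ (fun p' => κ (p', y)) p) h := by
  have h1 : ContDiff ℝ ∞ fun p' => κ (p', y) := hκ.comp (contDiff_id.prodMk contDiff_const)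
  have h2 : Continuous fun t : ℝ => (fderiv ℝ (fun p' => κ (p', y)) (p + t • h)
      - fderiv ℝ (fun p' => κ (p', y)) p) h :=
    (((h1.continuous_fderiv (by simp)).comp (by fun_prop)).sub continuous_const).clm_apply
      continuous_const
  rw [integral_Icc_eq_integral_Ioc, ← intervalIntegral.integral_of_le zero_le_one,
    intervalIntegral.integral_eq_sub_of_hasDerivAt
      (f := fun t : ℝ => κ (p + t • h, y) - t • fderiv ℝ (fun p' => κ (p', y)) p h)
      (fun t _ => ?_) (h2.intervalIntegrable _ _)]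
  · simp only [one_smul, zero_smul, add_zero, sub_zero]
    abel
  · have h3 : HasDerivAt (fun t : ℝ => p + t • h) h t := by
      simpa using ((hasDerivAt_id t).smul_const h).const_add p
    have h4 := (h1.differentiable (by simp) (p + t • h)).hasFDerivAt.comp_hasDerivAt t h3
    have h5 := (hasDerivAt_id t).smul_const (fderiv ℝ (fun p' => κ (p', y)) p h)
    rw [one_smul] at h5
    exact h4.sub h5

theorem rem_le (hκ : ContDiff ℝ ∞ κ) (h0 : ∀ p y, 7 < ‖y‖ → κ (p, y) = 0) (p : Y) (k : ℕ) {ε : ℝ}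
    (hε : 0 < ε) : ∀ᶠ h in 𝓝 (0 : Y), Ck k (fun y => κ (p + h, y) - κ (p, y)
      - fderiv ℝ (fun p' => κ (p', y)) p h) ≤ (k + 1) * (‖h‖ * ε) := by
  have hB := contDiff_fderiv_fst hκ
  have hA : ContDiff ℝ ∞ fun z : Y × E => fderiv ℝ (fun p' => κ (p', z.2)) z.1
      - fderiv ℝ (fun p' => κ (p', z.2)) p :=
    hB.sub (hB.comp (f := fun z : Y × E => (p, z.2)) (contDiff_const.prodMk contDiff_snd))
  obtain ⟨δ, hδ, h1⟩ := eventually_nhds_iff_ball.1 (small hA (p := p) (fun y => sub_self _)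
    (fun q y hy => by simp only [fd_zero h0 _ y hy, sub_self]) k hε)
  filter_upwards [ball_mem_nhds 0 hδ] with h hh
  refine Ck_le fun j hj y => ?_
  simp only [remainder hκ]
  rw [iteratedFDeriv_setInt (κ := fun z : E × ℝ => (fderiv ℝ (fun p' => κ (p', z.1)) (p + z.2 • h)
    - fderiv ℝ (fun p' => κ (p', z.1)) p) h) ((hA.comp (f := fun z : E × ℝ => (p + z.2 • h, z.1))
      (by fun_prop)).clm_apply contDiff_const) volume isCompact_Icc]
  refine (norm_setIntegral_le_of_norm_le_const (C := ‖h‖ * ε) (by simp) fun t ht => ?_).trans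
    (by simp)
  have h2 : p + t • h ∈ ball p δ := by
    rw [mem_ball_iff_norm, add_sub_cancel_left, norm_smul, Real.norm_of_nonneg ht.1]
    exact (mul_le_of_le_one_left (norm_nonneg _) ht.2).trans_lt (mem_ball_zero_iff.1 hh)
  exact (norm_iteratedFDeriv_clm_apply_const (N := ∞) (hA.comp (f := fun y : E => (p + t • h, y))
    (by fun_prop)).contDiffAt (by exact_mod_cast le_top)).trans
    (mul_le_mul_of_nonneg_left (h1 _ h2 j hj y) (norm_nonneg _))

theorem hasFD (hL : DistBd k L) (hκ : ContDiff ℝ ∞ κ) (h0 : ∀ p y, 7 < ‖y‖ → κ (p, y) = 0) (p : Y) :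
    HasFDerivAt (fun p => L fun y => κ (p, y)) (LinearMap.toContinuousLinearMap
      (L ∘ₗ LinearMap.pi fun y => (fderiv ℝ (fun p' => κ (p', y)) p).toLinearMap)) p := by
  obtain ⟨C, hC⟩ := hL
  refine hasFDerivAt_iff_isLittleO_nhds_zero.2 (Asymptotics.isLittleO_iff.2 fun c hc => ?_)
  have hD : 0 < (|C| + 1) * (k + 1) := by positivity
  filter_upwards [rem_le hκ h0 p k (div_pos hc hD)] with h hh
  have hs : ∀ q, ContDiff ℝ ∞ fun y => κ (q, y) := fun q =>
    hκ.comp (contDiff_const.prodMk contDiff_id)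
  have ht : Test 7 fun y => κ (p + h, y) - κ (p, y) - fderiv ℝ (fun p' => κ (p', y)) p h :=
    ⟨((hs _).sub (hs _)).sub (((contDiff_fderiv_fst hκ).comp (f := fun y : E => (p, y))
      (contDiff_const.prodMk contDiff_id)).clm_apply contDiff_const),
      fun y hy => by simp [h0 _ y hy]⟩
  have e : ((L fun y => κ (p + h, y)) - L fun y => κ (p, y)) - LinearMap.toContinuousLinearMap
      (L ∘ₗ LinearMap.pi fun y => (fderiv ℝ (fun p' => κ (p', y)) p).toLinearMap) h =
      L fun y => κ (p + h, y) - κ (p, y) - fderiv ℝ (fun p' => κ (p', y)) p h := by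
    rw [← map_sub]
    exact (map_sub L _ _).symm
  rw [e]
  refine (hC _ ht).trans ((mul_le_mul ((le_abs_self C).trans (le_add_of_nonneg_right zero_le_one))
    hh (Ck_nonneg _ _) (by positivity)).trans_eq ?_)
  field_simp

end DistAux

/-- The remainder `κ(p + h, y) - κ(p, y) - D κ(p, y) h = ∫₀¹ (Dκ(p + t h, y) - Dκ(p, y)) h dt`
has `C^k` norm `o(‖h‖)` by `iteratedFDeriv_setInt` and uniform continuity of
`contDiff_iter_fst`. The derivative is `v ↦ L (y ↦ D_p κ(p, y) v)`, linear on a finite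
dimensional space. -/
theorem DistBd.fderiv_apply (hL : DistBd k L) (hκ : ContDiff ℝ ∞ κ)
    (h0 : ∀ p y, 7 < ‖y‖ → κ (p, y) = 0) (p : Y) :
    DifferentiableAt ℝ (fun p => L fun y => κ (p, y)) p ∧
      ∀ v, fderiv ℝ (fun p => L fun y => κ (p, y)) p v =
        L fun y => fderiv ℝ (fun p' => κ (p', y)) p v :=
  ⟨(DistAux.hasFD hL hκ h0 p).differentiableAt, fun v => by
    rw [(DistAux.hasFD hL hκ h0 p).fderiv]
    rfl⟩

/-- Induction on the order with `contDiff_succ_iff_fderiv_apply`. -/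
theorem DistBd.contDiff (hL : DistBd k L) (hκ : ContDiff ℝ ∞ κ)
    (h0 : ∀ p y, 7 < ‖y‖ → κ (p, y) = 0) : ContDiff ℝ ∞ fun p => L fun y => κ (p, y) := by
  refine contDiff_infty.2 fun n => ?_
  induction n generalizing κ with
  | zero =>
    exact contDiff_zero.2 (continuous_iff_continuousAt.2 fun p =>
      (hL.fderiv_apply hκ h0 p).1.continuousAt)
  | succ n ih =>
    rw [Nat.cast_succ]
    refine contDiff_succ_iff_fderiv_apply.2 ⟨fun p => (hL.fderiv_apply hκ h0 p).1,
      fun h => absurd h (by simp), fun v => ?_⟩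
    simp only [fun p => (hL.fderiv_apply hκ h0 p).2 v]
    exact ih (κ := fun z => fderiv ℝ (fun p' => κ (p', z.2)) z.1 v)
      ((contDiff_fderiv_fst hκ).clm_apply contDiff_const)
      fun p y hy => by simp [DistAux.fd_zero h0 p y hy]

end Vale.Agent.P204
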