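import Vale.Agent.P204.Energy

/-! Vanishing of the energy, and the set where the Riesz potential is finite. -/

open scoped ContDiff RealInnerProductSpace Topology
open MeasureTheory Metric

namespace Vale.Agent.P204
open EnergyAux

variable (μ : Measure E) [IsFiniteMeasure μ]

namespace Energy2Aux

theorem lam_shift {R ε : ℝ} (hR : 0 ≤ R) (hε : 0 < ε) {z y : E} (h : ‖z - y‖ ≤ (R + 1) * ε) :
    lam μ R ε z ≤ lam μ (2 * R + 2) ε y := by
  rw [lam_eq, lam_eq]
  refine mul_le_mul_of_nonneg_left (integral_mono ((cb_kb2 R ε z).int μ)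
    ((cb_kb2 (2 * R + 2) ε y).int μ) fun w => ?_) (by positivity)
  rcases le_total ((R + 1) * ε) ‖z - w‖ with h' | h'
  · rw [kb_eq_zero hR hε h']
    exact kb_nonneg _ _ _ _
  · have h1 := norm_sub_le_norm_sub_add_norm_sub y z w
    rw [norm_sub_rev y z] at h1
    rw [kb_eq_one (R := 2 * R + 2) (x := y) (y := w) (by linarith) hε (by linarith)]
    exact kb_le_one _ _ _ _

theorem En_le_lam {R ε : ℝ} (hR : 0 ≤ R) (hε : 0 < ε) (h : (R + 1) * ε ≤ 1 / 2) :
    En μ R ε ≤ (R + 1) ^ 4 * c0 * ∫ y in closedBall (0 : E) 2, lam μ (2 * R + 2) ε y ∂μ := by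
  haveI := fin_res (3 / 2)
  have hl := cb_lam μ (2 * R + 2) ε
  have h1 : En μ R ε ≤ ∫ z in closedBall (0 : E) (3 / 2), (ε ^ 4)⁻¹ *
      ∫ y in closedBall (0 : E) 2, kb R ε y z * lam μ (2 * R + 2) ε y ∂μ := by
    refine setIntegral_mono_on (((cb_lam μ R ε).cmul _).sq.int _)
      (((cb_conv hl R ε _).cmul _).int _) measurableSet_closedBall fun z hz => ?_
    have h2 : ∫ y, kb R ε z y * lam μ R ε z ∂μ ≤ ∫ y, kb R ε y z * lam μ (2 * R + 2) ε y ∂μ := by
      refine integral_mono (((cb_kb2 R ε z).mul (cb_const _)).int μ)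
        (((cb_kb1 R ε z).mul hl).int μ) fun y => ?_
      simp only [kb_comm R ε y z]
      rcases le_total ((R + 1) * ε) ‖z - y‖ with h' | h'
      · rw [kb_eq_zero hR hε h', zero_mul, zero_mul]
      · exact mul_le_mul_of_nonneg_left (lam_shift μ hR hε h') (kb_nonneg _ _ _ _)
    rw [setIntegral_eq_integral_of_forall_compl_eq_zero fun y hy => ?_]
    · rw [integral_mul_const, int_kb_eq μ hε] at h2
      refine (le_of_eq ?_).trans (mul_le_mul_of_nonneg_left h2 (by positivity))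
      field_simp
    · rw [mem_closedBall_zero_iff, not_le] at hy
      have h3 := mem_closedBall_zero_iff.1 hz
      have h4 := norm_sub_norm_le y z
      rw [kb_eq_zero hR hε (by linarith), zero_mul]
  rw [integral_const_mul, fub hl] at h1
  have h5 : ∫ y in closedBall (0 : E) 2, (∫ z in closedBall (0 : E) (3 / 2), kb R ε y z) *
      lam μ (2 * R + 2) ε y ∂μ ≤
      ∫ y in closedBall (0 : E) 2, ((R + 1) * ε) ^ 4 * c0 * lam μ (2 * R + 2) ε y ∂μ :=
    integral_mono ((((cb_kb R ε).integral _).mul hl).int _) ((hl.cmul _).int _) fun y =>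
      mul_le_mul_of_nonneg_right (vol_kb_le hR hε _ y) (lam_nonneg _ _ _ _)
  rw [integral_const_mul] at h5
  refine h1.trans ((mul_le_mul_of_nonneg_left h5 (by positivity)).trans (le_of_eq ?_))
  field_simp

theorem small {S c : ℝ} (hc : 0 < c) : ∀ᶠ ε in 𝓝[>] (0 : ℝ), 0 < ε ∧ S * ε ≤ c := by
  have h : Filter.Tendsto (fun ε : ℝ => S * ε) (𝓝[>] 0) (𝓝 (S * 0)) :=
    ((continuous_const_mul S).tendsto 0).mono_left nhdsWithin_le_nhds
  rw [mul_zero] at h
  exact Filter.Eventually.and self_mem_nhdsWithin (h.eventually (eventually_le_nhds hc))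

theorem lam_tendsto {R : ℝ} (hR : 0 ≤ R) {y : E}
    (h : Filter.Tendsto (fun r : ℝ => (r ^ 2)⁻¹ * μ.real (closedBall y r)) (𝓝[>] 0) (𝓝 0)) :
    Filter.Tendsto (fun ε => lam μ R ε y) (𝓝[>] 0) (𝓝 0) := by
  have h1 : Filter.Tendsto (fun ε : ℝ => (R + 1) * ε) (𝓝[>] 0) (𝓝[>] 0) := by
    refine tendsto_nhdsWithin_iff.2 ⟨?_, Filter.Eventually.mono self_mem_nhdsWithin
      fun ε (hε : 0 < ε) => (by positivity : 0 < (R + 1) * ε)⟩
    have h2 := ((continuous_const_mul (R + 1)).tendsto 0).mono_left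
      (nhdsWithin_le_nhds (s := Set.Ioi 0))
    rwa [mul_zero] at h2
  have h3 := (h.comp h1).const_mul ((R + 1) ^ 2)
  rw [mul_zero] at h3
  refine squeeze_zero' (Filter.Eventually.of_forall fun ε => lam_nonneg _ _ _ _)
    (Filter.Eventually.mono self_mem_nhdsWithin fun ε (hε : 0 < ε) => ?_) h3
  refine (lam_le_ball μ hR hε y).trans (le_of_eq ?_)
  simp only [Function.comp]
  field_simp

/-- The integrand of the Riesz potential. -/
noncomputable def rz (x y : E) : ENNReal := ENNReal.ofReal (bp 3 4 y) * (edist x y)⁻¹ ^ 2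

theorem meas_rz : Measurable fun p : E × E => rz p.1 p.2 :=
  ((continuous_bp 3 4).comp continuous_snd).measurable.ennreal_ofReal.mul
    (measurable_edist.inv.pow_const 2)

theorem inv_sq (x y : E) : (edist x y)⁻¹ ^ 2 = (ENNReal.ofReal (‖x - y‖ ^ 2))⁻¹ := by
  rw [edist_dist, dist_eq_norm, ENNReal.ofReal_pow (norm_nonneg _), ENNReal.inv_pow]

theorem lint_fin : ∫⁻ x in ball (0 : E) 7, (ENNReal.ofReal (‖x‖ ^ 2))⁻¹ < ⊤ := by
  have h := integrableOn_ball_of_norm_le_rpow (μ := (volume : Measure E))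
    (f := fun x : E => (‖x‖ ^ 2)⁻¹) (C := 1) (α := 2) (r := 7) (by simp)
    (by simp; norm_num) (ae_of_all _ fun x => by
      rw [Real.norm_of_nonneg (by positivity), one_mul, Real.rpow_neg (norm_nonneg _),
        Real.rpow_two])
    (Measurable.aestronglyMeasurable (by fun_prop))
  refine lt_of_eq_of_lt (lintegral_congr_ae ?_) h.lintegral_lt_top
  refine ae_restrict_of_ae ((Measure.ae_ne volume (0 : E)).mono fun x hx => ?_)
  exact (ENNReal.ofReal_inv_of_pos (by positivity)).symm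

theorem lint_le (y : E) : ∫⁻ x in closedBall (0 : E) 2, rz x y ≤
    ∫⁻ x in ball (0 : E) 7, (ENNReal.ofReal (‖x‖ ^ 2))⁻¹ := by
  rcases le_total 4 ‖y‖ with h | h
  · simp [rz, bp_eq_zero (a := 3) (by norm_num) (by norm_num) h]
  · have hs : closedBall (0 : E) 2 ⊆ (fun x => x - y) ⁻¹' ball 0 7 := fun x hx => by
      have h1 := mem_closedBall_zero_iff.1 hx
      have h2 := norm_sub_le x y
      exact mem_ball_zero_iff.2 (by linarith)
    rw [← (measurePreserving_sub_right volume y).setLIntegral_comp_preimage_emb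
      (MeasurableEquiv.subRight y).measurableEmbedding
      (fun x => (ENNReal.ofReal (‖x‖ ^ 2))⁻¹) (ball 0 7)]
    refine le_trans (lintegral_mono fun x => ?_) (lintegral_mono_set hs)
    rw [rz, inv_sq]
    exact mul_le_of_le_one_left' (ENNReal.ofReal_le_one.2 (bp_le_one _ _ _))

theorem cb_pot {ε : ℝ} (hε : 0 < ε) (x : E) :
    CB fun y : E => bp 3 4 y * (‖x - y‖ ^ 2 + ε ^ 2)⁻¹ := by
  refine CB.mul ⟨continuous_bp _ _, 1, fun y => ?_⟩
    ⟨Continuous.inv₀ (by fun_prop) fun y => by positivity, (ε ^ 2)⁻¹, fun y => ?_⟩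
  · rw [abs_of_nonneg (bp_nonneg _ _ _)]
    exact bp_le_one _ _ _
  · rw [abs_of_nonneg (by positivity)]
    exact inv_anti₀ (by positivity) (le_add_of_nonneg_left (by positivity))

theorem ofReal_Ipot {ε : ℝ} (hε : 0 < ε) (x : E) : ENNReal.ofReal (Ipot μ ε x) =
    ∫⁻ y, ENNReal.ofReal (bp 3 4 y) * (ENNReal.ofReal (‖x - y‖ ^ 2 + ε ^ 2))⁻¹ ∂μ := by
  rw [Ipot, ofReal_integral_eq_lintegral_ofReal ((cb_pot hε x).int μ)
    (ae_of_all _ fun y => mul_nonneg (bp_nonneg _ _ _) (by positivity))]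
  refine lintegral_congr fun y => ?_
  rw [ENNReal.ofReal_mul (bp_nonneg _ _ _), ENNReal.ofReal_inv_of_pos (by positivity)]

end Energy2Aux
open Energy2Aux

/-- `En μ R ε ≤ C ∫_{y ∈ closedBall 0 2} ε⁻² μ(closedBall y (2 (R+1) ε)) dμ(y)` for small `ε`
(write one factor `lam` as an integral in `y`, bound the other by the ball around `y`, Fubini).
The integrand is bounded (`ball_le_dens`) and tends to zero a.e.; dominated convergence. -/
theorem tendsto_En {D R : ℝ} (hR : 0 ≤ R) (hD : DensBd μ 2 D) (hz : ZeroDens μ) :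
    Filter.Tendsto (fun ε => En μ R ε) (𝓝[>] 0) (𝓝 0) := by
  have hS : 0 ≤ 2 * R + 2 := by linarith
  have h1 := tendsto_integral_filter_of_dominated_convergence (l := 𝓝[>] (0 : ℝ))
    (μ := μ.restrict (closedBall (0 : E) 2)) (F := fun ε y => lam μ (2 * R + 2) ε y)
    (f := fun _ => 0) (fun _ => (1 + (2 * R + 2 + 1) ^ 2) ^ 2 * D)
    (Filter.Eventually.of_forall fun ε => (continuous_lam μ _ ε).aestronglyMeasurable)
    ((small (S := 2 * R + 2 + 1) (by norm_num : (0 : ℝ) < 1 / 4)).mono fun ε hε =>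
      (ae_restrict_iff' measurableSet_closedBall).2 (ae_of_all _ fun y hy => by
        rw [Real.norm_of_nonneg (lam_nonneg _ _ _ _)]
        exact (lam_le_dens μ hS hε.1 hε.2 y).trans (mul_le_mul_of_nonneg_left
          (hD y hy ε ⟨hε.1, by nlinarith [hε.1, hε.2]⟩) (by positivity))))
    (integrable_const _)
    ((ae_restrict_iff' measurableSet_closedBall).2 (hz.mono fun y hy h => lam_tendsto μ hS (hy h)))
  have h2 := h1.const_mul ((R + 1) ^ 4 * c0)
  rw [integral_zero, mul_zero] at h2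
  exact squeeze_zero' (Filter.Eventually.of_forall fun ε => En_nonneg _ _ _)
    ((small (S := R + 1) (by norm_num : (0 : ℝ) < 1 / 2)).mono fun ε hε =>
      En_le_lam μ hR hε.1 hε.2) h2

theorem measurableSet_Epol : MeasurableSet (Epol μ) :=
  measurableSet_lt (meas_rz.lintegral_prod_right' (ν := μ)) measurable_const

/-- Tonelli: `∫_{closedBall 0 2} I(x) dx < ∞` since `‖x‖⁻²` is locally integrable in dimension 4
(for instance `integrableOn_ball_of_norm_le_rpow` or `integrableOn_fun_norm_addHaar`). -/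
theorem volume_diff_Epol : volume (closedBall (0 : E) 2 \ Epol μ) = 0 := by
  have h1 : ∫⁻ x in closedBall (0 : E) 2, ∫⁻ y, rz x y ∂μ ≠ ⊤ := by
    rw [lintegral_lintegral_swap meas_rz.aemeasurable]
    refine ((lintegral_mono lint_le).trans_lt ?_).ne
    rw [lintegral_const]
    exact ENNReal.mul_lt_top lint_fin (measure_lt_top _ _)
  have h2 := (ae_restrict_iff' measurableSet_closedBall).1
    (ae_lt_top (meas_rz.lintegral_prod_right' (ν := μ)) h1)
  refine measure_mono_null ?_ (ae_iff.1 h2)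
  exact fun x hx h => hx.2 (h hx.1)

/-- `r⁻² μ(closedBall y r) ≤ ∫_{closedBall y r} bp 3 4 * dist⁻²`, which tends to zero by dominated
convergence (a finite potential forces `μ {y} = 0`). -/
theorem tendsto_ball_of_mem_Epol {y : E} (hy : y ∈ closedBall (0 : E) 2) (h : y ∈ Epol μ) :
    Filter.Tendsto (fun r : ℝ => (r ^ 2)⁻¹ * μ.real (closedBall y r)) (𝓝[>] 0) (𝓝 0) := by
  have hy' := mem_closedBall_zero_iff.1 hy
  have hf : ∫⁻ w, rz y w ∂μ ≠ ⊤ := ne_of_lt h
  have h0 : μ {y} = 0 := by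
    by_contra h0
    have h1 : ∫⁻ w in {y}, rz y w ∂μ ≤ ∫⁻ w, rz y w ∂μ := setLIntegral_le_lintegral _ _
    rw [lintegral_singleton, rz,
      bp_eq_one (by norm_num) (by norm_num) (by linarith)] at h1
    simp [h0, hf] at h1
  have h2 : Filter.Tendsto (μ ∘ fun r : ℝ => closedBall y r) (𝓝[>] 0) (𝓝 0) := by
    have h3 := (tendsto_measure_cthickening_of_isCompact (μ := μ)
      (isCompact_singleton (x := y))).mono_left (nhdsWithin_le_nhds (s := Set.Ioi 0))
    rw [h0] at h3
    exact h3.congr' (Filter.Eventually.mono self_mem_nhdsWithin fun r (hr : 0 < r) => by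
      simp only [Function.comp, cthickening_singleton y hr.le])
  have h4 := (ENNReal.tendsto_toReal ENNReal.zero_ne_top).comp (tendsto_setLIntegral_zero hf h2)
  refine squeeze_zero' (Filter.Eventually.of_forall fun r => by positivity)
    ((small (S := 1) one_pos).mono fun r hr => ?_) h4
  have h5 : ENNReal.ofReal (r ^ 2)⁻¹ * μ (closedBall y r) ≤ ∫⁻ w in closedBall y r, rz y w ∂μ := by
    rw [← setLIntegral_const]
    refine setLIntegral_mono' measurableSet_closedBall fun w hw => ?_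
    have h6 : ‖y - w‖ ≤ r := mem_closedBall_iff_norm'.1 hw
    have h7 := norm_sub_norm_le w y
    rw [norm_sub_rev] at h7
    rw [rz, bp_eq_one (by norm_num) (by norm_num) (by linarith [hr.2]), ENNReal.ofReal_one, one_mul,
      inv_sq, ENNReal.ofReal_inv_of_pos (pow_pos hr.1 2)]
    exact ENNReal.inv_le_inv.2
      (ENNReal.ofReal_le_ofReal (pow_le_pow_left₀ (norm_nonneg _) h6 2))
  have h8 := ENNReal.toReal_mono (ne_top_of_le_ne_top hf (setLIntegral_le_lintegral _ _)) h5
  rwa [ENNReal.toReal_mul, ENNReal.toReal_ofReal (by positivity)] at h8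

theorem Ipot_nonneg (ε : ℝ) (x : E) : 0 ≤ Ipot μ ε x :=
  integral_nonneg fun _ => mul_nonneg (bp_nonneg _ _ _) (by positivity)
theorem Ipot_le_of_mem_Epol {x : E} (h : x ∈ Epol μ) :
    ∃ M : ℝ, ∀ ε : ℝ, 0 < ε → Ipot μ ε x ≤ M := by
  refine ⟨(∫⁻ w, rz x w ∂μ).toReal, fun ε hε => ?_⟩
  have hf : ∫⁻ w, rz x w ∂μ ≠ ⊤ := ne_of_lt h
  rw [← ENNReal.ofReal_le_iff_le_toReal hf, ofReal_Ipot μ hε]
  refine lintegral_mono fun y => ?_
  rw [rz, inv_sq]
  exact mul_le_mul_right (ENNReal.inv_le_inv.2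
    (ENNReal.ofReal_le_ofReal (le_add_of_nonneg_right (sq_nonneg _)))) _
/-- Monotone convergence. -/
theorem tendsto_Ipot_of_not_mem_Epol {x : E} (h : x ∉ Epol μ) :
    Filter.Tendsto (fun n : ℕ => Ipot μ (1 / (n + 1 : ℝ)) x) Filter.atTop Filter.atTop := by
  have hp : ∀ n : ℕ, 0 < 1 / (n + 1 : ℝ) := fun n => by positivity
  have ht : ∫⁻ w, rz x w ∂μ = ⊤ := top_le_iff.1 (not_lt.1 h)
  rw [← ENNReal.tendsto_ofReal_nhds_top, ← ht]
  simp only [ofReal_Ipot μ (hp _)]
  refine lintegral_tendsto_of_tendsto_of_monotone (fun n => Measurable.aemeasurable ?_)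
    (ae_of_all _ fun y m n hmn => ?_) (ae_of_all _ fun y => ?_)
  · exact (continuous_bp 3 4).measurable.ennreal_ofReal.mul
      (Measurable.ennreal_ofReal (by fun_prop)).inv
  · refine mul_le_mul_right (ENNReal.inv_le_inv.2 (ENNReal.ofReal_le_ofReal ?_)) _
    exact add_le_add_right (pow_le_pow_left₀ (hp n).le (Nat.one_div_le_one_div hmn) 2) _
  · rw [rz, inv_sq]
    refine ENNReal.Tendsto.const_mul ?_ (Or.inr ENNReal.ofReal_ne_top)
    have h1 := ((tendsto_one_div_add_atTop_nhds_zero_nat (𝕜 := ℝ)).pow 2).const_add (‖x - y‖ ^ 2)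
    rw [zero_pow two_ne_zero, add_zero] at h1
    exact ENNReal.tendsto_inv_iff.2 (ENNReal.tendsto_ofReal h1)

end Vale.Agent.P204
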