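import Vale.Agent.P204.PotU

/-! The exterior derivative of the primitive is almost positive. -/

open scoped ContDiff RealInnerProductSpace Topology
open MeasureTheory Metric

namespace Vale.Agent.P204

namespace PotDAux

variable {J : E → E →L[ℝ] E} {ε : ℝ}

/-- The integrand of the primitive. -/
noncomputable def kap (J : E → E →L[ℝ] E) (ε : ℝ) (v : E) (p : E × E) : W :=
  pull (Aop (J p.1)) (zeta (Zk ε (wv J p.1 p.2)) (Bm J p.1 p.2 v))

/-- The one-form whose derivative is split off. -/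
noncomputable def qq (J : E → E →L[ℝ] E) (ε : ℝ) (v₁ v₂ : E) (p : E × E) : E →L[ℝ] ℝ :=
  -(Calc1Aux.evL (zeta (Zk ε (wv J p.1 p.2)) (Bm J p.1 p.2 v₁)) (Bm J p.1 p.2 v₂) ∘L Aop (J p.1))

theorem qq_apply (v₁ v₂ : E) (p : E × E) (b : E) : qq J ε v₁ v₂ p b =
    -vol4 (Zk ε (wv J p.1 p.2)) (Bm J p.1 p.2 v₁) (Bm J p.1 p.2 v₂) (Aop (J p.1) b) := rfl

theorem cd_B (hJ : GoodJ J) (v : E) : ContDiff ℝ ∞ fun p : E × E => Bm J p.1 p.2 v :=
  (contDiff_Bm hJ).clm_apply contDiff_const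

theorem cd_A (hJ : GoodJ J) : ContDiff ℝ ∞ fun p : E × E => Aop (J p.1) :=
  hJ.contDiff_Aop.comp contDiff_fst

theorem cd_z (hJ : GoodJ J) (hε : 0 < ε) (v : E) :
    ContDiff ℝ ∞ fun p : E × E => zeta (Zk ε (wv J p.1 p.2)) (Bm J p.1 p.2 v) :=
  contDiff_zeta2.comp (((contDiff_Zk hε).comp (contDiff_wv hJ)).prodMk (cd_B hJ v))

theorem cd_kap (hJ : GoodJ J) (hε : 0 < ε) (v : E) : ContDiff ℝ ∞ (kap J ε v) :=
  (contDiff_pull.comp (cd_A hJ)).clm_apply (cd_z hJ hε v)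

theorem cd_qq (hJ : GoodJ J) (hε : 0 < ε) (v₁ v₂ : E) : ContDiff ℝ ∞ (qq J ε v₁ v₂) :=
  contDiff_clm_apply_iff.2 fun b => by
    simp only [qq_apply, vol4]
    exact (contDiff_ev3.comp (f := fun p : E × E => (zeta (Zk ε (wv J p.1 p.2)) (Bm J p.1 p.2 v₁),
      Bm J p.1 p.2 v₂, Aop (J p.1) b)) ((cd_z hJ hε v₁).prodMk ((cd_B hJ v₂).prodMk
        ((cd_A hJ).clm_apply contDiff_const)))).neg

theorem dw1 (hJ : GoodJ J) (p : E × E) (v : E) :
    fderiv ℝ (fun p : E × E => wv J p.1 p.2) p (v, 0) = Bm J p.1 p.2 v := by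
  rw [fderiv_wv hJ p.1 p.2, map_zero, sub_zero]

theorem dw2 (hJ : GoodJ J) (p : E × E) (b : E) :
    fderiv ℝ (fun p : E × E => wv J p.1 p.2) p (0, b) = -Aop (J p.1) b := by
  rw [fderiv_wv hJ p.1 p.2, map_zero, zero_sub]

theorem lam1 (hJ : GoodJ J) (v b₁ b₂ : E) :
    lam3 (fun p : E × E => wv J p.1 p.2) (Zk ε) (v, 0) (0, b₁) (0, b₂) =
      fun p => ev (kap J ε v p) b₁ b₂ := by
  funext p
  rw [lam3, dw1 hJ, dw2 hJ, dw2 hJ, kap, ev_pull, vol4, ev_neg_left, ev_neg_right, neg_neg]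

theorem lam2 (hJ : GoodJ J) (v₁ v₂ b : E) :
    lam3 (fun p : E × E => wv J p.1 p.2) (Zk ε) (v₁, 0) (v₂, 0) (0, b) =
      fun p => qq J ε v₁ v₂ p b := by
  funext p
  rw [lam3, dw1 hJ, dw1 hJ, dw2 hJ, qq_apply, vol4, vol4, ev_neg_right]

theorem fd_app {Y : Type} [NormedAddCommGroup Y] [NormedSpace ℝ Y] {a : Y → E →L[ℝ] ℝ} {y : Y}
    (h : DifferentiableAt ℝ a y) (u : Y) (v : E) :
    fderiv ℝ (fun x => a x v) y u = fderiv ℝ a y u v :=
  congrArg (· u) ((ContinuousLinearMap.apply ℝ ℝ v).hasFDerivAt.comp y h.hasFDerivAt).fderiv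

theorem slice1 {F : Type} [NormedAddCommGroup F] [NormedSpace ℝ F] {f : E × E → F}
    (h : ContDiff ℝ ∞ f) (x y v : E) :
    fderiv ℝ (fun x' => f (x', y)) x v = fderiv ℝ f (x, y) (v, 0) :=
  congrArg (· v) (HasFDerivAt.comp (f := fun x' : E => (x', y)) x
    (h.differentiable (by simp) _).hasFDerivAt (hasFDerivAt_prodMk_left x y)).fderiv

theorem slice2 {F : Type} [NormedAddCommGroup F] [NormedSpace ℝ F] {f : E × E → F}
    (h : ContDiff ℝ ∞ f) (x y b : E) :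
    fderiv ℝ (fun y' => f (x, y')) y b = fderiv ℝ f (x, y) (0, b) :=
  congrArg (· b) (HasFDerivAt.comp (f := fun y' : E => (x, y')) y
    (h.differentiable (by simp) _).hasFDerivAt (hasFDerivAt_prodMk_right x y)).fderiv

/-- The trace factor. -/
noncomputable def rho (J : E → E →L[ℝ] E) (ε : ℝ) (x y : E) : ℝ :=
  8 * ε ^ 2 / (‖wv J x y‖ ^ 2 + ε ^ 2) ^ 3

theorem key (hJ : GoodJ J) (hε : 0 < ε) (x y v₁ v₂ : E) :
    fderiv ℝ (kap J ε v₂) (x, y) (v₁, 0) - fderiv ℝ (kap J ε v₁) (x, y) (v₂, 0) =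
      rho J ε x y • pull (Aop (J x)) (zeta (Bm J x y v₁) (Bm J x y v₂)) -
        d1 (fun y' => qq J ε v₁ v₂ (x, y')) y := by
  refine ext_ev fun b₁ b₂ => ?_
  have h := d_lam3 (w := fun p : E × E => wv J p.1 p.2) (Z := Zk ε) (p := (x, y))
    ((contDiff_wv hJ).contDiffAt.of_le (by norm_cast))
    ((contDiff_Zk hε).differentiable (by simp) _) (v₁, 0) (v₂, 0) (0, b₁) (0, b₂)
  have dk := fun v => (cd_kap hJ hε v).differentiable (by simp) (x, y)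
  have dq := (cd_qq hJ hε v₁ v₂).differentiable (by simp) (x, y)
  rw [lam1 hJ, lam1 hJ, lam2 hJ, lam2 hJ, fderiv_ev (dk _), fderiv_ev (dk _), fd_app dq, fd_app dq,
    trace_fderiv_Zk hε, dw1 hJ, dw1 hJ, dw2 hJ, dw2 hJ, vol4, ev_neg_left, ev_neg_right,
    neg_neg] at h
  rw [ev_sub, ev_sub, ev_smul, ev_pull, ev_d1, slice2 (cd_qq hJ hε v₁ v₂),
    slice2 (cd_qq hJ hε v₁ v₂), rho]
  linarith

/-- The form that remains after the exact part is removed. -/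
noncomputable def th (J : E → E →L[ℝ] E) (ε : ℝ) (x v₁ v₂ y : E) : W :=
  bp 3 4 y • rho J ε x y • pull (Aop (J x)) (zeta (Bm J x y v₁) (Bm J x y v₂)) +
    w11 (fderiv ℝ (bp 3 4) y) (qq J ε v₁ v₂ (x, y))

theorem ev_d1_potA {S : LF} {μ : Measure E} {c C : ℝ} (h : LocPos J S μ c C) (hJ : GoodJ J)
    (hS : KillsD S) (hε : 0 < ε) (x v₁ v₂ : E) :
    ev (d1 (potA J S ε) x) v₁ v₂ = S (th J ε x v₁ v₂) := by
  have hA := (contDiff_potA h hJ hε).differentiable (by simp) x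
  have h1 : ∀ u v, fderiv ℝ (potA J S ε) x u v =
      S fun y => bp 3 4 y • fderiv ℝ (kap J ε v) (x, y) (u, 0) := fun u v => by
    have hk : ContDiff ℝ ∞ fun p : E × E => bp 3 4 p.2 • kap J ε v p :=
      ((contDiff_bp 3 4).comp contDiff_snd).smul (cd_kap hJ hε v)
    have h2 := ((h.distBd hJ 0).fderiv_apply hk (fun p y hy => by
      rw [bp_eq_zero (by norm_num) (by norm_num) (by linarith), zero_smul]) x).2 u
    rw [← fd_app hA]
    simp only [potA_apply]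
    refine h2.trans (congrArg S (funext fun y => ?_))
    have h3 : DifferentiableAt ℝ (fun x' => kap J ε v (x', y)) x :=
      ((cd_kap hJ hε v).comp (contDiff_id.prodMk contDiff_const)).differentiable (by simp) x
    rw [← slice1 (cd_kap hJ hε v)]
    exact congrArg (· u) (h3.hasFDerivAt.const_smul (bp 3 4 y)).fderiv
  have hq : ContDiff ℝ ∞ fun y => qq J ε v₁ v₂ (x, y) :=
    (cd_qq hJ hε v₁ v₂).comp (contDiff_const.prodMk contDiff_id)
  have h2 := hS _ (((test_bp (a := 3) (b := 4) (by norm_num) (by norm_num)).smul_fun hq).mono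
    (by norm_num))
  rw [ev_d1, h1, h1, ← map_sub, ← sub_zero (S (th J ε x v₁ v₂)), ← h2, ← map_sub]
  refine congrArg S (funext fun y => ?_)
  rw [Pi.sub_apply, Pi.sub_apply, ← smul_sub, key hJ hε, th,
    d1_fun_smul ((contDiff_bp 3 4).differentiable (by simp) y) (hq.differentiable (by simp) y),
    smul_sub]
  abel

theorem th_test (hJ : GoodJ J) (hε : 0 < ε) (x v₁ v₂ : E) : CTest 9 (th J ε x v₁ v₂) := by
  have hs : Continuous fun y : E => ((x, y) : E × E) := by fun_prop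
  have h1 : Continuous fun y => wv J x y :=
    Continuous.comp (f := fun y : E => ((x, y) : E × E)) (contDiff_wv hJ).continuous hs
  have h2 : Continuous fun y => rho J ε x y :=
    continuous_const.div (by fun_prop) fun y => by positivity
  have h3 : Continuous fun y => zeta (Bm J x y v₁) (Bm J x y v₂) :=
    (contDiff_zeta2 (n := 0)).continuous.comp
      (((cd_B hJ v₁).continuous.comp hs).prodMk ((cd_B hJ v₂).continuous.comp hs))
  have h4 : Continuous fun y => w11 (fderiv ℝ (bp 3 4) y) (qq J ε v₁ v₂ (x, y)) :=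
    (contDiff_w112 (n := 0)).continuous.comp (((contDiff_bp 3 4).continuous_fderiv (by simp)).prodMk
      ((cd_qq hJ hε v₁ v₂).continuous.comp hs))
  refine ⟨((continuous_bp 3 4).smul (h2.smul ((pull _).continuous.comp h3))).add h4,
    fun y hy => ?_⟩
  rw [th, bp_eq_zero (by norm_num) (by norm_num) (by linarith), zero_smul, zero_add,
    fderiv_bp_of_gt (by norm_num) (by norm_num) (by linarith)]
  exact ext_ev fun u v => by simp [ev_w11, ev_zero]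

theorem norm_B (hJ : GoodJ J) {L : ℝ} (hL0 : 0 ≤ L)
    (hL : ∀ x y, ‖Bm J x y - Aop (J x)‖ ≤ L * ‖x - y‖) {x y : E} (hr : ‖x - y‖ ≤ 6) (v : E) :
    ‖Bm J x y v‖ ≤ (2 + 6 * L) * ‖v‖ := by
  refine (Bm J x y).le_of_opNorm_le ?_ v
  have h1 := norm_add_le (Bm J x y - Aop (J x)) (Aop (J x))
  rw [sub_add_cancel] at h1
  nlinarith [hL x y, (hJ.near x).norm_Aop_le]

/-- The main term is almost positive. -/
theorem main_ge (hJ : GoodJ J) : ∃ K : ℝ, 0 ≤ K ∧ ∀ x y v b : E, ‖x - y‖ ≤ 6 →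
    -(K * ‖x - y‖ ^ 2 * ‖v‖ ^ 2 * ‖b‖ ^ 2) ≤
      ev (pull (Aop (J x)) (zeta (Bm J x y v) (Bm J x y (J x v)))) b (J y b) := by
  obtain ⟨L, hL0, hL⟩ := exists_Bm_sub_le hJ
  obtain ⟨L', hL0', hL'⟩ := hJ.lipschitz
  refine ⟨2 * (2 + 6 * L + 2 * L') ^ 4, by positivity, fun x y v b hr => ?_⟩
  set M := 2 + 6 * L + 2 * L' with hM
  have hN := hJ.near x
  have hv := norm_nonneg v
  have hb := norm_nonneg b
  have hr0 := norm_nonneg (x - y)
  set e := (Bm J x y - Aop (J x)) (J x v) - J0 ((Bm J x y - Aop (J x)) v) with he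
  set f := Aop (J x) ((J y - J x) b) with hf
  have e1 : Bm J x y (J x v) = J0 (Bm J x y v) + e := by
    simp only [he, sub_apply, map_sub, Aop_J hN.1]
    abel
  have e2 : Aop (J x) (J y b) = J0 (Aop (J x) b) + f := by
    simp only [hf, sub_apply, map_sub, Aop_J hN.1]
    abel
  have p1 : ‖Bm J x y v‖ ≤ M * ‖v‖ :=
    (norm_B hJ hL0 hL hr v).trans (mul_le_mul_of_nonneg_right (by linarith) hv)
  have p2 : ‖Aop (J x) b‖ ≤ M * ‖b‖ :=
    (Aop (J x)).le_of_opNorm_le (hN.norm_Aop_le.trans (by linarith)) b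
  have p3 : ‖e‖ ≤ M * (‖x - y‖ * ‖v‖) := by
    have h1 := (Bm J x y - Aop (J x)).le_of_opNorm_le (hL x y) (J x v)
    have h2 := (Bm J x y - Aop (J x)).le_of_opNorm_le (hL x y) v
    have h3 := (J x).le_of_opNorm_le hN.norm_le v
    have h4 := mul_le_mul_of_nonneg_left h3 (mul_nonneg hL0 hr0)
    refine (norm_sub_le _ _).trans ?_
    rw [norm_J0_apply]
    have h5 := mul_nonneg hr0 hv
    nlinarith [mul_nonneg hL0 h5, mul_nonneg hL0' h5]
  have p4 : ‖f‖ ≤ M * (‖x - y‖ * ‖b‖) := by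
    have h1 := (Aop (J x)).le_of_opNorm_le hN.norm_Aop_le ((J y - J x) b)
    have h2 := (J y - J x).le_of_opNorm_le (hL' y x) b
    rw [norm_sub_rev y x] at h2
    have h5 := mul_nonneg hr0 hb
    nlinarith [mul_nonneg hL0 h5, mul_nonneg hL0' h5]
  have hM0 : 0 ≤ M := by linarith
  have q1 : (‖e‖ * ‖Aop (J x) b‖ + ‖f‖ * ‖Bm J x y v‖) ^ 2 ≤
      (M * (‖x - y‖ * ‖v‖) * (M * ‖b‖) + M * (‖x - y‖ * ‖b‖) * (M * ‖v‖)) ^ 2 := by gcongr
  have q2 : ‖Bm J x y v‖ * ‖Aop (J x) b‖ * ‖e‖ * ‖f‖ ≤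
      M * ‖v‖ * (M * ‖b‖) * (M * (‖x - y‖ * ‖v‖)) * (M * (‖x - y‖ * ‖b‖)) := by gcongr
  have h := vol4_near (Bm J x y v) (Aop (J x) b) e f
  rw [ev_pull, e1, e2]
  refine le_trans ?_ h
  nlinarith

/-- The boundary term is bounded. -/
theorem bdry_ge (hJ : GoodJ J) : ∃ K : ℝ, 0 ≤ K ∧ ∀ ε : ℝ, 0 < ε → ∀ x ∈ closedBall (0 : E) 2,
    ∀ y v b : E, -(K * ‖v‖ ^ 2 * ‖b‖ ^ 2) ≤
      ev (w11 (fderiv ℝ (bp 3 4) y) (qq J ε v (J x v) (x, y))) b (J y b) := by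
  obtain ⟨L, hL0, hL⟩ := exists_Bm_sub_le hJ
  obtain ⟨P, hP0, hP⟩ := exists_fderiv_bp_le (a := 3) (b := 4) (by norm_num) (by norm_num)
  refine ⟨6 * P * (3 * (2 + 6 * L) * ((2 + 6 * L) * 2) * 2) * 2, by positivity,
    fun ε hε x hx y v b => ?_⟩
  have hz : fderiv ℝ (bp 3 4) y = 0 → -(6 * P * (3 * (2 + 6 * L) * ((2 + 6 * L) * 2) * 2) * 2 *
      ‖v‖ ^ 2 * ‖b‖ ^ 2) ≤
      ev (w11 (fderiv ℝ (bp 3 4) y) (qq J ε v (J x v) (x, y))) b (J y b) := fun h0 => by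
    rw [h0, ev_w11]
    simp only [zero_apply, zero_mul, sub_zero, Left.neg_nonpos_iff]
    positivity
  rcases lt_or_ge ‖y‖ 3 with h3 | h3
  · exact hz (fderiv_bp_of_lt (by norm_num) (by norm_num) h3)
  rcases lt_or_ge 4 ‖y‖ with h4 | h4
  · exact hz (fderiv_bp_of_gt (by norm_num) (by norm_num) h4)
  have hx' : ‖x‖ ≤ 2 := mem_closedBall_zero_iff.1 hx
  have r1 : 1 ≤ ‖x - y‖ := by
    have := norm_sub_norm_le y x
    rw [norm_sub_rev] at this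
    linarith
  have r6 : ‖x - y‖ ≤ 6 := (norm_sub_le _ _).trans (by linarith)
  have hZ : ‖Zk ε (wv J x y)‖ ≤ 3 := by
    have h1 : 99 / 100 ≤ ‖wv J x y‖ := by linarith [(norm_wv_bounds hJ x y).1]
    set t := ‖wv J x y‖ with ht
    rw [Zk, norm_smul, Real.norm_of_nonneg (by positivity), ← ht, div_mul_eq_mul_div,
      div_le_iff₀ (by positivity)]
    have h2 : t ^ 2 ≤ t ^ 2 + ε ^ 2 := by nlinarith
    have h5 : (t ^ 2) ^ 2 ≤ (t ^ 2 + ε ^ 2) ^ 2 := by gcongr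
    have h6 : (99 / 100) ^ 3 ≤ t ^ 3 := by gcongr
    nlinarith
  have hJv : ‖J x v‖ ≤ 2 * ‖v‖ := (J x).le_of_opNorm_le ((hJ.near x).norm_le.trans (by norm_num)) v
  have hJb : ‖J y b‖ ≤ 2 * ‖b‖ := (J y).le_of_opNorm_le ((hJ.near y).norm_le.trans (by norm_num)) b
  have hq : ‖qq J ε v (J x v) (x, y)‖ ≤ 3 * ((2 + 6 * L) * ‖v‖) * ((2 + 6 * L) * (2 * ‖v‖)) * 2 := by
    refine ContinuousLinearMap.opNorm_le_bound _ (by positivity) fun u => ?_
    rw [qq_apply, norm_neg, Real.norm_eq_abs, mul_assoc _ 2]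
    refine (abs_vol4_le _ _ _ _).trans ?_
    have h1 := norm_B hJ hL0 hL r6 v
    have h2 := (norm_B hJ hL0 hL r6 (J x v)).trans
      (mul_le_mul_of_nonneg_left hJv (by positivity))
    have h5 : ‖Aop (J x) u‖ ≤ 2 * ‖u‖ :=
      (Aop (J x)).le_of_opNorm_le ((hJ.near x).norm_Aop_le.trans (by norm_num)) u
    gcongr
  refine le_trans (neg_le_neg ?_) (neg_abs_le _)
  refine (abs_ev_le _ _ _).trans ?_
  have h1 : ‖w11 (fderiv ℝ (bp 3 4) y) (qq J ε v (J x v) (x, y))‖ ≤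
      6 * P * (3 * ((2 + 6 * L) * ‖v‖) * ((2 + 6 * L) * (2 * ‖v‖)) * 2) := by
    refine (norm_w11_le _ _).trans ?_
    have := hP y
    gcongr
  refine le_trans (b := 6 * P * (3 * ((2 + 6 * L) * ‖v‖) * ((2 + 6 * L) * (2 * ‖v‖)) * 2) * ‖b‖ *
    (2 * ‖b‖)) (by gcongr) (le_of_eq (by ring))

theorem rho_le (hJ : GoodJ J) (hε : 0 < ε) (x y : E) : rho J ε x y * ‖x - y‖ ^ 2 ≤
    144 * (bp (1 / 4) (1 / 2) (y - x) * (ε ^ 2 / (‖y - x‖ ^ 2 + ε ^ 2) ^ 2) + 1) := by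
  rw [norm_sub_rev y x]
  have h0 := (norm_wv_bounds hJ x y).1
  set r := ‖x - y‖ with hr
  have hr0 : 0 ≤ r := norm_nonneg _
  have hs : 0 < r ^ 2 + ε ^ 2 := by positivity
  have h1 : 49 / 50 * (r ^ 2 + ε ^ 2) ≤ ‖wv J x y‖ ^ 2 + ε ^ 2 := by
    have : (99 / 100 * r) ^ 2 ≤ ‖wv J x y‖ ^ 2 := by gcongr
    nlinarith [sq_nonneg r, sq_nonneg ε]
  have h2 : rho J ε x y ≤ 8 * ε ^ 2 / (49 / 50 * (r ^ 2 + ε ^ 2)) ^ 3 := by
    unfold rho
    gcongr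
  have h3 : rho J ε x y * r ^ 2 ≤ 9 * (ε ^ 2 / (r ^ 2 + ε ^ 2) ^ 2) := by
    refine (mul_le_mul h2 (le_add_of_nonneg_right (sq_nonneg ε)) (sq_nonneg r)
      (by positivity)).trans ?_
    have : 8 * ε ^ 2 / (49 / 50 * (r ^ 2 + ε ^ 2)) ^ 3 * (r ^ 2 + ε ^ 2) =
        8 * (50 / 49) ^ 3 * (ε ^ 2 / (r ^ 2 + ε ^ 2) ^ 2) := by
      field_simp
    rw [this]
    exact mul_le_mul_of_nonneg_right (by norm_num) (by positivity)
  have h4 : 0 ≤ ε ^ 2 / (r ^ 2 + ε ^ 2) ^ 2 := by positivity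
  rcases le_or_gt r (1 / 4) with h5 | h5
  · rw [bp_eq_one (by norm_num) (by norm_num) (by rwa [norm_sub_rev])]
    linarith
  · have h6 : ε ^ 2 / (r ^ 2 + ε ^ 2) ^ 2 ≤ 16 := by
      rw [div_le_iff₀ (by positivity)]
      have : 1 / 16 ≤ r ^ 2 + ε ^ 2 := by nlinarith [sq_nonneg ε]
      nlinarith [sq_nonneg r]
    have h7 := mul_nonneg (bp_nonneg (1 / 4) (1 / 2) (y - x)) h4
    linarith

end PotDAux

open PotDAux in
/-- Let `w p = wv J p.1 p.2` on `E × E`, `Z = Zk ε`. By `fderiv_wv`,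
`ev (pull A (zeta Z (B v))) b₁ b₂ = lam3 w Z (v,0) (0,b₁) (0,b₂)`. Differentiate `potA_apply`
with `DistBd.fderiv_apply` and use `d_lam3` with `(v₁,0), (v₂,0), (0,b₁), (0,b₂)`:
`ev (d1 potA x) v₁ v₂ = S (bp ρ • pull A (zeta (B v₁) (B v₂))) - S (bp • d1 q)` where
`ρ = 8 ε²/(‖w‖² + ε²)³` and `q y b = lam3 w Z (v₁,0) (v₂,0) (0,b) (x,y)`.
`KillsD` for `bp • q` gives `S (bp • d1 q) = - S (w11 (D bp) q) = O(‖v₁‖ ‖v₂‖)` as `‖x - y‖ ≥ 1`
there. For `v₂ = J x v₁`, `vol4_near` gives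
`vol4 (B v) (B J_x v) (A b) (A J_y b) ≥ - C ‖x - y‖² ‖v‖² ‖b‖²`, and
`∫ bp 3 4 y ρ ‖x - y‖² dμ ≤ C (dens μ x ε + μ univ)`; use `LocPos.ge_of`. -/
theorem d1_potA_ge {J : E → E →L[ℝ] E} {S : LF} {μ : Measure E} {c C D : ℝ}
    (h : LocPos J S μ c C) (hJ : GoodJ J) (hS : KillsD S) (hD : DensBd μ 2 D) :
    ∃ C' : ℝ, 0 ≤ C' ∧ ∀ ε ∈ Set.Ioc (0 : ℝ) 1, ∀ x ∈ closedBall (0 : E) 2, ∀ b,
      -(C' * ‖b‖ ^ 2) ≤ ev (d1 (potA J S ε) x) b (J x b) := by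
  obtain ⟨K₁, hK₁, H₁⟩ := main_ge hJ
  obtain ⟨K₂, hK₂, H₂⟩ := bdry_ge hJ
  have := h.fin
  have hC := h.Cpos
  refine ⟨C * ((144 * K₁ + K₂) * (|D| + μ.real Set.univ)), by positivity, fun ε hε x hx v => ?_⟩
  have hε0 := hε.1
  have hx' : ‖x‖ ≤ 2 := mem_closedBall_zero_iff.1 hx
  have hg : CTest 3 fun y => bp (1 / 4) (1 / 2) (y - x) * (ε ^ 2 / (‖y - x‖ ^ 2 + ε ^ 2) ^ 2) := by
    refine ⟨((continuous_bp _ _).comp (by fun_prop)).mul
      (continuous_const.div (by fun_prop) fun y => by positivity), fun y hy => ?_⟩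
    exact mul_eq_zero_of_left
      (bp_eq_zero (by norm_num) (by norm_num) (by linarith [norm_sub_norm_le y x])) _
  have hg0 : ∀ y, 0 ≤ bp (1 / 4) (1 / 2) (y - x) * (ε ^ 2 / (‖y - x‖ ^ 2 + ε ^ 2) ^ 2) := fun y =>
    mul_nonneg (bp_nonneg _ _ _) (by positivity)
  have hi := hg.integrable μ
  rw [ev_d1_potA h hJ hS hε0]
  refine le_trans ?_ (h.ge_of hJ (th_test hJ hε0 x v (J x v)) (g := fun y => (144 * K₁ + K₂) *
    ‖v‖ ^ 2 * (bp (1 / 4) (1 / 2) (y - x) * (ε ^ 2 / (‖y - x‖ ^ 2 + ε ^ 2) ^ 2) + 1))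
    (continuous_const.mul (hg.1.add continuous_const))
    ((hi.add (integrable_const 1)).const_mul _) (fun y => by have := hg0 y; positivity)
    fun y b => ?_)
  · rw [integral_const_mul, integral_add hi (integrable_const 1), integral_const, smul_eq_mul,
      mul_one]
    have h1 : ∫ y, bp (1 / 4) (1 / 2) (y - x) * (ε ^ 2 / (‖y - x‖ ^ 2 + ε ^ 2) ^ 2) ∂μ ≤ |D| :=
      (hD x hx ε hε).trans (le_abs_self D)
    refine neg_le_neg (le_trans (b := C * ((144 * K₁ + K₂) * ‖v‖ ^ 2 * (|D| + μ.real Set.univ)))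
      (by gcongr) (le_of_eq (by ring)))
  · rw [th, ev_add, ev_smul, ev_smul]
    have h2 := H₂ ε hε0 x hx y v b
    have h3 := hg0 y
    have h4 := rho_le hJ hε0 x y
    set G := bp (1 / 4) (1 / 2) (y - x) * (ε ^ 2 / (‖y - x‖ ^ 2 + ε ^ 2) ^ 2) with hG
    have h5 : 0 ≤ ‖v‖ ^ 2 * ‖b‖ ^ 2 := by positivity
    have h1 : -(144 * K₁ * (G + 1) * (‖v‖ ^ 2 * ‖b‖ ^ 2)) ≤ bp 3 4 y * (rho J ε x y *
        ev (pull (Aop (J x)) (zeta (Bm J x y v) (Bm J x y (J x v)))) b (J y b)) := by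
      rcases le_or_gt 4 ‖y‖ with h6 | h6
      · rw [bp_eq_zero (by norm_num) (by norm_num) h6, zero_mul, Left.neg_nonpos_iff]
        positivity
      have h7 := H₁ x y v b ((norm_sub_le _ _).trans (by linarith))
      have h8 : 0 ≤ rho J ε x y := by
        unfold rho
        positivity
      have h9 := mul_le_mul_of_nonneg_left h7 h8
      have h10 := mul_le_mul_of_nonneg_right h4 (mul_nonneg hK₁ h5)
      have h11 : -(144 * K₁ * (G + 1) * (‖v‖ ^ 2 * ‖b‖ ^ 2)) ≤ rho J ε x y *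
          ev (pull (Aop (J x)) (zeta (Bm J x y v) (Bm J x y (J x v)))) b (J y b) := by linarith
      have h12 := mul_le_mul_of_nonneg_left h11 (bp_nonneg 3 4 y)
      have h13 : 0 ≤ 144 * K₁ * (G + 1) * (‖v‖ ^ 2 * ‖b‖ ^ 2) := by positivity
      nlinarith [bp_le_one 3 4 y]
    nlinarith [mul_nonneg (mul_nonneg hK₂ h3) h5]

end Vale.Agent.P204
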