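import Vale.Agent.P204.PotU

/-! The primitive is `-du ∘ J` up to an error of the size of the potential. -/

open scoped ContDiff RealInnerProductSpace Topology
open MeasureTheory Metric

namespace Vale.Agent.P204

namespace PotWAux

theorem zeta_sub (a b c : E) : zeta a (b - c) = zeta a b - zeta a c := by
  ext i
  fin_cases i <;> simp [zeta] <;> ring

/-- The form of the Kaehler identity. -/
noncomputable def kf (Z p : E) : W :=
  zeta Z p - ev om0 Z p • om0 + w11 (innerSL ℝ Z) (innerSL ℝ p)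

theorem norm_kf (Z p : E) : ‖kf Z p‖ ≤ 11 * (‖Z‖ * ‖p‖) := by
  have h1 := norm_zeta_le Z p
  have h2 := norm_w11_le (innerSL ℝ Z) (innerSL ℝ p)
  rw [innerSL_apply_norm, innerSL_apply_norm] at h2
  have h3 : ‖ev om0 Z p • om0‖ ≤ 2 * ‖Z‖ * ‖p‖ * 2 := by
    rw [norm_smul]
    exact mul_le_mul ((abs_ev_le _ _ _).trans (by gcongr; exact norm_om0_le)) norm_om0_le
      (norm_nonneg _) (by positivity)
  have h4 := norm_add_le (zeta Z p - ev om0 Z p • om0) (w11 (innerSL ℝ Z) (innerSL ℝ p))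
  have h5 := norm_sub_le (zeta Z p) (ev om0 Z p • om0)
  unfold kf
  linarith

theorem alg (A : E →L[ℝ] E) (Z p p' : E) (P : W) (Db : E →L[ℝ] ℝ) (b G s : ℝ) :
    b • pull A (zeta Z p') + ((b * s) • pull A om0 + (b * G) • P) -
      w11 (b • -(innerSL ℝ Z ∘L A) + G • Db) (innerSL ℝ p ∘L A) =
    b • pull A (kf Z p) + (b • pull A (zeta Z (p' - p)) + (b * (s + ev om0 Z p)) • pull A om0 +
      (b * G) • P - G • w11 Db (innerSL ℝ p ∘L A)) := by
  refine ext_ev fun u v => ?_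
  simp only [kf, zeta_sub, ev_add, ev_sub, ev_smul, ev_pull, ev_w11, add_apply, smul_apply,
    neg_apply, ContinuousLinearMap.comp_apply, smul_eq_mul]
  ring

theorem est {Jx Jy : E →L[ℝ] E} (hx : Near Jx) (hy : Near Jy) (Z v p' u' : E) (P : W)
    (Db : E →L[ℝ] ℝ) {b G r L D : ℝ} (hb : 0 ≤ b) (hL : 0 ≤ L) (hr : 0 ≤ r)
    (hJ : ‖Jy - Jx‖ ≤ L * r) (hp : ‖p' - Aop Jx v‖ ≤ L * r * ‖v‖)
    (hu : ‖u' - Aop Jx (Jx v)‖ ≤ L * r * (2 * ‖v‖)) (hP : ‖P‖ ≤ L * (2 * ‖v‖))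
    (hZ : ‖Z‖ * r ≤ 5 * D) (hG : |G| ≤ 2 * D) (hD : |G| * ‖Db‖ ≤ 2 * L) :
    ‖pp Jy (b • pull (Aop Jx) (zeta Z p') + ((b * ⟪Z, u'⟫) • pull (Aop Jx) om0 + (b * G) • P) -
      w11 (b • -(innerSL ℝ Z ∘L Aop Jx) + G • Db) (innerSL ℝ (Aop Jx v) ∘L Aop Jx))‖ ≤
      2100 * L * ‖v‖ * (b * D) + 150 * L * ‖v‖ := by
  have hA : ‖Aop Jx‖ ≤ 2 := hx.norm_Aop_le.trans (by norm_num)
  have hpl : ∀ a, ‖pull (Aop Jx) a‖ ≤ 4 * ‖a‖ := fun a => by
    refine (pull (Aop Jx)).le_of_opNorm_le ((norm_pull_le _).trans ?_) a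
    nlinarith [hx.norm_Aop_le, norm_nonneg (Aop Jx)]
  have hv : ‖Aop Jx v‖ ≤ 2 * ‖v‖ := (Aop Jx).le_of_opNorm_le hA v
  have hc : 0 ≤ b * L * ‖v‖ := by positivity
  have hZ' := mul_le_mul_of_nonneg_left hZ hc
  have t0 : ‖pp Jy (b • pull (Aop Jx) (kf Z (Aop Jx v)))‖ ≤
      4 * (L * r) * (b * (4 * (11 * (‖Z‖ * (2 * ‖v‖))))) := by
    have e : pp Jx (b • pull (Aop Jx) (kf Z (Aop Jx v))) = 0 := by
      rw [map_smul, ← pull_pp_comm (Aop_J hx.1), kf, pp_kahler, map_zero, smul_zero]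
    rw [← sub_zero (pp Jy _), ← e, ← sub_apply]
    refine ((pp Jy - pp Jx).le_opNorm _).trans (mul_le_mul ((hy.norm_pp_sub_le hx).trans
      (by linarith)) ?_ (norm_nonneg _) (by positivity))
    rw [norm_smul, Real.norm_of_nonneg hb]
    refine mul_le_mul_of_nonneg_left ((hpl _).trans ?_) hb
    have := norm_kf Z (Aop Jx v)
    have := mul_le_mul_of_nonneg_left hv (norm_nonneg Z)
    linarith
  have t1 : ‖b • pull (Aop Jx) (zeta Z (p' - Aop Jx v))‖ ≤ b * (4 * (‖Z‖ * (L * r * ‖v‖))) := by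
    rw [norm_smul, Real.norm_of_nonneg hb]
    refine mul_le_mul_of_nonneg_left ((hpl _).trans ?_) hb
    have := norm_zeta_le Z (p' - Aop Jx v)
    have := mul_le_mul_of_nonneg_left hp (norm_nonneg Z)
    linarith
  have t2 : ‖(b * (⟪Z, u'⟫ + ev om0 Z (Aop Jx v))) • pull (Aop Jx) om0‖ ≤
      b * (‖Z‖ * (L * r * (2 * ‖v‖))) * (4 * 2) := by
    rw [ev_om0, inner_J0_left, ← Aop_J hx.1, ← sub_eq_add_neg, ← inner_sub_right, norm_smul,
      norm_mul, Real.norm_of_nonneg hb]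
    refine mul_le_mul (mul_le_mul_of_nonneg_left ((norm_inner_le_norm _ _).trans
      (mul_le_mul_of_nonneg_left hu (norm_nonneg _))) hb) ((hpl _).trans ?_) (norm_nonneg _)
      (by positivity)
    linarith [norm_om0_le]
  have hD0 : 0 ≤ D := by linarith [abs_nonneg G]
  have t3 : ‖(b * G) • P‖ ≤ b * (2 * D) * (L * (2 * ‖v‖)) := by
    rw [norm_smul, norm_mul, Real.norm_of_nonneg hb]
    exact mul_le_mul (mul_le_mul_of_nonneg_left hG hb) hP (norm_nonneg _) (by positivity)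
  have t4 : ‖G • w11 Db (innerSL ℝ (Aop Jx v) ∘L Aop Jx)‖ ≤ 6 * (2 * L) * (2 * ‖v‖ * 2) := by
    have h1 : ‖innerSL ℝ (Aop Jx v) ∘L Aop Jx‖ ≤ 2 * ‖v‖ * 2 := by
      refine (ContinuousLinearMap.opNorm_comp_le _ _).trans ?_
      rw [innerSL_apply_norm]
      exact mul_le_mul hv hA (norm_nonneg _) (by positivity)
    rw [norm_smul, Real.norm_eq_abs]
    refine (mul_le_mul_of_nonneg_left (norm_w11_le _ _) (abs_nonneg G)).trans ?_
    rw [← mul_assoc, mul_left_comm]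
    exact mul_le_mul (by linarith) h1 (norm_nonneg _) (by positivity)
  rw [alg, map_add]
  refine (norm_add_le _ _).trans ((add_le_add t0 (((pp Jy).le_of_opNorm_le hy.norm_pp_le _).trans
    (mul_le_mul_of_nonneg_left ((norm_sub_le _ _).trans (add_le_add ((norm_add_le _ _).trans
      (add_le_add ((norm_add_le _ _).trans (add_le_add t1 t2)) t3)) t4)) zero_le_three))).trans ?_)
  have h1 : 0 ≤ b * L * ‖v‖ * D := by positivity
  have h2 : 0 ≤ L * ‖v‖ := by positivity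
  nlinarith

theorem GZ_le {ε r : ℝ} (hε : 0 < ε) (hr : 0 ≤ r) {w : E} (h : 99 / 100 * r ≤ ‖w‖) :
    |Gk ε w| ≤ 2 * (r ^ 2 + ε ^ 2)⁻¹ ∧ ‖Zk ε w‖ * r ≤ 5 * (r ^ 2 + ε ^ 2)⁻¹ := by
  have h0 : 0 < ‖w‖ ^ 2 + ε ^ 2 := by positivity
  have h1 : (‖w‖ ^ 2 + ε ^ 2)⁻¹ ≤ 2 * (r ^ 2 + ε ^ 2)⁻¹ := by
    rw [← div_eq_mul_inv, inv_eq_one_div, div_le_div_iff₀ h0 (by positivity)]
    nlinarith [pow_le_pow_left₀ (by positivity) h 2, sq_nonneg r, sq_nonneg ε]
  refine ⟨by rwa [Gk, abs_neg, abs_of_pos (inv_pos.2 h0)], ?_⟩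
  have h2 : ‖Zk ε w‖ * r ≤ 5 / 2 * (‖w‖ ^ 2 + ε ^ 2)⁻¹ := by
    rw [Zk, norm_smul, Real.norm_of_nonneg (by positivity), ← div_eq_mul_inv, le_div_iff₀ h0,
      show 2 / (‖w‖ ^ 2 + ε ^ 2) ^ 2 * ‖w‖ * r * (‖w‖ ^ 2 + ε ^ 2) =
        2 * ‖w‖ * r / (‖w‖ ^ 2 + ε ^ 2) by field_simp, div_le_iff₀ h0]
    nlinarith [mul_le_mul_of_nonneg_left h (norm_nonneg w), sq_nonneg ε, sq_nonneg ‖w‖]
  linarith

variable {J : E → E →L[ℝ] E}

theorem cd_om (hJ : GoodJ J) : ContDiff ℝ ∞ fun x => pull (Aop (J x)) om0 :=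
  (contDiff_pull.comp hJ.contDiff_Aop).clm_apply contDiff_const

theorem d_x (hJ : GoodJ J) {ε : ℝ} (hε : 0 < ε) (x y u : E) :
    fderiv ℝ (fun x' => (bp 3 4 y * Gk ε (wv J x' y)) • pull (Aop (J x')) om0) x u =
      (bp 3 4 y * ⟪Zk ε (wv J x y), Bm J x y u⟫) • pull (Aop (J x)) om0 +
        (bp 3 4 y * Gk ε (wv J x y)) • fderiv ℝ (fun x => pull (Aop (J x)) om0) x u := by
  have h1 : HasFDerivAt (fun x' => wv J x' y) (Bm J x y) x :=
    (((contDiff_wv hJ).comp (f := fun x' : E => (x', y))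
      (contDiff_id.prodMk contDiff_const)).differentiable (by simp) x).hasFDerivAt
  have h2 := ((contDiff_Gk hε).differentiable (by simp) (wv J x y)).hasFDerivAt.comp x h1
  have h3 := (h2.const_mul (bp 3 4 y)).fun_smul
    ((cd_om hJ).differentiable (by simp) x).hasFDerivAt
  refine (congrArg (fun T => T u) h3.fderiv).trans ?_
  simp only [add_apply, smul_apply, ContinuousLinearMap.smulRight_apply,
    ContinuousLinearMap.comp_apply, fderiv_Gk hε, smul_eq_mul, Function.comp_apply]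
  exact add_comm _ _

theorem d_y {ε : ℝ} (hε : 0 < ε) (x y : E) (m : E →L[ℝ] ℝ) :
    d1 (fun y => (bp 3 4 y * Gk ε (wv J x y)) • m) y =
      w11 (bp 3 4 y • -(innerSL ℝ (Zk ε (wv J x y)) ∘L Aop (J x)) +
        Gk ε (wv J x y) • fderiv ℝ (bp 3 4) y) m := by
  have h1 : HasFDerivAt (fun y => wv J x y) _ y :=
    (Aop (J x)).hasFDerivAt.comp y ((hasFDerivAt_id y).const_sub x)
  have h2 : HasFDerivAt (fun y => Gk ε (wv J x y))
      (-(innerSL ℝ (Zk ε (wv J x y)) ∘L Aop (J x))) y :=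
    (((contDiff_Gk hε).differentiable (by simp) (wv J x y)).hasFDerivAt.comp y h1).congr_fderiv
      (ContinuousLinearMap.ext fun a => by simp [fderiv_Gk hε])
  have h3 := ((contDiff_bp 3 4).differentiable (by simp) y).hasFDerivAt.fun_mul h2
  rw [d1_fun_smul h3.differentiableAt (differentiableAt_const m), d1_const, smul_zero, add_zero,
    h3.fderiv]

theorem consts (hJ : GoodJ J) : ∃ L : ℝ, 0 ≤ L ∧ (∀ x y, ‖J x - J y‖ ≤ L * ‖x - y‖) ∧
    (∀ x y, ‖Bm J x y - Aop (J x)‖ ≤ L * ‖x - y‖) ∧ (∀ y, ‖fderiv ℝ (bp 3 4) y‖ ≤ L) ∧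
    ∀ x, ‖fderiv ℝ (fun x => pull (Aop (J x)) om0) x‖ ≤ L := by
  obtain ⟨L1, a1, h1⟩ := hJ.lipschitz
  obtain ⟨L2, a2, h2⟩ := exists_Bm_sub_le hJ
  obtain ⟨L3, a3, h3⟩ := exists_fderiv_bp_le (a := 3) (b := 4) (by norm_num) (by norm_num)
  obtain ⟨L4, a4, h4⟩ := Calc0Aux.fderiv_le (cd_om hJ) (r := 11) (c := pull (Aop J0) om0)
    fun y hy => by rw [hJ.far y hy]
  refine ⟨L1 + L2 + L3 + L4, by positivity, fun x y => (h1 x y).trans ?_,
    fun x y => (h2 x y).trans ?_, fun y => (h3 y).trans (by linarith),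
    fun y => (h4 y).trans (by linarith)⟩ <;>
  exact mul_le_mul_of_nonneg_right (by linarith) (norm_nonneg _)

end PotWAux

open PotWAux in
/-- Fix `x, v`; `A = Aop (J x)`, `w = wv J x y`, `Z = Zk ε w`, `p = A v`, `I = Ipot μ ε x`,
`‖Z‖ ‖x - y‖ ≤ C (‖x - y‖² + ε²)⁻¹`.
(1) `DistBd.fderiv_apply`, `fderiv_Gk`: `du (J x v) = S (bp ⟪Z, A J v⟫ • pull A om0) + O(I)`, and
`⟪Z, A J v⟫ = ⟪Z, J0 p⟫ = - ev om0 Z p`.
(2) `potA x v = S (bp • pull A (zeta Z p)) + O(I)` (`exists_Bm_sub_le`).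
(3) `pp_kahler`: `θ = zeta Z p - ev om0 Z p • om0 + w11 ⟪Z,·⟫ ⟪p,·⟫` has `pp J0 θ = 0`, so
`pp (J x) (pull A θ) = 0` (`pull_pp_comm`, `Aop_J`), so
`‖pp (J y) (pull A θ)‖ ≤ C ‖x - y‖ ‖Z‖` and `S (bp • pull A θ) = O(I)` (`abs_le_of`).
(4) `pull A (w11 ⟪Z,·⟫ ⟪p,·⟫) = - d1 (y ↦ Gk ε w • m) y` with the constant one-form
`m = ⟪p, A ·⟫`; `KillsD` for `bp • Gk • m` leaves `S (Gk • w11 (D bp) m) = O(1)`, because
`‖x - y‖ ≥ 1` where `D (bp 3 4) ≠ 0`. -/
theorem potA_add_le {J : E → E →L[ℝ] E} {S : LF} {μ : Measure E} {c C : ℝ}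
    (h : LocPos J S μ c C) (hJ : GoodJ J) (hS : KillsD S) : ∃ C' : ℝ, 0 ≤ C' ∧
    ∀ ε ∈ Set.Ioc (0 : ℝ) 1, ∀ x ∈ closedBall (0 : E) 2,
      ‖potA J S ε x + fderiv ℝ (potU J S ε) x ∘L J x‖ ≤ C' * (1 + Ipot μ ε x) := by
  obtain ⟨L, hL, l1, l2, l3, l4⟩ := consts hJ
  have := h.fin
  have hC := h.Cpos
  refine ⟨2 * C * (2100 * L + 150 * L * μ.real Set.univ), by positivity,
    fun ε ⟨hε, _⟩ x hx => ?_⟩
  have hI : 0 ≤ Ipot μ ε x :=
    integral_nonneg fun y => mul_nonneg (bp_nonneg _ _ _) (by positivity)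
  refine ContinuousLinearMap.opNorm_le_bound _ (by positivity) fun v => ?_
  have hb : Test 4 (bp 3 4) := test_bp (by norm_num) (by norm_num)
  have hw : ContDiff ℝ ∞ fun y => wv J x y :=
    (contDiff_wv hJ).comp (f := fun y : E => (x, y)) (contDiff_const.prodMk contDiff_id)
  have hB : ∀ u, ContDiff ℝ ∞ fun y => Bm J x y u := fun u => ((contDiff_Bm hJ).comp
    (f := fun y : E => (x, y)) (contDiff_const.prodMk contDiff_id)).clm_apply contDiff_const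
  have hZ : ContDiff ℝ ∞ fun y => Zk ε (wv J x y) := (contDiff_Zk hε).comp hw
  have hG : Test 4 fun y => bp 3 4 y * Gk ε (wv J x y) := hb.smul_fun ((contDiff_Gk hε).comp hw)
  have t1 : Test 4 fun y => bp 3 4 y • pull (Aop (J x)) (zeta (Zk ε (wv J x y)) (Bm J x y v)) :=
    hb.smul_fun ((pull _).contDiff.comp (contDiff_zeta2.comp (hZ.prodMk (hB v))))
  have t2 : Test 4 fun y => bp 3 4 y * ⟪Zk ε (wv J x y), Bm J x y (J x v)⟫ :=
    hb.smul_fun (hZ.inner ℝ (hB _))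
  have t3 := (t2.smul_fun (contDiff_const (c := pull (Aop (J x)) om0))).add (hG.smul_fun
    (contDiff_const (c := fderiv ℝ (fun x => pull (Aop (J x)) om0) x (J x v))))
  have t4 := hG.smul_fun (contDiff_const (c := innerSL ℝ (Aop (J x) v) ∘L Aop (J x)))
  have e1 := ((h.distBd hJ 0).fderiv_apply (κ := fun z : E × E =>
    (bp 3 4 z.2 * Gk ε (wv J z.1 z.2)) • pull (Aop (J z.1)) om0)
    ((((contDiff_bp 3 4).comp contDiff_snd).mul ((contDiff_Gk hε).comp (contDiff_wv hJ))).smul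
      ((cd_om hJ).comp contDiff_fst))
    (fun p y hy => by simp [hb.2 y (by linarith)]) x).2 (J x v)
  simp only [d_x hJ hε] at e1
  have hD : CTest 4 fun y => bp 3 4 y * (‖x - y‖ ^ 2 + ε ^ 2)⁻¹ := hb.ctest.smul_fun
    (Continuous.inv₀ (by fun_prop) fun y => by positivity)
  have key := h.abs_le_of hJ (((t1.add t3).sub t4.d1).mono (r' := 9) (by norm_num)).ctest
    (g := fun y => 2100 * L * ‖v‖ * (bp 3 4 y * (‖x - y‖ ^ 2 + ε ^ 2)⁻¹) + 150 * L * ‖v‖)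
    (((hD.integrable μ).const_mul _).add (integrable_const _)) fun y => by
      obtain ⟨g1, g2⟩ := GZ_le hε (norm_nonneg _) (norm_wv_bounds hJ x y).1
      have hu : ‖J x v‖ ≤ 2 * ‖v‖ :=
        (J x).le_of_opNorm_le ((hJ.near x).norm_le.trans (by norm_num)) v
      simp only [Pi.add_apply, Pi.sub_apply, d_y hε]
      refine est (hJ.near x) (hJ.near y) _ v _ _ _ _ (bp_nonneg _ _ _) hL (norm_nonneg (x - y))
        (by rw [norm_sub_rev]; exact l1 x y) ((Bm J x y - Aop (J x)).le_of_opNorm_le (l2 x y) v)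
        ((Bm J x y - Aop (J x)).le_of_opNorm_le_of_le (l2 x y) hu)
        (ContinuousLinearMap.le_of_opNorm_le_of_le _ (l4 x) hu) g2 g1 ?_
      rcases lt_or_ge ‖y‖ 3 with hy | hy
      · rw [fderiv_bp_of_lt (by norm_num) (by norm_num) hy, norm_zero, mul_zero]
        positivity
      · refine mul_le_mul (g1.trans ?_) (l3 y) (norm_nonneg _) zero_le_two
        have h1 := norm_sub_norm_le y x
        rw [norm_sub_rev] at h1
        have h2 : 1 ≤ ‖x - y‖ := by linarith [mem_closedBall_zero_iff.1 hx]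
        have h3 : (‖x - y‖ ^ 2 + ε ^ 2)⁻¹ ≤ 1 := inv_le_one_of_one_le₀ (by nlinarith [sq_nonneg ε])
        linarith
  rw [map_sub, map_add, hS _ (t4.mono (by norm_num)), sub_zero, integral_add
    ((hD.integrable μ).const_mul _) (integrable_const _), integral_const_mul, integral_const,
    smul_eq_mul] at key
  have e2 : (potA J S ε x + fderiv ℝ (potU J S ε) x ∘L J x) v = _ :=
    congrArg₂ (· + ·) (potA_apply J S ε x v) e1
  rw [e2]
  refine key.trans ?_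
  change 2 * C * (2100 * L * ‖v‖ * Ipot μ ε x + _) ≤ _
  have h1 : 0 ≤ C * L * ‖v‖ := by positivity
  have h2 : 0 ≤ C * L * ‖v‖ * (μ.real Set.univ * Ipot μ ε x) := by positivity
  nlinarith

end Vale.Agent.P204
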