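import Vale.Agent.P204.ElMirE
import Vale.Agent.P204.PotW
import Vale.Agent.P204.PotD
import Vale.Agent.P204.Energy2

/-! The part of a closed positive current where the potential is finite is closed. -/

open scoped ContDiff RealInnerProductSpace Topology
open MeasureTheory Metric

namespace Vale.Agent.P204

namespace ElMirAux
open Filter Set

theorem pt {t a : ℝ} (ht : t ≤ 0) (ha : 1 - Real.exp t ≤ a) :
    (|gam t - 1| ≤ 2 * a ∧ |gam t - 0| ≤ 2 * Real.exp t) ∧
      Real.exp t * (1 - Real.exp t) ^ 2 ≤ 2 * a ∧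
      Real.exp t * (1 - Real.exp t) ^ 2 ≤ 2 * Real.exp t := by
  have h0 := Real.exp_pos t
  have h1 := Real.exp_le_one_iff.2 ht
  have e : gam t = 2 * Real.exp t - Real.exp t * Real.exp t := by
    rw [gam, two_mul t, Real.exp_add]
  have h2 : 0 ≤ Real.exp t * (1 - Real.exp t) := mul_nonneg h0.le (sub_nonneg.2 h1)
  have h3 : Real.exp t * (1 - Real.exp t) ≤ 1 := by nlinarith
  rw [e, abs_le, abs_le]
  refine ⟨⟨⟨by nlinarith, by nlinarith⟩, by nlinarith, by nlinarith⟩, by nlinarith, by nlinarith⟩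

theorem small {Ω : Type} [MeasurableSpace Ω] (ν : Measure Ω) [IsFiniteMeasure ν] {A : Set Ω}
    (hm : MeasurableSet A) {u : ℕ → Ω → ℝ} (hu : ∀ n, Measurable (u n)) (h0 : ∀ n x, u n x ≤ 0)
    (hA : ∀ x ∈ A, ∃ M, ∀ n, -M ≤ u n x) (hA' : ∀ x ∉ A, Tendsto (u · x) atTop atBot) {δ : ℝ}
    (hδ : 0 < δ) : ∃ k : ℝ, 1 ≤ k ∧ ∃ n, ∫ x, |gam (u n x / k) - A.indicator 1 x| ∂ν ≤ δ ∧
      ∫ x, Real.exp (u n x / k) * (1 - Real.exp (u n x / k)) ^ 2 ∂ν ≤ δ := by
  have hk : ∀ k : ℕ, (0 : ℝ) < k + 1 := fun k => by positivity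
  have ht : ∀ (k n : ℕ) x, u n x / (k + 1) ≤ 0 := fun k n x =>
    div_nonpos_of_nonpos_of_nonneg (h0 n x) (hk k).le
  let a : ℕ → Ω → ℝ := fun k => A.indicator fun x => ⨆ n, (1 - Real.exp (u n x / (k + 1)))
  let b : ℕ → ℕ → Ω → ℝ := fun k n => Aᶜ.indicator fun x => Real.exp (u n x / (k + 1))
  have am : ∀ k, Measurable (a k) := fun k => (Measurable.iSup fun n =>
    measurable_const.sub ((hu n).div_const _).exp).indicator hm
  have bm : ∀ k n, Measurable (b k n) := fun k n => ((hu n).div_const _).exp.indicator hm.compl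
  have a0 : ∀ k x, 0 ≤ a k x := fun k x => indicator_nonneg (fun x _ => Real.iSup_nonneg fun n =>
    sub_nonneg.2 (Real.exp_le_one_iff.2 (ht k n x))) x
  have b0 : ∀ k n x, 0 ≤ b k n x := fun k n x =>
    indicator_nonneg (fun x _ => (Real.exp_pos _).le) x
  have a1 : ∀ k x, ‖a k x‖ ≤ 1 := fun k x => by
    rw [Real.norm_of_nonneg (a0 k x)]
    exact indicator_apply_le' (fun _ => ciSup_le fun n => by linarith [Real.exp_pos (u n x / (k + 1))])
      fun _ => zero_le_one
  have b1 : ∀ k n x, ‖b k n x‖ ≤ 1 := fun k n x => by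
    rw [Real.norm_of_nonneg (b0 k n x)]
    exact indicator_apply_le' (fun _ => Real.exp_le_one_iff.2 (ht k n x)) fun _ => zero_le_one
  have la : Tendsto (fun k => ∫ x, a k x ∂ν) atTop (𝓝 (∫ _, 0 ∂ν)) := by
    refine tendsto_integral_of_dominated_convergence (fun _ => 1)
      (fun k => (am k).aestronglyMeasurable) (integrable_const _)
      (fun k => Eventually.of_forall (a1 k)) (Eventually.of_forall fun x => ?_)
    by_cases hx : x ∈ A
    · obtain ⟨M, hM⟩ := hA x hx
      refine squeeze_zero (a0 · x) (fun k => ?_) (tendsto_const_nhds.div_atTop (a := M)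
        (tendsto_natCast_atTop_atTop.atTop_add (tendsto_const_nhds (x := (1 : ℝ)))))
      refine (indicator_of_mem hx _).trans_le (ciSup_le fun n => ?_)
      have h1 := Real.add_one_le_exp (u n x / (k + 1))
      have h2 := div_le_div_of_nonneg_right (hM n) (hk k).le
      rw [neg_div] at h2
      linarith
    · simp only [a, indicator_of_notMem hx]
      exact tendsto_const_nhds
  have lb : ∀ k, Tendsto (fun n => ∫ x, b k n x ∂ν) atTop (𝓝 (∫ _, 0 ∂ν)) := fun k => by
    refine tendsto_integral_of_dominated_convergence (fun _ => 1)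
      (fun n => (bm k n).aestronglyMeasurable) (integrable_const _)
      (fun n => Eventually.of_forall (b1 k n)) (Eventually.of_forall fun x => ?_)
    by_cases hx : x ∈ A
    · simp only [b, indicator_of_notMem (notMem_compl_iff.2 hx)]
      exact tendsto_const_nhds
    · simp only [b, indicator_of_mem (mem_compl hx)]
      exact Real.tendsto_exp_atBot.comp ((hA' x hx).atBot_div_const (hk k))
  rw [integral_zero] at la lb
  have h4 : 0 < δ / 4 := by positivity
  obtain ⟨k, ha⟩ := (la.eventually (eventually_le_nhds h4)).exists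
  obtain ⟨n, hb⟩ := ((lb k).eventually (eventually_le_nhds h4)).exists
  have ia : Integrable (a k) ν :=
    .of_bound (am k).aestronglyMeasurable 1 (Eventually.of_forall (a1 k))
  have ib : Integrable (b k n) ν :=
    .of_bound (bm k n).aestronglyMeasurable 1 (Eventually.of_forall (b1 k n))
  have key : ∀ f : Ω → ℝ, (∀ x, 0 ≤ f x) → (∀ x ∈ A, f x ≤ 2 * a k x) →
      (∀ x ∉ A, f x ≤ 2 * b k n x) → ∫ x, f x ∂ν ≤ δ := fun f f0 f1 f2 => by
    refine (integral_mono_of_nonneg (Eventually.of_forall f0) ((ia.add ib).const_mul 2)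
      (Eventually.of_forall fun x => ?_)).trans ?_
    · change f x ≤ 2 * (a k x + b k n x)
      by_cases hx : x ∈ A
      · linarith [f1 x hx, b0 k n x]
      · linarith [f2 x hx, a0 k x]
    · rw [integral_const_mul, integral_add' ia ib]
      linarith
  have hp : ∀ x ∈ A, 1 - Real.exp (u n x / (k + 1)) ≤ a k x := fun x hx => by
    simp only [a, indicator_of_mem hx]
    refine le_ciSup (f := fun n => 1 - Real.exp (u n x / (k + 1))) ⟨1, ?_⟩ n
    rintro _ ⟨m, rfl⟩
    linarith [Real.exp_pos (u m x / (k + 1))]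
  have hq : ∀ x ∉ A, b k n x = Real.exp (u n x / (k + 1)) := fun x hx =>
    indicator_of_mem (mem_compl hx) _
  refine ⟨k + 1, by linarith [k.cast_nonneg (α := ℝ)], n,
    key _ (fun x => abs_nonneg _) (fun x hx => ?_) fun x hx => ?_,
    key _ (fun x => by positivity) (fun x hx => (pt (ht k n x) (hp x hx)).2.1) fun x hx => ?_⟩
  · rw [indicator_of_mem hx]
    exact (pt (ht k n x) (hp x hx)).1.1
  · rw [indicator_of_notMem hx, hq x hx]
    exact (pt (ht k n x) le_rfl).1.2
  · rw [hq x hx]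
    exact (pt (ht k n x) le_rfl).2.2

end ElMirAux

/-- Take `g = gam (u/k)` with `u = potU J S (1/(n+1))`. By `potU_bounds`, `potA_add_le`,
`d1_potA_ge`, `energy_le`, `gam_sq_le` it is enough to make the integrals over
`closedBall 0 1` of `|gam (u/k) - 1_E|` and of `e^{u/k} (1 - e^{u/k})²` small; both integrands are
at most `2 e^{-c' I_n/k}` off `E = Epol μ` (tends to zero as `n → ∞`,
`tendsto_Ipot_of_not_mem_Epol`) and at most `min 1 (C' I/k)` on `E`, where
`I = sup_n I_n < ∞` (`Ipot_le_of_mem_Epol`; for measurability use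
`G_k = ⨆ n, (1 - e^{u_n/k})`, or first choose `k` by dominated convergence for the measurable
function `x ↦ min 1 (C' (∫⁻ ..).toReal / k)`). First choose `k`, then `n`. -/
theorem elMir {J : E → E →L[ℝ] E} {S : LF} {μ : Measure E} {c C D : ℝ}
    (h : LocPos J S μ c C) (hJ : GoodJ J) (hS : KillsD S) (hD : DensBd μ 2 D)
    {p : E → E →L[ℝ] ℝ} (hp : Test 1 p) {η : ℝ} (hη : 0 < η) :
    ∃ g : E → ℝ, Continuous g ∧
      ∫ y in closedBall (0 : E) 1, |g y - (Epol μ).indicator 1 y| ∂μ ≤ η ∧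
      |S fun y => g y • d1 p y| ≤ η := by
  have := h.fin
  obtain ⟨c', hc', C', hC', hU⟩ := potU_bounds h hJ
  obtain ⟨Ca, hCa, hA⟩ := potA_add_le h hJ hS
  obtain ⟨Cd, hCd, hd⟩ := d1_potA_ge h hJ hS hD
  obtain ⟨C₂, -, h2⟩ := energy_le h hJ hS (Ca * (1 + c'⁻¹) + Cd)
  obtain ⟨C₃, hC₃, h3⟩ := gam_sq_le h hJ hS hp C₂
  have hε : ∀ n : ℕ, 1 / (n + 1 : ℝ) ∈ Set.Ioc (0 : ℝ) 1 := fun n =>
    ⟨by positivity, div_le_one_of_le₀ (by linarith [n.cast_nonneg (α := ℝ)]) (by positivity)⟩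
  have hu : ∀ n : ℕ, ContDiff ℝ ∞ (potU J S (1 / (n + 1 : ℝ))) := fun n =>
    contDiff_potU h hJ (hε n).1
  have h0 : ∀ (n : ℕ) x, potU J S (1 / (n + 1 : ℝ)) x ≤ 0 := fun n x =>
    (hU _ (hε n).1 x).2.trans (neg_nonpos.2 (mul_nonneg hc'.le (Ipot_nonneg μ _ x)))
  obtain ⟨k, hk, n, i1, i2⟩ := ElMirAux.small (μ.restrict (closedBall 0 1)) (measurableSet_Epol μ)
    (fun n => (hu n).continuous.measurable) h0
    (fun x hx => by
      obtain ⟨M, hM⟩ := Ipot_le_of_mem_Epol μ hx
      exact ⟨C' * M, fun n => (neg_le_neg (mul_le_mul_of_nonneg_left (hM _ (hε n).1) hC')).trans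
        (hU _ (hε n).1 x).1⟩)
    (fun x hx => Filter.tendsto_atBot_mono (fun n => (hU _ (hε n).1 x).2)
      (Filter.tendsto_neg_atTop_atBot.comp
        ((tendsto_Ipot_of_not_mem_Epol μ hx).const_mul_atTop hc')))
    (δ := min η (η ^ 2 / (C₃ + 1))) (by positivity)
  refine ⟨_, ?_, i1.trans (min_le_left _ _), abs_le_of_sq_le_sq ?_ hη.le⟩
  · have := (hu n).continuous
    unfold gam
    fun_prop
  · refine (h3 _ (hu n) k hk (h2 _ _ (hu n) (contDiff_potA h hJ (hε n).1)
      (fun x hx => ⟨h0 n x, (hA _ (hε n) x hx).trans ?_, fun b => le_trans ?_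
        (hd _ (hε n) x hx b)⟩) k hk)).trans ?_
    · have h4 : Ipot μ (1 / (n + 1 : ℝ)) x ≤ c'⁻¹ * |potU J S (1 / (n + 1 : ℝ)) x| := by
        rw [le_inv_mul_iff₀ hc', abs_of_nonpos (h0 n x)]
        linarith [(hU _ (hε n).1 x).2]
      have h5 := abs_nonneg (potU J S (1 / (n + 1 : ℝ)) x)
      have h6 := inv_pos.2 hc'
      nlinarith [mul_le_mul_of_nonneg_left h4 hCa, mul_nonneg hCa h5, mul_nonneg hCd h5,
        mul_nonneg hCa h6.le]
    · have : 0 ≤ Ca * (1 + c'⁻¹) * ‖b‖ ^ 2 := by positivity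
      linarith
    · refine (mul_le_mul_of_nonneg_left (i2.trans (min_le_right _ _)) hC₃).trans ?_
      rw [← mul_div_assoc, div_le_iff₀ (by positivity)]
      nlinarith [sq_nonneg η]

end Vale.Agent.P204
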