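import Vale.Agent.P204.LocAPI
import Vale.Agent.P204.Calc1

/-! The energy estimate of El Mir type. -/

open scoped ContDiff RealInnerProductSpace Topology
open MeasureTheory Metric

namespace Vale.Agent.P204

/-- The cut-off `2 eᵗ - e²ᵗ`. -/
noncomputable def gam (t : ℝ) : ℝ := 2 * Real.exp t - Real.exp (2 * t)

variable {J : E → E →L[ℝ] E} {S : LF} {μ : Measure E} {c C : ℝ}

namespace ElMirEAux

theorem exp_bd {s k : ℝ} (hs : s ≤ 0) (hk : 1 ≤ k) : Real.exp (s / k) ≤ 1 ∧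
    Real.exp (s / k) * (1 + |s|) ≤ k ∧ Real.exp (s / k) * (1 + |s|) ^ 2 ≤ 4 * k ^ 2 := by
  have hk0 : 0 < k := by linarith
  obtain ⟨x, rfl⟩ : ∃ x, s = -(k * x) := ⟨-s / k, by field_simp⟩
  have hx : 0 ≤ x := by
    by_contra h
    nlinarith [mul_pos hk0 (neg_pos.2 (not_le.1 h))]
  rw [neg_div, mul_div_cancel_left₀ _ hk0.ne', abs_neg, abs_of_nonneg (by positivity), Real.exp_neg]
  have h0 := Real.exp_pos x
  have h1 : 1 + k * x ≤ k * (1 + x) := by linarith
  have h2 := Real.add_one_le_exp x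
  have h3 : (1 + x) ^ 2 ≤ 4 * Real.exp x := by
    have h4 := pow_le_pow_left₀ (by positivity) (Real.add_one_le_exp (x / 2)) 2
    rw [sq (Real.exp _), ← Real.exp_add, add_halves] at h4
    nlinarith
  refine ⟨inv_le_one_of_one_le₀ (by linarith), ?_, ?_⟩
  · rw [inv_mul_le_iff₀ h0]
    nlinarith
  · rw [inv_mul_le_iff₀ h0]
    have h5 := pow_le_pow_left₀ (by positivity) h1 2
    rw [mul_pow] at h5
    nlinarith [mul_le_mul_of_nonneg_left h3 (sq_nonneg k)]

theorem int_le [IsFiniteMeasure μ] {f : E → ℝ} {M : ℝ} (h0 : ∀ y, 0 ≤ f y) (h : ∀ y, f y ≤ M) :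
    ∫ y, f y ∂μ ≤ μ.real Set.univ * M := by
  simpa using integral_mono_of_nonneg (μ := μ) (ae_of_all _ h0) (integrable_const M) (ae_of_all _ h)

theorem norm_J (hJ : GoodJ J) (q : E →L[ℝ] ℝ) (y : E) : ‖q ∘L J y‖ ^ 2 ≤ 2 * ‖q‖ ^ 2 := by
  have h1 := (q.opNorm_comp_le (J y)).trans
    (mul_le_mul_of_nonneg_left (hJ.near y).norm_le (norm_nonneg _))
  have h2 := pow_le_pow_left₀ (norm_nonneg _) h1 2
  nlinarith [sq_nonneg ‖q‖]

theorem bp_mul (y : E) : bp 2 3 y * bp 1 2 y = bp 1 2 y := by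
  rcases le_total ‖y‖ 2 with h | h
  · rw [bp_eq_one zero_le_two (by norm_num) h, one_mul]
  · rw [bp_eq_zero zero_le_one one_lt_two h, mul_zero]

theorem exp_fd {u : E → ℝ} (hu : ContDiff ℝ ∞ u) (k : ℝ) (y : E) :
    HasFDerivAt (fun y => Real.exp (u y / k)) ((Real.exp (u y / k) * k⁻¹) • fderiv ℝ u y) y := by
  simp only [div_eq_mul_inv]
  refine (((hu.differentiable (by simp)) y).hasFDerivAt.mul_const k⁻¹).exp.congr_fderiv ?_
  rw [smul_smul]

theorem ctest_g {u : E → ℝ} (hu : ContDiff ℝ ∞ u) (k : ℝ) :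
    Test 2 fun y => bp 1 2 y ^ 2 * Real.exp (u y / k) :=
  ⟨((contDiff_bp 1 2).pow 2).mul (by fun_prop), fun y hy => by
    dsimp only
    rw [bp_eq_zero zero_le_one one_lt_two hy.le]
    simp⟩

theorem split (hS : KillsD S) {u : E → ℝ} {a : E → E →L[ℝ] ℝ} (hu : ContDiff ℝ ∞ u)
    (ha : ContDiff ℝ ∞ a) (k : ℝ) :
    k⁻¹ * Bq J S (fun y => bp 1 2 y ^ 2 * Real.exp (u y / k)) (fderiv ℝ u) (fderiv ℝ u) +
      k⁻¹ * S (fun y => (bp 1 2 y ^ 2 * Real.exp (u y / k)) •
        w11 (fderiv ℝ u y) (a y + fderiv ℝ u y ∘L J y)) +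
      S (fun y => (bp 1 2 y ^ 2 * Real.exp (u y / k)) • d1 a y) +
      2 * Bq J S (fun y => bp 2 3 y * Real.exp (u y / k)) (fderiv ℝ (bp 1 2))
        (fun y => bp 1 2 y • fderiv ℝ u y) +
      2 * S (fun y => (bp 1 2 y * Real.exp (u y / k)) •
        w11 (fderiv ℝ (bp 1 2) y) (a y + fderiv ℝ u y ∘L J y)) = 0 := by
  have h0 := hS _ (((ctest_g hu k).smul_fun ha).mono (by norm_num))
  simp only [Bq, ← smul_eq_mul (a := k⁻¹), ← smul_eq_mul (a := (2 : ℝ)), ← map_smul, ← map_add]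
  rw [← h0]
  congr 1
  funext y
  have d1' := ((contDiff_bp 1 2).differentiable (by simp) y).hasFDerivAt
  have d2 := (d1'.pow 2).mul (exp_fd hu k y)
  rw [d1_fun_smul (g := fun y => bp 1 2 y ^ 2 * Real.exp (u y / k)) d2.differentiableAt
    (ha.differentiable (by simp) y),
    show fderiv ℝ (fun y => bp 1 2 y ^ 2 * Real.exp (u y / k)) y = _ from d2.fderiv]
  refine ext_ev fun v w => ?_
  have e := bp_mul y
  simp only [Pi.add_apply, Pi.smul_apply, ev_add, ev_smul, ev_w11, add_apply, smul_apply,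
    neg_apply, ContinuousLinearMap.smul_comp, smul_eq_mul, nsmul_eq_mul, Nat.cast_ofNat,
    Nat.add_one_sub_one, pow_one]
  linear_combination (2 * Real.exp (u y / k) * (fderiv ℝ (bp 1 2) y w * (fderiv ℝ u y ∘L J y) v -
    fderiv ℝ (bp 1 2) y v * (fderiv ℝ u y ∘L J y) w)) * e

theorem final {Q T1 T2 T3 T4 A B B2 B4 k : ℝ} (hk : 1 ≤ k) (hQ : 0 ≤ Q) (hA : 0 ≤ A) (hB : 0 ≤ B)
    (h2 : 0 ≤ B2) (e : k⁻¹ * Q + k⁻¹ * T1 + T2 + 2 * T3 + 2 * T4 = 0)
    (t1 : T1 ^ 2 ≤ Q * (A * k ^ 2)) (t2 : -B2 ≤ T2) (t3 : T3 ^ 2 ≤ B * Q) (t4 : |T4| ≤ B4 * k) :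
    Q ≤ 2 * (A + 4 * B + B2 + 2 * B4) * k ^ 2 := by
  have hk0 : 0 < k := by linarith
  have e' : Q + T1 + k * T2 + 2 * (k * T3) + 2 * (k * T4) = 0 := by
    have := congrArg (k * ·) e
    simp only [mul_add, mul_inv_cancel_left₀ hk0.ne', mul_zero] at this
    linarith
  have a1 : |T1| ≤ Q / 4 + A * k ^ 2 := abs_le_of_sq_le_sq (by
    nlinarith [sq_nonneg (Q / 4 - A * k ^ 2)]) (by positivity)
  have a3 : |k * T3| ≤ Q / 8 + 2 * B * k ^ 2 := abs_le_of_sq_le_sq (by
    nlinarith [sq_nonneg (Q / 8 - 2 * B * k ^ 2), mul_le_mul_of_nonneg_left t3 (sq_nonneg k)])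
    (by positivity)
  have a2 := mul_le_mul_of_nonneg_left t2 hk0.le
  have a4 := mul_le_mul_of_nonneg_left (abs_le.1 t4).1 hk0.le
  have a5 : B2 * k ≤ B2 * k ^ 2 := mul_le_mul_of_nonneg_left (by nlinarith) h2
  have := (abs_le.1 a1).1
  have := (abs_le.1 a3).1
  linarith

end ElMirEAux

open ElMirEAux

/-- Let `ζ = bp 1 2`, `g = ζ² e^{u/k}`, `a = -(du ∘ J) + V` with `‖V‖ ≤ C₁ (1 + |u|)` on
`closedBall 0 2`, `Q = Bq g du du / k²`. `KillsD` for the one-form `(ζ² e^{u/k} / k) • a` gives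
`0 = Q + S (g • w11 du V)/k² + S (g • d1 a)/k + 2 S (ζ e^{u/k} • w11 dζ a)/k`.
By `Bq_sq_le`, `Bq_le`, `ge_of`, `abs_le` and `e^{-s/k} (1 + s)² / k² ≤ 8` for `s ≥ 0`, `k ≥ 1`,
this gives `Q ≤ C₂ sqrt Q + C₂`. (For the last term with `du ∘ J`, write the weight as
`h = bp 2 3 * e^{u/k}` and the one-forms as `dζ` and `ζ • du`; note
`Bq h (ζ du) (ζ du) = Bq g du du`.) -/
theorem energy_le (h : LocPos J S μ c C) (hJ : GoodJ J) (hS : KillsD S) (C₁ : ℝ) :
    ∃ C₂ : ℝ, 0 ≤ C₂ ∧ ∀ (u : E → ℝ) (a : E → E →L[ℝ] ℝ), ContDiff ℝ ∞ u → ContDiff ℝ ∞ a →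
      (∀ x ∈ closedBall (0 : E) 2, u x ≤ 0 ∧ ‖a x + fderiv ℝ u x ∘L J x‖ ≤ C₁ * (1 + |u x|) ∧
        ∀ b, -(C₁ * ‖b‖ ^ 2) ≤ ev (d1 a x) b (J x b)) →
      ∀ k : ℝ, 1 ≤ k →
        Bq J S (fun y => bp 1 2 y ^ 2 * Real.exp (u y / k)) (fderiv ℝ u) (fderiv ℝ u) ≤
          C₂ * k ^ 2 := by
  have := h.fin
  have hC := h.Cpos
  obtain ⟨M, M0, hM⟩ := exists_fderiv_bp_le zero_le_one one_lt_two
  have m0 : 0 ≤ μ.real Set.univ := measureReal_nonneg
  refine ⟨2 * (3 * C * (μ.real Set.univ * (8 * C₁ ^ 2)) + 4 * (3 * C * (μ.real Set.univ * M ^ 2)) +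
    C * (μ.real Set.univ * |C₁|) + 2 * (2 * C * (μ.real Set.univ * (6 * M * |C₁|)))),
    by positivity, fun u a hu ha hb k hk => ?_⟩
  have tg := ((ctest_g hu k).mono (show (2 : ℝ) ≤ 9 by norm_num)).ctest
  have g0 : ∀ y, 0 ≤ bp 1 2 y ^ 2 * Real.exp (u y / k) := fun y => by positivity
  have cdu : Continuous (fderiv ℝ u) := hu.continuous_fderiv (by simp)
  have cdz : Continuous (fderiv ℝ (bp 1 2)) := (contDiff_bp 1 2).continuous_fderiv (by simp)
  have cJ := hJ.smooth.continuous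
  have cV : Continuous fun y => a y + fderiv ℝ u y ∘L J y := ha.continuous.add (cdu.clm_comp cJ)
  have ce : Continuous fun y => Real.exp (u y / k) := by
    have := hu.continuous
    fun_prop
  have z0 := bp_nonneg 1 2
  have z1 := bp_le_one 1 2
  have z2 : ∀ y : E, bp 1 2 y ^ 2 ≤ 1 := fun y => pow_le_one₀ (z0 y) (z1 y)
  have out : ∀ y : E, y ∉ closedBall (0 : E) 2 → bp 1 2 y = 0 := fun y hy =>
    bp_eq_zero zero_le_one one_lt_two (not_le.1 (mt mem_closedBall_zero_iff.2 hy)).le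
  have hV : ∀ y ∈ closedBall (0 : E) 2, ‖a y + fderiv ℝ u y ∘L J y‖ ≤ |C₁| * (1 + |u y|) :=
    fun y hy => (hb y hy).2.1.trans (mul_le_mul_of_nonneg_right (le_abs_self _) (by positivity))
  have th : CTest 9 fun y => bp 2 3 y * Real.exp (u y / k) :=
    ⟨(continuous_bp 2 3).mul ce, fun y hy => by
      dsimp only
      rw [bp_eq_zero zero_le_two (by norm_num) (by linarith), zero_mul]⟩
  have h0 : ∀ y, 0 ≤ bp 2 3 y * Real.exp (u y / k) := fun y =>
    mul_nonneg (bp_nonneg _ _ _) (Real.exp_pos _).le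
  refine final hk (h.Bq_nonneg hJ tg g0 cdu) (by positivity) (by positivity) (by positivity)
    (split (J := J) hS hu ha k) ?_ ?_ ?_ ?_
  · rw [LocPos.w11_eq_Bq hJ]
    refine (h.Bq_sq_le hJ tg g0 cdu (cV.clm_comp cJ)).trans
      (mul_le_mul_of_nonneg_left ((h.Bq_le hJ tg g0 (cV.clm_comp cJ)).trans ?_)
        (h.Bq_nonneg hJ tg g0 cdu))
    rw [mul_assoc (3 * C), mul_assoc (μ.real _)]
    refine mul_le_mul_of_nonneg_left (int_le (fun y => by positivity) fun y => ?_) (by positivity)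
    by_cases hy : y ∈ closedBall (0 : E) 2
    · have b1 := (exp_bd (hb y hy).1 hk).2.2
      have b2 := pow_le_pow_left₀ (norm_nonneg _) (hV y hy) 2
      rw [mul_pow, sq_abs] at b2
      have b3 := (norm_J hJ (a y + fderiv ℝ u y ∘L J y) y).trans
        (mul_le_mul_of_nonneg_left b2 zero_le_two)
      refine (mul_le_mul (mul_le_of_le_one_left (Real.exp_pos _).le (z2 y)) b3 (by positivity)
        (Real.exp_pos _).le).trans ?_
      nlinarith [mul_le_mul_of_nonneg_left b1 (sq_nonneg C₁)]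
    · rw [out y hy]
      simp only [ne_eq, OfNat.ofNat_ne_zero, not_false_eq_true, zero_pow, zero_mul]
      positivity
  · have := h.ge_of hJ (tg.smul_fun (contDiff_d1 ha).continuous) (g := fun _ => |C₁|)
      continuous_const (integrable_const _) (fun _ => abs_nonneg _) fun y b => by
        rw [ev_smul]
        by_cases hy : y ∈ closedBall (0 : E) 2
        · have b1 := mul_le_one₀ (z2 y) (Real.exp_pos _).le (exp_bd (hb y hy).1 hk).1
          have b2 := mul_le_mul_of_nonneg_left ((hb y hy).2.2 b) (g0 y)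
          have b3 := mul_le_mul_of_nonneg_left
            (mul_le_mul_of_nonneg_right (le_abs_self C₁) (sq_nonneg ‖b‖)) (g0 y)
          have b4 := mul_le_of_le_one_left (show 0 ≤ |C₁| * ‖b‖ ^ 2 by positivity) b1
          linarith
        · rw [out y hy]
          simp only [ne_eq, OfNat.ofNat_ne_zero, not_false_eq_true, zero_pow, zero_mul,
            Left.neg_nonpos_iff]
          positivity
    simpa using this
  · have e : Bq J S (fun y => bp 2 3 y * Real.exp (u y / k)) (fun y => bp 1 2 y • fderiv ℝ u y)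
        (fun y => bp 1 2 y • fderiv ℝ u y) =
        Bq J S (fun y => bp 1 2 y ^ 2 * Real.exp (u y / k)) (fderiv ℝ u) (fderiv ℝ u) := by
      unfold Bq
      congr 1
      funext y
      refine ext_ev fun v w => ?_
      simp only [ev_smul, ev_w11, smul_apply, neg_apply, ContinuousLinearMap.smul_comp,
        smul_eq_mul]
      linear_combination (bp 1 2 y * Real.exp (u y / k) *
        (fderiv ℝ u y w * (fderiv ℝ u y ∘L J y) v - fderiv ℝ u y v * (fderiv ℝ u y ∘L J y) w)) *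
          bp_mul y
    refine (h.Bq_sq_le hJ th h0 cdz ((continuous_bp 1 2).smul cdu)).trans ?_
    refine (congrArg _ e).trans_le (mul_le_mul_of_nonneg_right ((h.Bq_le hJ th h0 cdz).trans
      (mul_le_mul_of_nonneg_left (int_le (fun y => mul_nonneg (h0 y) (sq_nonneg _)) fun y => ?_)
        (by positivity))) (h.Bq_nonneg hJ tg g0 cdu))
    by_cases hy : y ∈ closedBall (0 : E) 2
    · exact (mul_le_of_le_one_left (sq_nonneg _) (mul_le_one₀ (bp_le_one _ _ _)
        (Real.exp_pos _).le (exp_bd (hb y hy).1 hk).1)).trans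
          (pow_le_pow_left₀ (norm_nonneg _) (hM y) 2)
    · rw [fderiv_bp_of_gt zero_le_one one_lt_two (not_le.1 (mt mem_closedBall_zero_iff.2 hy))]
      simp only [norm_zero, ne_eq, OfNat.ofNat_ne_zero, not_false_eq_true, zero_pow, mul_zero]
      positivity
  · have t4 : CTest 9 fun y => bp 1 2 y * Real.exp (u y / k) :=
      ⟨(continuous_bp 1 2).mul ce, fun y hy => by
        dsimp only
        rw [bp_eq_zero zero_le_one one_lt_two (by linarith), zero_mul]⟩
    have := h.abs_le_of_norm hJ (t4.smul_fun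
      ((contDiff_w112 (n := 0)).continuous.comp (cdz.prodMk cV))) (g := fun _ => 6 * M * |C₁| * k)
      (integrable_const _) fun y => by
        rw [norm_smul, Real.norm_of_nonneg (mul_nonneg (z0 y) (Real.exp_pos _).le)]
        by_cases hy : y ∈ closedBall (0 : E) 2
        · have b1 := (exp_bd (hb y hy).1 hk).2.1
          have b2 := (norm_w11_le _ _).trans (mul_le_mul
            (mul_le_mul_of_nonneg_left (hM y) (by norm_num)) (hV y hy) (norm_nonneg _)
            (by positivity))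
          refine (mul_le_mul (mul_le_of_le_one_left (Real.exp_pos _).le (z1 y)) b2 (norm_nonneg _)
            (Real.exp_pos _).le).trans ?_
          nlinarith [mul_le_mul_of_nonneg_left b1 (show 0 ≤ 6 * M * |C₁| by positivity)]
        · rw [out y hy, zero_mul, zero_mul]
          positivity
    refine this.trans_eq ?_
    rw [integral_const, smul_eq_mul]
    ring

/-- `KillsD` for `gam (u/k) • p`: `S (gam (u/k) • d1 p) = - S (w11 (d gam(u/k)) p)`, and
`w11 (d gam(u/k)) p = g • w11 (du / k) (2 (1 - e^{u/k}) • p)` with `g = bp 1 2 ^ 2 e^{u/k}`, since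
`bp 1 2 = 1` on the support of `p`. Then `w11_eq_Bq`, `Bq_sq_le`, `Bq_le`. -/
theorem gam_sq_le (h : LocPos J S μ c C) (hJ : GoodJ J) (hS : KillsD S) {p : E → E →L[ℝ] ℝ}
    (hp : Test 1 p) (C₂ : ℝ) : ∃ C₃ : ℝ, 0 ≤ C₃ ∧ ∀ u : E → ℝ, ContDiff ℝ ∞ u → ∀ k : ℝ, 1 ≤ k →
      Bq J S (fun y => bp 1 2 y ^ 2 * Real.exp (u y / k)) (fderiv ℝ u) (fderiv ℝ u) ≤
        C₂ * k ^ 2 →
      (S fun y => gam (u y / k) • d1 p y) ^ 2 ≤
        C₃ * ∫ y in closedBall (0 : E) 1,
          Real.exp (u y / k) * (1 - Real.exp (u y / k)) ^ 2 ∂μ := by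
  have := h.fin
  have hC := h.Cpos
  obtain ⟨M, M0, hM⟩ := hp.ctest.bounded
  refine ⟨|C₂| * (3 * C * (8 * M ^ 2)), by positivity, fun u hu k hk hQ => ?_⟩
  have hk0 : 0 < k := by linarith
  have tg := ((ctest_g hu k).mono (show (2 : ℝ) ≤ 9 by norm_num)).ctest
  have g0 : ∀ y, 0 ≤ bp 1 2 y ^ 2 * Real.exp (u y / k) := fun y => by positivity
  have cdu : Continuous (fderiv ℝ u) := hu.continuous_fderiv (by simp)
  have ce : Continuous fun y => Real.exp (u y / k) := by
    have := hu.continuous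
    fun_prop
  have cq : Continuous fun y => ((2 * (1 - Real.exp (u y / k))) • p y) ∘L J y :=
    ((continuous_const.mul (continuous_const.sub ce)).smul hp.1.continuous).clm_comp
      hJ.smooth.continuous
  have eg : (fun y => gam (u y / k)) = fun y =>
      2 * Real.exp (u y / k) - Real.exp (u y / k) ^ 2 := funext fun y => by
    rw [gam, two_mul (u y / k), Real.exp_add, sq]
  have sg : ContDiff ℝ ∞ fun y => gam (u y / k) := by
    rw [eg]
    fun_prop
  have e1 : S (fun y => gam (u y / k) • d1 p y) + k⁻¹ * S (fun y =>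
      (bp 1 2 y ^ 2 * Real.exp (u y / k)) •
        w11 (fderiv ℝ u y) ((2 * (1 - Real.exp (u y / k))) • p y)) = 0 := by
    rw [← smul_eq_mul (a := k⁻¹), ← map_smul, ← map_add,
      ← hS _ ((hp.fun_smul sg).mono (by norm_num))]
    congr 1
    funext y
    have d2 := ((exp_fd hu k y).const_mul 2).sub ((exp_fd hu k y).pow 2)
    rw [d1_fun_smul (sg.differentiable (by simp) y) (hp.1.differentiable (by simp) y), eg,
      show fderiv ℝ (fun y => 2 * Real.exp (u y / k) - Real.exp (u y / k) ^ 2) y = _ from d2.fderiv]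
    refine ext_ev fun v w => ?_
    simp only [Pi.add_apply, Pi.smul_apply, ev_add, ev_smul, ev_w11, sub_apply, smul_apply,
      smul_eq_mul, nsmul_eq_mul, Nat.cast_ofNat, Nat.add_one_sub_one, pow_one]
    rcases le_or_gt ‖y‖ 1 with hy | hy
    · rw [bp_eq_one zero_le_one one_lt_two hy]
      ring
    · rw [hp.2 y hy]
      simp
  rw [LocPos.w11_eq_Bq hJ] at e1
  have b1 := h.Bq_sq_le hJ tg g0 cdu cq
  have b2 := h.Bq_nonneg hJ tg g0 cq
  have b3 := h.Bq_le hJ tg g0 cq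
  have i1 : Integrable ((closedBall (0 : E) 1).indicator fun y =>
      8 * M ^ 2 * (Real.exp (u y / k) * (1 - Real.exp (u y / k)) ^ 2)) μ :=
    (ContinuousOn.integrableOn_compact (isCompact_closedBall _ _)
      (by fun_prop)).integrable_indicator measurableSet_closedBall
  have b4 := integral_mono_of_nonneg (f := fun y => bp 1 2 y ^ 2 * Real.exp (u y / k) *
    ‖((2 * (1 - Real.exp (u y / k))) • p y) ∘L J y‖ ^ 2) (ae_of_all _ fun y => by positivity) i1
    (ae_of_all _ fun y => by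
      dsimp only
      by_cases hy : y ∈ closedBall (0 : E) 1
      · rw [Set.indicator_of_mem hy, bp_eq_one zero_le_one one_lt_two
          (mem_closedBall_zero_iff.1 hy), one_pow, one_mul]
        have a1 := norm_J hJ ((2 * (1 - Real.exp (u y / k))) • p y) y
        rw [norm_smul, mul_pow, Real.norm_eq_abs, sq_abs] at a1
        have a2 := mul_le_mul_of_nonneg_left (pow_le_pow_left₀ (norm_nonneg _) (hM y) 2)
          (sq_nonneg (2 * (1 - Real.exp (u y / k))))
        have a3 := mul_le_mul_of_nonneg_left (a1.trans (mul_le_mul_of_nonneg_left a2 zero_le_two))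
          (Real.exp_pos (u y / k)).le
        linarith
      · rw [Set.indicator_of_notMem hy, hp.2 y (not_le.1 (mt mem_closedBall_zero_iff.2 hy))]
        simp)
  rw [integral_indicator measurableSet_closedBall, integral_const_mul] at b4
  have b5 := b3.trans (mul_le_mul_of_nonneg_left b4 (by positivity))
  have b6 := b1.trans (mul_le_mul (hQ.trans (mul_le_mul_of_nonneg_right (le_abs_self C₂)
    (sq_nonneg k))) b5 b2 (by positivity))
  rw [eq_neg_of_add_eq_zero_left e1, neg_sq, mul_pow, inv_pow, inv_mul_le_iff₀ (by positivity)]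
  exact b6.trans_eq (by ring)

end Vale.Agent.P204
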