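import Vale.Agent.P204.AtlasInt2

/-! Existence of a closed current bounded below by the reference form. -/

open scoped ContDiff RealInnerProductSpace Topology
open MeasureTheory Metric

namespace Vale.Agent.P204

universe u

namespace ExSAux

open Setup

variable {X : Type u} [TopologicalSpace X] [T2Space X] {s : Setup X}

omit [T2Space X] in
theorem ppF_lin (φ φ' : Form X) (t : ℝ) : s.ppF (φ + t • φ') = s.ppF φ + t • s.ppF φ' := by
  funext x
  simp [ppF]

/-- Pairing with a continuous form. -/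
noncomputable def IL {ψ : Form X} (h : s.Cont ψ) : s.contSub →ₗ[ℝ] ℝ where
  toFun φ := s.Int φ ψ
  map_add' a b := s.Int_add_left a.2 b.2 h
  map_smul' t a := s.Int_smul_left t a ψ

theorem expand {a b : Form X} (ha : s.Cont a) (hb : s.Cont b) (t : ℝ) :
    s.Int (a + t • b) (a + t • b) = s.Int a a + 2 * t * s.Int a b + t ^ 2 * s.Int b b := by
  rw [s.Int_add_left ha (hb.smul t) (ha.add (hb.smul t)), s.Int_add_right ha ha (hb.smul t),
    s.Int_smul_left, s.Int_add_right hb ha (hb.smul t), s.Int_smul_right, s.Int_smul_right,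
    s.Int_comm b a]
  ring

omit [T2Space X] in
theorem pos_om {om : Form X} (h : s.Tame om) : s.Pos om := fun x b => by
  by_cases hb : b = 0
  · subst hb
    rw [map_zero, ev_self]
  · exact (h.pos x b hb).le

theorem t_nonneg [Nonempty X] {om e : Form X} (h : s.Tame om) (he : e ∈ s.Ex) {t : ℝ}
    (hp : s.Pos (e + t • om)) : 0 ≤ t := by
  by_contra ht
  have ht : 0 < -t := by linarith
  obtain ⟨hs, hc⟩ := s.ex_smooth_closed he
  have hφ : s.Cont (e + t • om) := hs.cont.add (h.smooth.cont.smul t)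
  have e1 : e = (e + t • om) + (-t) • om := by module
  have h0 : s.Int e e = 0 := s.stokes he hs hc
  rw [s.Int_split hs.cont hs.cont] at h0
  have h1 := s.Int_pm_nonneg e
  have h2 : s.ppF e = s.ppF (e + t • om) + (-t) • s.ppF om := by
    rw [← ppF_lin, ← e1]
  rw [h2, expand hφ.ppF h.smooth.cont.ppF] at h0
  have h3 := s.Int_pp_nonneg hp hp
  have h4 := s.Int_pp_nonneg hp (pos_om h)
  have h5 := h.Int_F_pos
  have h6 : 0 < (-t) ^ 2 * s.Int (s.ppF om) (s.ppF om) := by positivity
  have h7 : 0 ≤ 2 * (-t) * s.Int (s.ppF (e + t • om)) (s.ppF om) := by positivity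
  linarith

theorem bound [Nonempty X] {om : Form X} (h : s.Tame om) : ∃ c : ℝ, ∀ e ∈ s.Ex, ∀ t : ℝ,
    s.Pos (e + t • om) → s.Int (e + t • om) (s.ppF om) ≤ c * s.Int (e + t • om) om := by
  have ho := h.smooth.cont
  have hB := s.Int_pm_nonneg om
  have hV : 0 < s.Int om om := by
    rw [s.Int_split ho ho]
    have := h.Int_F_pos
    linarith
  refine ⟨1 + √(s.Int om om * s.Int (s.pmF om) (s.pmF om)) / s.Int om om, fun e he t hp => ?_⟩
  have ht := t_nonneg h he hp
  obtain ⟨hs, hc⟩ := s.ex_smooth_closed he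
  have hφ : s.Cont (e + t • om) := hs.cont.add (ho.smul t)
  have a1 : s.Int (e + t • om) om = t * s.Int om om := by
    rw [s.Int_add_left hs.cont (ho.smul t) ho, s.stokes he h.smooth h.closed, s.Int_smul_left,
      zero_add]
  have a2 : s.Int (e + t • om) (e + t • om) = t ^ 2 * s.Int om om := by
    rw [expand hs.cont ho, s.stokes he hs hc, s.stokes he h.smooth h.closed]
    ring
  have a3 := s.Int_split hφ hφ
  have a4 := s.Int_pp_nonneg hp hp
  have a5 := s.Int_split hφ ho
  have a6 := s.Int_ppF_right hφ ho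
  have a7 := s.Int_pm_sq_le hφ ho
  have a8 : s.Int (s.pmF (e + t • om)) (s.pmF om) ^ 2 ≤
      (t * √(s.Int om om * s.Int (s.pmF om) (s.pmF om))) ^ 2 := by
    rw [mul_pow, Real.sq_sqrt (by positivity), ← mul_assoc]
    refine a7.trans (mul_le_mul_of_nonneg_right (by linarith) hB)
  have a9 := (abs_le_of_sq_le_sq' a8 (by positivity)).1
  have a10 : (1 + √(s.Int om om * s.Int (s.pmF om) (s.pmF om)) / s.Int om om) *
      (t * s.Int om om) =
      t * s.Int om om + t * √(s.Int om om * s.Int (s.pmF om) (s.pmF om)) := by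
    field_simp
  rw [a1, a10]
  linarith

/-- The cone of positive continuous forms. -/
def cone (s : Setup X) : PointedCone ℝ s.contSub where
  carrier := {φ | s.Pos φ}
  add_mem' {a b} ha hb := fun x v => by
    change 0 ≤ ev ((a : Form X) x + (b : Form X) x) v (s.J x v)
    rw [ev_add]
    exact add_nonneg (ha x v) (hb x v)
  zero_mem' := fun x v => by
    change 0 ≤ ev 0 v (s.J x v)
    rw [ev_zero]
  smul_mem' t a ha := fun x v => by
    change 0 ≤ ev ((t : ℝ) • (a : Form X) x) v (s.J x v)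
    rw [ev_smul]
    exact mul_nonneg t.2 (ha x v)

end ExSAux

open ExSAux

namespace Setup

variable {X : Type u} [TopologicalSpace X] [T2Space X] (s : Setup X)

/-- `F = ppF om`, `V = Int om om`, `β = pmF om`. For `φ = e + t om` (`e ∈ Ex`): by `stokes`
`Int φ φ = t² V` and `Int φ om = t V`.
(a) If `φ` is `Pos` then `t ≥ 0`: otherwise `e = φ + |t| om` has `ppF e = ppF φ + |t| F`, and
`0 = Int e e ≥ Int (ppF e) (ppF e) ≥ t² Int F F > 0`. Applied to `± φ` this shows that `t` is well
defined (`om ∉ Ex`).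
(b) If `φ` is `Pos`, `Int (pmF φ) (pmF φ) ≤ t² V`, so
`Int φ F = t V - Int (pmF φ) β ≤ t c`, `c = V + sqrt V sqrt (Int β β)`.
`riesz_extension` on `contSub` for `φ ↦ t c - Int φ F` gives `S₀ ≥ 0`; `S = S₀ + Int · F` on
`contSub`, extended by `LinearMap.exists_extend`. -/
theorem exists_kcur [Nonempty X] {s : Setup X} {om : Form X} (h : s.Tame om) :
    ∃ S : GF X, s.KCur (s.ppF om) S := by
  have ho := h.smooth.cont
  obtain ⟨c, hc⟩ := bound h
  obtain ⟨C, -, hC⟩ := h.pos_add
  let D : Submodule ℝ s.contSub := (s.Ex ⊔ Submodule.span ℝ {om}).comap s.contSub.subtype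
  let G : s.contSub →ₗ[ℝ] ℝ := c • IL ho - IL ho.ppF
  obtain ⟨g, hg, hg'⟩ := riesz_extension (cone s) (G.toPMap D)
    (fun x hx => by
      obtain ⟨e, he, z, hz, hx2⟩ := Submodule.mem_sup.1 x.2
      obtain ⟨t, rfl⟩ := Submodule.mem_span_singleton.1 hz
      have hx3 : ((x : s.contSub) : Form X) = e + t • om := hx2.symm
      have hp : s.Pos ((x : s.contSub) : Form X) := hx
      change 0 ≤ c * s.Int ((x : s.contSub) : Form X) om -
        s.Int ((x : s.contSub) : Form X) (s.ppF om)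
      rw [hx3] at hp ⊢
      exact sub_nonneg.2 (hc e he t hp))
    (fun y => ⟨⟨⟨(C * s.sn 0 y) • om, ho.smul _⟩, Submodule.mem_sup_right
      (Submodule.smul_mem _ _ (Submodule.mem_span_singleton_self om))⟩, fun x v => by
        have h1 := (hC y y.2).1 x v
        change 0 ≤ ev ((C * s.sn 0 y) • pp (s.J x) (om x) + (y : Form X) x) v (s.J x v) at h1
        change 0 ≤ ev ((C * s.sn 0 y) • om x + (y : Form X) x) v (s.J x v)
        rw [ev_add, ev_smul] at h1 ⊢
        rwa [ev_pp_J (s.J_sq x)] at h1⟩)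
  obtain ⟨S, hS⟩ := LinearMap.exists_extend (g + IL ho.ppF)
  have hS' : ∀ φ : s.contSub, S φ = g φ + s.Int φ (s.ppF om) := fun φ =>
    LinearMap.congr_fun hS φ
  refine ⟨S, fun φ hφ hp => ?_, fun e he => ?_⟩
  · have h1 := hS' ⟨φ, hφ⟩
    have h2 := hg' ⟨φ, hφ⟩ hp
    simp only at h1
    linarith
  · have hec := (s.ex_smooth_closed he).1.cont
    have h1 := hS' ⟨e, hec⟩
    have h2 : g ⟨e, hec⟩ = c * s.Int e om - s.Int e (s.ppF om) :=
      hg ⟨⟨e, hec⟩, Submodule.mem_sup_left he⟩
    simp only at h1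
    rw [h1, h2, s.stokes he h.smooth h.closed]
    ring

theorem KCur.pos {s : Setup X} {om : Form X} (h : s.Tame om) {S : GF X}
    (hS : s.KCur (s.ppF om) S) (φ : Form X) (hφ : s.Cont φ) (hp : s.Pos φ) : 0 ≤ S φ := by
  refine le_trans ?_ (hS.ge φ hφ hp)
  rw [s.Int_ppF_right hφ h.smooth.cont]
  exact s.Int_pp_nonneg hp (pos_om h)
theorem KCur.killsD {s : Setup X} {F : Form X} {S : GF X} (hS : s.KCur F S) (i : Fin s.m) :
    KillsD (s.lf S i) := fun _ hp => hS.ex _ (Mo.ex_of_test s i hp)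
theorem KCur.lf_ge {s : Setup X} {F : Form X} (hF : s.Cont F) {S : GF X} (hS : s.KCur F S)
    (i : Fin s.m) (θ : E → W) (hθ : CTest 9 θ) (hp : ∀ y b, 0 ≤ ev (θ y) b (s.Jl i y b)) :
    ∫ y, wedge (θ y) (s.loc i F y) ≤ s.lf S i θ := by
  rw [← s.Int_glob i hθ hF]
  exact hS.ge _ (s.cont_glob i hθ) (s.pos_glob i hp)

end Setup

end Vale.Agent.P204
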