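import Vale.Agent.P204.AL2
import Vale.Agent.P204.ExS
import Vale.Agent.P204.Energy2

/-! The final pairing. -/

open scoped ContDiff RealInnerProductSpace Topology
open MeasureTheory Metric

namespace Vale.Agent.P204

universe u

namespace FinalAux

theorem T_part {J : E → E →L[ℝ] E} {T : LF} {μ : Measure E} {c C : ℝ} (hT : LocPos J T μ c C)
    {cf l : E → ℝ} (hc : CTest 1 cf) (h0 : ∀ y, 0 ≤ cf y) (h1 : ∀ y, cf y ≤ 1) {g : E → W}
    (hg : Continuous g) (hl : Continuous l) (hl0 : ∀ y, 0 ≤ l y) {c₀ C₁ : ℝ} (hc₀ : 0 ≤ c₀)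
    (hC₁ : 0 ≤ C₁)
    (low : ∀ x ∈ closedBall (0 : E) 1, ∀ b, (c₀ / 2 - C₁ * l x) * ‖b‖ ^ 2 ≤ ev (g x) b (J x b)) :
    c * (c₀ / 2 * ∫ y, cf y ∂μ) - C * (C₁ * ∫ y in closedBall (0 : E) 1, l y ∂μ) ≤
      T fun y => cf y • g y := by
  have := hT.fin
  have c9 : CTest 9 cf := hc.mono (by norm_num)
  have t1 : CTest 9 fun y => c₀ / 2 * cf y :=
    ⟨continuous_const.mul hc.1, fun y hy => by simp only [c9.2 y hy, mul_zero]⟩
  have c2 : Continuous fun y => C₁ * l y := continuous_const.mul hl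
  have t2 : CTest 9 fun y => C₁ * l y * cf y :=
    ⟨c2.mul hc.1, fun y hy => by simp only [c9.2 y hy, mul_zero]⟩
  have key := hT.le _ _ _ (c9.smul_fun hg) t1 t2 (fun y => mul_nonneg (by positivity) (h0 y))
    (fun y => mul_nonneg (mul_nonneg hC₁ (hl0 y)) (h0 y)) fun y b => by
      rw [ev_smul]
      by_cases hy : 1 < ‖y‖
      · rw [hc.2 y hy]; simp
      · have := mul_le_mul_of_nonneg_left (low y (mem_closedBall_zero_iff.2 (not_lt.1 hy)) b) (h0 y)
        linarith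
  have b : ∫ y, C₁ * l y * cf y ∂μ ≤ C₁ * ∫ y in closedBall (0 : E) 1, l y ∂μ := by
    rw [← setIntegral_eq_integral_of_forall_compl_eq_zero (s := closedBall (0 : E) 1)
      fun y hy => by rw [hc.2 y (by simpa using hy), mul_zero], ← integral_const_mul]
    exact setIntegral_mono_on
      (t2.1.continuousOn.integrableOn_compact (isCompact_closedBall _ _))
      (c2.continuousOn.integrableOn_compact (isCompact_closedBall _ _)) measurableSet_closedBall
      fun y _ => mul_le_of_le_one_right (mul_nonneg hC₁ (hl0 y)) (h1 y)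
  rw [integral_const_mul] at key
  have := mul_le_mul_of_nonneg_left b hT.Cpos
  linarith

theorem a_part {J : E → E →L[ℝ] E} (hJ : GoodJ J) {L : LF} (hA : AntiF J L) {A₀ : ℝ}
    (hA₀ : 0 ≤ A₀) (hL2 : ∀ θ, Test 2 θ → |L θ| ≤ A₀ * nL2 θ) {cf l : E → ℝ} (hc : Test 1 cf)
    (h0 : ∀ y, 0 ≤ cf y) (h1 : ∀ y, cf y ≤ 1) {g : E → W} (hg : ContDiff ℝ ∞ g)
    (hl : Continuous l) {C' : ℝ} (hC' : 0 ≤ C') (h : ∀ x, ‖pm (J x) (g x)‖ ≤ C' * l x) :
    |L fun y => cf y • g y| ≤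
      A₀ * (C' * Real.sqrt (∫ y in closedBall (0 : E) (3 / 2), l y ^ 2)) := by
  have t1 : Test 1 fun y => cf y • g y := hc.smul_fun hg
  have t2 : Test 1 fun y => pm (J y) (cf y • g y) := t1.clm_apply hJ.contDiff_pm
  rw [hA _ (t1.mono (by norm_num))]
  refine (hL2 _ (t2.mono (by norm_num))).trans (mul_le_mul_of_nonneg_left ?_ hA₀)
  rw [← Real.sqrt_sq hC', ← Real.sqrt_mul (sq_nonneg _), ← integral_const_mul]
  refine Real.sqrt_le_sqrt ?_
  rw [← setIntegral_eq_integral_of_forall_compl_eq_zero (s := closedBall (0 : E) (3 / 2))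
    fun y hy => by
      have hy' : 3 / 2 < ‖y‖ := by simpa using hy
      have := t2.2 y (by linarith)
      simp only [this, norm_zero]
      norm_num]
  refine setIntegral_mono_on
    ((t2.1.continuous.norm.pow 2).continuousOn.integrableOn_compact (isCompact_closedBall _ _))
    (((hl.pow 2).continuousOn.integrableOn_compact (isCompact_closedBall _ _)).const_mul _)
    measurableSet_closedBall fun y _ => ?_
  rw [← mul_pow]
  refine pow_le_pow_left₀ (norm_nonneg _) (le_trans ?_ (h y)) 2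
  beta_reduce
  rw [map_smul, norm_smul, Real.norm_of_nonneg (h0 y)]
  exact mul_le_of_le_one_left (norm_nonneg _) (h1 y)

end FinalAux

open FinalAux

namespace Setup

variable {X : Type u} [TopologicalSpace X] [T2Space X] [CompactSpace X]
  [SecondCountableTopology X] [MeasurableSpace X] [BorelSpace X] (s : Setup X)

variable {s} {M : ℝ → Form X → Form X} {K : Fin s.m → ℝ × E × E → W →L[ℝ] W} {R N ε₀ : ℝ}
  {om : Form X} {T α S : GF X} {μ μ' : Measure X} {b A₀ D D' : ℝ}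

/-- Let `G` be the regularisation of `S` at scale `ε` (`exists_reg`), smooth and closed
(`closed_of_ex`), so `T G + α G = 0`; write `G = ∑ glob i θ_i`, `θ_i = c i • kreg (K i) (lf S i) ε`.
`|lf α i θ_i| ≤ A₀ nL2 (pm θ_i) ≤ A₀ C' sqrt (En μ'_i R ε) → 0` (`antiF_of_sn_pm`, `kreg_est`,
`tendsto_En`). By `kreg_lower` and `LocPos.le` with `g₁ = c₀/2 * c i`, `g₂ = C₁ c i * lam`:
`T G ≥ c c₀/2 ∑ ∫ c i dμ_i - C C₁ ∑ ∫_{closedBall 0 1} lam dμ_i`, where the first sum is 1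
(`sum_integral_c`, `real_univ`) and the second tends to zero (`integral_lam_le`, `En_le`,
`tendsto_En`). -/
theorem Moll.final (hM : s.Moll M K R N ε₀) (h : s.Tame om) (hT : s.PosCur (s.ppF om) T μ)
    (hT1 : T (s.ppF om) = 1) (hZ : ∀ σ, s.Smooth σ → s.Closed σ → T σ + α σ = 0)
    (hα : ∀ φ, s.Smooth φ → |α φ| ≤ b * s.sn 5 (s.pmF φ)) (hA : 0 ≤ A₀)
    (hL2 : ∀ i θ, Test 2 θ → |s.lf α i θ| ≤ A₀ * nL2 θ)
    (hD : ∀ i, ∀ ε ∈ Set.Ioc (0 : ℝ) 1, ∀ z ∈ closedBall (0 : E) (3 / 2),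
      dens (s.lm μ i) z ε ≤ D)
    (hS : s.KCur (s.ppF om) S) (hS' : s.PosCur (s.ppF om) S μ')
    (hD' : ∀ i, DensBd (s.lm μ' i) 2 D' ∧ ZeroDens (s.lm μ' i)) : False := by
  have := hT.fin
  have := hS'.fin
  have f1 := fun i => s.isFiniteMeasure_lm μ i
  have f2 := fun i => s.isFiniteMeasure_lm μ' i
  have hsum : ∑ i, ∫ y, s.c i y ∂s.lm μ i = 1 := by rw [s.sum_integral_c, hT.real_univ, hT1]
  obtain ⟨i₀⟩ : Nonempty (Fin s.m) := by
    by_contra hn
    rw [not_nonempty_iff] at hn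
    simp at hsum
  obtain ⟨c, C, hLP⟩ := h.locPos
  have LT := hLP T μ hT
  have LS := hLP S μ' hS'
  have hc := (LT i₀).cpos
  have hC := (LT i₀).Cpos
  have hR := (hM.ker i₀).Rpos
  have hF := h.smooth.ppF.cont
  obtain ⟨c₀, hc₀, C₀, -, hb⟩ := h.bounds
  choose C' hC' hest using fun i => (hM.ker i).kreg_est (s.good i) (LS i)
  choose C₁ hC₁ e₁ he₁ hlow using fun i => (hM.ker i).kreg_lower (s.good i) (LS i) (hF i) hc₀
    (fun y hy => (hb i y hy).2) (hS.lf_ge hF i)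
  choose C₂ hC₂ hlam using fun i => integral_lam_le (s.lm μ i) (s.lm μ' i) hR
  obtain ⟨CE, -, hEn⟩ := En_le (R := 1) zero_le_one
  obtain ⟨ε₁, h1, hreg⟩ := hM.exists_reg
  set err : Fin s.m → ℝ → ℝ := fun i ε =>
    C * (C₁ i * (C₂ i * Real.sqrt (CE * D * (s.lm μ i).real Set.univ) *
      Real.sqrt (En (s.lm μ' i) (R + 2) ε))) + A₀ * (C' i * Real.sqrt (En (s.lm μ' i) R ε))
    with herr
  have ht : Filter.Tendsto (fun ε => ∑ i, err i ε) (𝓝[>] 0) (𝓝 0) := by
    have : ∀ i, Filter.Tendsto (err i) (𝓝[>] 0) (𝓝 0) := fun i => by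
      have a1 := (tendsto_En (s.lm μ' i) (R := R + 2) (by linarith) (hD' i).1 (hD' i).2).sqrt
      have a2 := (tendsto_En (s.lm μ' i) hR (hD' i).1 (hD' i).2).sqrt
      have a3 := (((a1.const_mul (C₂ i * Real.sqrt (CE * D * (s.lm μ i).real Set.univ))).const_mul
        (C₁ i)).const_mul C).add ((a2.const_mul (C' i)).const_mul A₀)
      simpa only [Real.sqrt_zero, mul_zero, add_zero] using a3
    simpa only [Finset.sum_const_zero] using tendsto_finsetSum Finset.univ fun i _ => this i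
  have ev1 := ht.eventually (gt_mem_nhds (show 0 < c * (c₀ / 2) by positivity))
  have ev2 : ∀ᶠ ε in 𝓝[>] (0 : ℝ), ∀ i, ε ∈ Set.Ioo 0 (e₁ i) :=
    Filter.eventually_all.2 fun i => Ioo_mem_nhdsGT (he₁ i)
  obtain ⟨ε, ⟨⟨⟨q1, q2⟩, q3⟩, q4⟩, q5⟩ := ((((ev1.and ev2).and (Ioo_mem_nhdsGT h1)).and
    (Ioo_mem_nhdsGT (hM.ker i₀).epos)).and (Ioo_mem_nhdsGT (show (0 : ℝ) < 1 / 8 by
      norm_num))).exists
  have hd : ∀ i, DistBd 0 (s.lf S i) := fun i => (LS i).distBd (s.good i) 0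
  obtain ⟨G, hG⟩ := hreg ε q3 q4.2 0 S hd
  have hz := hZ G hG.smooth (hG.closed_of_ex hM q4 hS.ex)
  have hpart : G = ∑ j, s.glob j fun y => s.c j y • kreg (K j) (s.lf S j) ε y := by
    refine (s.partition G).trans (Finset.sum_congr rfl fun j _ => ?_)
    congr 1
    funext y
    by_cases hy : 1 < ‖y‖
    · simp only [(s.c_test j).2 y hy, zero_smul]
    · rw [hG.loc j y (mem_closedBall_zero_iff.2 (by linarith [not_lt.1 hy]))]
  have key : ∀ i, c * (c₀ / 2) * ∫ y, s.c i y ∂s.lm μ i - err i ε ≤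
      s.lf T i (fun y => s.c i y • kreg (K i) (s.lf S i) ε y) +
        s.lf α i fun y => s.c i y • kreg (K i) (s.lf S i) ε y := fun i => by
    have hg := (hM.ker i).toSKer.contDiff_kreg (hd i) ε
    have b1 := T_part (LT i) (s.c_test i).ctest (s.c_nonneg i) (s.c_le_one i) hg.continuous
      (continuous_lam (s.lm μ' i) R ε) (lam_nonneg (s.lm μ' i) R ε) hc₀.le (hC₁ i)
      (hlow i ε (q2 i))
    have b2 := a_part (s.good i) (s.antiF_of_sn_pm hα i) hA (hL2 i) (s.c_test i) (s.c_nonneg i)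
      (s.c_le_one i) hg (l := fun x => ε⁻¹ * lam (s.lm μ' i) R ε x)
      (continuous_const.mul (continuous_lam (s.lm μ' i) R ε)) (hC' i)
      fun x => (hest i ε q4 x).2.1
    have b3 := hlam i ε ⟨q5.1, by linarith [q5.2]⟩
    have b4 := Real.sqrt_le_sqrt (hEn (s.lm μ i) ε D q5.1 (by linarith [q5.2])
      (hD i ε ⟨q5.1, by linarith [q5.2]⟩))
    have b5 := mul_le_mul_of_nonneg_left (mul_le_mul_of_nonneg_left (b3.trans
      (mul_le_mul_of_nonneg_right (mul_le_mul_of_nonneg_left b4 (hC₂ i)) (Real.sqrt_nonneg _)))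
      (hC₁ i)) hC
    have b6 := (abs_le.1 b2).1
    simp only [herr, En] at b5 ⊢
    linarith
  have fin := Finset.sum_le_sum fun i (_ : i ∈ Finset.univ) => key i
  rw [Finset.sum_sub_distrib, ← Finset.mul_sum, hsum] at fin
  rw [hpart, map_sum, map_sum, ← Finset.sum_add_distrib] at hz
  simp only [lf, LinearMap.comp_apply] at fin hz
  linarith

end Setup

end Vale.Agent.P204
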