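import Vale.Agent.P204.Reg
import Vale.Agent.P204.AEst

/-! One step of the bootstrap. -/

open scoped ContDiff RealInnerProductSpace Topology
open MeasureTheory Metric

namespace Vale.Agent.P204

universe u

namespace GStepAux

theorem cut {c w f : E → ℝ} (hc : CTest 1 c) (h0 : ∀ y, 0 ≤ c y) (h1 : ∀ y, c y ≤ 1)
    (hw : Continuous w) (hf : Continuous f) (hf0 : ∀ y, 0 ≤ f y)
    (h : ∀ y ∈ closedBall (0 : E) 1, -f y ≤ w y) :
    -∫ y, c y * w y ≤ ∫ y in closedBall (0 : E) 1, f y := by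
  rw [← setIntegral_eq_integral_of_forall_compl_eq_zero (s := closedBall (0 : E) 1)
    fun y hy => by rw [hc.2 y (by simpa using hy), zero_mul], ← integral_neg]
  refine setIntegral_mono_on
    ((hc.1.mul hw).neg.continuousOn.integrableOn_compact (isCompact_closedBall _ _))
    (hf.continuousOn.integrableOn_compact (isCompact_closedBall _ _)) measurableSet_closedBall
    fun y hy => ?_
  have a1 := mul_le_mul_of_nonneg_left (h y hy) (h0 y)
  have a2 := mul_le_mul_of_nonneg_right (h1 y) (hf0 y)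
  linarith

theorem cs_ball {u v : E → ℝ} (hu : Continuous u) (hv : Continuous v) (hu0 : ∀ y, 0 ≤ u y)
    (hv0 : ∀ y, 0 ≤ v y) {p q : ℝ} (hp : 0 ≤ p) (hq : 0 ≤ q)
    (h1 : ∫ y in closedBall (0 : E) 1, u y ^ 2 ≤ p ^ 2)
    (h2 : ∫ y in closedBall (0 : E) 1, v y ^ 2 ≤ q ^ 2) :
    ∫ y in closedBall (0 : E) 1, u y * v y ≤ p * q := by
  refine (Norms1Aux.cs (fun y => mul_nonneg (hu0 y) (hv0 y)) (fun y => le_rfl)
    ((hu.pow 2).continuousOn.integrableOn_compact (isCompact_closedBall _ _))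
    ((hv.pow 2).continuousOn.integrableOn_compact (isCompact_closedBall _ _))).trans ?_
  exact mul_le_mul (Real.sqrt_le_iff.2 ⟨hp, h1⟩) (Real.sqrt_le_iff.2 ⟨hq, h2⟩)
    (Real.sqrt_nonneg _) hp

theorem cont_wedge {a b : E → W} (ha : Continuous a) (hb : Continuous b) :
    Continuous fun y => wedge (a y) (b y) :=
  (contDiff_wedge2 (n := 0)).continuous.comp (ha.prodMk hb)

theorem loc_est {J : E → E →L[ℝ] E} (hJ : GoodJ J) {c h : E → ℝ} {g g' : E → W}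
    (hc : CTest 1 c) (h0 : ∀ y, 0 ≤ c y) (h1 : ∀ y, c y ≤ 1) (hg : Continuous g)
    (hg' : Continuous g') (hh : Continuous h) (hh0 : ∀ y, 0 ≤ h y) {ε β p : ℝ} (hε : 0 < ε)
    (hβ : 0 ≤ β) (hp : 0 ≤ p) (i1 : ∫ x in closedBall (0 : E) 1, h x ^ 2 ≤ β ^ 2)
    (d : ∀ x ∈ closedBall (0 : E) 1, ‖g x‖ ≤ ε⁻¹ * h x ∧ ‖pm (J x) (g x)‖ ≤ h x ∧
      -h x ^ 2 ≤ wedge (g x) (g x))
    (i2 : ∫ x in closedBall (0 : E) 1, ‖g' x‖ ^ 2 ≤ p ^ 2)
    (i3 : ∫ x in closedBall (0 : E) 1, ‖pp (J x) (g' x)‖ ^ 2 ≤ (ε * p) ^ 2) :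
    -(∫ y, c y * wedge (g y) (g y)) - 2 * (∫ y, c y * wedge (g y) (g' y)) -
      ∫ y, c y * wedge (pp (J y) (g' y)) (pp (J y) (g' y)) ≤
        β ^ 2 + 12 * (β * p) + (ε * p) ^ 2 := by
  have hu : Continuous fun y => pp (J y) (g' y) := hJ.contDiff_pp.continuous.clm_apply hg'
  have a1 := cut hc h0 h1 (cont_wedge hg hg) (hh.pow 2) (fun y => sq_nonneg _)
    fun y hy => (d y hy).2.2
  have a3 := cut hc h0 h1 (cont_wedge hu hu) (hu.norm.pow 2) (fun y => sq_nonneg _)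
    fun y _ => by
      have := abs_wedge_le (pp (J y) (g' y)) (pp (J y) (g' y))
      rw [← sq] at this
      exact (abs_le.1 this).1
  have c1 : Continuous fun y => h y * ‖pp (J y) (g' y)‖ := hh.mul hu.norm
  have c2 : Continuous fun y => h y * ‖g' y‖ := hh.mul hg'.norm
  have a2 := cut (f := fun y => 3 * ε⁻¹ * (h y * ‖pp (J y) (g' y)‖) + 3 * (h y * ‖g' y‖))
    hc h0 h1 (cont_wedge hg hg') ((continuous_const.mul c1).add (continuous_const.mul c2))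
    (fun y => by have := hh0 y; positivity) fun y hy => by
      obtain ⟨d1, d2, -⟩ := d y hy
      have n1 : ‖pp (J y) (g y)‖ ≤ 3 * (ε⁻¹ * h y) :=
        ((pp (J y)).le_opNorm _).trans
          (mul_le_mul (hJ.near y).norm_pp_le d1 (norm_nonneg _) (by norm_num))
      have n2 : ‖pm (J y) (g' y)‖ ≤ 3 * ‖g' y‖ :=
        ((pm (J y)).le_opNorm _).trans
          (mul_le_mul_of_nonneg_right (hJ.near y).norm_pm_le (norm_nonneg _))
      have w1 := (abs_wedge_le (pp (J y) (g y)) (pp (J y) (g' y))).trans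
        (mul_le_mul_of_nonneg_right n1 (norm_nonneg _))
      have w2 := (abs_wedge_le (pm (J y) (g y)) (pm (J y) (g' y))).trans
        (mul_le_mul d2 n2 (norm_nonneg _) (hh0 y))
      rw [(hJ.near y).wedge_split (g y) (g' y)]
      linarith [(abs_le.1 w1).1, (abs_le.1 w2).1]
  rw [integral_add
    ((c1.continuousOn.integrableOn_compact (isCompact_closedBall _ _)).const_mul _)
    ((c2.continuousOn.integrableOn_compact (isCompact_closedBall _ _)).const_mul _),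
    integral_const_mul, integral_const_mul] at a2
  have b1 := cs_ball hh hu.norm hh0 (fun y => norm_nonneg _) hβ (mul_nonneg hε.le hp) i1 i3
  have b2 := cs_ball hh hg'.norm hh0 (fun y => norm_nonneg _) hβ hp i1 i2
  have b3 := mul_le_mul_of_nonneg_left b1 (show 0 ≤ 3 * ε⁻¹ by positivity)
  have e : 3 * ε⁻¹ * (β * (ε * p)) = 3 * (β * p) := by field_simp
  simp only [Pi.pow_apply] at a1 a3
  linarith

theorem Int_eq {X : Type u} [TopologicalSpace X] (s : Setup X) {φ φ' : Form X}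
    {g g' : Fin s.m → E → W} (h : ∀ j, ∀ y ∈ closedBall (0 : E) 3, s.loc j φ y = g j y)
    (h' : ∀ j, ∀ y ∈ closedBall (0 : E) 3, s.loc j φ' y = g' j y) :
    s.Int φ φ' = ∑ j, ∫ y, s.c j y * wedge (g j y) (g' j y) := by
  refine Finset.sum_congr rfl fun j _ => integral_congr_ae (ae_of_all _ fun y => ?_)
  by_cases hy : 1 < ‖y‖
  · simp only [(s.c_test j).2 y hy, zero_mul]
  · have hy' : y ∈ closedBall (0 : E) 3 := mem_closedBall_zero_iff.2 (by linarith [not_lt.1 hy])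
    simp only [h j y hy', h' j y hy']

theorem sq_le {β a e C₀ m : ℝ} (hβ : 0 ≤ β) (ha : 0 ≤ a) (he : 0 ≤ e) (hC : 0 ≤ C₀)
    (hm : 0 ≤ m) : 2 * (m * (β ^ 2 + 12 * (β * (C₀ * a)) + (e * (C₀ * a)) ^ 2)) ≤
      ((2 * m * (1 + 12 * C₀ + C₀ ^ 2) + 1) * (β + Real.sqrt (β * a) + e * a)) ^ 2 := by
  have h1 := Real.sq_sqrt (mul_nonneg hβ ha)
  have h2 := Real.sqrt_nonneg (β * a)
  have h3 := mul_nonneg he ha
  have h4 := mul_nonneg hβ ha
  set t := Real.sqrt (β * a)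
  have h5 : β ^ 2 + β * a + (e * a) ^ 2 ≤ (β + t + e * a) ^ 2 := by
    nlinarith [mul_nonneg hβ h2, mul_nonneg hβ h3, mul_nonneg h2 h3]
  have h6 : β ^ 2 + 12 * (β * (C₀ * a)) + (e * (C₀ * a)) ^ 2 ≤
      (1 + 12 * C₀ + C₀ ^ 2) * (β ^ 2 + β * a + (e * a) ^ 2) := by
    have : 0 ≤ (12 * C₀ + C₀ ^ 2) * β ^ 2 + (1 + C₀ ^ 2) * (β * a) +
      (1 + 12 * C₀) * (e * a) ^ 2 := by positivity
    nlinarith
  set Q := 1 + 12 * C₀ + C₀ ^ 2
  have hQ : 0 ≤ 2 * m * Q := by positivity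
  have h7 := mul_le_mul_of_nonneg_left h6 (show 0 ≤ 2 * m by positivity)
  have h8 := mul_le_mul_of_nonneg_left h5 hQ
  have h9 : 2 * m * Q ≤ (2 * m * Q + 1) ^ 2 := by nlinarith
  have h10 := mul_le_mul_of_nonneg_right h9 (sq_nonneg (β + t + e * a))
  rw [mul_pow]
  linarith

end GStepAux

open GStepAux

namespace Setup

variable {X : Type u} [TopologicalSpace X] [T2Space X] (s : Setup X)

variable {s} {M : ℝ → Form X → Form X} {K : Fin s.m → ℝ × E × E → W →L[ℝ] W} {R N ε₀ : ℝ}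

/-- Pointwise size of the regularisation of `B` in chart `i`. -/
structure Dom (s : Setup X) (K : Fin s.m → ℝ × E × E → W →L[ℝ] W) (B : GF X) (ε β : ℝ) :
    Prop where
  dom : ∀ i, ∃ h : E → ℝ, Continuous h ∧ (∀ x, 0 ≤ h x) ∧
    ∫ x in closedBall (0 : E) 1, h x ^ 2 ≤ β ^ 2 ∧ ∀ x ∈ closedBall (0 : E) 1,
      ‖kreg (K i) (s.lf B i) ε x‖ ≤ ε⁻¹ * h x ∧
      ‖pm (s.Jl i x) (kreg (K i) (s.lf B i) ε x)‖ ≤ h x ∧
      -h x ^ 2 ≤ wedge (kreg (K i) (s.lf B i) ε x) (kreg (K i) (s.lf B i) ε x)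

/-- Take `G, G'` from `exists_reg`. By `IsReg.Int_self` and `Int_split`,
`Int (pmF G') (pmF G') = - Int G G - 2 Int G G' - Int (ppF G') (ppF G')`. In chart `i`, with
`0 ≤ c i ≤ 1` supported in the unit ball: `- wedge G G ≤ h²`,
`|wedge G G'| ≤ 3 ε⁻¹ h ‖pp G'‖ + 3 h ‖G'‖` (`Near.wedge_split`), `|wedge (pp G') (pp G')| ≤ ‖pp G'‖²`;
Cauchy-Schwarz and `anti_est` (constants: sum over `i`); finally `setIntegral_pm_le`. -/
theorem Moll.pm_sq_le (hM : s.Moll M K R N ε₀) (n : ℕ) : ∃ C : ℝ, 0 ≤ C ∧ ∃ ε₁ > (0 : ℝ),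
    ∀ (k : ℕ) (B A : GF X), (∀ i, DistBd k (s.lf B i)) → (∀ i, DistBd k (s.lf A i)) →
      (∀ i, AntiF (s.Jl i) (s.lf A i)) → (∀ σ, s.Smooth σ → s.Closed σ → B σ + A σ = 0) →
      ∀ ε ∈ Set.Ioo 0 ε₁, ε < ε₀ → ∀ β a : ℝ, 0 ≤ β → 0 ≤ a → s.Dom K B ε β →
        (∀ i, LBd n (s.lf A i) ε 2 a) → ∀ i,
          ∫ x in closedBall (0 : E) 3, ‖pm (s.Jl i x) (kreg (K i) (s.lf A i) ε x)‖ ^ 2 ≤
            (C * (β + Real.sqrt (β * a) + ε * a)) ^ 2 := by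
  choose C hC0 hC using fun i => (hM.ker i).anti_est (s.good i) n
  obtain ⟨ε₁, h1, hR⟩ := hM.exists_reg
  have hs0 : 0 ≤ ∑ i, C i := Finset.sum_nonneg fun i _ => hC0 i
  have hle : ∀ i, C i ≤ ∑ i, C i := fun i =>
    Finset.single_le_sum (fun j _ => hC0 j) (Finset.mem_univ i)
  refine ⟨2 * s.m * (1 + 12 * (∑ i, C i) + (∑ i, C i) ^ 2) + 1, by positivity, ε₁, h1,
    fun k B A hB hA hA' hZ ε hε hε' β a hβ ha hD hL i => ?_⟩
  have hε₀ : ε ∈ Set.Ioo 0 ε₀ := ⟨hε.1, hε'⟩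
  obtain ⟨G, hG⟩ := hR ε hε hε' k B hB
  obtain ⟨G', hG'⟩ := hR ε hε hε' k A hA
  have e1 := IsReg.Int_self hM hε₀ hG hG' hZ
  have e2 := s.Int_split hG'.smooth.cont hG'.smooth.cont
  have hpp : ∀ j, ∀ y ∈ closedBall (0 : E) 3, s.loc j (s.ppF G') y =
      pp (s.Jl j y) (kreg (K j) (s.lf A j) ε y) := fun j y hy => by
    rw [s.loc_ppF j G' (by linarith [mem_closedBall_zero_iff.1 hy]), hG'.loc j y hy]
  have key : s.Int (s.pmF G') (s.pmF G') ≤
      s.m * (β ^ 2 + 12 * (β * ((∑ i, C i) * a)) + (ε * ((∑ i, C i) * a)) ^ 2) := by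
    have e3 : s.Int (s.pmF G') (s.pmF G') =
        -s.Int G G - 2 * s.Int G G' - s.Int (s.ppF G') (s.ppF G') := by linarith
    rw [e3, Int_eq s hG.loc hG.loc, Int_eq s hG.loc hG'.loc, Int_eq s hpp hpp, Finset.mul_sum,
      ← Finset.sum_neg_distrib, ← Finset.sum_sub_distrib, ← Finset.sum_sub_distrib]
    refine (Finset.sum_le_card_nsmul _ _ _ fun j _ => ?_).trans
      (by rw [Finset.card_univ, Fintype.card_fin, nsmul_eq_mul])
    obtain ⟨h, hh, hh0, i1, d⟩ := hD.dom j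
    obtain ⟨i2, i3⟩ := hC j k _ (hA j) (hA' j) ε hε₀ a ha (hL j)
    have m1 : C j * a ≤ (∑ i, C i) * a := mul_le_mul_of_nonneg_right (hle j) ha
    have m0 : 0 ≤ C j * a := mul_nonneg (hC0 j) ha
    refine loc_est (s.good j) (s.c_test j).ctest (s.c_nonneg j) (s.c_le_one j)
      ((hM.ker j).toSKer.contDiff_kreg (hB j) ε).continuous
      ((hM.ker j).toSKer.contDiff_kreg (hA j) ε).continuous hh hh0 hε.1 hβ (mul_nonneg hs0 ha)
      i1 d (i2.trans (pow_le_pow_left₀ m0 m1 2)) (i3.trans ?_)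
    rw [mul_right_comm, mul_comm _ ε]
    exact pow_le_pow_left₀ (mul_nonneg hε.1.le m0) (mul_le_mul_of_nonneg_left m1 hε.1.le) 2
  have e4 : ∫ x in closedBall (0 : E) 3, ‖pm (s.Jl i x) (kreg (K i) (s.lf A i) ε x)‖ ^ 2 =
      ∫ x in closedBall (0 : E) 3, ‖pm (s.Jl i x) (s.loc i G' x)‖ ^ 2 :=
    setIntegral_congr_fun measurableSet_closedBall fun x hx => by simp only [hG'.loc i x hx]
  rw [e4]
  refine (s.setIntegral_pm_le hG'.smooth.cont i).trans (le_trans ?_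
    (sq_le hβ ha hε.1.le hs0 (Nat.cast_nonneg s.m)))
  linarith

/-- `pm_sq_le`, `recon`, and `sqrt (β a) ≤ β / κ + κ a`. -/
theorem Moll.step (hM : s.Moll M K R N ε₀) (n : ℕ) : ∃ C : ℝ, 0 ≤ C ∧ ∃ ε₁ > (0 : ℝ),
    ∀ (k : ℕ) (B A : GF X), (∀ i, DistBd k (s.lf B i)) → (∀ i, DistBd k (s.lf A i)) →
      (∀ i, AntiF (s.Jl i) (s.lf A i)) → (∀ σ, s.Smooth σ → s.Closed σ → B σ + A σ = 0) →
      ∀ ε ∈ Set.Ioo 0 ε₁, ε < ε₀ → ∀ β a lam' κ r : ℝ, 0 ≤ β → 0 ≤ a → 1 ≤ lam' → 0 < κ → κ ≤ 1 →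
        2 ≤ r → r + n * R * ε ≤ 3 → s.Dom K B ε β →
        (∀ i, LBd n (s.lf A i) ε (r + n * R * ε) a) →
        ∀ i, LBd n (s.lf A i) (lam' * ε) r (C * (β / κ + (κ + ε + (lam' ^ n)⁻¹) * a)) := by
  obtain ⟨C, hC0, ε₁, h1, hC⟩ := hM.pm_sq_le n
  choose C' hC0' hC' using fun i => (hM.ker i).recon (s.good i) n
  have hs0 : 0 ≤ ∑ i, C' i := Finset.sum_nonneg fun i _ => hC0' i
  refine ⟨(∑ i, C' i) * (2 * C + 1), by positivity, ε₁, h1,
    fun k B A hB hA hA' hZ ε hε hε' β a lam κ r hβ ha hl hκ hκ1 hr hr3 hD hL i => ?_⟩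
  have hε0 := hε.1
  have hR : 0 ≤ n * R * ε := by
    have := (hM.ker i).Rpos
    positivity
  have hs := Real.sqrt_nonneg (β * a)
  have h2 := hC k B A hB hA hA' hZ ε hε hε' β a hβ ha hD
    (fun j => (hL j).mono_r (by linarith)) i
  have h3 := hC' i k _ (hA i) (hA' i) ε ⟨hε.1, hε'⟩ lam r a _ hl ha (by positivity)
    (by rw [← mul_assoc]; exact hr3) (by rw [← mul_assoc]; exact hL i) h2
  refine h3.mono_a (by positivity) ?_
  have hq : 0 ≤ (lam ^ n)⁻¹ := by positivity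
  have hb : 0 ≤ β / κ := by positivity
  have b1 : β ≤ β / κ := by
    rw [le_div_iff₀ hκ]
    exact mul_le_of_le_one_right hβ hκ1
  have b2 : Real.sqrt (β * a) ≤ β / κ + κ * a := by
    refine Real.sqrt_le_iff.2 ⟨by positivity, ?_⟩
    have e : β * a = β / κ * (κ * a) := by field_simp
    have := mul_nonneg hb (mul_nonneg hκ.le ha)
    rw [e]
    nlinarith [sq_nonneg (β / κ), sq_nonneg (κ * a)]
  rw [mul_assoc]
  refine mul_le_mul (Finset.single_le_sum (fun j _ => hC0' j) (Finset.mem_univ i)) ?_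
    (by positivity) hs0
  have b3 : C * (β + Real.sqrt (β * a) + ε * a) ≤ C * (2 * (β / κ) + κ * a + ε * a) :=
    mul_le_mul_of_nonneg_left (by linarith) hC0
  have b4 : 0 ≤ β / κ + (C + 1) * (κ * a) + C * (ε * a) + 2 * C * ((lam ^ n)⁻¹ * a) := by
    positivity
  generalize (lam ^ n)⁻¹ = q at b4 ⊢
  generalize β / κ = w at b3 b4 ⊢
  linarith

end Setup

end Vale.Agent.P204
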