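import Vale.Agent.P204.MoAlg

/-! Normalising an almost complex structure near a point. -/

open scoped ContDiff Topology Manifold
open MeasureTheory Metric Filter

namespace Vale.Agent.P204.Mo

namespace InLinAux

theorem exists_out (v v' : E) : ∃ w : E, ∀ a b : ℝ, a • v + b • v' ≠ w := by
  by_contra h
  push Not at h
  have h1 := LinearMap.finrank_le_finrank_of_surjective
    (f := (LinearMap.toSpanSingleton ℝ E v).coprod (LinearMap.toSpanSingleton ℝ E v'))
    fun w => by
      obtain ⟨a, b, hab⟩ := h w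
      exact ⟨(a, b), hab⟩
  simp at h1

/-- The map with prescribed values on the standard basis. -/
noncomputable def Mm (a b c d : E) : E →ₗ[ℝ] E where
  toFun u := u 0 • a + u 1 • b + u 2 • c + u 3 • d
  map_add' u u' := by simp only [PiLp.add_apply]; module
  map_smul' t u := by simp only [PiLp.smul_apply, smul_eq_mul, RingHom.id_apply]; module

theorem Mm_apply (a b c d u : E) : Mm a b c d u = u 0 • a + u 1 • b + u 2 • c + u 3 • d := rfl

end InLinAux
open InLinAux

/-- Every linear complex structure on `E` is conjugate to `J0`. -/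
theorem exists_conj {J : E →L[ℝ] E} (hJ : ∀ v, J (J v) = -v) :
    ∃ L : E ≃L[ℝ] E, ∀ v, L (J v) = J0 (L v) := by
  obtain ⟨v, hv⟩ := exists_ne (0 : E)
  obtain ⟨w, hw⟩ := exists_out v (J v)
  have hc : ∀ u, Mm v (J v) w (J w) (J0 u) = J (Mm v (J v) w (J w) u) := fun u => by
    simp only [Mm_apply, map_add, map_smul, hJ]
    simp [J0]
    module
  have hi : Function.Injective (Mm v (J v) w (J w)) := by
    refine (injective_iff_map_eq_zero _).2 fun u h1 => ?_
    have h2 := congrArg J h1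
    simp only [Mm_apply, map_add, map_smul, hJ, map_zero] at h1 h2
    have h3 : u 2 ^ 2 + u 3 ^ 2 = 0 := by
      by_contra h3
      refine hw (-(u 2 * u 0 + u 3 * u 1) / (u 2 ^ 2 + u 3 ^ 2))
        (-(u 2 * u 1 - u 3 * u 0) / (u 2 ^ 2 + u 3 ^ 2)) (smul_right_injective E h3 ?_)
      simp only [smul_add, smul_smul, mul_div_cancel₀ _ h3]
      linear_combination (norm := module) (-u 2) • h1 + u 3 • h2
    have h4 : u 2 = 0 := by nlinarith
    have h5 : u 3 = 0 := by nlinarith
    rw [h4, h5] at h1 h2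
    have h6 : (u 0 ^ 2 + u 1 ^ 2) • v = 0 := by
      linear_combination (norm := module) (u 0) • h1 - u 1 • h2
    have h7 := (smul_eq_zero.1 h6).resolve_right hv
    have h8 : u 0 = 0 := by nlinarith
    have h9 : u 1 = 0 := by nlinarith
    rw [E_eq_sum u, h4, h5, h8, h9]
    simp
  set M := (LinearEquiv.ofInjectiveEndo _ hi).toContinuousLinearEquiv
  have hM : ∀ u, M (J0 u) = J (M u) := hc
  refine ⟨M.symm, fun u => M.injective ?_⟩
  rw [hM, M.apply_symm_apply, M.apply_symm_apply]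

/-- After an affine change of coordinates, `Jr` is close to `J0` on a large ball, and it agrees
there with a good global structure. -/
theorem exists_good {O : Set E} (hO : IsOpen O) {b : E} (hb : b ∈ O) {Jr : E → E →L[ℝ] E}
    (hs : ContDiffOn ℝ ∞ Jr O) (hJ : ∀ z ∈ O, ∀ v, Jr z (Jr z v) = -v) :
    ∃ (A : E ≃L[ℝ] E) (Jl : E → E →L[ℝ] E), (∀ y : E, ‖y‖ < 10 → A.symm y + b ∈ O) ∧ GoodJ Jl ∧
      ∀ y : E, ‖y‖ < 10 → ∀ v, Jl y v = A (Jr (A.symm y + b) (A.symm v)) := by
  obtain ⟨L, hL⟩ := exists_conj (hJ b hb)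
  set K : E → E →L[ℝ] E := fun z => (L : E →L[ℝ] E) ∘L Jr z ∘L (L.symm : E →L[ℝ] E) with hK
  have hKs : ContDiffOn ℝ ∞ K O := contDiffOn_const.clm_comp (hs.clm_comp contDiffOn_const)
  have hKb : K b = J0 := by ext1 v; simp [hK, hL]
  have h1 : ∀ᶠ z in 𝓝 b, ‖K z - J0‖ ≤ 1 / 100 := by
    have := (hKs.continuousOn.continuousAt (hO.mem_nhds hb)).eventually
      (closedBall_mem_nhds (K b) (ε := 1 / 100) (by norm_num))
    simpa only [hKb, dist_eq_norm] using this
  obtain ⟨r, hr, h2⟩ := Metric.eventually_nhds_iff_ball.1 (h1.and (hO.mem_nhds hb))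
  obtain ⟨c, hc, h3⟩ := exists_pos_mul_lt hr (‖(L.symm : E →L[ℝ] E)‖ * 11)
  have h4 : ∀ y : E, ‖y‖ ≤ 11 → c • L.symm y + b ∈ ball b r := fun y hy => by
    rw [mem_ball_iff_norm, add_sub_cancel_right, norm_smul, Real.norm_of_nonneg hc.le, mul_comm]
    exact lt_of_le_of_lt (mul_le_mul_of_nonneg_right (((L.symm : E →L[ℝ] E).le_opNorm y).trans
      (mul_le_mul_of_nonneg_left hy (norm_nonneg _))) hc.le) h3
  have h5 : ∀ y : E, ‖bp 10 11 y • y‖ ≤ 11 := fun y => by
    rcases le_total ‖y‖ 11 with h | h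
    · rw [norm_smul, Real.norm_of_nonneg (bp_nonneg _ _ _)]
      exact (mul_le_of_le_one_left (norm_nonneg _) (bp_le_one _ _ _)).trans h
    · rw [bp_zero (by norm_num) (by norm_num) h]; simp
  refine ⟨ContinuousLinearEquiv.equivOfInverse (c⁻¹ • (L : E →L[ℝ] E))
    (c • (L.symm : E →L[ℝ] E)) (fun v => by simp [smul_smul, hc.ne'])
    (fun v => by simp [smul_smul, hc.ne']), fun y => K (c • L.symm (bp 10 11 y • y) + b),
    fun y hy => (h2 _ (h4 y (by linarith))).2, ⟨?_, fun y => ⟨fun v => ?_, (h2 _ (h4 _ (h5 y))).1⟩,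
      fun y hy => ?_⟩, fun y hy v => ?_⟩
  · refine hKs.comp_contDiff ?_ fun y => (h2 _ (h4 _ (h5 y))).2
    exact ((L.symm.contDiff.comp ((contDiff_bp 10 11).smul contDiff_id)).const_smul c).add
      contDiff_const
  · simp only [hK, ContinuousLinearMap.comp_apply, ContinuousLinearEquiv.coe_coe,
      ContinuousLinearEquiv.symm_apply_apply, hJ _ (h2 _ (h4 _ (h5 y))).2, map_neg,
      ContinuousLinearEquiv.apply_symm_apply]
  · rw [bp_zero (by norm_num) (by norm_num) hy.le, ← hKb]; simp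
  · change L (Jr (c • L.symm (bp 10 11 y • y) + b) (L.symm v)) =
      c⁻¹ • L (Jr (c • L.symm y + b) (c • L.symm v))
    rw [bp_one (by norm_num) (by norm_num) hy.le, one_smul, map_smul, map_smul, smul_smul, inv_mul_cancel₀ hc.ne', one_smul]

end Vale.Agent.P204.Mo
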