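import Vale.Agent.P204.Defs
import Vale.Agent.P204.InLin

/-! Adapted charts on an almost complex manifold. -/

open scoped ContDiff Topology Manifold
open MeasureTheory Metric Filter

namespace Vale.Agent.P204.Mo

universe u

variable {X : Type u} [TopologicalSpace X] [ChartedSpace E X]

/-- The finite atlas `s` comes from the manifold structure and from `J`. -/
structure Adapted (s : Setup X) (J : EndField E X) : Prop where
  J_eq : ∀ x v, s.J x v = J x v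
  chart : ∀ i, ∃ e ∈ atlas E X, ∃ (A : E ≃L[ℝ] E) (b : E), (s.ψ i).source ⊆ e.source ∧
    (∀ x ∈ (s.ψ i).source, s.ψ i x = A (e x - b)) ∧
    ∀ x ∈ (s.ψ i).source, ∀ v,
      s.P i x v = mfderiv 𝓘(ℝ, E) 𝓘(ℝ, E) e.symm (e x) (A.symm v)

variable [IsManifold 𝓘(ℝ, E) ∞ X]

theorem mf_left {e : OpenPartialHomeomorph X E} (he : e ∈ atlas E X) {x : X} (hx : x ∈ e.source)
    (v : E) : mfderiv 𝓘(ℝ, E) 𝓘(ℝ, E) e.symm (e x) (mfderiv 𝓘(ℝ, E) 𝓘(ℝ, E) e x v) = v := by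
  have h := (mdifferentiable_of_mem_atlas (I := 𝓘(ℝ, E)) he).symm_comp_deriv hx
  exact congrArg (fun L => L v) h

theorem mf_right {e : OpenPartialHomeomorph X E} (he : e ∈ atlas E X) {x : X} (hx : x ∈ e.source)
    (v : E) : mfderiv 𝓘(ℝ, E) 𝓘(ℝ, E) e x (mfderiv 𝓘(ℝ, E) 𝓘(ℝ, E) e.symm (e x) v) = v := by
  have h := (mdifferentiable_of_mem_atlas (I := 𝓘(ℝ, E)) he).comp_symm_deriv (e.map_source hx)
  rw [e.left_inv hx] at h
  exact congrArg (fun L => L v) h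

/-- Transition maps are smooth. -/
theorem mf_trans_smooth {e e' : OpenPartialHomeomorph X E} (he : e ∈ atlas E X)
    (he' : e' ∈ atlas E X) {x : X} (hx : x ∈ e.source) (hx' : x ∈ e'.source) :
    ContDiffAt ℝ ∞ (fun z => e' (e.symm z)) (e x) := by
  have h1 : ContMDiffAt 𝓘(ℝ, E) 𝓘(ℝ, E) ∞ e.symm (e x) :=
    contMDiffAt_symm_of_mem_maximalAtlas (IsManifold.subset_maximalAtlas he) (e.map_source hx)
  have h2 : ContMDiffAt 𝓘(ℝ, E) 𝓘(ℝ, E) ∞ e' (e.symm (e x)) := by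
    rw [e.left_inv hx]
    exact contMDiffAt_of_mem_maximalAtlas (IsManifold.subset_maximalAtlas he') hx'
  exact contMDiffAt_iff_contDiffAt.1 (h2.comp (e x) h1)

/-- The derivative of a transition map. -/
theorem mf_trans_deriv {e e' : OpenPartialHomeomorph X E} (he : e ∈ atlas E X)
    (he' : e' ∈ atlas E X) {x : X} (hx : x ∈ e.source) (hx' : x ∈ e'.source) (v : E) :
    fderiv ℝ (fun z => e' (e.symm z)) (e x) v =
      mfderiv 𝓘(ℝ, E) 𝓘(ℝ, E) e' x (mfderiv 𝓘(ℝ, E) 𝓘(ℝ, E) e.symm (e x) v) := by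
  have h1 : MDifferentiableAt 𝓘(ℝ, E) 𝓘(ℝ, E) e.symm (e x) :=
    mdifferentiableAt_atlas_symm he (e.map_source hx)
  have h2 : MDifferentiableAt 𝓘(ℝ, E) 𝓘(ℝ, E) e' (e.symm (e x)) := by
    rw [e.left_inv hx]; exact mdifferentiableAt_atlas he' hx'
  have h3 := mfderiv_comp (e x) h2 h1
  rw [mfderiv_eq_fderiv] at h3
  have h4 := congrArg (fun L => L v) h3
  have h5 : ∀ x', x' = x → ∀ w : E, (mfderiv 𝓘(ℝ, E) 𝓘(ℝ, E) e' x' w : E) =
      mfderiv 𝓘(ℝ, E) 𝓘(ℝ, E) e' x w := fun x' h w => by subst h; rfl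
  exact h4.trans (h5 _ (e.left_inv hx) _)

/-- A normalised chart around a point. -/
theorem exists_chart {J : EndField E X} (hJ : IsAlmostComplex J) (p : X) :
    ∃ (ψ : OpenPartialHomeomorph X E) (A : E ≃L[ℝ] E) (Jl : E → E →L[ℝ] E),
      p ∈ ψ.source ∧ ψ p = 0 ∧ ψ.target = ball 0 10 ∧ ψ.source ⊆ (chartAt E p).source ∧
      (∀ x ∈ ψ.source, ψ x = A (chartAt E p x - chartAt E p p)) ∧ GoodJ Jl ∧
      ∀ x ∈ ψ.source, ∀ v,
        Jl (ψ x) v = A (jcoef J (chartAt E p) (A.symm v) (chartAt E p x)) := by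
  set e := chartAt E p with he
  have hea : e ∈ atlas E X := chart_mem_atlas E p
  let Jr : E → E →L[ℝ] E := fun z =>
    (show E →L[ℝ] E from mfderiv 𝓘(ℝ, E) 𝓘(ℝ, E) e (e.symm z)) ∘L
      (show E →L[ℝ] E from J (e.symm z)) ∘L (show E →L[ℝ] E from mfderiv 𝓘(ℝ, E) 𝓘(ℝ, E) e.symm z)
  have hJr : ∀ z u, Jr z u = jcoef J e u z := fun z u => rfl
  have hs : ContDiffOn ℝ ∞ Jr e.target :=
    contDiffOn_clm_apply.2 fun u => hJ.smooth e hea u
  have hsq : ∀ z ∈ e.target, ∀ v, Jr z (Jr z v) = -v := by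
    intro z hz v
    have a1 := mf_left hea (e.map_target hz)
    have a2 := mf_right hea (e.map_target hz)
    rw [e.right_inv hz] at a1 a2
    set D : E →L[ℝ] E := mfderiv 𝓘(ℝ, E) 𝓘(ℝ, E) e (e.symm z) with hD
    set D' : E →L[ℝ] E := mfderiv 𝓘(ℝ, E) 𝓘(ℝ, E) e.symm z with hD'
    set K : E →L[ℝ] E := J (e.symm z) with hK
    have b1 : ∀ w, D' (D w) = w := a1
    have b2 : ∀ w, D (D' w) = w := a2
    have b3 : ∀ w, K (K w) = -w := hJ.sq (e.symm z)
    change D (K (D' (D (K (D' v))))) = -v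
    rw [b1, b3, map_neg, b2]
  obtain ⟨A, Jl, hA, hg, hl⟩ := exists_good e.open_target (e.map_source (mem_chart_source E p))
    hs hsq
  let T : E ≃ₜ E := (Homeomorph.subRight (e p)).trans A.toHomeomorph
  have hT : ∀ z, T z = A (z - e p) := fun z => rfl
  have hT' : ∀ y, T.symm y = A.symm y + e p := fun y => by
    apply T.injective; rw [T.apply_symm_apply, hT]; simp
  let ψ := (e.transHomeomorph T).trans (OpenPartialHomeomorph.ofSet (ball (0 : E) 10) isOpen_ball)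
  have hψ : ∀ x, ψ x = A (e x - e p) := fun x => rfl
  have hsrc : ∀ x, x ∈ ψ.source ↔ x ∈ e.source ∧ ‖A (e x - e p)‖ < 10 := fun x => by
    simp [ψ, hT]
  refine ⟨ψ, A, Jl, (hsrc p).2 ⟨mem_chart_source E p, by simp⟩, by simp [hψ], ?_,
    fun x hx => ((hsrc x).1 hx).1, fun x _ => hψ x, hg, fun x hx v => ?_⟩
  · ext y
    simp only [ψ, OpenPartialHomeomorph.trans_target, OpenPartialHomeomorph.ofSet_target,
      Set.mem_inter_iff, and_iff_left_iff_imp]
    intro hy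
    have := hA y (by simpa using hy)
    simpa [hT'] using this
  · rw [hl _ (by rw [hψ]; exact ((hsrc x).1 hx).2), hψ, hJr]
    simp

end Vale.Agent.P204.Mo
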