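import Vale.Agent.P204.MoAlg
import Vale.Agent.P204.Calc1

/-! Pull-backs commute with the exterior derivative. -/

open scoped ContDiff Topology
open MeasureTheory Metric Filter

namespace Vale.Agent.P204.Mo

theorem closedAt_congr {θ θ' : E → W} {y : E} (h : θ =ᶠ[𝓝 y] θ') (h' : ClosedAt θ' y) :
    ClosedAt θ y := h'.congr h

theorem d1_congr {p p' : E → E →L[ℝ] ℝ} {y : E} (h : p =ᶠ[𝓝 y] p') : d1 p y = d1 p' y :=
  P204.d1_congr h

theorem ev_d1 (p : E → E →L[ℝ] ℝ) (y u v : E) :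
    ev (d1 p y) u v = fderiv ℝ p y u v - fderiv ℝ p y v u := P204.ev_d1 p y u v

theorem contDiffAt_d1 {p : E → E →L[ℝ] ℝ} {y : E} (hp : ContDiffAt ℝ ∞ p y) :
    ContDiffAt ℝ ∞ (d1 p) y :=
  Calc1Aux.Dm_smooth.contDiffAt.comp y (hp.fderiv_right (m := ∞) le_rfl)

theorem test_d1 {r : ℝ} {p : E → E →L[ℝ] ℝ} (hp : Test r p) : Test r (d1 p) := hp.d1

theorem contDiffAt_pull {t : E → E} {θ : E → W} {y : E} (ht : ContDiffAt ℝ ∞ t y)
    (hθ : ContDiffAt ℝ ∞ θ (t y)) :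
    ContDiffAt ℝ ∞ (fun z => pull (fderiv ℝ t z) (θ (t z))) y :=
  (contDiff_pull.contDiffAt.comp y (ht.fderiv_right (m := ∞) le_rfl)).clm_apply (hθ.comp y ht)

theorem closedAt_pull {t : E → E} {θ : E → W} {y : E} (ht : ContDiffAt ℝ ∞ t y)
    (hθ : ContDiffAt ℝ ∞ θ (t y)) (hc : ClosedAt θ (t y)) :
    ClosedAt (fun z => pull (fderiv ℝ t z) (θ (t z))) y :=
  ClosedAt.pull (ht.of_le (by norm_cast)) (hθ.differentiableAt (by simp)) hc

theorem d1_pull {t : E → E} {p : E → E →L[ℝ] ℝ} {y : E} (ht : ContDiffAt ℝ ∞ t y)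
    (hp : ContDiffAt ℝ ∞ p (t y)) :
    d1 (fun z => p (t z) ∘L fderiv ℝ t z) y = pull (fderiv ℝ t y) (d1 p (t y)) :=
  P204.d1_pull (ht.of_le (by norm_cast)) (hp.differentiableAt (by simp))

end Vale.Agent.P204.Mo
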