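import Vale.Agent.P204.MoDefs
import Vale.Agent.P204.MoCalc

/-! Forms in charts: smoothness and closedness are local. -/

open scoped ContDiff Topology
open MeasureTheory Metric Filter

namespace Vale.Agent.P204.Mo

universe u

variable {X : Type u} [TopologicalSpace X] [T2Space X] (s : Setup X)

namespace MoAtlAux

omit [T2Space X] in
theorem loc_apply (i : Fin s.m) (φ : Form X) (y : E) :
    s.loc i φ y = pull (s.P i ((s.ψ i).symm y)) (φ ((s.ψ i).symm y)) := rfl

open Classical in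
omit [T2Space X] in
theorem glob_apply (i : Fin s.m) (θ : E → W) (x : X) :
    s.glob i θ x = if x ∈ (s.ψ i).source then pull (s.Q i x) (θ (s.ψ i x)) else 0 := rfl

omit [T2Space X] in
theorem mem_tgt (i : Fin s.m) {y : E} (hy : y ∈ ball (0 : E) 10) : y ∈ (s.ψ i).target := by
  rw [s.target]; exact hy

omit [T2Space X] in
theorem mem_ball' (i : Fin s.m) {x : X} (hx : x ∈ (s.ψ i).source) :
    s.ψ i x ∈ ball (0 : E) 10 := by
  rw [← s.target i]; exact (s.ψ i).map_source hx

omit [T2Space X] in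
theorem cda {φ : Form X} (hφ : s.Smooth φ) (i : Fin s.m) {y : E} (hy : y ∈ ball (0 : E) 10) :
    ContDiffAt ℝ ∞ (s.loc i φ) y := (hφ i).contDiffAt (isOpen_ball.mem_nhds hy)

end MoAtlAux

open MoAtlAux

omit [T2Space X] in
theorem cover (x : X) : ∃ i, x ∈ (s.ψ i).source ∧ ‖s.ψ i x‖ ≤ 1 := by
  by_contra h
  have h1 := s.c_sum x
  rw [Finset.sum_eq_zero] at h1
  · exact zero_ne_one h1
  · intro i _
    split_ifs with hx
    · exact (s.c_test i).2 _ (not_le.1 fun h' => h ⟨i, hx, h'⟩)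
    · rfl

omit [T2Space X] in
theorem loc_glob (i : Fin s.m) (θ : E → W) {y : E} (hy : ‖y‖ < 10) :
    s.loc i (s.glob i θ) y = θ y := by
  have ht := mem_tgt s i (mem_ball_zero_iff.2 hy)
  have hx := (s.ψ i).map_target ht
  rw [loc_apply, glob_apply, if_pos hx, pull_pull, (s.ψ i).right_inv ht]
  exact pull_of_id (fun v => s.QP i _ hx v) _

omit [T2Space X] in
/-- The value of a form from its expression in a chart. -/
theorem pull_loc (i : Fin s.m) (φ : Form X) {x : X} (hx : x ∈ (s.ψ i).source) :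
    pull (s.Q i x) (s.loc i φ (s.ψ i x)) = φ x := by
  rw [loc_apply, (s.ψ i).left_inv hx, pull_pull]
  exact pull_of_id (fun v => s.PQ i _ hx v) _

omit [T2Space X] in
/-- Change of chart, near a point of the overlap. -/
theorem loc_trans (i j : Fin s.m) (φ : Form X) {x : X} (hi : x ∈ (s.ψ i).source)
    (hj : x ∈ (s.ψ j).source) :
    ContDiffAt ℝ ∞ (fun y => s.ψ j ((s.ψ i).symm y)) (s.ψ i x) ∧
    s.loc i φ =ᶠ[𝓝 (s.ψ i x)] fun y => pull (fderiv ℝ (fun y => s.ψ j ((s.ψ i).symm y)) y)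
      (s.loc j φ (s.ψ j ((s.ψ i).symm y))) := by
  have hn : (s.ψ i).target ∩ (s.ψ i).symm ⁻¹' (s.ψ j).source ∈ 𝓝 (s.ψ i x) :=
    ((s.ψ i).isOpen_inter_preimage_symm (s.ψ j).open_source).mem_nhds
      ⟨(s.ψ i).map_source hi, by rw [Set.mem_preimage, (s.ψ i).left_inv hi]; exact hj⟩
  refine ⟨(s.trans_smooth i j).contDiffAt hn, ?_⟩
  filter_upwards [hn] with y hy
  have h1 := (s.trans_deriv i j _ ((s.ψ i).map_target hy.1) hy.2).fderiv
  rw [(s.ψ i).right_inv hy.1] at h1
  rw [h1, ← pull_pull, pull_loc s j φ hy.2, loc_apply]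

omit [T2Space X] in
theorem smooth_of_local {φ : Form X}
    (h : ∀ i y, ‖y‖ ≤ 1 → ContDiffAt ℝ ∞ (s.loc i φ) y) : s.Smooth φ := by
  intro i y hy
  have ht := mem_tgt s i hy
  obtain ⟨j, hj, h1⟩ := cover s ((s.ψ i).symm y)
  obtain ⟨k1, k2⟩ := loc_trans s i j φ ((s.ψ i).map_target ht) hj
  rw [(s.ψ i).right_inv ht] at k1 k2
  exact ((contDiffAt_pull k1 (h j _ h1)).congr_of_eventuallyEq k2).contDiffWithinAt

omit [T2Space X] in
theorem closed_of_local {φ : Form X} (hφ : s.Smooth φ)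
    (h : ∀ i y, ‖y‖ ≤ 1 → ClosedAt (s.loc i φ) y) : s.Closed φ := by
  intro i y hy
  have ht := mem_tgt s i hy
  obtain ⟨j, hj, h1⟩ := cover s ((s.ψ i).symm y)
  obtain ⟨k1, k2⟩ := loc_trans s i j φ ((s.ψ i).map_target ht) hj
  rw [(s.ψ i).right_inv ht] at k1 k2
  exact closedAt_congr k2 (closedAt_pull k1 (cda s hφ j (mem_ball' s j hj)) (h j _ h1))

theorem smooth_glob (i : Fin s.m) {θ : E → W} (hθ : Test 9 θ) : s.Smooth (s.glob i θ) := by
  intro j y hy
  have ht := mem_tgt s j hy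
  refine ContDiffAt.contDiffWithinAt ?_
  by_cases hx : (s.ψ j).symm y ∈ (s.ψ i).source
  · obtain ⟨k1, k2⟩ := loc_trans s j i (s.glob i θ) ((s.ψ j).map_target ht) hx
    rw [(s.ψ j).right_inv ht] at k1 k2
    refine (contDiffAt_pull k1 ?_).congr_of_eventuallyEq k2
    refine hθ.1.contDiffAt.congr_of_eventuallyEq ?_
    filter_upwards [isOpen_ball.mem_nhds (mem_ball' s i hx)] with z hz
    exact loc_glob s i θ (mem_ball_zero_iff.1 hz)
  · have hsub : closedBall (0 : E) 9 ⊆ (s.ψ i).target := fun z hz =>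
      mem_tgt s i (closedBall_subset_ball (by norm_num) hz)
    have hK : IsCompact ((s.ψ i).symm '' closedBall (0 : E) 9) :=
      (isCompact_closedBall _ _).image_of_continuousOn ((s.ψ i).continuousOn_symm.mono hsub)
    have h1 : ((s.ψ i).symm '' closedBall (0 : E) 9)ᶜ ∈ 𝓝 ((s.ψ j).symm y) :=
      hK.isClosed.isOpen_compl.mem_nhds (by
        rintro ⟨z, hz, e⟩
        exact hx (e ▸ (s.ψ i).map_target (hsub hz)))
    refine (contDiffAt_const (c := (0 : W))).congr_of_eventuallyEq ?_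
    filter_upwards [((s.ψ j).continuousAt_symm ht).eventually_mem h1] with z hz
    rw [loc_apply, glob_apply]
    split_ifs with hz'
    · rw [hθ.2 _ (not_le.1 fun h' =>
        hz ⟨_, mem_closedBall_zero_iff.2 h', (s.ψ i).left_inv hz'⟩), map_zero, map_zero]
    · exact map_zero _

omit [T2Space X] in
theorem cut_smooth {φ : Form X} (hφ : s.Smooth φ) (j : Fin s.m) : ContDiff ℝ ∞ (cut s j φ) := by
  refine contDiff_iff_contDiffAt.2 fun y => ?_
  by_cases hy : ‖y‖ < 10
  · exact (contDiff_bp _ _).contDiffAt.smul (cda s hφ j (mem_ball_zero_iff.2 hy))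
  · refine (contDiffAt_const (c := (0 : W))).congr_of_eventuallyEq ?_
    have h1 : {z : E | 19 / 2 < ‖z‖} ∈ 𝓝 y :=
      (isOpen_lt continuous_const continuous_norm).mem_nhds (by
        have := not_lt.1 hy
        change 19 / 2 < ‖y‖
        linarith)
    filter_upwards [h1] with z hz
    rw [cut, bp_zero (by norm_num) (by norm_num) (le_of_lt hz), zero_smul]

omit [T2Space X] in
theorem cut_eq (j : Fin s.m) (φ : Form X) {y : E} (hy : ‖y‖ ≤ 9) :
    cut s j φ y = s.loc j φ y := by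
  rw [cut, bp_one (by norm_num) (by norm_num) hy, one_smul]

end Vale.Agent.P204.Mo
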