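import Vale.Agent.P204.InChart
import Vale.Agent.P204.MoAtl

/-! Transfer of forms between the manifold and the finite atlas. -/

open scoped ContDiff Topology Manifold
open MeasureTheory Metric Filter

namespace Vale.Agent.P204.Mo

universe u

variable {X : Type u} [TopologicalSpace X] [ChartedSpace E X]

namespace InFormAux

/-- The differential of a chart. -/
noncomputable def mfE (e : OpenPartialHomeomorph X E) (x : X) : E →L[ℝ] E :=
  mfderiv 𝓘(ℝ, E) 𝓘(ℝ, E) e x

/-- The differential of the inverse of a chart. -/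
noncomputable def mfS (e : OpenPartialHomeomorph X E) (z : E) : E →L[ℝ] E :=
  mfderiv 𝓘(ℝ, E) 𝓘(ℝ, E) e.symm z

/-- The expression of a form in a chart of the atlas. -/
noncomputable def th (φ : Form X) (e : OpenPartialHomeomorph X E) (z : E) : W :=
  pull (mfS e z) (φ (e.symm z))

theorem coef_eq {σ : BilField E X} {φ : Form X} (h : ∀ x (u v : E), σ x u v = ev (φ x) u v)
    (e : OpenPartialHomeomorph X E) (u v : E) : coef σ e u v = fun z => ev (th φ e z) u v := by
  funext z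
  rw [th, ev_pull]
  exact h _ _ _

theorem fd_ev {θ : E → W} {z : E} (h : ContDiffAt ℝ ∞ θ z) (u v w : E) :
    fderiv ℝ (fun z => ev (θ z) v w) z u = ev (fderiv ℝ θ z u) v w := by
  have h1 := (evL v w).hasFDerivAt.comp z (h.differentiableAt (by simp)).hasFDerivAt
  have h2 : fderiv ℝ (fun z => ev (θ z) v w) z = _ := h1.fderiv
  rw [h2]
  rfl

theorem smooth_of_ev {θ : E → W} {z : E} (h : ∀ u v, ContDiffAt ℝ ∞ (fun z => ev (θ z) u v) z) :
    ContDiffAt ℝ ∞ θ z := by
  have h1 := contDiffAt_mk h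
  simpa only [mk_ev] using h1

variable {s : Setup X} {i : Fin s.m} {e : OpenPartialHomeomorph X E} {A : E ≃L[ℝ] E} {b : E}

theorem loc_eq (hs : (s.ψ i).source ⊆ e.source) (h1 : ∀ x ∈ (s.ψ i).source, s.ψ i x = A (e x - b))
    (h2 : ∀ x ∈ (s.ψ i).source, ∀ v, s.P i x v = mfS e (e x) (A.symm v)) (φ : Form X) {y : E}
    (hy : y ∈ ball (0 : E) 10) : A.symm y + b ∈ e.target ∧
      s.loc i φ y = pull (fderiv ℝ (fun y => A.symm y + b) y) (th φ e (A.symm y + b)) := by
  rw [← s.target i] at hy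
  have h4 := (s.ψ i).map_target hy
  have h5 : A.symm y + b = e ((s.ψ i).symm y) := by
    conv_lhs => rw [← (s.ψ i).right_inv hy, h1 _ h4]
    rw [A.symm_apply_apply, sub_add_cancel]
  have h6 : fderiv ℝ (fun y => A.symm y + b) y = (A.symm : E →L[ℝ] E) :=
    (A.symm.hasFDerivAt.add_const b).fderiv
  refine ⟨h5 ▸ e.map_source (hs h4), ?_⟩
  rw [h6, h5, th, e.left_inv (hs h4), pull_pull]
  have h7 : pull (s.P i ((s.ψ i).symm y)) =
      pull (mfS e (e ((s.ψ i).symm y)) ∘L (A.symm : E →L[ℝ] E)) := pull_congr (h2 _ h4)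
  rw [← h7]
  rfl

theorem th_eq [IsManifold 𝓘(ℝ, E) ∞ X] (he : e ∈ atlas E X) (hs : (s.ψ i).source ⊆ e.source)
    (h1 : ∀ x ∈ (s.ψ i).source, s.ψ i x = A (e x - b))
    (h2 : ∀ x ∈ (s.ψ i).source, ∀ v, s.P i x v = mfS e (e x) (A.symm v)) (φ : Form X)
    {e' : OpenPartialHomeomorph X E} (he' : e' ∈ atlas E X) {z : E} (hz : z ∈ e'.target)
    (hx : e'.symm z ∈ (s.ψ i).source) :
    ContDiffAt ℝ ∞ (fun z => A (e (e'.symm z) - b)) z ∧
      th φ e' z = pull (fderiv ℝ (fun z => A (e (e'.symm z) - b)) z)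
        (s.loc i φ (A (e (e'.symm z) - b))) := by
  have h3 := mf_trans_smooth he' he (e'.map_target hz) (hs hx)
  have h4 : ∀ v, fderiv ℝ (fun z => e (e'.symm z)) (e' (e'.symm z)) v =
      mfE e (e'.symm z) (mfS e' (e' (e'.symm z)) v) :=
    mf_trans_deriv he' he (e'.map_target hz) (hs hx)
  rw [e'.right_inv hz] at h3 h4
  have h5 : fderiv ℝ (fun z => A (e (e'.symm z) - b)) z =
      (A : E →L[ℝ] E) ∘L fderiv ℝ (fun z => e (e'.symm z)) z :=
    (A.hasFDerivAt.comp z ((h3.differentiableAt (by simp)).hasFDerivAt.sub_const b)).fderiv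
  refine ⟨A.contDiff.contDiffAt.comp z (h3.sub contDiffAt_const), ?_⟩
  have h6 : s.loc i φ (s.ψ i (e'.symm z)) = pull (s.P i (e'.symm z)) (φ (e'.symm z)) := by
    show pull (s.P i ((s.ψ i).symm _)) (φ ((s.ψ i).symm _)) = _
    rw [(s.ψ i).left_inv hx]
  rw [h5, ← h1 _ hx, h6, pull_pull, th]
  refine congrFun (congrArg DFunLike.coe (pull_congr fun v => ?_)) _
  simp only [ContinuousLinearMap.comp_apply, ContinuousLinearEquiv.coe_coe, h2 _ hx, h4,
    ContinuousLinearEquiv.symm_apply_apply]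
  exact (mf_left he (hs hx) _).symm

/-- A two-form as a continuous bilinear map. -/
noncomputable def evC (a : W) : E →L[ℝ] E →L[ℝ] ℝ :=
  LinearMap.toContinuousLinearMap
    ((LinearMap.toContinuousLinearMap : (E →ₗ[ℝ] ℝ) ≃ₗ[ℝ] E →L[ℝ] ℝ).toLinearMap ∘ₗ evB a)

theorem evC_apply (a : W) (u v : E) : evC a u v = ev a u v := rfl

end InFormAux

variable [IsManifold 𝓘(ℝ, E) ∞ X] {s : Setup X} {J : EndField E X}

open InFormAux in
theorem tame_of (h : Adapted s J) {σ : BilField E X} (hσ : IsSymplectic σ) (ht : Tames σ J) :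
    s.Tame fun x => mk fun u v => σ x u v := by
  obtain ⟨φ, hφ⟩ : ∃ φ : Form X, φ = fun x => mk fun u v => σ x u v := ⟨_, rfl⟩
  rw [← hφ]
  have h0 : ∀ x (u v : E), σ x u v = ev (φ x) u v := by
    intro x u v
    rw [hφ]
    exact (ev_mk (ContinuousLinearMap.toLinearMap₁₂ (show E →L[ℝ] E →L[ℝ] ℝ from σ x))
      (hσ.alt x) u v).symm
  have hs : ∀ e ∈ atlas E X, ∀ z ∈ e.target, ContDiffAt ℝ ∞ (th φ e) z := by
    intro e he z hz
    refine smooth_of_ev fun u v => ?_
    rw [← coef_eq h0]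
    exact (hσ.smooth e he u v).contDiffAt (e.open_target.mem_nhds hz)
  have hc : ∀ e ∈ atlas E X, ∀ z ∈ e.target, ClosedAt (th φ e) z := by
    intro e he z hz u v w
    have h1 := hσ.closed e he z hz u v w
    simpa only [coef_eq h0, fd_ev (hs e he z hz)] using h1
  have key : ∀ i, ∀ y ∈ ball (0 : E) 10,
      ContDiffAt ℝ ∞ (s.loc i φ) y ∧ ClosedAt (s.loc i φ) y := by
    intro i y hy
    obtain ⟨e, he, A, b, h1, h2, h3⟩ := h.chart i
    have h4 : s.loc i φ =ᶠ[𝓝 y]
        fun y => pull (fderiv ℝ (fun y => A.symm y + b) y) (th φ e (A.symm y + b)) := by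
      filter_upwards [isOpen_ball.mem_nhds hy] with y' hy' using (loc_eq h1 h2 h3 φ hy').2
    have h5 := (loc_eq h1 h2 h3 φ hy).1
    have h6 : ContDiffAt ℝ ∞ (fun y => A.symm y + b) y :=
      A.symm.contDiff.contDiffAt.add contDiffAt_const
    exact ⟨(contDiffAt_pull h6 (hs e he _ h5)).congr_of_eventuallyEq h4,
      closedAt_congr h4 (closedAt_pull h6 (hs e he _ h5) (hc e he _ h5))⟩
  refine ⟨fun i y hy => (key i y hy).1.contDiffWithinAt, fun i y hy => (key i y hy).2,
    fun x v hv => ?_⟩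
  rw [← h0, h.J_eq]
  exact ht x v hv

open InFormAux in
theorem compat_of (h : Adapted s J) {φ : Form X} (hφ : s.Compat φ) :
    ∃ τ : BilField E X, IsSymplectic τ ∧ Compatible τ J := by
  obtain ⟨τ, h0⟩ : ∃ τ : BilField E X, ∀ x (u v : E), τ x u v = ev (φ x) u v :=
    ⟨fun x => evC (φ x), fun _ _ _ => rfl⟩
  have key : ∀ e' ∈ atlas E X, ∀ z ∈ e'.target,
      ContDiffAt ℝ ∞ (th φ e') z ∧ ClosedAt (th φ e') z := by
    intro e' he' z hz
    obtain ⟨i, hx, -⟩ := cover s (e'.symm z)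
    obtain ⟨e, he, A, b, h1, h2, h3⟩ := h.chart i
    have h4 : th φ e' =ᶠ[𝓝 z] fun z => pull (fderiv ℝ (fun z => A (e (e'.symm z) - b)) z)
        (s.loc i φ (A (e (e'.symm z) - b))) := by
      filter_upwards [e'.open_target.mem_nhds hz, (e'.continuousAt_symm hz).eventually_mem
        ((s.ψ i).open_source.mem_nhds hx)] with z' h5 h6
      exact (th_eq he h1 h2 h3 φ he' h5 h6).2
    have h5 := (th_eq he h1 h2 h3 φ he' hz hx).1
    have h6 : A (e (e'.symm z) - b) ∈ ball (0 : E) 10 := by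
      rw [← h2 _ hx, ← s.target i]
      exact (s.ψ i).map_source hx
    have h7 := (hφ.smooth i).contDiffAt (isOpen_ball.mem_nhds h6)
    exact ⟨(contDiffAt_pull h5 h7).congr_of_eventuallyEq h4,
      closedAt_congr h4 (closedAt_pull h5 h7 (hφ.closed i _ h6))⟩
  have ht : Tames τ J := by
    intro x v hv
    exact (hφ.pos x v hv).trans_eq
      ((congrArg (ev (φ x) v) (h.J_eq x v)).trans (h0 x v (J x v)).symm)
  refine ⟨τ, ⟨fun x v => ?_, fun e he u v z hz => ?_, fun e he z hz u v w => ?_,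
    fun x u hu => ?_⟩, ht, fun x u v => ?_⟩
  · exact (h0 x v v).trans (ev_self _ _)
  · rw [coef_eq h0]
    exact (contDiff_ev (key e he z hz).1 contDiffAt_const contDiffAt_const).contDiffWithinAt
  · simp only [coef_eq h0, fd_ev (key e he z hz).1]
    exact (key e he z hz).2 u v w
  · by_contra h1
    exact (ht x u h1).ne' (hu _)
  · have h1 := ev_pull (s.J x) (φ x) u v
    rw [hφ.inv] at h1
    exact (h0 x (J x u) (J x v)).trans ((congrArg₂ (ev (φ x)) (h.J_eq x u) (h.J_eq x v)).symm.trans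
      (h1.symm.trans (h0 x u v).symm))

end Vale.Agent.P204.Mo
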