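import Vale.Agent.P204.MoAlg

/-! A partition of unity subordinate to a finite atlas. -/

open scoped ContDiff Topology Manifold
open MeasureTheory Metric Filter

namespace Vale.Agent.P204.Mo

namespace InPouAux

open Classical in
theorem term_smooth {X : Type*} [TopologicalSpace X] [T2Space X]
    {φ ψ : OpenPartialHomeomorph X E} (ht : ψ.target = ball 0 10)
    (hs : ContDiffOn ℝ ∞ (fun y => ψ (φ.symm y)) (φ.target ∩ φ.symm ⁻¹' ψ.source))
    {y : E} (hy : y ∈ φ.target) :
    ContDiffAt ℝ ∞ (fun z => if φ.symm z ∈ ψ.source then bp 0 1 (ψ (φ.symm z)) else 0) y := by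
  by_cases h : φ.symm y ∈ ψ.source
  · have hn : φ.target ∩ φ.symm ⁻¹' ψ.source ∈ 𝓝 y :=
      (φ.isOpen_inter_preimage_symm ψ.open_source).mem_nhds ⟨hy, h⟩
    refine ((contDiff_bp 0 1).contDiffAt.comp y (hs.contDiffAt hn)).congr_of_eventuallyEq ?_
    filter_upwards [hn] with z hz
    exact if_pos hz.2
  · have hb : closedBall (0 : E) 1 ⊆ ψ.target := by
      rw [ht]
      exact closedBall_subset_ball (by norm_num)
    have hK : IsClosed (ψ.symm '' closedBall (0 : E) 1) :=
      ((isCompact_closedBall 0 1).image_of_continuousOn (ψ.continuousOn_symm.mono hb)).isClosed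
    have hx : φ.symm y ∈ (ψ.symm '' closedBall (0 : E) 1)ᶜ := by
      rintro ⟨w, hw, e⟩
      exact h (e ▸ ψ.map_target (hb hw))
    refine (contDiffAt_const (c := (0 : ℝ))).congr_of_eventuallyEq ?_
    filter_upwards [(φ.continuousAt_symm hy).eventually_mem (hK.isOpen_compl.mem_nhds hx)] with z hz
    split_ifs with h1
    · refine bp_zero le_rfl one_pos (le_of_not_ge fun h2 => hz ?_)
      exact ⟨_, mem_closedBall_zero_iff.2 h2, ψ.left_inv h1⟩
    · rfl

end InPouAux

open Classical in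
theorem exists_pou {X : Type*} [TopologicalSpace X] [T2Space X] {m : ℕ}
    (ψ : Fin m → OpenPartialHomeomorph X E) (ht : ∀ i, (ψ i).target = ball 0 10)
    (hs : ∀ i j, ContDiffOn ℝ ∞ (fun y => ψ j ((ψ i).symm y))
      ((ψ i).target ∩ (ψ i).symm ⁻¹' (ψ j).source))
    (hc : ∀ x, ∃ i, x ∈ (ψ i).source ∧ ‖ψ i x‖ < 1) :
    ∃ c : Fin m → E → ℝ, (∀ i, Test 1 (c i)) ∧ (∀ i y, 0 ≤ c i y) ∧
      ∀ x, ∑ i, (if x ∈ (ψ i).source then c i (ψ i x) else 0) = 1 := by
  obtain ⟨S, hS⟩ : ∃ S : X → ℝ,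
      S = fun x => ∑ k, if x ∈ (ψ k).source then bp 0 1 (ψ k x) else 0 := ⟨_, rfl⟩
  have hpos : ∀ x, 0 < S x := fun x => by
    obtain ⟨i, h1, h2⟩ := hc x
    rw [hS]
    refine Finset.sum_pos' (fun k _ => ?_) ⟨i, Finset.mem_univ i, ?_⟩
    · split_ifs
      · exact bp_nonneg _ _ _
      · exact le_rfl
    · rw [if_pos h1]
      exact bp_pos le_rfl one_pos h2
  have hz : ∀ i (y : E), 1 < ‖y‖ → bp 0 1 y / S ((ψ i).symm y) = 0 := fun i y hy => by
    rw [bp_zero le_rfl one_pos hy.le, zero_div]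
  refine ⟨fun i y => bp 0 1 y / S ((ψ i).symm y), fun i => ⟨contDiff_iff_contDiffAt.2 fun y => ?_,
    hz i⟩, fun i y => div_nonneg (bp_nonneg _ _ _) (hpos _).le, fun x => ?_⟩
  · by_cases hy : 1 < ‖y‖
    · refine (contDiffAt_const (c := (0 : ℝ))).congr_of_eventuallyEq ?_
      filter_upwards [(isOpen_lt continuous_const continuous_norm).mem_nhds hy] with z hz'
      exact hz i z hz'
    · have h1 : y ∈ (ψ i).target := by
        rw [ht, mem_ball_zero_iff]
        linarith [not_lt.1 hy]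
      refine (contDiff_bp 0 1).contDiffAt.div ?_ (hpos _).ne'
      rw [hS]
      exact ContDiffAt.sum fun k _ => InPouAux.term_smooth (ht k) (hs i k) h1
  · have e : ∀ i, (if x ∈ (ψ i).source then bp 0 1 (ψ i x) / S ((ψ i).symm (ψ i x)) else 0) =
        (if x ∈ (ψ i).source then bp 0 1 (ψ i x) else 0) / S x := fun i => by
      split_ifs with h
      · rw [(ψ i).left_inv h]
      · rw [zero_div]
    rw [Finset.sum_congr rfl fun i _ => e i, ← Finset.sum_div]
    exact (congrArg (· / S x) (congrFun hS x)).symm.trans (div_self (hpos x).ne')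

end Vale.Agent.P204.Mo
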