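import Vale.Agent.P204.InChart
import Vale.Agent.P204.InPou

/-! The finite atlas of a compact almost complex manifold. -/

open scoped ContDiff Topology Manifold
open MeasureTheory Metric Filter

namespace Vale.Agent.P204.Mo

universe u

variable {X : Type u} [TopologicalSpace X] [ChartedSpace E X]

namespace InSetupAux

/-- The differential of a chart. -/
noncomputable def mfE (e : OpenPartialHomeomorph X E) (x : X) : E →L[ℝ] E :=
  mfderiv 𝓘(ℝ, E) 𝓘(ℝ, E) e x

/-- The differential of the inverse of a chart. -/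
noncomputable def mfS (e : OpenPartialHomeomorph X E) (z : E) : E →L[ℝ] E :=
  mfderiv 𝓘(ℝ, E) 𝓘(ℝ, E) e.symm z

/-- The endomorphism field on the model space. -/
def jE (J : EndField E X) (x : X) : E →L[ℝ] E := J x

theorem jcoef_eq (J : EndField E X) {e : OpenPartialHomeomorph X E} {x : X} (hx : x ∈ e.source)
    (u : E) : jcoef J e u (e x) = mfE e x (jE J x (mfS e (e x) u)) := by
  have h : jcoef J e u (e x) = mfE e (e.symm (e x)) (jE J (e.symm (e x)) (mfS e (e x) u)) := rfl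
  rw [h, e.left_inv hx]

omit [ChartedSpace E X] in
theorem trans_ev {ψ ψ' e e' : OpenPartialHomeomorph X E} {A A' : E ≃L[ℝ] E} {b b' : E}
    (hs : ψ.source ⊆ e.source) (h : ∀ x ∈ ψ.source, ψ x = A (e x - b))
    (h' : ∀ x ∈ ψ'.source, ψ' x = A' (e' x - b')) {x : X} (hx : x ∈ ψ.source)
    (hx' : x ∈ ψ'.source) : (fun y => ψ' (ψ.symm y)) =ᶠ[𝓝 (ψ x)]
      fun y => A' (e' (e.symm (A.symm y + b)) - b') := by
  have h1 : ∀ᶠ y in 𝓝 (ψ x), ψ.symm y ∈ ψ'.source :=
    (ψ.continuousAt_symm (ψ.map_source hx)).eventually_mem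
      (by rw [ψ.left_inv hx]; exact ψ'.open_source.mem_nhds hx')
  filter_upwards [h1, ψ.open_target.mem_nhds (ψ.map_source hx)] with y h2 h3
  have h4 := ψ.map_target h3
  have h5 : A.symm y + b = e (ψ.symm y) := by
    conv_lhs => rw [← ψ.right_inv h3, h _ h4]
    rw [A.symm_apply_apply, sub_add_cancel]
  rw [h5, e.left_inv (hs h4), h' _ h2]

theorem trans [IsManifold 𝓘(ℝ, E) ∞ X] {ψ ψ' e e' : OpenPartialHomeomorph X E}
    {A A' : E ≃L[ℝ] E} {b b' : E} (he : e ∈ atlas E X) (he' : e' ∈ atlas E X)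
    (hs : ψ.source ⊆ e.source) (hs' : ψ'.source ⊆ e'.source)
    (h : ∀ x ∈ ψ.source, ψ x = A (e x - b)) (h' : ∀ x ∈ ψ'.source, ψ' x = A' (e' x - b'))
    {x : X} (hx : x ∈ ψ.source) (hx' : x ∈ ψ'.source) :
    ContDiffAt ℝ ∞ (fun y => ψ' (ψ.symm y)) (ψ x) ∧
      HasFDerivAt (fun y => ψ' (ψ.symm y)) (((A' : E →L[ℝ] E) ∘L mfE e' x) ∘L
        (mfS e (e x) ∘L (A.symm : E →L[ℝ] E))) (ψ x) := by
  have h0 := trans_ev hs h h' hx hx'
  have h1 : A.symm (ψ x) + b = e x := by rw [h x hx, A.symm_apply_apply, sub_add_cancel]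
  have h2 := mf_trans_smooth he he' (hs hx) (hs' hx')
  have h3 : fderiv ℝ (fun z => e' (e.symm z)) (e x) = mfE e' x ∘L mfS e (e x) :=
    ContinuousLinearMap.ext fun v => mf_trans_deriv he he' (hs hx) (hs' hx') v
  have h4 := (h2.differentiableAt (by simp)).hasFDerivAt
  rw [h3] at h4
  rw [← h1] at h2
  have h5 : HasFDerivAt (fun z => e' (e.symm z)) (mfE e' x ∘L mfS e (e x))
      (A.symm (ψ x) + b) := by rw [h1]; exact h4
  constructor
  · refine ContDiffAt.congr_of_eventuallyEq ?_ h0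
    exact A'.contDiff.contDiffAt.comp _ ((h2.comp (ψ x)
      (A.symm.contDiff.contDiffAt.add contDiffAt_const)).sub contDiffAt_const)
  · refine HasFDerivAt.congr_of_eventuallyEq ?_ h0
    exact A'.hasFDerivAt.comp _ ((h5.comp (ψ x) (A.symm.hasFDerivAt.add_const b)).sub_const b')

end InSetupAux

open InSetupAux in
theorem exists_setup [IsManifold 𝓘(ℝ, E) ∞ X] [T2Space X] [CompactSpace X] {J : EndField E X}
    (hJ : IsAlmostComplex J) : ∃ s : Setup X, Adapted s J := by
  choose ψ A Jl h1 h2 h3 h4 h5 h6 h7 using exists_chart hJ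
  obtain ⟨t, ht⟩ := isCompact_univ.elim_finite_subcover
    (fun p : X => (ψ p).source ∩ ψ p ⁻¹' ball 0 1)
    (fun p => (ψ p).isOpen_inter_preimage isOpen_ball)
    (fun p _ => Set.mem_iUnion.2 ⟨p, h1 p, by simp [h2 p]⟩)
  obtain ⟨q, hq⟩ : ∃ q : Fin t.card → X, ∀ x, ∃ i, x ∈ (ψ (q i)).source ∧ ‖ψ (q i) x‖ < 1 := by
    refine ⟨fun i => (t.equivFin.symm i).1, fun x => ?_⟩
    obtain ⟨p, hp, hx⟩ := Set.mem_iUnion₂.1 (ht (Set.mem_univ x))
    refine ⟨t.equivFin ⟨p, hp⟩, ?_⟩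
    simp only [Equiv.symm_apply_apply]
    exact ⟨hx.1, mem_ball_zero_iff.1 hx.2⟩
  have hT := fun (p p' : X) {x : X} (hx : x ∈ (ψ p).source) (hx' : x ∈ (ψ p').source) =>
    trans (chart_mem_atlas E p) (chart_mem_atlas E p') (h4 p) (h4 p') (h5 p) (h5 p') hx hx'
  have hS : ∀ i j, ContDiffOn ℝ ∞ (fun y => ψ (q j) ((ψ (q i)).symm y))
      ((ψ (q i)).target ∩ (ψ (q i)).symm ⁻¹' (ψ (q j)).source) := by
    intro i j y hy
    have h8 := (hT (q i) (q j) ((ψ (q i)).map_target hy.1) hy.2).1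
    rw [(ψ (q i)).right_inv hy.1] at h8
    exact h8.contDiffWithinAt
  obtain ⟨c, c1, c2, c3⟩ := exists_pou (fun i => ψ (q i)) (fun i => h3 (q i)) hS hq
  refine ⟨
    { m := t.card
      ψ := fun i => ψ (q i)
      P := fun i x => mfS (chartAt E (q i)) (chartAt E (q i) x) ∘L ((A (q i)).symm : E →L[ℝ] E)
      Q := fun i x => (A (q i) : E →L[ℝ] E) ∘L mfE (chartAt E (q i)) x
      c := c
      J := jE J
      Jl := fun i => Jl (q i)
      target := fun i => h3 (q i)
      PQ := fun i x hx v => ?_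
      QP := fun i x hx v => ?_
      trans_smooth := hS
      trans_deriv := fun i j x hx hx' => (hT (q i) (q j) hx hx').2
      c_test := c1
      c_nonneg := c2
      c_sum := c3
      J_sq := hJ.sq
      good := fun i => h6 (q i)
      Jl_eq := fun i x hx => ContinuousLinearMap.ext fun v => ?_ },
    fun _ _ => rfl, fun i => ⟨chartAt E (q i), chart_mem_atlas E (q i), A (q i),
      chartAt E (q i) (q i), h4 (q i), h5 (q i), fun _ _ _ => rfl⟩⟩
  · simp only [ContinuousLinearMap.comp_apply, ContinuousLinearEquiv.coe_coe,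
      ContinuousLinearEquiv.symm_apply_apply]
    exact mf_left (chart_mem_atlas E (q i)) (h4 _ hx) v
  · have h8 : mfE (chartAt E (q i)) x (mfS (chartAt E (q i)) (chartAt E (q i) x)
        ((A (q i)).symm v)) = (A (q i)).symm v := mf_right (chart_mem_atlas E (q i)) (h4 _ hx) _
    simp only [ContinuousLinearMap.comp_apply, ContinuousLinearEquiv.coe_coe, h8,
      ContinuousLinearEquiv.apply_symm_apply]
  · rw [h7 _ x hx v, jcoef_eq J (h4 _ hx)]
    rfl

end Vale.Agent.P204.Mo
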