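import Vale.Agent.P204.Norms2
import Vale.Agent.P204.Par

/-! Operators with a smooth kernel: smoothness, support, boundedness on Sobolev spaces. -/

open scoped ContDiff RealInnerProductSpace Topology
open MeasureTheory Metric

namespace Vale.Agent.P204

variable {F : Type} [NormedAddCommGroup F] [NormedSpace ℝ F] {K : ℝ × E × E → F →L[ℝ] W}
  {R : ℝ}

theorem SKer.kop_eq_setIntegral (hK : SKer K R) (ε : ℝ) (θ : E → F) (y : E) :
    Kop K ε θ y = ∫ z in closedBall (0 : E) R, K (ε, y, z) (θ (y + ε • z)) := by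
  refine (setIntegral_eq_integral_of_forall_compl_eq_zero fun z hz => ?_).symm
  rw [hK.supp ε y z (by simpa using hz)]; rfl
theorem KerBAux.smooth (hK : SKer K R) (ε : ℝ) {θ : E → F} (hθ : ContDiff ℝ ∞ θ) :
    ContDiff ℝ ∞ fun q : E × E => K (ε, q.1, q.2) (θ (q.1 + ε • q.2)) :=
  (hK.smooth.comp (by fun_prop)).clm_apply (hθ.comp (by fun_prop))
/-- `contDiff_setInt`. -/
theorem SKer.kop_contDiff (hK : SKer K R) (ε : ℝ) {θ : E → F} (hθ : ContDiff ℝ ∞ θ) :
    ContDiff ℝ ∞ (Kop K ε θ) := by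
  rw [funext (hK.kop_eq_setIntegral ε θ)]
  exact contDiff_setInt (KerBAux.smooth hK ε hθ) volume (isCompact_closedBall _ _)
theorem SKer.kop_congr (hK : SKer K R) {ε : ℝ} (hε : 0 ≤ ε) {θ θ' : E → F} {y : E}
    (h : ∀ x ∈ closedBall y (R * ε), θ x = θ' x) : Kop K ε θ y = Kop K ε θ' y := by
  rw [hK.kop_eq_setIntegral, hK.kop_eq_setIntegral]
  refine setIntegral_congr_fun measurableSet_closedBall fun z hz => ?_
  have hz' : ‖z‖ ≤ R := by simpa using hz
  rw [h _ (by
    rw [mem_closedBall, dist_eq_norm, add_sub_cancel_left, norm_smul, Real.norm_of_nonneg hε]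
    nlinarith)]
theorem SKer.kop_test (hK : SKer K R) {ε r : ℝ} (hε : 0 ≤ ε) {θ : E → F} (hθ : Test r θ) :
    Test (r + R * ε) (Kop K ε θ) := by
  refine ⟨hK.kop_contDiff ε hθ.1, fun y hy => ?_⟩
  rw [hK.kop_congr hε (θ' := 0) fun x hx => hθ.2 x ?_]
  · simp [Kop]
  · have h1 : ‖x - y‖ ≤ R * ε := by simpa [dist_eq_norm] using hx
    have h2 := norm_sub_norm_le y x
    rw [norm_sub_rev] at h2
    linarith
theorem SKer.kop_add (hK : SKer K R) (ε : ℝ) {θ θ' : E → F} (hθ : Continuous θ)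
    (hθ' : Continuous θ') : Kop K ε (θ + θ') = Kop K ε θ + Kop K ε θ' := by
  funext y
  have hi : ∀ {θ : E → F}, Continuous θ →
      IntegrableOn (fun z => K (ε, y, z) (θ (y + ε • z))) (closedBall 0 R) := fun h =>
    ((hK.smooth.continuous.comp (by fun_prop)).clm_apply
      (h.comp (by fun_prop))).continuousOn.integrableOn_compact (isCompact_closedBall _ _)
  simp only [Pi.add_apply, hK.kop_eq_setIntegral, map_add]
  exact integral_add (hi hθ) (hi hθ')
theorem kop_smul (K : ℝ × E × E → F →L[ℝ] W) (ε t : ℝ) (θ : E → F) :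
    Kop K ε (t • θ) = t • Kop K ε θ := by
  funext y
  simp only [Kop, Pi.smul_apply, map_smul, integral_smul]
/-- All `y`-derivatives of the kernel are bounded on compact sets (`contDiff_iter_fst`). -/
theorem SKer.exists_bound (hK : SKer K R) (l : ℕ) (r : ℝ) : ∃ C : ℝ, 0 ≤ C ∧
    ∀ ε ∈ Set.Icc (0 : ℝ) 1, ∀ j ≤ l, ∀ y ∈ closedBall (0 : E) r, ∀ z,
      ‖iteratedFDeriv ℝ j (fun y' => K (ε, y', z)) y‖ ≤ C := by
  have hs : ContDiff ℝ ∞ fun q : E × (ℝ × E) => K (q.2.1, q.1, q.2.2) :=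
    hK.smooth.comp (by fun_prop)
  have h1 : ∀ j : ℕ, ∃ C : ℝ, 0 ≤ C ∧ ∀ ε ∈ Set.Icc (0 : ℝ) 1, ∀ y ∈ closedBall (0 : E) r, ∀ z,
      ‖iteratedFDeriv ℝ j (fun y' => K (ε, y', z)) y‖ ≤ C := by
    intro j
    obtain ⟨C, hC⟩ := ((isCompact_closedBall (0 : E) r).prod
      ((isCompact_Icc (a := (0 : ℝ)) (b := 1)).prod
        (isCompact_closedBall (0 : E) R))).exists_bound_of_continuousOn
      (contDiff_iter_fst hs j).continuous.continuousOn
    refine ⟨max C 0, le_max_right _ _, fun ε hε y hy z => ?_⟩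
    by_cases hz : R < ‖z‖
    · have : (fun y' => K (ε, y', z)) = 0 := funext fun y' => hK.supp ε y' z hz
      rw [this, iteratedFDeriv_zero]; simp
    · exact (hC (y, ε, z) ⟨hy, hε, by simpa using hz⟩).trans (le_max_left _ _)
  choose C hC0 hC using h1
  refine ⟨∑ j ∈ Finset.range (l + 1), C j, Finset.sum_nonneg fun j _ => hC0 j,
    fun ε hε j hj y hy z => (hC j ε hε y hy z).trans ?_⟩
  exact Finset.single_le_sum (fun j _ => hC0 j) (Finset.mem_range.2 (Nat.lt_succ_of_le hj))
/-- Pointwise: `‖D^j (Kop K ε θ) y‖ ≤ C ∫_{‖z‖ ≤ R} ∑_{i ≤ j} ‖D^i θ (y + ε z)‖`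
(`iteratedFDeriv_setInt`, `norm_iteratedFDeriv_clm_apply`, `iteratedFDeriv_comp_add_right`);
it vanishes for `‖y‖ > 5 + R`. Then `nL2_young`. -/
theorem SKer.Hn_kop_le (hK : SKer K R) (l : ℕ) : ∃ C : ℝ, 0 ≤ C ∧
    ∀ ε ∈ Set.Icc (0 : ℝ) 1, ∀ θ : E → F, Test 5 θ → Hn l (Kop K ε θ) ≤ C * Hn l θ := by
  obtain ⟨C, hC0, hC⟩ := hK.exists_bound l (5 + R)
  have : IsFiniteMeasure (volume.restrict (closedBall (0 : E) R)) :=
    isFiniteMeasure_restrict.2 (isCompact_closedBall _ _).measure_lt_top.ne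
  set V : ℝ := (volume.restrict (closedBall (0 : E) R)).real Set.univ with hV
  have hV0 : 0 ≤ V := measureReal_nonneg
  refine ⟨(l + 1) * (2 ^ l * C * V), by positivity, fun ε hε θ hθ => ?_⟩
  set g : E → ℝ := ∑ i ∈ Finset.range (l + 1), fun y => ‖iteratedFDeriv ℝ i θ y‖ with hg
  have hgi : ∀ i ∈ Finset.range (l + 1), CTest 5 fun y => ‖iteratedFDeriv ℝ i θ y‖ :=
    fun i _ => (hθ.iteratedFDeriv i).ctest.norm
  have hgc : CTest 5 g := Norms1Aux.ctest_sum _ hgi
  have hga : ∀ y, g y = ∑ i ∈ Finset.range (l + 1), ‖iteratedFDeriv ℝ i θ y‖ := fun y => by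
    simp [hg]
  have hg0 : ∀ y, 0 ≤ g y := fun y => by rw [hga]; positivity
  have hgH : nL2 g ≤ Hn l θ := by
    have := nL2_le_sum (Finset.range (l + 1)) (f := g) zero_le_one hgi fun y => by
      rw [Real.norm_of_nonneg (hg0 y), hga, one_mul]
    simpa only [one_mul, nL2_norm, Hn] using this
  have key : ∀ j ≤ l, ∀ y, ‖iteratedFDeriv ℝ j (Kop K ε θ) y‖ ≤
      2 ^ l * C * ∫ z, g (y + ε • z) ∂volume.restrict (closedBall (0 : E) R) := by
    intro j hj y
    by_cases hy : 5 + R < ‖y‖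
    · have h1 := ((hK.kop_test hε.1 hθ).iteratedFDeriv j).2 y (by nlinarith [hK.Rpos, hε.2])
      rw [h1, norm_zero]
      exact mul_nonneg (by positivity) (integral_nonneg fun z => hg0 _)
    rw [funext (hK.kop_eq_setIntegral ε θ),
      iteratedFDeriv_setInt (KerBAux.smooth hK ε hθ.1) volume (isCompact_closedBall _ _),
      ← integral_const_mul]
    refine norm_integral_le_of_norm_le ?_ (Filter.Eventually.of_forall fun z => ?_)
    · exact (((hgc.1.comp (by fun_prop)).const_mul _).continuousOn.integrableOn_compact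
        (isCompact_closedBall _ _))
    · have h1 : ContDiff ℝ ∞ fun y' => K (ε, y', z) := hK.smooth.comp (by fun_prop)
      have h2 : ContDiff ℝ ∞ fun y' => θ (y' + ε • z) := hθ.1.comp (by fun_prop)
      refine (norm_iteratedFDeriv_clm_apply h1 h2 y (by exact_mod_cast le_top)).trans ?_
      calc _ ≤ ∑ i ∈ Finset.range (j + 1), (j.choose i : ℝ) * C * g (y + ε • z) := by
            refine Finset.sum_le_sum fun i hi => ?_
            have hi' : i ≤ j := Nat.lt_succ_iff.1 (Finset.mem_range.1 hi)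
            refine mul_le_mul (mul_le_mul_of_nonneg_left
              (hC ε hε i (hi'.trans hj) y (by simpa using hy) z) (by positivity)) ?_
              (norm_nonneg _) (by positivity)
            rw [iteratedFDeriv_comp_add_right, hga]
            exact Finset.single_le_sum (f := fun i => ‖iteratedFDeriv ℝ i θ (y + ε • z)‖)
              (fun _ _ => norm_nonneg _) (Finset.mem_range.2 (by omega))
        _ = 2 ^ j * C * g (y + ε • z) := by
            rw [← Finset.sum_mul, ← Finset.sum_mul]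
            exact_mod_cast congrArg (fun n : ℕ => (n : ℝ) * C * g (y + ε • z))
              (Nat.sum_range_choose j)
        _ ≤ 2 ^ l * C * g (y + ε • z) := by
            have := pow_le_pow_right₀ (one_le_two (α := ℝ)) hj
            have := hg0 (y + ε • z)
            gcongr
  rw [mul_assoc]
  refine Norms2Aux.sum_le fun j hj => ?_
  refine (nL2_young (volume.restrict (closedBall (0 : E) R)) (a := fun z => ε • z)
    (by fun_prop) hgc hg0 (by positivity) (key j hj)).trans ?_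
  exact mul_le_mul_of_nonneg_left hgH (by positivity)

end Vale.Agent.P204
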