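import Vale.Agent.P204.KerS
import Vale.Agent.P204.Alg3

/-! The commutator of a regularising kernel with the projections. -/

open scoped ContDiff RealInnerProductSpace Topology
open MeasureTheory Metric

namespace Vale.Agent.P204

variable {K : ℝ × E × E → W →L[ℝ] W} {R N ε₀ : ℝ} {J : E → E →L[ℝ] E}

theorem IsKer.eps_le_one (hK : IsKer K R N ε₀) : ε₀ ≤ 1 / 4 := by
  nlinarith [hK.eR, mul_nonneg hK.epos.le hK.Rpos]
theorem IsKer.R_mul_le (hK : IsKer K R N ε₀) {ε : ℝ} (hε : ε ∈ Set.Ioo 0 ε₀) :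
    (R + 1) * ε ≤ 1 / 4 := by
  nlinarith [hK.eR, hK.Rpos, hε.2]

namespace KerCAux

theorem bound (hK : SKer K R) : ∃ C : ℝ, 0 ≤ C ∧ ∀ ε ∈ Set.Icc (0 : ℝ) 1,
    ∀ y ∈ closedBall (0 : E) 6, ∀ z, ‖K (ε, y, z)‖ ≤ C * bp R (R + 1) z := by
  obtain ⟨C, hC⟩ := ((isCompact_Icc (a := (0 : ℝ)) (b := 1)).prod
    ((isCompact_closedBall (0 : E) 6).prod
      (isCompact_closedBall (0 : E) R))).exists_bound_of_continuousOn
    hK.smooth.continuous.continuousOn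
  refine ⟨|C|, abs_nonneg C, fun ε hε y hy z => ?_⟩
  rcases le_or_gt ‖z‖ R with hz | hz
  · rw [bp_eq_one hK.Rpos (lt_add_one R) hz, mul_one]
    exact (hC (ε, y, z) ⟨hε, hy, mem_closedBall_zero_iff.2 hz⟩).trans (le_abs_self C)
  · rw [hK.supp ε y z hz, norm_zero]
    exact mul_nonneg (abs_nonneg C) (bp_nonneg _ _ _)

theorem div (hK : IsKer K R N ε₀) {A B : E → W →L[ℝ] W} (hA : ContDiff ℝ ∞ A)
    (hB : ContDiff ℝ ∞ B) (h0 : ∀ y w, A y (B y w) = 0) :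
    ∃ K₁ : ℝ × E × E → W →L[ℝ] W, SKer K₁ R ∧ ∀ ε, ∀ y ∈ closedBall (0 : E) 6, ∀ z w,
      A y (K (ε, y, z) (B (y + ε • z) w)) = ε • K₁ (ε, y, z) w := by
  have hf : ContDiff ℝ ∞ fun p : ℝ × E × E => A p.2.1 ∘L K p ∘L B (p.2.1 + p.1 • p.2.2) :=
    (hA.comp (contDiff_fst.comp contDiff_snd)).clm_comp (hK.smooth.clm_comp (hB.comp (by fun_prop)))
  obtain ⟨g, hg, h1, h2⟩ := hadamard (f := fun p : ℝ × E × E =>
    A p.2.1 ∘L K p ∘L B (p.2.1 + p.1 • p.2.2) -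
      A p.2.1 ∘L K (0, p.2) ∘L B (p.2.1 + (0 : ℝ) • p.2.2))
    (hf.sub (hf.comp (f := fun p : ℝ × E × E => ((0 : ℝ), p.2))
      (contDiff_const.prodMk contDiff_snd))) fun _ => sub_self _
  obtain ⟨k, hk, -⟩ := hK.zero
  refine ⟨g, ⟨hg, fun ε y z hz => h2 (y, z) (fun t => ?_) ε, hK.Rpos⟩, fun ε y hy z w => ?_⟩
  · simp [hK.supp _ y z hz]
  · have h3 := congrArg (· w) (h1 ε (y, z))
    simpa [hk y hy z, h0] using h3

theorem om_ge {L : E →L[ℝ] E} (hL : ‖L - ContinuousLinearMap.id ℝ E‖ ≤ 1 / 10) :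
    1 / 2 ≤ ev (pull L om0) (eb 0) (eb 1) := by
  have h : ∀ i, ∃ a : E, ‖a‖ ≤ 1 / 10 ∧ L (eb i) = eb i + a := fun i => by
    have h1 := (L - ContinuousLinearMap.id ℝ E).le_of_opNorm_le hL (eb i)
    rw [norm_eb, mul_one] at h1
    exact ⟨_, h1, by simp⟩
  obtain ⟨a, ha, ea⟩ := h 0
  obtain ⟨c, hc, ec⟩ := h 1
  have k : ∀ u v : E, |ev om0 u v| ≤ ‖u‖ * ‖v‖ := fun u v => by
    rw [ev_om0, ← norm_J0_apply u]
    exact abs_real_inner_le_norm _ _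
  have h0 : ev om0 (eb 0) (eb 1) = 1 := by simp [ev, om0, eb]
  have h1 := (abs_le.1 (k (eb 0) c)).1
  have h2 := (abs_le.1 (k a (eb 1))).1
  have h3 := (abs_le.1 (k a c)).1
  rw [norm_eb] at h1 h2
  rw [ev_pull, ea, ec, ev_add_left, ev_add_right, ev_add_right, h0]
  nlinarith [norm_nonneg a, norm_nonneg c]

end KerCAux

/-- The function `(ε, y, z) ↦ bp 5 6 y • pm (J y) ∘ K(ε, y, z) ∘ pp (J (y + ε z))` is smooth and
vanishes at `ε = 0` (`IsKer.zero`, `pm_pp`), so `hadamard` writes it as `ε • K₁` with `SKer K₁ R`.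
The form on the left equals `ε • Kop K₁ ε θ`; use `SKer.nrm_kop_le`. -/
theorem IsKer.nrm_comm_le (hK : IsKer K R N ε₀) (hJ : GoodJ J) (n : ℕ) : ∃ C : ℝ, 0 ≤ C ∧
    ∀ ε ∈ Set.Ioo 0 ε₀, ∀ θ : E → W, Test 4 θ →
      nrm n ε (fun y => pm (J y) (Kop K ε (fun x => pp (J x) (θ x)) y)) ≤ C * ε * nL2 θ := by
  obtain ⟨K₁, hK₁, h⟩ := KerCAux.div hK hJ.contDiff_pm hJ.contDiff_pp fun y => pm_pp (hJ.sq y)
  obtain ⟨C, hC0, hC⟩ := hK₁.nrm_kop_le n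
  refine ⟨C, hC0, fun ε hε θ hθ => ?_⟩
  have h1 := hK.R_mul_le hε
  have h2 : Test 4 fun x => pp (J x) (θ x) := hθ.clm_apply hJ.contDiff_pp
  have h3 := hK₁.kop_test hε.1.le hθ
  have e : (fun y => pm (J y) (Kop K ε (fun x => pp (J x) (θ x)) y)) = ε • Kop K₁ ε θ := by
    funext y
    rw [Pi.smul_apply]
    by_cases hy : y ∈ closedBall (0 : E) 6
    · have h4 : Continuous fun z => K (ε, y, z) (pp (J (y + ε • z)) (θ (y + ε • z))) :=
        (hK.smooth.continuous.comp (by fun_prop)).clm_apply (h2.1.continuous.comp (by fun_prop))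
      have h5 : CTest R fun z => K (ε, y, z) (pp (J (y + ε • z)) (θ (y + ε • z))) :=
        ⟨h4, fun z hz => by simp [hK.supp ε y z hz]⟩
      rw [Kop, Kop, ← (pm (J y)).integral_comp_comm (h5.integrable volume), ← integral_smul]
      simp only [h ε y hy]
    · have h4 : 4 + R * ε < ‖y‖ := by
        have := lt_of_not_ge (mem_closedBall_zero_iff.not.1 hy)
        nlinarith [hε.1]
      rw [(hK.toSKer.kop_test hε.1.le h2).2 y h4, h3.2 y h4, map_zero, smul_zero]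
  rw [e, nrm_smul h3, abs_of_pos hε.1, mul_comm C, mul_assoc]
  exact mul_le_mul_of_nonneg_left (hC ε ⟨hε.1, by linarith [hε.2, hK.eps_le_one]⟩ θ
    (hθ.mono (by norm_num))) hε.1.le

/-- The kernel is bounded, and `pp (J y) ∘ K ∘ pm (J x)` is `O(ε)` (again `hadamard`, or the mean
value inequality in `ε`). -/
theorem IsKer.exists_pointwise (hK : IsKer K R N ε₀) (hJ : GoodJ J) : ∃ C : ℝ, 0 ≤ C ∧
    ∀ ε ∈ Set.Ioo 0 ε₀, ∀ y ∈ closedBall (0 : E) 6, ∀ z, ∀ w : W,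
      ‖K (ε, y, z) w‖ ≤ C * bp R (R + 1) z * ‖w‖ ∧
      ‖pp (J y) (K (ε, y, z) (pm (J (y + ε • z)) w))‖ ≤ C * ε * bp R (R + 1) z * ‖w‖ := by
  obtain ⟨K₁, hK₁, h⟩ := KerCAux.div hK hJ.contDiff_pp hJ.contDiff_pm fun y => pp_pm (hJ.sq y)
  obtain ⟨C, hC0, hC⟩ := KerCAux.bound hK.toSKer
  obtain ⟨C', hC0', hC'⟩ := KerCAux.bound hK₁
  refine ⟨C + C', by positivity, fun ε hε y hy z w => ?_⟩
  have h1 : ε ∈ Set.Icc (0 : ℝ) 1 := ⟨hε.1.le, by linarith [hε.2, hK.eps_le_one]⟩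
  have h2 := mul_nonneg (bp_nonneg R (R + 1) z) (norm_nonneg w)
  constructor
  · have := (K (ε, y, z)).le_of_opNorm_le (hC ε h1 y hy z) w
    nlinarith [mul_nonneg hC0' h2]
  · rw [h ε y hy, norm_smul, Real.norm_of_nonneg h1.1]
    have := mul_le_mul_of_nonneg_left ((K₁ (ε, y, z)).le_of_opNorm_le (hC' ε h1 y hy z) w) h1.1
    nlinarith [mul_nonneg h1.1 (mul_nonneg hC0 h2)]

/-- Apply `IsKer.np` to the functional
`ℓ K = ev (K ζ) b (J y b) + C₁ ε² ‖ζ‖ ‖b‖² ev (K om0) (eb 0) (eb 1)`: for `K = pull L` the first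
term is controlled by `Near.pull_near_pos` (`‖J x - J y‖ ≤ Lip R ε`), and
`ev om0 (L e₀) (L e₁) ≥ 1 / 2` when `‖L - 1‖ ≤ 1 / 10`. -/
theorem IsKer.near_pos (hK : IsKer K R N ε₀) (hJ : GoodJ J) : ∃ C : ℝ, 0 ≤ C ∧
    ∀ ε ∈ Set.Ioo 0 ε₀, ∀ y ∈ closedBall (0 : E) 6, ∀ z, ∀ ζ : W,
      pull (J (y + ε • z)) ζ = ζ → (∀ b, 0 ≤ ev ζ b (J (y + ε • z) b)) → ∀ b,
      -(C * ε ^ 2 * bp R (R + 1) z * ‖ζ‖ * ‖b‖ ^ 2) ≤ ev (K (ε, y, z) ζ) b (J y b) := by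
  obtain ⟨C, hC0, hC⟩ := KerCAux.bound hK.toSKer
  obtain ⟨P, hP0, hP⟩ := hJ.lipschitz
  refine ⟨10 * (N + P * R) ^ 2 * (C * 2), by positivity, fun ε hε y hy z ζ hζ hpos b => ?_⟩
  have h1 : ε ∈ Set.Icc (0 : ℝ) 1 := ⟨hε.1.le, by linarith [hε.2, hK.eps_le_one]⟩
  have hb := bp_nonneg R (R + 1) z
  rcases lt_or_ge R ‖z‖ with hz | hz
  · rw [hK.supp ε y z hz, zero_apply, ev_zero, Left.neg_nonpos_iff]
    positivity
  set a := 10 * (N + P * R) ^ 2 * ε ^ 2 * ‖ζ‖ * ‖b‖ ^ 2 with ha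
  have ha0 : 0 ≤ a := by positivity
  let l : (W →L[ℝ] W) →ₗ[ℝ] ℝ :=
    { toFun := fun M => ev (M ζ) b (J y b) + a * ev (M om0) (eb 0) (eb 1)
      map_add' := fun M M' => by
        simp only [add_apply, ev_add]
        ring
      map_smul' := fun t M => by
        simp only [smul_apply, ev_smul, RingHom.id_apply, smul_eq_mul]
        ring }
  have h2 : 0 ≤ ev (K (ε, y, z) ζ) b (J y b) + a * ev (K (ε, y, z) om0) (eb 0) (eb 1) :=
    hK.np ε hε y hy z (LinearMap.toContinuousLinearMap l) fun L hL => by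
      change 0 ≤ ev (pull L ζ) b (J y b) + a * ev (pull L om0) (eb 0) (eb 1)
      have h3 : ‖J (y + ε • z) - J y‖ ≤ P * R * ε := by
        refine (hP _ _).trans ?_
        rw [add_sub_cancel_left, norm_smul, Real.norm_of_nonneg h1.1, mul_assoc, mul_comm R]
        exact mul_le_mul_of_nonneg_left (mul_le_mul_of_nonneg_left hz h1.1) hP0
      have h4 := (hJ.near (y + ε • z)).pull_near_pos (hJ.near y) hL h3 hζ hpos b
      have h5 := KerCAux.om_ge (hL.trans ((mul_le_mul_of_nonneg_left hε.2.le hK.Npos).trans hK.eN))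
      have h6 := mul_le_mul_of_nonneg_left h5 ha0
      have h7 : 5 * (N * ε + P * R * ε) ^ 2 * ‖ζ‖ * ‖b‖ ^ 2 = a * (1 / 2) := by
        rw [ha]
        ring
      linarith
  have h3 : ev (K (ε, y, z) om0) (eb 0) (eb 1) ≤ C * bp R (R + 1) z * 2 := by
    refine ((le_abs_self _).trans (abs_ev_le _ _ _)).trans ?_
    rw [norm_eb, norm_eb, mul_one, mul_one]
    exact ((K (ε, y, z)).le_of_opNorm_le (hC ε h1 y hy z) om0).trans
      (mul_le_mul_of_nonneg_left norm_om0_le (by positivity))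
  have h4 := mul_le_mul_of_nonneg_left h3 ha0
  have h5 : 10 * (N + P * R) ^ 2 * (C * 2) * ε ^ 2 * bp R (R + 1) z * ‖ζ‖ * ‖b‖ ^ 2 =
      a * (C * bp R (R + 1) z * 2) := by
    rw [ha]
    ring
  linarith

end Vale.Agent.P204
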