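import Vale.Agent.P204.KerC

/-! A regularising kernel approximates the identity. -/

open scoped ContDiff RealInnerProductSpace Topology
open MeasureTheory Metric

namespace Vale.Agent.P204

variable {K : ℝ × E × E → W →L[ℝ] W} {R N ε₀ : ℝ}

namespace KerDAux

theorem int_zero (hK : IsKer K R N ε₀) {y : E} (hy : y ∈ closedBall (0 : E) 6) (w : W) :
    ∫ z in closedBall (0 : E) R, K (0, y, z) w = w := by
  obtain ⟨k, h1, h2⟩ := hK.zero
  rw [setIntegral_eq_integral_of_forall_compl_eq_zero fun z hz => by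
    rw [hK.supp 0 y z (by simpa using hz)]
    rfl]
  simp only [h1 y hy, smul_apply, ContinuousLinearMap.id_apply]
  rw [integral_smul_const, h2 y hy, one_smul]

/-- The kernel acting on first derivatives. -/
noncomputable def K3 (K : ℝ × E × E → W →L[ℝ] W) (q : ℝ × E × E) : (E →L[ℝ] W) →L[ℝ] W :=
  K (0, q.2.1, q.2.2) ∘L ContinuousLinearMap.apply ℝ W q.2.2

theorem sker3 (hK : SKer K R) : SKer (K3 K) R := by
  have h := hK.smooth
  have h1 : ContDiff ℝ ∞ (ContinuousLinearMap.apply ℝ W : E → (E →L[ℝ] W) →L[ℝ] W) :=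
    ContinuousLinearMap.contDiff _
  refine ⟨ContDiff.clm_comp (by fun_prop) (h1.comp (contDiff_snd.comp contDiff_snd)),
    fun ε y z hz => ?_, hK.Rpos⟩
  rw [K3, hK.supp 0 y z hz, ContinuousLinearMap.zero_comp]

/-- The integrand of the remainder term. -/
noncomputable def kap (K : ℝ × E × E → W →L[ℝ] W) (ε : ℝ) (η : E → E →L[ℝ] W)
    (q : E × E × ℝ) : W := K3 K (0, q.1, q.2.1) (η (q.1 + (q.2.2 * ε) • q.2.1))

theorem kap_smooth (hK : SKer K R) (ε : ℝ) {η : E → E →L[ℝ] W} (hη : ContDiff ℝ ∞ η) :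
    ContDiff ℝ ∞ (kap K ε η) := by
  have h := (sker3 hK).smooth
  exact ContDiff.clm_apply (by fun_prop) (by fun_prop)

/-- The remainder term. -/
noncomputable def TT (K : ℝ × E × E → W →L[ℝ] W) (R ε : ℝ) (η : E → E →L[ℝ] W) (y : E) : W :=
  ∫ p in closedBall (0 : E) R ×ˢ Set.Icc (0 : ℝ) 1, kap K ε η (y, p)

theorem cpt (R : ℝ) : IsCompact (closedBall (0 : E) R ×ˢ Set.Icc (0 : ℝ) 1) :=
  (isCompact_closedBall _ _).prod isCompact_Icc

theorem test_TT (hK : SKer K R) {ε : ℝ} (hε : 0 ≤ ε) (hR : R * ε ≤ 1) {η : E → E →L[ℝ] W}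
    (hη : Test 5 η) : Test 6 (TT K R ε η) := by
  refine ⟨contDiff_setInt (kap_smooth hK ε hη.1) volume (cpt R), fun y hy => ?_⟩
  refine setIntegral_eq_zero_of_forall_eq_zero fun p hp => ?_
  have h1 : ‖(p.2 * ε) • p.1‖ ≤ 1 := by
    rw [norm_smul, Real.norm_of_nonneg (mul_nonneg hp.2.1 hε)]
    refine (mul_le_mul (mul_le_of_le_one_left hε hp.2.2) (mem_closedBall_zero_iff.1 hp.1)
      (norm_nonneg _) hε).trans ?_
    rwa [mul_comm]
  have h2 := norm_sub_le (y + (p.2 * ε) • p.1) ((p.2 * ε) • p.1)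
  rw [add_sub_cancel_right] at h2
  rw [kap, hη.2 _ (by linarith), map_zero]

theorem Hn_TT (hK : SKer K R) (l : ℕ) : ∃ C : ℝ, 0 ≤ C ∧ ∀ ε : ℝ, 0 ≤ ε → R * ε ≤ 1 →
    ∀ η : E → E →L[ℝ] W, Test 5 η → Hn l (TT K R ε η) ≤ C * Hn l η := by
  obtain ⟨C, hC, h⟩ := (sker3 hK).exists_bound l 6
  set ν : Measure (E × ℝ) := volume.restrict (closedBall (0 : E) R ×ˢ Set.Icc (0 : ℝ) 1) with hν
  have : IsFiniteMeasure ν := isFiniteMeasure_restrict.2 (cpt R).measure_ne_top
  refine ⟨(l + 1) * (2 ^ l * C * ν.real Set.univ), by positivity, fun ε hε hR η hη => ?_⟩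
  have tT := test_TT hK hε hR hη
  have tg : ∀ i, CTest 5 fun y => ‖iteratedFDeriv ℝ i η y‖ := fun i =>
    (hη.iteratedFDeriv i).ctest.norm
  set g : E → ℝ := fun y => ∑ i ∈ Finset.range (l + 1), ‖iteratedFDeriv ℝ i η y‖ with hg
  have g0 : ∀ y, 0 ≤ g y := fun y => Finset.sum_nonneg fun _ _ => norm_nonneg _
  have gt : CTest 5 g := ⟨continuous_finsetSum _ fun i _ => (tg i).1,
    fun y hy => Finset.sum_eq_zero fun i _ => (tg i).2 y hy⟩
  have gH : nL2 g ≤ Hn l η := by
    have := nL2_le_sum (Finset.range (l + 1)) (f := g) zero_le_one (fun i _ => tg i)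
      fun y => by rw [one_mul, Real.norm_of_nonneg (g0 y)]
    simpa only [one_mul, nL2_norm, Hn] using this
  have key : ∀ j ∈ Finset.range (l + 1), nL2 (iteratedFDeriv ℝ j (TT K R ε η)) ≤
      2 ^ l * C * ν.real Set.univ * Hn l η := fun j hj => by
    have hjl : j ≤ l := Nat.lt_succ_iff.1 (Finset.mem_range.1 hj)
    refine (nL2_young ν (a := fun p : E × ℝ => (p.2 * ε) • p.1) (by fun_prop) gt g0
      (by positivity) fun y => ?_).trans (mul_le_mul_of_nonneg_left gH (by positivity))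
    by_cases hy : 6 < ‖y‖
    · rw [(tT.iteratedFDeriv j).2 y hy, norm_zero]
      exact mul_nonneg (by positivity) (integral_nonneg fun p => g0 _)
    have ci : Continuous fun p : E × ℝ => 2 ^ l * C * g (y + (p.2 * ε) • p.1) := by
      have := gt.1
      fun_prop
    rw [← integral_const_mul]
    refine (congrArg _ (iteratedFDeriv_setInt (kap_smooth hK ε hη.1) volume (cpt R) j y)).trans_le
      (norm_integral_le_of_norm_le (ci.continuousOn.integrableOn_compact (cpt R))
        (ae_of_all _ fun p => ?_))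
    have hs := (sker3 hK).smooth
    have h1 := hη.1
    refine (norm_iteratedFDeriv_clm_apply (f := fun y' => K3 K (0, y', p.1))
      (g := fun y' => η (y' + (p.2 * ε) • p.1)) (N := ∞) (by fun_prop) (by fun_prop) y
      (by exact_mod_cast le_top)).trans ?_
    have h2 : ∀ i ∈ Finset.range (j + 1), (j.choose i : ℝ) *
        ‖iteratedFDeriv ℝ i (fun y' => K3 K (0, y', p.1)) y‖ *
        ‖iteratedFDeriv ℝ (j - i) (fun y' => η (y' + (p.2 * ε) • p.1)) y‖ ≤
        j.choose i * (C * g (y + (p.2 * ε) • p.1)) := fun i hi => by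
      rw [mul_assoc, iteratedFDeriv_comp_add_right]
      refine mul_le_mul_of_nonneg_left (mul_le_mul
        (h 0 ⟨le_rfl, zero_le_one⟩ i ((Nat.lt_succ_iff.1 (Finset.mem_range.1 hi)).trans hjl) y
          (mem_closedBall_zero_iff.2 (not_lt.1 hy)) p.1) ?_ (norm_nonneg _) hC) (Nat.cast_nonneg _)
      exact Finset.single_le_sum (f := fun i => ‖iteratedFDeriv ℝ i η (y + (p.2 * ε) • p.1)‖)
        (fun _ _ => norm_nonneg _) (Finset.mem_range.2 (by omega))
    refine (Finset.sum_le_sum h2).trans ?_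
    rw [← Finset.sum_mul, ← Nat.cast_sum, Nat.sum_range_choose, mul_assoc]
    refine mul_le_mul_of_nonneg_right ?_ (mul_nonneg hC (g0 _))
    exact_mod_cast Nat.pow_le_pow_right two_pos hjl
  refine (Finset.sum_le_card_nsmul _ _ _ key).trans (le_of_eq ?_)
  rw [Finset.card_range, nsmul_eq_mul]
  push_cast
  ring

theorem TT_eq (hK : SKer K R) (ε : ℝ) {θ : E → W} (hθ : ContDiff ℝ ∞ θ) (y : E) :
    ε • TT K R ε (fderiv ℝ θ) y =
      ∫ z in closedBall (0 : E) R, K (0, y, z) (θ (y + ε • z) - θ y) := by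
  have hs := (kap_smooth hK ε (hθ.fderiv_right (m := ∞) (by simp))).continuous
  have c1 : Continuous fun p : E × ℝ => kap K ε (fderiv ℝ θ) (y, p) := by fun_prop
  rw [TT, Measure.volume_eq_prod, setIntegral_prod _ (c1.continuousOn.integrableOn_compact (cpt R)),
    ← integral_smul]
  refine integral_congr_ae (ae_of_all _ fun z => ?_)
  have d1 : ∀ t : ℝ, HasDerivAt (fun t : ℝ => K (0, y, z) (θ (y + (t * ε) • z)))
      (ε • kap K ε (fderiv ℝ θ) (y, z, t)) t := fun t => by
    have a1 : HasDerivAt (fun t : ℝ => y + (t * ε) • z) (ε • z) t := by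
      simpa using (((hasDerivAt_id t).mul_const ε).smul_const z).const_add y
    have a2 := (K (0, y, z)).hasFDerivAt.comp_hasDerivAt t
      (((hθ.differentiable (by simp)) _).hasFDerivAt.comp_hasDerivAt t a1)
    rw [map_smul, map_smul] at a2
    exact a2
  have c2 : Continuous fun t : ℝ => ε • kap K ε (fderiv ℝ θ) (y, z, t) := by fun_prop
  have h3 := intervalIntegral.integral_eq_sub_of_hasDerivAt (a := 0) (b := 1) (fun t _ => d1 t)
    (c2.intervalIntegrable _ _)
  rw [intervalIntegral.integral_of_le zero_le_one, ← integral_Icc_eq_integral_Ioc, integral_smul,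
    one_mul, zero_mul, zero_smul, add_zero, ← map_sub] at h3
  exact h3

theorem near (hK : IsKer K R N ε₀) {ε : ℝ} (hε : ε ∈ Set.Icc 0 ε₀) {x z : E}
    (hx : x ∈ closedBall (0 : E) 1) (hz : z ∈ closedBall (0 : E) R) : ‖x - ε • z‖ ≤ 5 := by
  have h1 := norm_sub_le x (ε • z)
  rw [norm_smul, Real.norm_of_nonneg hε.1] at h1
  have h2 := mul_le_mul hε.2 (mem_closedBall_zero_iff.1 hz) (norm_nonneg _) hK.epos.le
  have h3 := mem_closedBall_zero_iff.1 hx
  have h4 := hK.eR
  have h5 := hK.epos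
  linarith

/-- The adjoint kernel paired with a form. -/
noncomputable def psi (K : ℝ × E × E → W →L[ℝ] W) (F : E → W) (q : ℝ × E × E) : W →L[ℝ] ℝ :=
  innerSL ℝ (hstar (F (q.2.1 - q.1 • q.2.2))) ∘L K (q.1, q.2.1 - q.1 • q.2.2, q.2.2)

theorem psi_apply (F : E → W) (t : ℝ) (x z : E) (w : W) :
    psi K F (t, x, z) w = wedge (K (t, x - t • z, z) w) (F (x - t • z)) := by
  rw [wedge_eq_inner, real_inner_comm, psi, ContinuousLinearMap.comp_apply, innerSL_apply_apply]

theorem psi_cont (hK : IsKer K R N ε₀) {F : E → W} (hF : ContinuousOn F (ball 0 10)) :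
    ContinuousOn (psi K F) (Set.Icc 0 ε₀ ×ˢ closedBall (0 : E) 1 ×ˢ closedBall (0 : E) R) := by
  have hsc := hK.smooth.continuous
  have c1 : ContinuousOn (fun q : ℝ × E × E => F (q.2.1 - q.1 • q.2.2))
      (Set.Icc 0 ε₀ ×ˢ closedBall (0 : E) 1 ×ˢ closedBall (0 : E) R) :=
    hF.comp (f := fun q : ℝ × E × E => q.2.1 - q.1 • q.2.2) (by fun_prop) fun q hq =>
      mem_ball_zero_iff.2 (by linarith [near hK hq.1 hq.2.1 hq.2.2])
  have c2 : Continuous fun q : ℝ × E × E => K (q.1, q.2.1 - q.1 • q.2.2, q.2.2) := by fun_prop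
  exact ContinuousOn.clm_comp
    (((innerSL ℝ).continuous.comp hstar.continuous).comp_continuousOn c1) c2.continuousOn

theorem psi_int (hK : IsKer K R N ε₀) (F : E → W) {ε : ℝ} (hε0 : 0 < ε) (m1 : ε ∈ Set.Icc 0 ε₀)
    {x : E} (hx : x ∈ closedBall (0 : E) 1) (w : W) :
    ∫ y, wedge (kerAt K (bp 5 6) ε x w y) (F y) =
      ∫ z in closedBall (0 : E) R, psi K F (ε, x, z) w := by
  have a1 := Measure.integral_comp_smul volume
    (fun y => wedge (kerAt K (bp 5 6) ε x w (x - y)) (F (x - y))) ε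
  rw [integral_sub_left_eq_self (fun y => wedge (kerAt K (bp 5 6) ε x w y) (F y)),
    finrank_euclideanSpace_fin, abs_of_pos (by positivity), smul_eq_mul,
    eq_inv_mul_iff_mul_eq₀ (by positivity), ← integral_const_mul] at a1
  rw [← a1, ← setIntegral_eq_integral_of_forall_compl_eq_zero (s := closedBall (0 : E) R)
    fun z hz => by
      rw [kerAt, sub_sub_cancel, inv_smul_smul₀ hε0.ne', hK.supp _ _ z (by simpa using hz)]
      simp [wedge_zero_left]]
  refine setIntegral_congr_fun measurableSet_closedBall fun z hz => ?_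
  rw [psi_apply, kerAt, sub_sub_cancel, inv_smul_smul₀ hε0.ne',
    bp_eq_one (by norm_num) (by norm_num) (near hK m1 hx hz), wedge_smul_left, one_mul,
    mul_inv_cancel_left₀ (by positivity)]

theorem psi_zero (hK : IsKer K R N ε₀) (F : E → W) {x : E} (hx : x ∈ closedBall (0 : E) 1)
    (w : W) : wedge w (F x) = ∫ z in closedBall (0 : E) R, psi K F (0, x, z) w := by
  have hsc := hK.smooth.continuous
  have c1 : Continuous fun z : E => K (0, x, z) w := by fun_prop
  simp only [psi, zero_smul, sub_zero, ContinuousLinearMap.comp_apply]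
  rw [ContinuousLinearMap.integral_comp_comm _
    (c1.continuousOn.integrableOn_compact (isCompact_closedBall _ _)),
    int_zero hK (closedBall_subset_closedBall (by norm_num) hx), wedge_eq_inner, real_inner_comm,
    innerSL_apply_apply]

end KerDAux

open KerDAux

/-- For `‖y‖ ≤ 6`, since `∫ K(0, y, z) dz = id`:
`Kop K ε θ y - θ y = ε • Kop K₂ ε θ y + ∫ K(0, y, z) (θ (y + ε z) - θ y) dz` with `K₂` from
`hadamard` applied to `K(ε) - K(0)`; both sides vanish for `‖y‖ > 5 + 1/4`. The last term is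
`ε ∫_{z} ∫₀¹ K(0, y, z) (Dθ(y + t ε z) z)`: bound its derivatives pointwise
(`iteratedFDeriv_setInt` on `Icc 0 1 ×ˢ closedBall 0 R`) and use `nL2_young`. -/
theorem IsKer.Hn_sub_le (hK : IsKer K R N ε₀) (l : ℕ) : ∃ C : ℝ, 0 ≤ C ∧
    ∀ ε ∈ Set.Ioo 0 ε₀, ∀ θ : E → W, Test 5 θ →
      Hn l (θ - Kop K ε θ) ≤ C * ε * Hn (l + 1) θ := by
  have hs := hK.smooth
  obtain ⟨K₂, s2, e2, z2⟩ := hadamard (f := fun q : ℝ × E × E => K q - K (0, q.2)) (by fun_prop)
    fun y => sub_self _
  have h2 : SKer K₂ R := ⟨s2, fun ε y z hz => z2 (y, z) (fun t => by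
    dsimp only
    rw [hK.supp _ _ _ hz, hK.supp _ _ _ hz, sub_self]) ε, hK.Rpos⟩
  obtain ⟨C₁, c1, b1⟩ := h2.Hn_kop_le l
  obtain ⟨C₂, c2, b2⟩ := Hn_TT hK.toSKer l
  refine ⟨C₁ + C₂, by positivity, fun ε hε θ hθ => ?_⟩
  have hε0 := hε.1
  have hR : R * ε ≤ 1 / 4 := by linarith [hK.R_mul_le hε]
  have hε1 : ε ≤ 1 := by linarith [hε.2, hK.eps_le_one]
  have t1 : Test 6 (Kop K₂ ε θ) := (h2.kop_test hε0.le hθ).mono (by linarith)
  have t2 := test_TT hK.toSKer hε0.le (by linarith) hθ.fderiv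
  have e : θ - Kop K ε θ = (-ε) • (Kop K₂ ε θ + TT K R ε (fderiv ℝ θ)) := by
    funext y
    rw [Pi.sub_apply, Pi.smul_apply, Pi.add_apply]
    by_cases hy : 6 < ‖y‖
    · rw [hθ.2 y (by linarith), (hK.toSKer.kop_test hε0.le hθ).2 y (by linarith), t1.2 y hy,
        t2.2 y hy]
      simp
    have hc := hθ.1.continuous
    have hsc := hs.continuous
    have s2c := s2.continuous
    have i1 : ∀ {f : E → W}, Continuous f → IntegrableOn f (closedBall (0 : E) R) := fun hf =>
      hf.continuousOn.integrableOn_compact (isCompact_closedBall _ _)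
    rw [neg_smul, smul_add, TT_eq hK.toSKer ε hθ.1, h2.kop_eq_setIntegral, ← integral_smul,
      ← integral_add (i1 (by fun_prop)) (i1 (by fun_prop)), hK.toSKer.kop_eq_setIntegral,
      ← neg_sub, neg_inj]
    conv_lhs => rw [← int_zero hK (mem_closedBall_zero_iff.2 (not_lt.1 hy)) (θ y)]
    rw [← integral_sub (i1 (by fun_prop)) (i1 (by fun_prop))]
    refine integral_congr_ae (ae_of_all _ fun z => ?_)
    have e3 := congrArg (fun A : W →L[ℝ] W => A (θ (y + ε • z))) (e2 ε (y, z))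
    simp only [sub_apply, smul_apply] at e3
    dsimp only
    rw [← e3, map_sub]
    abel
  rw [e, Hn_smul (t1.add t2), abs_neg, abs_of_pos hε0, mul_comm (C₁ + C₂), mul_assoc, add_mul]
  refine mul_le_mul_of_nonneg_left ((Hn_add_le t1 t2 l).trans (add_le_add ?_ ?_)) hε0.le
  · exact (b1 ε ⟨hε0.le, hε1⟩ θ hθ).trans
      (mul_le_mul_of_nonneg_left (Hn_mono (Nat.le_succ l) θ) c1)
  · exact (b2 ε hε0.le (by linarith) _ hθ.fderiv).trans
      (mul_le_mul_of_nonneg_left (Hn_fderiv_le l θ) c2)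

/-- Uniform convergence of the adjoint kernel on a continuous form: substitute `y = x - ε z`, use
uniform continuity on compact sets and `∫ K(0, x, z) dz = id`. -/
theorem IsKer.tendsto_wedge (hK : IsKer K R N ε₀) {F : E → W}
    (hF : ContinuousOn F (ball 0 10)) {η : ℝ} (hη : 0 < η) : ∃ ε₁ > 0, ∀ ε ∈ Set.Ioo 0 ε₁,
      ∀ x ∈ closedBall (0 : E) 1, ∀ w : W,
        |(∫ y, wedge (kerAt K (bp 5 6) ε x w y) (F y)) - wedge w (F x)| ≤ η * ‖w‖ := by
  have hε₀ := hK.epos
  have cS : IsCompact (Set.Icc 0 ε₀ ×ˢ closedBall (0 : E) 1 ×ˢ closedBall (0 : E) R) :=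
    isCompact_Icc.prod ((isCompact_closedBall _ _).prod (isCompact_closedBall _ _))
  have cΨ := psi_cont hK hF
  have hV : 0 ≤ volume.real (closedBall (0 : E) R) := measureReal_nonneg
  obtain ⟨δ, hδ, hu⟩ := Metric.uniformContinuousOn_iff.1 (cS.uniformContinuousOn_of_continuous cΨ)
    (η / (volume.real (closedBall (0 : E) R) + 1)) (by positivity)
  refine ⟨min δ ε₀, lt_min hδ hε₀, fun ε hε x hx w => ?_⟩
  have hε0 := hε.1
  have m1 : ε ∈ Set.Icc 0 ε₀ := ⟨hε0.le, (hε.2.trans_le (min_le_right _ _)).le⟩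
  have m0 : (0 : ℝ) ∈ Set.Icc 0 ε₀ := ⟨le_rfl, hε₀.le⟩
  have i1 : ∀ t ∈ Set.Icc 0 ε₀,
      IntegrableOn (fun z => psi K F (t, x, z) w) (closedBall (0 : E) R) := fun t ht =>
    ContinuousOn.integrableOn_compact (isCompact_closedBall _ _)
      ((cΨ.comp (f := fun z : E => (t, x, z)) (by fun_prop) fun z hz => ⟨ht, hx, hz⟩).clm_apply
        continuousOn_const)
  rw [psi_int hK F hε0 m1 hx, psi_zero hK F hx, ← integral_sub (i1 ε m1) (i1 0 m0)]
  refine (norm_setIntegral_le_of_norm_le_const (μ := volume)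
    (f := fun z => psi K F (ε, x, z) w - psi K F (0, x, z) w)
    (C := η / (volume.real (closedBall (0 : E) R) + 1) * ‖w‖)
    (isCompact_closedBall (0 : E) R).measure_lt_top fun z hz => ?_).trans ?_
  · have := hu (ε, x, z) ⟨m1, hx, hz⟩ (0, x, z) ⟨m0, hx, hz⟩ (by
      simpa [Prod.dist_eq, abs_of_pos hε0, hδ] using hε.2.trans_le (min_le_left _ _))
    rw [dist_eq_norm] at this
    rw [← sub_apply]
    exact ContinuousLinearMap.le_of_opNorm_le _ this.le w
  · rw [mul_right_comm]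
    refine mul_le_mul_of_nonneg_right ?_ (norm_nonneg _)
    rw [div_mul_eq_mul_div, div_le_iff₀ (by positivity)]
    nlinarith

end Vale.Agent.P204
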