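import Vale.Agent.P204.KerD

/-! Iterating `1 - Kop`. -/

open scoped ContDiff RealInnerProductSpace Topology
open MeasureTheory Metric

namespace Vale.Agent.P204

/-- The remainder operator. -/
noncomputable def rem (K : ℝ × E × E → W →L[ℝ] W) (ε : ℝ) (θ : E → W) : E → W := θ - Kop K ε θ

variable {K : ℝ × E × E → W →L[ℝ] W} {R N ε₀ : ℝ}

theorem rem_telescope (K : ℝ × E × E → W →L[ℝ] W) (ε : ℝ) (θ : E → W) (n : ℕ) :
    θ = (∑ j ∈ Finset.range n, Kop K ε ((rem K ε)^[j] θ)) + (rem K ε)^[n] θ := by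
  induction n with
  | zero => simp
  | succ n ih =>
    rw [Finset.sum_range_succ, Function.iterate_succ_apply', rem, add_assoc, add_sub_cancel]
    exact ih

theorem SKer.test_rem_iter (hK : SKer K R) {ε r : ℝ} (hε : 0 ≤ ε) {θ : E → W} (hθ : Test r θ)
    (j : ℕ) : Test (r + j * (R * ε)) ((rem K ε)^[j] θ) := by
  induction j with
  | zero => simpa using hθ
  | succ j ih =>
    have h0 : 0 ≤ R * ε := mul_nonneg hK.Rpos hε
    have e : r + ((j + 1 : ℕ) : ℝ) * (R * ε) = r + j * (R * ε) + R * ε := by push_cast; ring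
    rw [Function.iterate_succ_apply', e]
    exact (ih.mono (by linarith)).sub (hK.kop_test hε ih)

namespace KerIterAux

theorem eps_le (hK : IsKer K R N ε₀) : ε₀ ≤ 1 / 4 := by
  have h1 := hK.eR
  have h2 := mul_nonneg hK.epos.le hK.Rpos
  linarith

theorem step (hK : IsKer K R N ε₀) (m : ℕ) : ∃ A : ℝ, 1 ≤ A ∧ ∀ l ≤ m, ∀ ε ∈ Set.Ioo 0 ε₀,
    ∀ φ : E → W, Test 5 φ →
      Hn l (rem K ε φ) ≤ A * Hn l φ ∧ Hn l (rem K ε φ) ≤ A * ε * Hn (l + 1) φ := by
  choose C₁ h₁ h₁' using fun l => hK.toSKer.Hn_kop_le l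
  choose C₂ h₂ h₂' using fun l => hK.Hn_sub_le l
  have hs : ∀ l ≤ m, C₁ l + C₂ l ≤ ∑ l ∈ Finset.range (m + 1), (C₁ l + C₂ l) := fun l hl =>
    Finset.single_le_sum (f := fun l => C₁ l + C₂ l) (fun l _ => add_nonneg (h₁ l) (h₂ l))
      (Finset.mem_range.2 (Nat.lt_succ_of_le hl))
  refine ⟨1 + ∑ l ∈ Finset.range (m + 1), (C₁ l + C₂ l), by
    linarith [hs 0 (Nat.zero_le m), h₁ 0, h₂ 0], fun l hl ε hε φ hφ => ⟨?_, ?_⟩⟩
  · have h0 : 0 ≤ R * ε := mul_nonneg hK.Rpos hε.1.le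
    have k1 := Hn_sub_le (hφ.mono (by linarith : (5 : ℝ) ≤ 5 + R * ε))
      (hK.toSKer.kop_test hε.1.le hφ) l
    have k2 := h₁' l ε ⟨hε.1.le, by linarith [hε.2, eps_le hK]⟩ φ hφ
    have k3 : (1 + C₁ l) * Hn l φ ≤
        (1 + ∑ l ∈ Finset.range (m + 1), (C₁ l + C₂ l)) * Hn l φ :=
      mul_le_mul_of_nonneg_right (by linarith [hs l hl, h₂ l]) (Hn_nonneg _ _)
    unfold rem
    linarith
  · refine (h₂' l ε hε φ hφ).trans (mul_le_mul_of_nonneg_right
      (mul_le_mul_of_nonneg_right (by linarith [hs l hl, h₁ l]) hε.1.le) (Hn_nonneg _ _))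

theorem geom {u : ℕ → ℝ} {D B : ℝ} (h1 : ∀ j, |u j - u (j + 1)| ≤ D * (1 / 2) ^ j)
    (h2 : ∀ j, |u (j + 1)| ≤ B * (1 / 2) ^ j) : |u 0| ≤ 2 * D := by
  have ht : Filter.Tendsto u Filter.atTop (𝓝 0) := by
    rw [← Filter.tendsto_add_atTop_iff_nat 1]
    refine squeeze_zero_norm h2 ?_
    simpa using (tendsto_pow_atTop_nhds_zero_of_lt_one (r := (1 / 2 : ℝ)) (by norm_num)
      (by norm_num)).const_mul B
  have := dist_le_of_le_geometric_two_of_tendsto₀ (C := 2 * D) (f := u) (fun j => by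
    rw [Real.dist_eq]
    refine (h1 j).trans (le_of_eq ?_)
    rw [one_div, inv_pow]
    field_simp) ht
  rwa [Real.dist_eq, sub_zero] at this

end KerIterAux

open KerIterAux

/-- Induction on `j`: each application of `rem` either is bounded on `Hn` (`Hn_kop_le`) or gains
a factor `ε` and costs one derivative (`Hn_sub_le`). -/
theorem IsKer.Hn_rem_iter_le (hK : IsKer K R N ε₀) (n L : ℕ) : ∃ C : ℝ, 0 ≤ C ∧
    ∀ ε ∈ Set.Ioo 0 ε₀, ∀ (r : ℝ) (θ : E → W), Test r θ → r + n * (R * ε) ≤ 5 →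
      ∀ j ≤ n, ∀ i ≤ j, ∀ l ≤ L, Hn l ((rem K ε)^[j] θ) ≤ C * ε ^ i * Hn (l + i) θ := by
  obtain ⟨A, hA, hs⟩ := step hK (L + n)
  refine ⟨A ^ n, by positivity, fun ε hε r θ hθ hr => ?_⟩
  have hε0 := hε.1
  have h0 : 0 ≤ R * ε := mul_nonneg hK.Rpos hε.1.le
  have key : ∀ j ≤ n, ∀ i ≤ j, ∀ l, l + j ≤ L + n →
      Hn l ((rem K ε)^[j] θ) ≤ A ^ j * ε ^ i * Hn (l + i) θ := by
    intro j
    induction j with
    | zero =>
      intro _ i hi l _
      obtain rfl : i = 0 := by omega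
      simp
    | succ j ih =>
      intro hj i hi l hl
      have ht : Test 5 ((rem K ε)^[j] θ) := (hK.toSKer.test_rem_iter hε.1.le hθ j).mono (by
        have : (j : ℝ) ≤ n := by exact_mod_cast (by omega : j ≤ n)
        nlinarith)
      obtain ⟨s1, s2⟩ := hs l (by omega) ε hε _ ht
      rw [Function.iterate_succ_apply']
      cases i with
      | zero =>
        refine s1.trans ((mul_le_mul_of_nonneg_left (ih (by omega) 0 (by omega) l (by omega))
          (by positivity)).trans (le_of_eq ?_))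
        ring
      | succ i =>
        refine s2.trans ((mul_le_mul_of_nonneg_left
          (ih (by omega) i (by omega) (l + 1) (by omega)) (by positivity)).trans (le_of_eq ?_))
        rw [show l + 1 + i = l + (i + 1) by ring]
        ring
  intro j hj i hi l hl
  refine (key j hj i hi l (by omega)).trans ?_
  have := Hn_nonneg (l + i) θ
  gcongr

/-- Lowering the order. Let `ε_j = t₂ λ^{-j}`, `θ₀ = θ`, `θ_{j+1} = (rem K ε_{j+1})^[n] θ_j`
(all are test forms of radius at most 2 when `t₂` is small). By `rem_telescope`, `nrm_kop_le`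
and `Hn_rem_iter_le`: `|L θ_j - L θ_{j+1}| ≤ C a ε_{j+1}^{-p} nL2 θ_j`,
`nL2 θ_j ≤ C^j ε_j^{p+1} Hn (p+1) θ` for `j ≥ 1`, and
`|L θ_j| ≤ C a Hn n θ_j ≤ C a C^j ε_j Hn (n+1) θ → 0`. Choose `λ = 2 C + 2`. -/
theorem IsKer.lower_order (hK : IsKer K R N ε₀) {n p : ℕ} (hp : p + 1 ≤ n) {t₁ : ℝ}
    (ht₁ : 0 < t₁) : ∃ C : ℝ, 0 ≤ C ∧ ∀ (L : LF) (a : ℝ), 0 ≤ a →
      (∀ t ∈ Set.Ioc 0 t₁, LBd n L t 2 (a * (t ^ p)⁻¹)) →
      ∀ θ, Test 1 θ → |L θ| ≤ C * a * Hn (p + 1) θ := by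
  obtain ⟨C, hC, hI⟩ := hK.Hn_rem_iter_le n (n + 1)
  obtain ⟨Ck, hCk, hk⟩ := hK.toSKer.nrm_kop_le n
  have hR := hK.Rpos
  have hε₀ := hK.epos
  have hε₄ := eps_le hK
  obtain ⟨q, hq0, hq1, hq2⟩ : ∃ q : ℝ, 0 < q ∧ q ≤ 1 / 2 ∧ C * q ≤ 1 / 2 := by
    refine ⟨1 / (2 * C + 2), by positivity, ?_, ?_⟩
    · exact one_div_le_one_div_of_le (by norm_num) (by linarith)
    · rw [mul_one_div, div_le_iff₀ (by positivity)]; linarith
  obtain ⟨t, ht0, ht1, ht2, ht3⟩ : ∃ t : ℝ, 0 < t ∧ t ≤ t₁ ∧ t < ε₀ ∧ n * R * t ≤ 1 := by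
    refine ⟨min (min t₁ (ε₀ / 2)) (1 / (n * R + 1)), by positivity,
      (min_le_left _ _).trans (min_le_left _ _),
      ((min_le_left _ _).trans (min_le_right _ _)).trans_lt (by linarith), ?_⟩
    refine (mul_le_mul_of_nonneg_left (min_le_right _ _) (by positivity)).trans ?_
    rw [mul_one_div, div_le_one (by positivity)]
    linarith
  refine ⟨2 * (n * Ck * C * ((t * q) ^ p)⁻¹), by positivity, fun L a ha hL θ hθ => ?_⟩
  have hqj : ∀ j : ℕ, q ^ j ≤ 1 := fun j => pow_le_one₀ hq0.le (by linarith)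
  have hCq : ∀ j : ℕ, C ^ j * q ^ j ≤ (1 / 2) ^ j := fun j => by
    rw [← mul_pow]
    exact pow_le_pow_left₀ (by positivity) hq2 j
  have he0 : ∀ j : ℕ, 0 < t * q ^ j := fun j => by positivity
  have he1 : ∀ j : ℕ, t * q ^ j ≤ t := fun j => mul_le_of_le_one_right ht0.le (hqj j)
  have he : ∀ j : ℕ, t * q ^ j ∈ Set.Ioo 0 ε₀ := fun j => ⟨he0 j, (he1 j).trans_lt ht2⟩
  obtain ⟨φ, hφ0, hφ⟩ : ∃ φ : ℕ → E → W, φ 0 = θ ∧
      ∀ j, φ (j + 1) = (rem K (t * q ^ (j + 1)))^[n] (φ j) :=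
    ⟨fun j => Nat.rec θ (fun j ψ => (rem K (t * q ^ (j + 1)))^[n] ψ) j, rfl, fun _ => rfl⟩
  have hrad : ∀ j : ℕ, 2 - q ^ j + n * (R * (t * q ^ (j + 1))) ≤ 2 - q ^ (j + 1) := by
    intro j
    have h1 : 0 < q ^ j := by positivity
    have h2 : n * (R * (t * q ^ (j + 1))) = n * R * t * q ^ (j + 1) := by ring
    have h3 : n * R * t * q ^ (j + 1) ≤ q ^ (j + 1) :=
      mul_le_of_le_one_left (by positivity) ht3
    have h4 : q ^ (j + 1) ≤ q ^ j / 2 := by rw [pow_succ]; nlinarith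
    linarith
  have htest : ∀ j, Test (2 - q ^ j) (φ j) := by
    intro j
    induction j with
    | zero => rw [hφ0, pow_zero]; exact hθ.mono (by norm_num)
    | succ j ih => rw [hφ]; exact (hK.toSKer.test_rem_iter (he0 _).le ih n).mono (hrad j)
  have hI' : ∀ j : ℕ, ∀ m ≤ n, ∀ i ≤ m, ∀ l ≤ n + 1,
      Hn l ((rem K (t * q ^ (j + 1)))^[m] (φ j)) ≤ C * (t * q ^ (j + 1)) ^ i * Hn (l + i) (φ j) :=
    fun j => hI _ (he _) _ _ (htest j) ((hrad j).trans (by
      have : 0 < q ^ (j + 1) := by positivity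
      linarith))
  have hgrow : ∀ l ≤ n + 1, ∀ j : ℕ, Hn l (φ j) ≤ C ^ j * Hn l θ := by
    intro l hl j
    induction j with
    | zero => simp [hφ0]
    | succ j ih =>
      have := hI' j n le_rfl 0 (Nat.zero_le n) l hl
      rw [pow_zero, mul_one, add_zero, ← hφ] at this
      refine this.trans ((mul_le_mul_of_nonneg_left ih hC).trans (le_of_eq ?_))
      ring
  have hH := Hn_nonneg (p + 1) θ
  have hl2 : ∀ j : ℕ, nL2 (φ j) ≤ C ^ j * (q ^ j) ^ (p + 1) * Hn (p + 1) θ := by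
    intro j
    cases j with
    | zero =>
      rw [hφ0, ← Hn_zero]
      simpa using Hn_mono (Nat.zero_le (p + 1)) θ
    | succ j =>
      have h1 := hI' j n le_rfl (p + 1) hp 0 (Nat.zero_le _)
      rw [zero_add, ← hφ, Hn_zero] at h1
      have h2 := hgrow (p + 1) (by omega) j
      have h3 : t * q ^ (j + 1) ≤ q ^ (j + 1) :=
        mul_le_of_le_one_left (by positivity) (by linarith)
      calc nL2 (φ (j + 1)) ≤ C * (t * q ^ (j + 1)) ^ (p + 1) * Hn (p + 1) (φ j) := h1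
        _ ≤ C * (q ^ (j + 1)) ^ (p + 1) * (C ^ j * Hn (p + 1) θ) := by
          have := Hn_nonneg (p + 1) (φ j)
          have := he0 (j + 1)
          gcongr
        _ = _ := by ring
  have hstep : ∀ j : ℕ, |L (φ j) - L (φ (j + 1))| ≤
      n * Ck * C * ((t * q) ^ p)⁻¹ * a * Hn (p + 1) θ * (1 / 2) ^ j := by
    intro j
    have e : L (φ j) - L (φ (j + 1)) = ∑ i ∈ Finset.range n,
        L (Kop K (t * q ^ (j + 1)) ((rem K (t * q ^ (j + 1)))^[i] (φ j))) := by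
      rw [hφ, sub_eq_iff_eq_add, ← map_sum, ← map_add, ← rem_telescope]
    have hεp := he0 (j + 1)
    have hb : ∀ i ∈ Finset.range n,
        |L (Kop K (t * q ^ (j + 1)) ((rem K (t * q ^ (j + 1)))^[i] (φ j)))| ≤
          a * ((t * q ^ (j + 1)) ^ p)⁻¹ * (Ck * (C * nL2 (φ j))) := by
      intro i hi
      have hi' : (i : ℝ) + 1 ≤ n := by exact_mod_cast Finset.mem_range.1 hi
      have t1 := hK.toSKer.test_rem_iter hεp.le (htest j) i
      have r0 : 0 ≤ R * (t * q ^ (j + 1)) := by positivity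
      have r1 : 2 - q ^ j + i * (R * (t * q ^ (j + 1))) + R * (t * q ^ (j + 1)) ≤ 2 := by
        have : 0 < q ^ (j + 1) := by positivity
        have := hrad j
        nlinarith
      refine (hL _ ⟨hεp, (he1 _).trans ht1⟩ _
        ((hK.toSKer.kop_test hεp.le t1).mono r1)).trans
        (mul_le_mul_of_nonneg_left ?_ (by positivity))
      refine (hk _ ⟨hεp, by linarith [he1 (j + 1)]⟩ _ (t1.mono (by linarith))).trans
        (mul_le_mul_of_nonneg_left ?_ hCk)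
      have := hI' j i (Finset.mem_range.1 hi).le 0 (Nat.zero_le _) 0 (Nat.zero_le _)
      rwa [pow_zero, mul_one, add_zero, Hn_zero, Hn_zero] at this
    rw [e]
    refine (Finset.abs_sum_le_sum_abs _ _).trans ((Finset.sum_le_card_nsmul _ _ _ hb).trans ?_)
    rw [Finset.card_range, nsmul_eq_mul]
    calc (n : ℝ) * (a * ((t * q ^ (j + 1)) ^ p)⁻¹ * (Ck * (C * nL2 (φ j))))
        ≤ n * (a * ((t * q ^ (j + 1)) ^ p)⁻¹ *
          (Ck * (C * (C ^ j * (q ^ j) ^ (p + 1) * Hn (p + 1) θ)))) := by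
          have := hl2 j
          gcongr
      _ = n * Ck * C * ((t * q) ^ p)⁻¹ * a * Hn (p + 1) θ * (C ^ j * q ^ j) := by
          rw [pow_succ q j, pow_succ (q ^ j) p, mul_pow, mul_pow, mul_pow]
          field_simp
      _ ≤ _ := mul_le_mul_of_nonneg_left (hCq j) (by positivity)
  have hsmall : ∀ j : ℕ, |L (φ (j + 1))| ≤
      a * (t ^ p)⁻¹ * ((n + 1) * Hn (n + 1) θ) * (1 / 2) ^ j := by
    intro j
    have h1 := hL t ⟨ht0, ht1⟩ _ ((htest (j + 1)).mono (by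
      have : 0 < q ^ (j + 1) := by positivity
      linarith))
    have h2 := hI' j n le_rfl 1 (by omega) n (by omega)
    rw [← hφ, pow_one] at h2
    have h3 := hgrow (n + 1) le_rfl j
    have hH' := Hn_nonneg (n + 1) θ
    have h4 : Hn n (φ (j + 1)) ≤ Hn (n + 1) θ * (1 / 2) ^ j :=
      calc Hn n (φ (j + 1)) ≤ C * (t * q ^ (j + 1)) * Hn (n + 1) (φ j) := h2
        _ ≤ C * (t * q ^ (j + 1)) * (C ^ j * Hn (n + 1) θ) := by
          have := he0 (j + 1)
          gcongr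
        _ = Hn (n + 1) θ * (C ^ j * q ^ j) * (t * (C * q)) := by ring
        _ ≤ Hn (n + 1) θ * (1 / 2) ^ j * 1 := by
          have := hCq j
          have : t * (C * q) ≤ 1 := mul_le_one₀ (by linarith) (by positivity) (by linarith)
          gcongr
        _ = _ := mul_one _
    have h5 : nrm n t (φ (j + 1)) ≤ (n + 1) * (Hn (n + 1) θ * (1 / 2) ^ j) :=
      nrm_le fun l hl => (mul_le_of_le_one_left (Hn_nonneg _ _)
        (pow_le_one₀ ht0.le (by linarith))).trans ((Hn_mono hl _).trans h4)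
    refine h1.trans ((mul_le_mul_of_nonneg_left h5 (by positivity)).trans (le_of_eq ?_))
    ring
  have := geom (u := fun j => L (φ j)) hstep hsmall
  rw [hφ0] at this
  refine this.trans (le_of_eq ?_)
  ring

end Vale.Agent.P204
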