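import Vale.Agent.P204.KerB

/-! Smoothing estimates for operators with a smooth kernel. -/

open scoped ContDiff RealInnerProductSpace Topology
open MeasureTheory Metric

namespace Vale.Agent.P204

section
variable {F : Type} [NormedAddCommGroup F] [NormedSpace ℝ F] {K : ℝ × E × E → F →L[ℝ] W}
  {R : ℝ}

theorem KerSAux.cv {G : Type} [NormedAddCommGroup G] [NormedSpace ℝ G] (f : E → G) {ε : ℝ}
    (hε : 0 < ε) (y : E) : ∫ z, f z = ∫ x, (ε ^ 4)⁻¹ • f (ε⁻¹ • (x - y)) := by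
  rw [integral_smul, integral_sub_right_eq_self (fun x => f (ε⁻¹ • x)) y,
    Measure.integral_comp_inv_smul_of_nonneg _ _ hε.le, finrank_euclideanSpace_fin,
    inv_smul_smul₀ (by positivity)]

theorem KerSAux.back {ε : ℝ} (hε : 0 < ε) (x y : E) : y + ε • ε⁻¹ • (x - y) = x := by
  rw [smul_inv_smul₀ hε.ne', add_sub_cancel]

theorem KerSAux.smo (hK : SKer K R) (ε : ℝ) (x : E) :
    ContDiff ℝ ∞ fun y => K (ε, y, ε⁻¹ • (x - y)) :=
  hK.smooth.comp (by fun_prop)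

theorem KerSAux.zero (hK : SKer K R) {ε : ℝ} {x y : E} (h : R < ‖ε⁻¹ • (x - y)‖) (j : ℕ) :
    iteratedFDeriv ℝ j (fun y' => K (ε, y', ε⁻¹ • (x - y'))) y = 0 := by
  have h1 : (fun y' => K (ε, y', ε⁻¹ • (x - y'))) =ᶠ[𝓝 y] fun _ => 0 := by
    filter_upwards [(isOpen_lt (f := fun _ => R) (g := fun y' : E => ‖ε⁻¹ • (x - y')‖)
      continuous_const (by fun_prop)).mem_nhds h] with y' hy' using hK.supp _ _ _ hy'
  rw [(h1.iteratedFDeriv ℝ j).eq_of_nhds]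
  simp

theorem KerSAux.inv_le {ε : ℝ} (hε : ε ∈ Set.Ioc (0 : ℝ) 1) {j l : ℕ} (h : j ≤ l) :
    (ε ^ j)⁻¹ ≤ (ε ^ l)⁻¹ :=
  inv_anti₀ (pow_pos hε.1 _) (pow_le_pow_of_le_one hε.1.le hε.2 h)

/-- The substitution `x = y + ε z` (`MeasureTheory.Measure.integral_comp_smul`, translation). -/
theorem kop_eq_integral (K : ℝ × E × E → F →L[ℝ] W) {ε : ℝ} (hε : 0 < ε) (θ : E → F) (y : E) :
    Kop K ε θ y = ∫ x, (ε ^ 4)⁻¹ • K (ε, y, ε⁻¹ • (x - y)) (θ x) := by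
  rw [Kop, KerSAux.cv _ hε y]
  simp only [KerSAux.back hε]

theorem KerSAux.affine {G : Type} [NormedAddCommGroup G] [NormedSpace ℝ G] {f : ℝ × E × E → G}
    (hf : ContDiff ℝ ∞ f) {ε : ℝ} (hε : ε ∈ Set.Ioc (0 : ℝ) 1) (j : ℕ) (x y : E) :
    ‖iteratedFDeriv ℝ j (fun y' => f (ε, y', ε⁻¹ • (x - y'))) y‖ ≤
      ‖iteratedFDeriv ℝ j f (ε, y, ε⁻¹ • (x - y))‖ * (ε ^ j)⁻¹ := by
  have e0 := hε.1
  obtain ⟨A, hA⟩ : ∃ A : E →L[ℝ] ℝ × E × E, ∀ v, A v = (0, v, -(ε⁻¹ • v)) :=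
    ⟨(0 : E →L[ℝ] ℝ).prod ((ContinuousLinearMap.id ℝ E).prod
      (-(ε⁻¹ • ContinuousLinearMap.id ℝ E))), fun _ => rfl⟩
  have nA : ‖A‖ ≤ ε⁻¹ := by
    refine A.opNorm_le_bound (by positivity) fun v => ?_
    have h1 : ‖v‖ ≤ ε⁻¹ * ‖v‖ :=
      le_mul_of_one_le_left (norm_nonneg _) ((one_le_inv₀ e0).2 hε.2)
    rw [hA, Prod.norm_mk, Prod.norm_mk, norm_zero, norm_neg, norm_smul, Real.norm_of_nonneg
      (r := ε⁻¹) (by positivity)]
    exact max_le (by positivity) (max_le h1 le_rfl)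
  obtain ⟨a, ha⟩ : ∃ a : ℝ × E × E, a = (ε, 0, ε⁻¹ • x) := ⟨_, rfl⟩
  have e1 : ∀ v, a + A v = (ε, v, ε⁻¹ • (x - v)) := fun v => by
    simp [ha, hA, sub_eq_add_neg]
  have e2 : (fun y' => f (ε, y', ε⁻¹ • (x - y'))) = (fun p => f (a + p)) ∘ A := by
    funext v
    rw [Function.comp_apply, e1]
  have sm : ContDiff ℝ ∞ fun p => f (a + p) := hf.comp (contDiff_const.add contDiff_id)
  rw [e2, A.iteratedFDeriv_comp_right sm y (Norms1Aux.nat_le j)]
  refine (ContinuousMultilinearMap.norm_compContinuousLinearMap_le _ _).trans ?_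
  rw [Finset.prod_const, Finset.card_univ, Fintype.card_fin, ← inv_pow,
    iteratedFDeriv_comp_add_left, e1]
  exact mul_le_mul_of_nonneg_left (pow_le_pow_left₀ (norm_nonneg _) nA j) (norm_nonneg _)

/-- `y ↦ (ε, y, ε⁻¹ (x - y))` is affine with linear part of norm at most `ε⁻¹`; the derivatives
of `K` are bounded on `Icc 0 1 × closedBall 0 r × E` (they vanish for `‖z‖ > R`). -/
theorem SKer.exists_scale_bound (hK : SKer K R) (l : ℕ) (r : ℝ) : ∃ C : ℝ, 0 ≤ C ∧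
    ∀ ε ∈ Set.Ioc (0 : ℝ) 1, ∀ j ≤ l, ∀ y ∈ closedBall (0 : E) r, ∀ x,
      ‖iteratedFDeriv ℝ j (fun y' => K (ε, y', ε⁻¹ • (x - y'))) y‖ ≤ C * (ε ^ j)⁻¹ := by
  have hc : IsCompact (Set.Icc (0 : ℝ) 1 ×ˢ closedBall (0 : E) r ×ˢ closedBall (0 : E) R) :=
    isCompact_Icc.prod ((isCompact_closedBall _ _).prod (isCompact_closedBall _ _))
  have H : ∀ j : ℕ, ∃ C : ℝ, ∀ p ∈ Set.Icc (0 : ℝ) 1 ×ˢ closedBall (0 : E) r ×ˢ
      closedBall (0 : E) R, ‖iteratedFDeriv ℝ j K p‖ ≤ C := fun j =>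
    hc.exists_bound_of_continuousOn (f := iteratedFDeriv ℝ j K)
      (hK.smooth.continuous_iteratedFDeriv (Norms1Aux.nat_le j)).continuousOn
  choose C hC using H
  refine ⟨∑ j ∈ Finset.range (l + 1), |C j|, by positivity, fun ε hε j hj y hy x => ?_⟩
  have e0 := hε.1
  by_cases hz : R < ‖ε⁻¹ • (x - y)‖
  · rw [KerSAux.zero hK hz, norm_zero]
    positivity
  refine (KerSAux.affine hK.smooth hε j x y).trans
    (mul_le_mul_of_nonneg_right ?_ (by positivity))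
  have h1 := hC j (ε, y, ε⁻¹ • (x - y)) ⟨⟨e0.le, hε.2⟩, hy,
    mem_closedBall_zero_iff.2 (not_lt.1 hz)⟩
  refine h1.trans ((le_abs_self _).trans ?_)
  exact Finset.single_le_sum (f := fun j => |C j|) (fun _ _ => abs_nonneg _)
    (Finset.mem_range.2 (Nat.lt_succ_of_le hj))

/-- Pointwise: `‖D^j (Kop K ε θ) y‖ ≤ C ε^{-j} ∫_{‖z‖ ≤ R} ‖θ (y + ε z)‖`; then `nL2_young`. -/
theorem SKer.Hn_kop_le_nL2 (hK : SKer K R) (l : ℕ) : ∃ C : ℝ, 0 ≤ C ∧
    ∀ ε ∈ Set.Ioc (0 : ℝ) 1, ∀ θ : E → F, Test 5 θ →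
      Hn l (Kop K ε θ) ≤ C * (ε ^ l)⁻¹ * nL2 θ := by
  obtain ⟨C, C0, hC⟩ := hK.exists_scale_bound l (5 + R)
  have fin : IsFiniteMeasure ((volume : Measure E).restrict (closedBall 0 R)) :=
    isFiniteMeasure_restrict.2 measure_closedBall_lt_top.ne
  refine ⟨(l + 1) * (C * ((volume : Measure E).restrict (closedBall 0 R)).real Set.univ),
    by positivity, fun ε hε θ hθ => ?_⟩
  have e0 := hε.1
  have e1 : Kop K ε θ = fun y => ∫ x in closedBall (0 : E) 5,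
      K (ε, y, ε⁻¹ • (x - y)) ((ε ^ 4)⁻¹ • θ x) := by
    funext y
    rw [kop_eq_integral K e0, setIntegral_eq_integral_of_forall_compl_eq_zero fun x hx => by
      rw [hθ.2 x (by simpa using hx), smul_zero, map_zero]]
    simp only [map_smul]
  have sm : ContDiff ℝ ∞ fun q : E × E =>
      K (ε, q.1, ε⁻¹ • (q.2 - q.1)) ((ε ^ 4)⁻¹ • θ q.2) :=
    (hK.smooth.comp (by fun_prop)).clm_apply ((hθ.1.comp contDiff_snd).const_smul _)
  have key : ∀ j ≤ l, ∀ y, ‖iteratedFDeriv ℝ j (Kop K ε θ) y‖ ≤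
      C * (ε ^ l)⁻¹ * ∫ z in closedBall (0 : E) R, ‖θ (y + ε • z)‖ := fun j hj y => by
    by_cases hy : 5 + R < ‖y‖
    · rw [((hK.kop_test e0.le hθ).iteratedFDeriv j).2 y
        (by nlinarith [hK.Rpos, hε.2]), norm_zero]
      exact mul_nonneg (by positivity) (integral_nonneg fun _ => norm_nonneg _)
    have mS : MeasurableSet {x : E | ‖ε⁻¹ • (x - y)‖ ≤ R} :=
      (isClosed_le (by fun_prop) continuous_const).measurableSet
    have i1 : Integrable fun x => C * (ε ^ l)⁻¹ *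
        ((ε ^ 4)⁻¹ • {x : E | ‖ε⁻¹ • (x - y)‖ ≤ R}.indicator (fun x => ‖θ x‖) x) :=
      (((hθ.ctest.norm.integrable volume).indicator mS).smul (ε ^ 4)⁻¹).const_mul _
    have e2 : ∫ z in closedBall (0 : E) R, ‖θ (y + ε • z)‖ = ∫ x,
        (ε ^ 4)⁻¹ • {x : E | ‖ε⁻¹ • (x - y)‖ ≤ R}.indicator (fun x => ‖θ x‖) x := by
      rw [← integral_indicator measurableSet_closedBall, KerSAux.cv _ e0 y]
      refine integral_congr_ae (ae_of_all _ fun x => ?_)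
      simp only [Set.indicator, mem_closedBall_zero_iff, Set.mem_ofPred_eq, KerSAux.back e0]
    rw [e1, iteratedFDeriv_setInt sm volume (isCompact_closedBall _ _), e2, ← integral_const_mul]
    refine (norm_integral_le_of_norm_le i1.integrableOn (ae_of_all _ fun x => ?_)).trans
      (setIntegral_le_integral i1 (ae_of_all _ fun x => ?_))
    · have h0 := norm_iteratedFDeriv_clm_apply_const (c := (ε ^ 4)⁻¹ • θ x)
        (KerSAux.smo hK ε x).contDiffAt (x := y) (Norms1Aux.nat_le j)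
      dsimp only
      refine h0.trans ?_
      by_cases hx : ‖ε⁻¹ • (x - y)‖ ≤ R
      · rw [Set.indicator_of_mem (s := {x : E | ‖ε⁻¹ • (x - y)‖ ≤ R}) hx, norm_smul,
          Real.norm_of_nonneg (by positivity), mul_comm]
        exact mul_le_mul_of_nonneg_right
          ((hC ε hε j hj y (mem_closedBall_zero_iff.2 (not_lt.1 hy)) x).trans
            (mul_le_mul_of_nonneg_left (KerSAux.inv_le hε hj) C0)) (by positivity)
      · rw [Set.indicator_of_notMem (s := {x : E | ‖ε⁻¹ • (x - y)‖ ≤ R}) hx,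
          KerSAux.zero hK (not_le.1 hx)]
        simp
    · exact mul_nonneg (by positivity) (smul_nonneg (by positivity)
        (Set.indicator_nonneg (fun _ _ => norm_nonneg _) _))
  refine (Norms2Aux.sum_le (M := C * (ε ^ l)⁻¹ *
    ((volume : Measure E).restrict (closedBall 0 R)).real Set.univ * nL2 θ)
    fun j hj => ?_).trans_eq (by ring)
  rw [← nL2_norm θ]
  exact nL2_young _ (a := fun z => ε • z) (by fun_prop) hθ.ctest.norm (fun _ => norm_nonneg _)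
    (by positivity) (key j hj)

theorem SKer.nrm_kop_le (hK : SKer K R) (n : ℕ) : ∃ C : ℝ, 0 ≤ C ∧
    ∀ ε ∈ Set.Ioc (0 : ℝ) 1, ∀ θ : E → F, Test 5 θ → nrm n ε (Kop K ε θ) ≤ C * nL2 θ := by
  choose C C0 hC using hK.Hn_kop_le_nL2
  refine ⟨(n + 1) * ∑ l ∈ Finset.range (n + 1), C l,
    mul_nonneg (by positivity) (Finset.sum_nonneg fun l _ => C0 l), fun ε hε θ hθ => ?_⟩
  rw [mul_assoc]
  refine nrm_le fun l hl => ?_
  have e0 := pow_pos hε.1 l
  refine (mul_le_mul_of_nonneg_left (hC l ε hε θ hθ) e0.le).trans ?_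
  rw [← mul_assoc, mul_left_comm, mul_inv_cancel₀ e0.ne', mul_one]
  exact mul_le_mul_of_nonneg_right (Finset.single_le_sum (fun l _ => C0 l)
    (Finset.mem_range.2 (Nat.lt_succ_of_le hl))) (nL2_nonneg θ)

end

variable {K : ℝ × E × E → W →L[ℝ] W} {R N ε₀ : ℝ}

theorem SKer.test_kerAt (hK : SKer K R) {c : E → ℝ} {r : ℝ} (hc : Test r c) (ε : ℝ) (x : E)
    (w : W) : Test r (kerAt K c ε x w) :=
  ⟨(hc.1.mul contDiff_const).smul ((KerSAux.smo hK ε x).clm_apply contDiff_const),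
    fun y hy => by rw [kerAt, hc.2 y hy, zero_mul, zero_smul]⟩

/-- Leibniz rule and `exists_scale_bound`. -/
theorem SKer.Ck_kerAt_le (hK : SKer K R) (k : ℕ) : ∃ C : ℝ, 0 ≤ C ∧
    ∀ ε ∈ Set.Ioc (0 : ℝ) 1, ∀ x w,
      Ck k (kerAt K (bp 5 6) ε x w) ≤ C * (ε ^ (k + 4))⁻¹ * ‖w‖ := by
  obtain ⟨C, C0, hC⟩ := hK.exists_scale_bound k 6
  have tb : Test 6 (bp 5 6) := test_bp (by norm_num) (by norm_num)
  obtain ⟨B, B0, hB⟩ := Calc0Aux.iter_le' tb.1 tb.2 k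
  refine ⟨(k + 1) * (2 ^ k * B * C), by positivity, fun ε hε x w => ?_⟩
  have e0 := hε.1
  refine (Ck_le (M := 2 ^ k * B * C * (ε ^ (k + 4))⁻¹ * ‖w‖) fun j hj y => ?_).trans_eq (by ring)
  by_cases hy : 6 < ‖y‖
  · rw [((hK.test_kerAt tb ε x w).iteratedFDeriv j).2 y hy, norm_zero]
    positivity
  have e1 : kerAt K (bp 5 6) ε x w =
      fun y => bp 5 6 y • K (ε, y, ε⁻¹ • (x - y)) ((ε ^ 4)⁻¹ • w) := by
    funext y
    rw [kerAt, map_smul, smul_smul]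
  rw [e1]
  refine (norm_iteratedFDeriv_smul_le tb.1 ((KerSAux.smo hK ε x).clm_apply contDiff_const) y
    (Norms1Aux.nat_le j)).trans ((Finset.sum_le_sum (g := fun i => (j.choose i : ℝ) *
      (B * C * (ε ^ (k + 4))⁻¹ * ‖w‖)) fun i hi => ?_).trans ?_)
  · have h1 := (norm_iteratedFDeriv_clm_apply_const (c := (ε ^ 4)⁻¹ • w)
      (KerSAux.smo hK ε x).contDiffAt (x := y) (Norms1Aux.nat_le (j - i))).trans
      (mul_le_mul_of_nonneg_left ((hC ε hε _ ((Nat.sub_le j i).trans hj) y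
        (mem_closedBall_zero_iff.2 (not_lt.1 hy)) x).trans (mul_le_mul_of_nonneg_left
          (KerSAux.inv_le hε ((Nat.sub_le j i).trans hj)) C0)) (norm_nonneg _))
    rw [norm_smul, Real.norm_of_nonneg (by positivity)] at h1
    rw [mul_assoc]
    refine mul_le_mul_of_nonneg_left ((mul_le_mul (hB i ((Nat.lt_succ_iff.1
      (Finset.mem_range.1 hi)).trans hj) y) h1 (norm_nonneg _) B0).trans_eq ?_) (by positivity)
    rw [pow_add, mul_inv]
    ring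
  · rw [← Finset.sum_mul, ← Nat.cast_sum, Nat.sum_range_choose]
    push_cast
    have : (2 : ℝ) ^ j ≤ 2 ^ k := pow_le_pow_right₀ one_le_two hj
    calc _ ≤ 2 ^ k * (B * C * (ε ^ (k + 4))⁻¹ * ‖w‖) := by gcongr
      _ = _ := by ring

theorem SKer.norm_kreg_le (hK : SKer K R) (k : ℕ) : ∃ C : ℝ, 0 ≤ C ∧
    ∀ (L : LF) (b : ℝ), 0 ≤ b → (∀ θ, Test 7 θ → |L θ| ≤ b * Ck k θ) →
      ∀ ε ∈ Set.Ioc (0 : ℝ) 1, ∀ x, ‖kreg K L ε x‖ ≤ C * b * (ε ^ (k + 4))⁻¹ := by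
  obtain ⟨C, C0, hC⟩ := hK.Ck_kerAt_le k
  have tb : Test 6 (bp 5 6) := test_bp (by norm_num) (by norm_num)
  refine ⟨6 * C, by positivity, fun L b b0 hL ε hε x => ?_⟩
  rw [kreg, regLoc]
  refine (norm_sum_le_of_le _ (n := fun _ => b * (C * (ε ^ (k + 4))⁻¹)) fun i _ => ?_).trans_eq ?_
  · have h1 := hC ε hε x (hstar (EuclideanSpace.single i 1))
    rw [norm_hstar, PiLp.norm_single, norm_one, mul_one] at h1
    rw [norm_smul, PiLp.norm_single, norm_one, mul_one]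
    exact (hL _ ((hK.test_kerAt tb ε x _).mono (by norm_num))).trans
      (mul_le_mul_of_nonneg_left h1 b0)
  · simp only [Finset.sum_const, Finset.card_univ, Fintype.card_fin, nsmul_eq_mul]
    push_cast
    ring

end Vale.Agent.P204
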