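import Vale.Agent.P204.LocAPI
import Vale.Agent.P204.Calc1

/-! The logarithmic test form is almost positive. -/

open scoped ContDiff RealInnerProductSpace Topology
open MeasureTheory Metric

namespace Vale.Agent.P204

variable {J : E → E →L[ℝ] E}

namespace LogPosAux

/-- The logarithmic one-form without cut-off. -/
noncomputable def p0 (K : E →L[ℝ] E) (x : E) (ε : ℝ) (y : E) : E →L[ℝ] ℝ :=
  -((fderiv ℝ (fun y' => Real.log (‖Aop K (y' - x)‖ ^ 2 + ε ^ 2)) y) ∘L K)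

/-- The model two-form. -/
noncomputable def ze (w : E) (ρ : ℝ) : W :=
  (4 / ρ) • om0 + (4 / ρ ^ 2) • w11 (innerSL ℝ w) (innerSL ℝ w ∘L J0)

variable {K : E →L[ℝ] E} {ε : ℝ}

theorem p0_smooth (K : E →L[ℝ] E) (x : E) (hε : 0 < ε) : ContDiff ℝ ∞ (p0 K x ε) :=
  (((((contDiff_norm_sq ℝ).comp ((Aop K).contDiff.comp (contDiff_id.sub contDiff_const))).add
    contDiff_const).log fun _ =>
      (add_pos_of_nonneg_of_pos (sq_nonneg _) (pow_pos hε 2)).ne').fderiv_right (m := ∞) le_rfl).clm_comp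
    contDiff_const |>.neg

theorem rho (A : E →L[ℝ] E) (x y : E) (ε : ℝ) : HasFDerivAt (fun y' => ‖A (y' - x)‖ ^ 2 + ε ^ 2)
    (2 • (innerSL ℝ (A (y - x))) ∘L A) y :=
  ((A.hasFDerivAt.comp y ((hasFDerivAt_id y).sub_const x)).norm_sq.add_const _).congr_fderiv
    (by ext; simp)

theorem p0_apply (hK : Near K) (x y v : E) (hε : 0 < ε) : p0 K x ε y v =
    -2 * ⟪J0 (Aop K v), Aop K (y - x)⟫ * (‖Aop K (y - x)‖ ^ 2 + ε ^ 2)⁻¹ := by
  rw [p0, ((rho (Aop K) x y ε).log (by positivity)).fderiv, real_inner_comm]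
  simp [Aop_J hK.1, -map_sub]
  ring

theorem ev_ze (w u v : E) (ρ : ℝ) : ev (ze w ρ) u v =
    4 / ρ * ⟪J0 u, v⟫ + 4 / ρ ^ 2 * (⟪w, u⟫ * ⟪w, J0 v⟫ - ⟪w, v⟫ * ⟪w, J0 u⟫) := by
  simp [ze, ev_add, ev_smul, ev_om0, ev_w11]

theorem d1_p0 (hK : Near K) (x y u v : E) (hε : 0 < ε) : ev (d1 (p0 K x ε) y) u v =
    ev (ze (Aop K (y - x)) (‖Aop K (y - x)‖ ^ 2 + ε ^ 2)) (Aop K u) (Aop K v) := by
  have h0 : ‖Aop K (y - x)‖ ^ 2 + ε ^ 2 ≠ 0 := by positivity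
  have h1 : ∀ u v, fderiv ℝ (p0 K x ε) y u v =
      -2 * ⟪J0 (Aop K v), Aop K u⟫ * (‖Aop K (y - x)‖ ^ 2 + ε ^ 2)⁻¹ +
        4 * ⟪Aop K (y - x), J0 (Aop K v)⟫ * ⟪Aop K (y - x), Aop K u⟫ /
          (‖Aop K (y - x)‖ ^ 2 + ε ^ 2) ^ 2 := fun u v => by
    have h2 := ((p0_smooth K x hε).differentiable (by simp) y).hasFDerivAt.clm_apply
      (hasFDerivAt_const v y)
    simp only [p0_apply hK _ _ _ hε] at h2
    have h3 := h2.unique ((((innerSL ℝ (J0 (Aop K v))).hasFDerivAt.comp y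
      ((Aop K).hasFDerivAt.comp y ((hasFDerivAt_id y).sub_const x))).const_mul (-2)).mul
      ((hasFDerivAt_inv h0).comp y (rho (Aop K) x y ε)))
    have h4 := congrArg (fun T : E →L[ℝ] ℝ => T u) h3
    simp at h4
    rw [h4, real_inner_comm (J0 (Aop K v)) (Aop K (y - x))]
    simp only [map_sub, inner_sub_left, inner_sub_right, real_inner_comm]
    ring
  rw [ev_d1, h1, h1, ev_ze, inner_J0_left (Aop K v), real_inner_comm (J0 (Aop K u))]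
  ring

theorem ze_low (w q : E) (hε : 0 < ε) :
    4 * ε ^ 2 * ‖q‖ ^ 2 / (‖w‖ ^ 2 + ε ^ 2) ^ 2 ≤ ev (ze w (‖w‖ ^ 2 + ε ^ 2)) q (J0 q) := by
  have h1 : ⟪w, q⟫ ^ 2 + ⟪w, J0 q⟫ ^ 2 ≤ ‖w‖ ^ 2 * ‖q‖ ^ 2 := by
    simp only [Alg1Aux.innerE, Alg1Aux.normE, Alg1Aux.j0, Alg1Aux.j1, Alg1Aux.j2, Alg1Aux.j3]
    nlinarith [sq_nonneg (w 0 * q 2 - w 1 * q 3 - w 2 * q 0 + w 3 * q 1),
      sq_nonneg (w 0 * q 3 + w 1 * q 2 - w 2 * q 1 - w 3 * q 0)]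
  rw [ev_ze, J0_J0, real_inner_self_eq_norm_sq, norm_J0_apply, inner_neg_right]
  field_simp
  nlinarith

theorem ze_near (w q e : E) (hε : 0 < ε) :
    2 * ε ^ 2 * ‖q‖ ^ 2 / (‖w‖ ^ 2 + ε ^ 2) ^ 2 - 16 * ‖e‖ ^ 2 / (‖w‖ ^ 2 + ε ^ 2) ≤
      ev (ze w (‖w‖ ^ 2 + ε ^ 2)) q (J0 q + e) := by
  have h1 := near_pos J0_J0 (ζ := ze w (‖w‖ ^ 2 + ε ^ 2)) (ext_ev fun u v => by
    simp only [ev_pull, ev_ze, J0_J0, inner_neg_left, inner_neg_right, inner_J0_left u]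
    ring) (fun b => le_trans (by positivity) (ze_low w b hε)) q e
  have h2 : ‖innerSL ℝ w ∘L J0‖ ≤ ‖w‖ := (ContinuousLinearMap.opNorm_comp_le _ _).trans (by
    rw [innerSL_apply_norm]; exact mul_le_of_le_one_right (norm_nonneg _) norm_J0_le)
  have h3 : ‖ze w (‖w‖ ^ 2 + ε ^ 2)‖ ≤ 32 / (‖w‖ ^ 2 + ε ^ 2) := by
    refine (norm_add_le_of_le ((norm_smul_le _ _).trans (mul_le_mul_of_nonneg_left norm_om0_le
      (norm_nonneg _))) ((norm_smul_le _ _).trans (mul_le_mul_of_nonneg_left ((norm_w11_le _ _).trans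
      (mul_le_mul_of_nonneg_left h2 (by positivity))) (norm_nonneg _)))).trans ?_
    rw [Real.norm_of_nonneg (by positivity), Real.norm_of_nonneg (by positivity),
      innerSL_apply_norm]
    field_simp
    nlinarith [sq_nonneg ε]
  have h4 := mul_le_mul_of_nonneg_right (mul_le_mul h3 norm_J0_le (norm_nonneg _)
    (by positivity)) (sq_nonneg ‖e‖)
  have h5 := ze_low w q hε
  simp only [div_eq_mul_inv] at h1 h4 h5 ⊢
  linarith

theorem p0_pos {K' : E →L[ℝ] E} (hK : Near K) {L : ℝ} (x y b : E) (hε : 0 < ε)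
    (hL : ‖K' - K‖ ≤ L * ‖y - x‖) :
    (ε ^ 2 / (‖y - x‖ ^ 2 + ε ^ 2) ^ 2 - 128 * L ^ 2) * ‖b‖ ^ 2 ≤
      ev (d1 (p0 K x ε) y) b (K' b) := by
  have h1 : Aop K (K' b) = J0 (Aop K b) + Aop K ((K' - K) b) := by simp [← Aop_J hK.1]
  rw [d1_p0 hK _ _ _ _ hε, h1, sub_mul]
  have h2 := hK.le_norm_Aop (y - x)
  have h3 := (Aop K).le_of_opNorm_le hK.norm_Aop_le (y - x)
  have h4 := pow_le_pow_left₀ (by positivity) (hK.le_norm_Aop b) 2
  have h5 := pow_le_pow_left₀ (norm_nonneg _) ((Aop K).le_of_opNorm_le_of_le hK.norm_Aop_le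
    ((K' - K).le_of_opNorm_le hL b)) 2
  have h6 : ‖Aop K (y - x)‖ ^ 2 + ε ^ 2 ≤ 11 / 10 * (‖y - x‖ ^ 2 + ε ^ 2) := by
    nlinarith [norm_nonneg (Aop K (y - x)), norm_nonneg (y - x), sq_nonneg ε]
  have h7 : ‖y - x‖ ^ 2 ≤ 2 * (‖Aop K (y - x)‖ ^ 2 + ε ^ 2) := by
    nlinarith [norm_nonneg (y - x), sq_nonneg ε]
  refine le_trans (sub_le_sub ?_ ?_) (ze_near _ _ _ hε)
  · rw [div_mul_eq_mul_div, div_le_div_iff₀ (by positivity) (by positivity)]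
    have := mul_le_mul h4 (pow_le_pow_left₀ (by positivity) h6 2) (by positivity) (by positivity)
    nlinarith [mul_le_mul_of_nonneg_left this (sq_nonneg ε),
      mul_nonneg (mul_nonneg (sq_nonneg ε) (sq_nonneg ‖b‖))
        (sq_nonneg (‖Aop K (y - x)‖ ^ 2 + ε ^ 2)), mul_nonneg (mul_nonneg (sq_nonneg ε)
        (sq_nonneg ‖Aop K b‖)) (sq_nonneg (‖y - x‖ ^ 2 + ε ^ 2))]
  · rw [div_le_iff₀ (by positivity)]
    nlinarith [mul_le_mul_of_nonneg_left h7 (sq_nonneg (L * ‖b‖)), sq_nonneg (L * ‖y - x‖ * ‖b‖)]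

theorem p0_le (hK : Near K) {x y : E} (hε : 0 < ε) (h : 1 / 4 ≤ ‖y - x‖) :
    ‖p0 K x ε y‖ ≤ 10 := by
  refine ContinuousLinearMap.opNorm_le_bound _ (by norm_num) fun v => ?_
  have h1 := abs_real_inner_le_norm (J0 (Aop K v)) (Aop K (y - x))
  have h2 := hK.le_norm_Aop (y - x)
  have h3 := (Aop K).le_of_opNorm_le hK.norm_Aop_le v
  rw [norm_J0_apply] at h1
  rw [p0_apply hK _ _ _ hε, Real.norm_eq_abs, abs_mul, abs_mul, abs_neg, abs_two,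
    abs_of_pos (a := _⁻¹) (by positivity), ← div_eq_mul_inv, div_le_iff₀ (by positivity)]
  nlinarith [mul_le_mul_of_nonneg_right h3 (norm_nonneg (Aop K (y - x))),
    mul_nonneg (norm_nonneg v) (sq_nonneg ε), mul_le_mul_of_nonneg_left
      (show 6 / 25 ≤ ‖Aop K (y - x)‖ by linarith)
      (mul_nonneg (norm_nonneg v) (norm_nonneg (Aop K (y - x))))]

theorem test_sh {a b r : ℝ} (ha : 0 ≤ a) (hab : a < b) {x : E} (h : ‖x‖ + b ≤ r) :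
    Test r fun y => bp a b (y - x) :=
  ⟨(contDiff_bp a b).comp (contDiff_id.sub contDiff_const), fun y hy =>
    bp_eq_zero ha hab (by linarith [norm_sub_norm_le y x])⟩

end LogPosAux

open LogPosAux

theorem test_logP (hJ : GoodJ J) (x : E) {ε : ℝ} (hε : 0 < ε) :
    Test (‖x‖ + 1 / 2) (logP J x ε) :=
  (test_sh (by norm_num) (by norm_num) le_rfl).smul_fun (p0_smooth (J x) x hε)

/-- Let `A = Aop (J x)`, `w = A (y - x)`, `ρ² = ‖w‖² + ε²`, `f(w) = log ρ²`,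
`p₀ = -(D(f ∘ w)) ∘ J x`, `Φ = d1 p₀ y`. Then `Φ = pull A Φ₀` with
`ev Φ₀ u v = -D²f(u, J0 v) + D²f(v, J0 u)`, `D²f(u, v) = 2⟪u,v⟫/ρ² - 4⟪w,u⟫⟪w,v⟫/ρ⁴`; `Φ₀` is
`J0`-invariant with `ev Φ₀ q (J0 q) = 4‖q‖²/ρ² - 4(⟪w,q⟫² + ⟪w,J0 q⟫²)/ρ⁴ ≥ 4 ε² ‖q‖²/ρ⁴` and
`‖Φ₀‖ ≤ C/ρ²`. Since `A (J y b) = J0 (A b) + e`, `‖e‖ ≤ C ‖y - x‖ ‖b‖`, `near_pos` gives
`ev Φ b (J y b) ≥ (c ε²/ρ⁴ - C) ‖b‖²`. The cut-off term `w11 (D bp) p₀` is bounded, since
`‖y - x‖ ≥ 1/4` where `D bp ≠ 0`. -/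
theorem logP_pos (hJ : GoodJ J) : ∃ c > (0 : ℝ), ∃ C : ℝ, 0 ≤ C ∧ ∀ (x : E),
    ∀ ε ∈ Set.Ioc (0 : ℝ) 1, ∀ y b,
      (c * (bp (1 / 4) (1 / 2) (y - x) * (ε ^ 2 / (‖y - x‖ ^ 2 + ε ^ 2) ^ 2)) -
        C * bp (1 / 2) 1 (y - x)) * ‖b‖ ^ 2 ≤ ev (d1 (logP J x ε) y) b (J y b) := by
  obtain ⟨L, -, hL⟩ := hJ.lipschitz
  obtain ⟨M, M0, hM⟩ := exists_fderiv_bp_le (a := 1 / 4) (b := 1 / 2) (by norm_num) (by norm_num)
  refine ⟨1, one_pos, 128 * L ^ 2 + 120 * M, by positivity, fun x ε hε y b => ?_⟩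
  have h1 : HasFDerivAt (fun y => bp (1 / 4) (1 / 2) (y - x))
      (fderiv ℝ (bp (1 / 4) (1 / 2)) (y - x)) y :=
    HasFDerivAt.comp (f := fun y => y - x) y
      ((contDiff_bp _ _).differentiable (by simp) _).hasFDerivAt ((hasFDerivAt_id y).sub_const x)
  have h2 := d1_fun_smul h1.differentiableAt
    ((p0_smooth (J x) x hε.1).differentiable (by simp) y)
  have h3 := mul_le_mul_of_nonneg_left (p0_pos (hJ.near x) x y b hε.1 (hL y x))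
    (bp_nonneg (1 / 4) (1 / 2) (y - x))
  rw [show d1 (logP J x ε) y = _ from h2, ev_add, ev_smul, h1.fderiv]
  have h4 : fderiv ℝ (bp (1 / 4) (1 / 2)) (y - x) = 0 → ev (w11 (fderiv ℝ (bp (1 / 4) (1 / 2))
      (y - x)) (p0 (J x) x ε y)) b (J y b) = 0 := fun h => by rw [h]; simp [ev_w11]
  have h5 : 0 ≤ L ^ 2 * ‖b‖ ^ 2 := by positivity
  have h6 : 0 ≤ M * ‖b‖ ^ 2 := by positivity
  rcases lt_or_ge (1 / 2) ‖y - x‖ with a1 | a1
  · rw [h4 (fderiv_bp_of_gt (by norm_num) (by norm_num) a1),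
      bp_eq_zero (by norm_num) (by norm_num) a1.le]
    nlinarith [mul_nonneg h5 (bp_nonneg (1 / 2) 1 (y - x)),
      mul_nonneg h6 (bp_nonneg (1 / 2) 1 (y - x))]
  have h7 := mul_le_mul_of_nonneg_left (bp_le_one (1 / 4) (1 / 2) (y - x)) h5
  rw [bp_eq_one (by norm_num) (by norm_num) a1]
  rcases lt_or_ge ‖y - x‖ (1 / 4) with a2 | a2
  · rw [h4 (fderiv_bp_of_lt (by norm_num) (by norm_num) a2)]
    nlinarith
  have h8 := neg_le_of_abs_le ((abs_ev_le _ b (J y b)).trans (mul_le_mul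
    (mul_le_mul_of_nonneg_right ((norm_w11_le _ _).trans (mul_le_mul (mul_le_mul_of_nonneg_left
      (hM (y - x)) (by norm_num)) (p0_le (hJ.near x) hε.1 a2) (norm_nonneg _) (by positivity)))
      (norm_nonneg b)) ((J y).le_of_opNorm_le (hJ.near y).norm_le b) (norm_nonneg _)
      (by positivity)))
  nlinarith

theorem LocPos.dens_le {T : LF} {μ : Measure E} {c C : ℝ} (h : LocPos J T μ c C) (hJ : GoodJ J) :
    ∃ C' : ℝ, 0 ≤ C' ∧ ∀ x ∈ closedBall (0 : E) 5, ∀ ε ∈ Set.Ioc (0 : ℝ) 1,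
      dens μ x ε ≤ C' * (1 + |T (d1 (logP J x ε))|) := by
  obtain ⟨c₀, c0, C₀, C0, h1⟩ := logP_pos hJ
  have := h.fin
  have c1 := h.cpos
  have C1 := h.Cpos
  refine ⟨(C * (C₀ * μ.real Set.univ) + 1) / (c * c₀), by positivity, fun x hx ε hε => ?_⟩
  have h2 := mem_closedBall_zero_iff.1 hx
  have h0 := hε.1
  have h3 : CTest 9 fun y => bp (1 / 2) 1 (y - x) :=
    (test_sh (by norm_num) (by norm_num) (by linarith)).ctest
  have h4 := h.le _ _ _ ((test_logP hJ x hε.1).mono (by linarith)).d1.ctest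
    (((test_sh (by norm_num) (by norm_num) (by linarith)).ctest.smul_fun
      (θ := fun y => ε ^ 2 / (‖y - x‖ ^ 2 + ε ^ 2) ^ 2)
      (continuous_const.div (by fun_prop) fun y => by positivity)).smul c₀) (h3.smul C₀)
    (fun y => mul_nonneg c0.le (mul_nonneg (bp_nonneg _ _ _) (by positivity)))
    (fun y => mul_nonneg C0 (bp_nonneg _ _ _)) (h1 x ε hε)
  simp only [Pi.smul_apply, smul_eq_mul, integral_const_mul] at h4
  have h5 : ∫ y, bp (1 / 2) 1 (y - x) ∂μ ≤ μ.real Set.univ := by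
    simpa using integral_mono (h3.integrable μ) (integrable_const 1) fun y => bp_le_one _ _ _
  rw [div_mul_eq_mul_div, le_div_iff₀ (by positivity), dens]
  nlinarith [le_abs_self (T (d1 (logP J x ε))), mul_le_mul_of_nonneg_left h5 (mul_nonneg C1 C0),
    mul_nonneg (show 0 ≤ C * (C₀ * μ.real Set.univ) by positivity)
      (abs_nonneg (T (d1 (logP J x ε))))]

theorem LocPos.densBd {T : LF} {μ : Measure E} {c C : ℝ} (h : LocPos J T μ c C) (hJ : GoodJ J)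
    (hT : KillsD T) : ∃ D : ℝ, DensBd μ 2 D := by
  obtain ⟨D, -, h1⟩ := h.dens_le hJ
  refine ⟨D, fun x hx ε hε => ?_⟩
  simpa [hT _ ((test_logP hJ x hε.1).mono (by linarith [mem_closedBall_zero_iff.1 hx]))] using
    h1 x (closedBall_subset_closedBall (by norm_num) hx) ε hε

end Vale.Agent.P204
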