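import Vale.Agent.P204.Meas
import Vale.Agent.P204.Energy2

/-! The set where the potential is finite does not depend on the chart. -/

open scoped ContDiff RealInnerProductSpace Topology
open MeasureTheory Metric

namespace Vale.Agent.P204

universe u

namespace Setup

variable {X : Type u} [TopologicalSpace X] [T2Space X] [CompactSpace X]
  [SecondCountableTopology X] [MeasurableSpace X] [BorelSpace X] (s : Setup X)

/-- Let `x` be in both charts, with both images in `closedBall 0 2`. Since the transition map is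
differentiable at `ψ i x`, there is `δ > 0` and `L` with `‖ψ j x' - ψ j x‖ ≤ L ‖ψ i x' - ψ i x‖`
and `‖ψ j x'‖ ≤ 3` for `x'` in the source of `ψ i` with `‖ψ i x' - ψ i x‖ < δ`. Split the integral
(`lintegral_lm`) into this neighbourhood and its complement, where the integrand is at most
`δ⁻²`. -/
theorem mem_Epol_of_mem (μ : Measure X) [IsFiniteMeasure μ] {i j : Fin s.m} {x : X}
    (hi : x ∈ (s.ψ i).source) (hj : x ∈ (s.ψ j).source) (hj2 : ‖s.ψ j x‖ ≤ 2)
    (h : s.ψ j x ∈ Epol (s.lm μ j)) : s.ψ i x ∈ Epol (s.lm μ i) := by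
  have hd := s.trans_deriv i j x hi hj
  have e0 := (s.ψ i).left_inv hi
  obtain ⟨L, L0, hL⟩ := hd.isBigO_sub.exists_pos
  have h1 : ∀ᶠ y in 𝓝 (s.ψ i x), (s.ψ i).symm y ∈ (s.ψ j).source :=
    ((s.ψ i).continuousAt_symm ((s.ψ i).map_source hi)).eventually
      ((s.ψ j).open_source.mem_nhds (by rwa [e0]))
  have h2 : ∀ᶠ y in 𝓝 (s.ψ i x), ‖s.ψ j ((s.ψ i).symm y)‖ < 3 :=
    hd.continuousAt.norm.eventually_lt continuousAt_const (by rw [e0]; linarith)
  obtain ⟨δ, δ0, hδ⟩ := Metric.eventually_nhds_iff.1 (hL.bound.and (h1.and h2))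
  have mz : ∀ z : E, Measurable fun y => ENNReal.ofReal (bp 3 4 y) * (edist z y)⁻¹ ^ 2 := fun z =>
    (continuous_bp 3 4).measurable.ennreal_ofReal.mul
      ((measurable_const.edist measurable_id).inv.pow_const 2)
  have h' : ∫⁻ y, ENNReal.ofReal (bp 3 4 y) * (edist (s.ψ j x) y)⁻¹ ^ 2 ∂s.lm μ j < ⊤ := h
  change ∫⁻ y, ENNReal.ofReal (bp 3 4 y) * (edist (s.ψ i x) y)⁻¹ ^ 2 ∂s.lm μ i < ⊤
  rw [s.lintegral_lm μ _ (mz _)] at h' ⊢
  rw [← lintegral_indicator (s.measurableSet_source j)] at h'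
  have L1 : ENNReal.ofReal L ≠ 0 := (ENNReal.ofReal_pos.2 L0).ne'
  refine lt_of_le_of_lt (setLIntegral_mono' (s.measurableSet_source i)
    (g := fun x' => (ENNReal.ofReal δ)⁻¹ ^ 2 + ENNReal.ofReal L ^ 2 * (s.ψ j).source.indicator
      (fun x' => ENNReal.ofReal (bp 3 4 (s.ψ j x')) * (edist (s.ψ j x) (s.ψ j x'))⁻¹ ^ 2) x')
    fun x' hx' => ?_) ((setLIntegral_le_lintegral _ _).trans_lt ?_)
  · refine (mul_le_of_le_one_left' (ENNReal.ofReal_le_one.2 (bp_le_one _ _ _))).trans ?_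
    by_cases hn : dist (s.ψ i x') (s.ψ i x) < δ
    · obtain ⟨a1, a2, a3⟩ := hδ hn
      rw [(s.ψ i).left_inv hx'] at a1 a2 a3
      rw [e0, ← dist_eq_norm, ← dist_eq_norm] at a1
      refine le_add_left ?_
      rw [Set.indicator_of_mem a2, bp_eq_one (by norm_num) (by norm_num) a3.le,
        ENNReal.ofReal_one, one_mul, ← mul_pow]
      refine pow_le_pow_left' ?_ 2
      have a4 : edist (s.ψ j x) (s.ψ j x') ≤ ENNReal.ofReal L * edist (s.ψ i x) (s.ψ i x') := by
        rw [edist_dist, edist_dist, ← ENNReal.ofReal_mul L0.le, dist_comm, dist_comm (s.ψ i x)]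
        exact ENNReal.ofReal_le_ofReal a1
      refine le_trans ?_ (mul_le_mul_right (ENNReal.inv_le_inv.2 a4) _)
      rw [ENNReal.mul_inv (Or.inl L1) (Or.inl ENNReal.ofReal_ne_top), ← mul_assoc,
        ENNReal.mul_inv_cancel L1 ENNReal.ofReal_ne_top, one_mul]
    · refine le_add_right (pow_le_pow_left' (ENNReal.inv_le_inv.2 ?_) 2)
      rw [edist_dist, dist_comm]
      exact ENNReal.ofReal_le_ofReal (not_lt.1 hn)
  · rw [lintegral_add_left measurable_const, lintegral_const,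
      lintegral_const_mul' _ _ (ENNReal.pow_ne_top ENNReal.ofReal_ne_top)]
    exact ENNReal.add_lt_top.2 ⟨ENNReal.mul_lt_top (ENNReal.pow_lt_top
      (ENNReal.inv_lt_top.2 (ENNReal.ofReal_pos.2 δ0))) (measure_lt_top _ _),
      ENNReal.mul_lt_top (ENNReal.pow_lt_top ENNReal.ofReal_lt_top) h'⟩

/-- `A = ⋃ j, source j ∩ ψ j ⁻¹' (closedBall 0 2 ∩ Epol (lm μ j))`. -/
theorem exists_polar_set (μ : Measure X) [IsFiniteMeasure μ] : ∃ A : Set X, MeasurableSet A ∧
    ∀ i, ∀ x ∈ (s.ψ i).source, ‖s.ψ i x‖ ≤ 2 → (x ∈ A ↔ s.ψ i x ∈ Epol (s.lm μ i)) := by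
  refine ⟨⋃ j, (s.ψ j).source ∩ s.ψ j ⁻¹' (closedBall 0 2 ∩ Epol (s.lm μ j)),
    MeasurableSet.iUnion fun j => ?_, fun i x hx h2 => ⟨fun h => ?_, fun h =>
      Set.mem_iUnion.2 ⟨i, hx, mem_closedBall_zero_iff.2 h2, h⟩⟩⟩
  · have fin := s.isFiniteMeasure_lm μ j
    rw [← Subtype.image_preimage_coe]
    exact (s.measurableSet_source j).subtype_image ((s.ψ j).continuousOn.domRestrict.measurable
      (measurableSet_closedBall.inter (measurableSet_Epol _)))
  · obtain ⟨j, hj, h1, h3⟩ := Set.mem_iUnion.1 h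
    exact s.mem_Epol_of_mem μ hx hj (mem_closedBall_zero_iff.1 h1) h3

/-- `tendsto_ball_of_mem_Epol`, `lm_mono`; `lm (μ.restrict A) i` is carried by the image of `A`. -/
theorem zeroDens_restrict (μ : Measure X) [IsFiniteMeasure μ] {A : Set X} (hA : MeasurableSet A)
    (h : ∀ i, ∀ x ∈ (s.ψ i).source, ‖s.ψ i x‖ ≤ 2 → (x ∈ A ↔ s.ψ i x ∈ Epol (s.lm μ i)))
    (i : Fin s.m) : ZeroDens (s.lm (μ.restrict A) i) := by
  have fin := s.isFiniteMeasure_lm μ i
  have h0 : s.lm (μ.restrict A) i (closedBall 0 2 \ Epol (s.lm μ i)) = 0 := by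
    rw [s.lm_apply _ _ (measurableSet_closedBall.diff (measurableSet_Epol _)),
      Measure.restrict_apply' hA]
    refine measure_mono_null (t := ∅) ?_ measure_empty
    rintro x ⟨⟨h1, h2, h3⟩, h4⟩
    exact h3 ((h i x h1 (mem_closedBall_zero_iff.1 h2)).1 h4)
  filter_upwards [measure_eq_zero_iff_ae_notMem.1 h0] with y hy h2
  refine squeeze_zero (fun r => by positivity) (fun r => mul_le_mul_of_nonneg_left ?_
    (by positivity)) (tendsto_ball_of_mem_Epol (s.lm μ i) h2 (by_contra fun h3 => hy ⟨h2, h3⟩))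
  exact ENNReal.toReal_mono (measure_ne_top _ _) (s.lm_mono Measure.restrict_le_self i _)

end Setup

end Vale.Agent.P204
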