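import Vale.Agent.P204.Restrict
import Vale.Agent.P204.PolarSet
import Vale.Agent.P204.ExS
import Vale.Agent.P204.ElMir
import Vale.Agent.P204.LogPos

/-! Removing the polar part of a closed current bounded below by the reference form. -/

open scoped ContDiff RealInnerProductSpace Topology
open MeasureTheory Metric

namespace Vale.Agent.P204

universe u

namespace PolarAux

open Setup

variable {X : Type u} [TopologicalSpace X] [T2Space X] [CompactSpace X]
  [SecondCountableTopology X] [MeasurableSpace X] [BorelSpace X]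

theorem abs_ind_le {α : Type*} {A : Set α} {t : ℝ} (h0 : 0 ≤ t) (h1 : t ≤ 1) (x : α) :
    |t - A.indicator 1 x| ≤ 1 := by
  by_cases hx : x ∈ A
  · rw [Set.indicator_of_mem hx, Pi.one_apply, abs_le]
    constructor <;> linarith
  · rw [Set.indicator_of_notMem hx, sub_zero, abs_le]
    constructor <;> linarith

omit [T2Space X] [CompactSpace X] [SecondCountableTopology X] in
theorem meas_err {A : Set X} (hA : MeasurableSet A) {g : X → ℝ} (hg : Continuous g) :
    Measurable fun x => |g x - A.indicator 1 x| :=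
  (hg.measurable.sub (measurable_const.indicator hA)).abs

omit [T2Space X] [CompactSpace X] [SecondCountableTopology X] in
theorem int_err (ν : Measure X) [IsFiniteMeasure ν] {A : Set X} (hA : MeasurableSet A)
    {g : X → ℝ} (hg : Continuous g) (g0 : ∀ x, 0 ≤ g x) (g1 : ∀ x, g x ≤ 1) :
    Integrable (fun x => |g x - A.indicator 1 x|) ν :=
  .of_bound (meas_err hA hg).aestronglyMeasurable 1 (ae_of_all _ fun x => by
    rw [Real.norm_eq_abs, abs_abs]
    exact abs_ind_le (g0 x) (g1 x) x)

omit [T2Space X] [CompactSpace X] [SecondCountableTopology X] [MeasurableSpace X]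
  [BorelSpace X] in
theorem contOn_symm (s : Setup X) (i : Fin s.m) : ContinuousOn (s.ψ i).symm (ball 0 10) := by
  rw [← s.target i]
  exact (s.ψ i).continuousOn_symm

theorem eq_zero_of_le {a K : ℝ} (h : ∀ η : ℝ, 0 < η → |a| ≤ K * η) : a = 0 := by
  refine abs_nonpos_iff.1 (le_of_forall_pos_le_add fun ε hε => ?_)
  have h1 := h (ε / (|K| + 1)) (by positivity)
  have h2 : K * (ε / (|K| + 1)) ≤ (|K| + 1) * (ε / (|K| + 1)) :=
    mul_le_mul_of_nonneg_right (by linarith [le_abs_self K]) (by positivity)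
  rw [mul_div_cancel₀ _ (by positivity)] at h2
  linarith

/-- The restricted current kills the generators of `Ex`. -/
theorem kills {s : Setup X} {S S' : GF X} {μ : Measure X} [IsFiniteMeasure μ] {A : Set X}
    (hA : MeasurableSet A) {i : Fin s.m}
    (hE : ∀ x ∈ (s.ψ i).source, ‖s.ψ i x‖ ≤ 2 → (x ∈ A ↔ s.ψ i x ∈ Epol (s.lm μ i)))
    {c C D : ℝ} (hL : LocPos (s.Jl i) (s.lf S i) (s.lm μ i) c C) (hK : KillsD (s.lf S i))
    (hD : DensBd (s.lm μ i) 2 D) {p : E → E →L[ℝ] ℝ} (hp : Test 1 p) {C₁ : ℝ} (hC₁ : 0 ≤ C₁)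
    (hS : ∀ g : X → ℝ, Continuous g → |S' (s.glob i (d1 p)) - S fun x => g x • s.glob i (d1 p) x|
      ≤ C₁ * ∫ x, |g x - A.indicator 1 x| ∂μ) : S' (s.glob i (d1 p)) = 0 := by
  have := hL.fin
  have hθ : CTest 1 (d1 p) := hp.d1.ctest
  obtain ⟨M, hM0, hM⟩ := hθ.bounded
  refine eq_zero_of_le (K := C₁ + 2 * C * (M * 2) + 1) fun η hη => ?_
  obtain ⟨g, hg, g0, g1, hgη⟩ := exists_approx μ hA hη
  obtain ⟨g', hg', hg'η, hS'⟩ := elMir hL (s.good i) hK hD hp hη
  set B : Set E := closedBall (0 : E) 1 with hB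
  have hBm : MeasurableSet B := measurableSet_closedBall
  set Ep : Set E := Epol (s.lm μ i) with hEp
  have hEm : MeasurableSet Ep := measurableSet_Epol _
  have hh : CTest 2 fun y => bp 1 2 y • g ((s.ψ i).symm y) :=
    (test_bp (a := 1) (b := 2) zero_le_one one_lt_two).ctest.smul_continuousOn (r' := 10)
      (by norm_num) (hg.comp_continuousOn (contOn_symm s i))
  set k : E → ℝ := fun y => bp 1 2 y • g ((s.ψ i).symm y) with hk
  have hk1 : ∀ y, ‖y‖ ≤ 1 → k y = g ((s.ψ i).symm y) := fun y hy => by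
    simp only [hk, bp_eq_one zero_le_one one_lt_two hy, one_smul]
  have e1 : (S fun x => g x • s.glob i (d1 p) x) = s.lf S i fun y => k y • d1 p y := by
    rw [fun_smul_glob]
    change _ = S (s.glob i _)
    congr 2
    funext y
    rcases le_or_gt ‖y‖ 1 with hy | hy
    · rw [hk1 y hy]
    · rw [hθ.2 y hy, smul_zero, smul_zero]
  have ik : ∀ f : E → ℝ, Continuous f →
      IntegrableOn (fun y => |f y - Ep.indicator 1 y|) B (s.lm μ i) := fun f hf =>
    ((hf.continuousOn.integrableOn_compact (isCompact_closedBall 0 1)).sub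
      ((integrable_const (1 : ℝ)).indicator hEm)).abs
  have e2 : ∫ y in B, |k y - Ep.indicator 1 y| ∂s.lm μ i ≤ η := by
    refine le_trans ?_ hgη
    have hm : Measurable (B.indicator fun y => |k y - Ep.indicator 1 y|) :=
      (hh.1.measurable.sub (measurable_const.indicator hEm)).abs.indicator hBm
    rw [← integral_indicator hBm, s.integral_lm μ i hm]
    refine integral_mono_of_nonneg (ae_of_all _ fun x => ?_) (int_err μ hA hg g0 g1)
      (ae_of_all _ fun x => ?_)
    · simp only [glob0]
      split_ifs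
      · exact Set.indicator_nonneg (fun _ _ => abs_nonneg _) _
      · exact le_rfl
    · simp only [glob0]
      split_ifs with hx
      · by_cases hy : s.ψ i x ∈ B
        · have hy1 : ‖s.ψ i x‖ ≤ 1 := mem_closedBall_zero_iff.1 hy
          rw [Set.indicator_of_mem hy, hk1 _ hy1, (s.ψ i).left_inv hx]
          by_cases hxA : x ∈ A
          · rw [Set.indicator_of_mem hxA, Set.indicator_of_mem ((hE x hx (by linarith)).1 hxA)]
            exact le_rfl
          · rw [Set.indicator_of_notMem hxA,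
              Set.indicator_of_notMem fun h => hxA ((hE x hx (by linarith)).2 h)]
        · rw [Set.indicator_of_notMem hy]
          exact abs_nonneg _
      · exact abs_nonneg _
  have e3 : |(s.lf S i fun y => k y • d1 p y) - s.lf S i fun y => g' y • d1 p y| ≤
      2 * C * (M * 2 * η) := by
    rw [← map_sub]
    have hi : Integrable (B.indicator fun y =>
        M * (|k y - Ep.indicator 1 y| + |g' y - Ep.indicator 1 y|)) (s.lm μ i) :=
      (integrable_indicator_iff hBm).2 (((ik k hh.1).add (ik g' hg')).const_mul M)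
    refine (hL.abs_le_of_norm (s.good i) (((hθ.fun_smul hh.1).sub (hθ.fun_smul hg')).mono
      (by norm_num)) hi fun y => ?_).trans (mul_le_mul_of_nonneg_left ?_ (by linarith [hL.Cpos]))
    · by_cases hy : y ∈ B
      · rw [Set.indicator_of_mem hy, Pi.sub_apply, ← sub_smul, norm_smul, mul_comm,
          Real.norm_eq_abs]
        refine mul_le_mul (hM y) ?_ (abs_nonneg _) hM0
        rw [abs_sub_comm (g' y)]
        exact abs_sub_le _ _ _
      · rw [Set.indicator_of_notMem hy, Pi.sub_apply,
          hθ.2 y (not_le.1 fun h => hy (mem_closedBall_zero_iff.2 h))]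
        simp
    · rw [integral_indicator hBm, integral_const_mul, integral_add (ik k hh.1) (ik g' hg'),
        mul_assoc]
      exact mul_le_mul_of_nonneg_left (by linarith) hM0
  have e4 := (hS g hg).trans (mul_le_mul_of_nonneg_left hgη hC₁)
  rw [e1] at e4
  rw [abs_le] at e3 e4 hS' ⊢
  constructor <;> nlinarith [e3.1, e3.2, e4.1, e4.2, hS'.1, hS'.2]

/-- The Lebesgue measure of the middle of chart `j`, on `X`. -/
noncomputable def nu (s : Setup X) (j : Fin s.m) : Measure X :=
  ((volume : Measure E).restrict (closedBall 0 1)).map (s.ψ j).symm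

instance (s : Setup X) (j : Fin s.m) : IsFiniteMeasure (nu s j) := by
  have : IsFiniteMeasure ((volume : Measure E).restrict (closedBall 0 1)) :=
    isFiniteMeasure_restrict.2 (isCompact_closedBall 0 1).measure_lt_top.ne
  exact Measure.isFiniteMeasure_map _ _

/-- Multiplying by `g` changes the integral by an amount controlled by `nu`. -/
theorem Int_err {s : Setup X} {μ : Measure X} [IsFiniteMeasure μ] {A : Set X}
    (hA : MeasurableSet A)
    (hE : ∀ i, ∀ x ∈ (s.ψ i).source, ‖s.ψ i x‖ ≤ 2 → (x ∈ A ↔ s.ψ i x ∈ Epol (s.lm μ i)))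
    {φ F : Form X} (hφ : s.Cont φ) (hF : s.Cont F) : ∃ K : ℝ, ∀ g : X → ℝ, Continuous g →
      (∀ x, 0 ≤ g x) → (∀ x, g x ≤ 1) → ∀ η : ℝ,
      (∀ j, ∫ x, |g x - A.indicator 1 x| ∂nu s j ≤ η) →
      s.Int φ F - s.Int (fun x => g x • φ x) F ≤ K * η := by
  have hw : ∀ j, CTest 1 fun y => s.c j y • wedge (s.loc j φ y) (s.loc j F y) := fun j =>
    (s.c_test j).ctest.smul_continuousOn (r' := 10) (by norm_num)
      ((contDiff_wedge2 (n := 0)).continuous.comp_continuousOn
        (f := fun y => (s.loc j φ y, s.loc j F y)) ((hφ j).prodMk (hF j)))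
  choose M hM0 hM using fun j => (hw j).bounded
  refine ⟨∑ j, M j, fun g hg g0 g1 η hη => ?_⟩
  rw [Setup.Int, Setup.Int, ← Finset.sum_sub_distrib, Finset.sum_mul]
  refine Finset.sum_le_sum fun j _ => ?_
  have := s.isFiniteMeasure_lm μ j
  have hBm : MeasurableSet (closedBall (0 : E) 1) := measurableSet_closedBall
  have hsub : closedBall (0 : E) 1 ⊆ ball 0 10 := closedBall_subset_ball (by norm_num)
  have hc : ContinuousOn (s.ψ j).symm (closedBall 0 1) := (contOn_symm s j).mono hsub
  have e1 : ∫ x, |g x - A.indicator 1 x| ∂nu s j =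
      ∫ y in closedBall (0 : E) 1, |g ((s.ψ j).symm y) - 1| := by
    rw [nu, integral_map (hc.aemeasurable hBm) (meas_err hA hg).aestronglyMeasurable]
    refine integral_congr_ae ((ae_restrict_iff' hBm).2 ?_)
    filter_upwards [measure_eq_zero_iff_ae_notMem.1 (volume_diff_Epol (s.lm μ j))] with y hy hy1
    have h1 : ‖y‖ ≤ 1 := mem_closedBall_zero_iff.1 hy1
    have h2 : y ∈ Epol (s.lm μ j) := by
      by_contra h
      exact hy ⟨mem_closedBall_zero_iff.2 (by linarith), h⟩
    have h3 := s.apply_symm j (y := y) (by linarith)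
    rw [Set.indicator_of_mem ((hE j _ (s.symm_mem_source j (by linarith))
      (by rw [h3]; linarith)).2 (by rw [h3]; exact h2)), Pi.one_apply]
  have hi : IntegrableOn (fun y => |g ((s.ψ j).symm y) - 1|) (closedBall (0 : E) 1) :=
    ((hg.comp_continuousOn hc).sub continuousOn_const).abs.integrableOn_compact
      (isCompact_closedBall 0 1)
  rw [← integral_sub (s.integrable_Int hφ hF j) (s.integrable_Int (hφ.fun_smul hg) hF j)]
  refine le_trans ?_ (mul_le_mul_of_nonneg_left (e1.symm.trans_le (hη j)) (hM0 j))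
  rw [← integral_const_mul, ← integral_indicator hBm]
  refine integral_mono ((s.integrable_Int hφ hF j).sub (s.integrable_Int (hφ.fun_smul hg) hF j))
    ((integrable_indicator_iff hBm).2 (hi.const_mul _)) fun y => ?_
  simp only [loc_fun_smul, wedge_smul_left]
  by_cases hy : y ∈ closedBall (0 : E) 1
  · rw [Set.indicator_of_mem hy, abs_sub_comm, abs_of_nonneg (sub_nonneg.2 (g1 _))]
    have h1 := mul_le_mul_of_nonneg_right ((le_abs_self _).trans (hM j y))
      (sub_nonneg.2 (g1 ((s.ψ j).symm y)))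
    rw [smul_eq_mul] at h1
    linarith
  · rw [Set.indicator_of_notMem hy,
      (s.c_test j).2 y (not_le.1 fun h => hy (mem_closedBall_zero_iff.2 h))]
    simp

end PolarAux

namespace Setup

variable {X : Type u} [TopologicalSpace X] [T2Space X] [CompactSpace X]
  [SecondCountableTopology X] [MeasurableSpace X] [BorelSpace X] (s : Setup X)

/-- Take `S` from `exists_kcur`, `μ` from `exists_posCur`, `A` from `exists_polar_set`, `S'` from
`exists_restrict`. Density: `LocPos.densBd`, `DensBd.of_le`, `zeroDens_restrict`.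
`S'` kills generators `e = glob i (d1 p)`: for `g` from `exists_approx` and `g'` from `elMir`,
`S (g • e) = lf S i ((g ∘ symm) • d1 p)` (`fun_smul_glob`), and `LocPos.abs_le_of_norm` compares
it with `lf S i (g' • d1 p)`.
Lower bound: apply `exists_approx` to `μ + ν`, `ν = ∑ j, map (ψ j).symm (volume.restrict
(closedBall 0 1))`; `S (g • φ) ≥ Int (g • φ) F`, and `|Int (g • φ) F - Int φ F| ≤ C ∫ |g - 1_A| dν`
because `ν Aᶜ = 0` (`volume_diff_Epol`). -/
theorem exists_good_kcur [Nonempty X] {s : Setup X} {om : Form X} (h : s.Tame om) :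
    ∃ (S : GF X) (μ : Measure X) (D : ℝ), s.KCur (s.ppF om) S ∧ s.PosCur (s.ppF om) S μ ∧
      ∀ i, DensBd (s.lm μ i) 2 D ∧ ZeroDens (s.lm μ i) := by
  obtain ⟨S, hS⟩ := exists_kcur h
  obtain ⟨μ, hμ⟩ := h.exists_posCur (hS.pos h)
  have := hμ.fin
  obtain ⟨c, C, hL⟩ := h.locPos
  choose D hD using fun i => (hL S μ hμ i).densBd (s.good i) (hS.killsD i)
  obtain ⟨A, hA, hE⟩ := s.exists_polar_set μ
  obtain ⟨S', hS', hap⟩ := hμ.exists_restrict h hA
  have hF : s.Cont (s.ppF om) := h.smooth.cont.ppF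
  refine ⟨S', μ.restrict A, ∑ i, |D i|, ⟨fun φ hφ hp => ?_, fun e he => ?_⟩, hS', fun i =>
    ⟨fun x hx ε hε => ?_, s.zeroDens_restrict μ hA hE i⟩⟩
  · obtain ⟨C₁, hC₁, h1⟩ := hap φ hφ
    obtain ⟨K, hK⟩ := PolarAux.Int_err hA hE hφ hF
    refine le_of_forall_pos_le_add fun ε hε => ?_
    have hη : 0 < ε / (C₁ + |K| + 1) := by positivity
    obtain ⟨g, hg, g0, g1, hgη⟩ := exists_approx (μ + ∑ j, PolarAux.nu s j) hA hη
    have hm : ∀ ν : Measure X, ν ≤ μ + ∑ j, PolarAux.nu s j →
        ∫ x, |g x - A.indicator 1 x| ∂ν ≤ ε / (C₁ + |K| + 1) := fun ν hν =>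
      (integral_mono_measure hν (ae_of_all _ fun _ => abs_nonneg _)
        (PolarAux.int_err _ hA hg g0 g1)).trans hgη
    have h2 := (h1 g hg).trans (mul_le_mul_of_nonneg_left
      (hm μ (Measure.le_add_right le_rfl)) hC₁)
    have h3 := hK g hg g0 g1 _ fun j => hm _ (Measure.le_add_left
      (Finset.single_le_sum (f := fun j => PolarAux.nu s j) (fun _ _ => bot_le)
        (Finset.mem_univ j)))
    have h4 := hS.ge _ (hφ.fun_smul hg) fun x b => by
      rw [ev_smul]
      exact mul_nonneg (g0 x) (hp x b)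
    have h5 : (C₁ + |K| + 1) * (ε / (C₁ + |K| + 1)) = ε := mul_div_cancel₀ _ (by positivity)
    have h6 := mul_le_mul_of_nonneg_right (le_abs_self K) hη.le
    nlinarith [(abs_le.1 h2).1]
  · refine (Submodule.span_le (p := LinearMap.ker S')).2 ?_ he
    rintro _ ⟨i, p, hp, rfl⟩
    obtain ⟨C₁, hC₁, h1⟩ := hap _ (s.cont_glob i (hp.d1.ctest.mono (by norm_num)))
    exact PolarAux.kills hA (hE i) (hL S μ hμ i) (hS.killsD i) (hD i) hp hC₁ h1
  · have := s.isFiniteMeasure_lm μ i
    have := s.isFiniteMeasure_lm (μ.restrict A) i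
    exact ((hD i).of_le _ _ (s.lm_mono Measure.restrict_le_self i) x hx ε hε).trans
      ((le_abs_self _).trans (Finset.single_le_sum (f := fun i => |D i|)
        (fun _ _ => abs_nonneg _) (Finset.mem_univ i)))

end Setup

end Vale.Agent.P204
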