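import Vale.Agent.P204.Approx
import Vale.Agent.P204.AtlasLim

/-! Every smooth anti-invariant form is the anti-invariant part of a closed form. -/

open scoped ContDiff RealInnerProductSpace Topology
open MeasureTheory Metric

namespace Vale.Agent.P204

universe u

namespace Setup

variable {X : Type u} [TopologicalSpace X] [T2Space X] [CompactSpace X] (s : Setup X)

omit [CompactSpace X] in
theorem SurjAux.pt (x : X) : ∃ C : ℝ, ∀ φ, s.Smooth φ → ‖φ x‖ ≤ C * s.sn 0 φ := by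
  obtain ⟨i, hx, -, hc⟩ := s.cover_lt x
  refine ⟨‖pull (s.Q i x)‖ / s.c i (s.ψ i x), fun φ hφ => ?_⟩
  have h1 := norm_le_Ck_zero (hφ.test_smul i (s.c_test i) (by norm_num)).ctest (s.ψ i x)
  have h2 : Ck 0 (fun y => s.c i y • s.loc i φ y) ≤ s.sn 0 φ :=
    Finset.single_le_sum (f := fun j => Ck 0 fun y => s.c j y • s.loc j φ y)
      (fun j _ => Ck_nonneg _ _) (Finset.mem_univ i)
  rw [norm_smul, Real.norm_of_nonneg hc.le] at h1
  have h3 := (pull (s.Q i x)).le_opNorm (s.loc i φ (s.ψ i x))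
  rw [Mo.pull_loc s i φ hx] at h3
  rw [div_mul_eq_mul_div, le_div_iff₀ hc]
  nlinarith [norm_nonneg (pull (s.Q i x))]

omit [CompactSpace X] in
/-- Hahn-Banach on the smooth forms. -/
theorem SurjAux.ext {T : GF X} {b : ℝ} (hb : 0 ≤ b)
    (h : ∀ σ, s.Smooth σ → s.Closed σ → |T σ| ≤ b * s.sn 5 (s.pmF σ)) :
    ∃ α : GF X, (∀ σ, s.Smooth σ → s.Closed σ → T σ + α σ = 0) ∧
      ∀ φ, s.Smooth φ → |α φ| ≤ b * s.sn 5 (s.pmF φ) := by
  let Z : Submodule ℝ s.smSub := s.zSub.comap s.smSub.subtype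
  obtain ⟨g, hg, hle⟩ := exists_extension_of_le_sublinear
    (⟨Z, -(T ∘ₗ s.smSub.subtype ∘ₗ Z.subtype)⟩ : s.smSub →ₗ.[ℝ] ℝ)
    (fun φ => b * s.sn 5 (s.pmF φ))
    (fun c hc φ => by
      simp only [Submodule.coe_smul]
      rw [pmF_smul, s.sn_smul (Smooth.pmF φ.2), abs_of_pos hc]; ring)
    (fun φ φ' => by
      simp only [Submodule.coe_add]
      rw [pmF_add, ← mul_add]
      exact mul_le_mul_of_nonneg_left (s.sn_add_le (Smooth.pmF φ.2) (Smooth.pmF φ'.2) 5) hb)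
    (fun σ => (neg_le_abs _).trans (h _ σ.2.1 σ.2.2))
  obtain ⟨α, hα⟩ := LinearMap.exists_extend g
  have he : ∀ φ : s.smSub, α φ = g φ := fun φ => LinearMap.congr_fun hα φ
  refine ⟨α, fun σ h1 h2 => ?_, fun φ hφ => ?_⟩
  · have := hg ⟨⟨σ, h1⟩, h1, h2⟩
    rw [← he] at this
    exact add_eq_zero_iff_neg_eq.2 this.symm
  · have h1 := hle ⟨φ, hφ⟩
    have h2 := hle (-⟨φ, hφ⟩)
    rw [map_neg] at h2
    have h3 : s.pmF (-φ) = -s.pmF φ := by
      rw [← neg_one_smul ℝ φ, pmF_smul, neg_one_smul]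
    simp only [Submodule.coe_neg] at h2
    rw [h3, s.sn_neg hφ.pmF] at h2
    rw [← he] at h1 h2
    exact abs_le.2 ⟨by linarith, h1⟩

/-- Mittag-Leffler. Let `C_j` be the constant of `approx j (j + 6)`, `a = sn 5 f > 0`,
`f_0 = f`, `σ_j` from `approx` for `f_j` with `η_j = a 2^{-j-1} / (C_{j+1} + 1)`,
`f_{j+1} = f_j - pmF σ_j`. Then `exists_sum`; `pmF τ = f` since `sn 0 f_j → 0` (pointwise, through
`partition` and `norm_le_Ck_zero`). -/
theorem surj : ∃ C : ℝ, 0 ≤ C ∧ ∀ f, s.Smooth f → s.pmF f = f →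
    ∃ σ, s.Smooth σ ∧ s.Closed σ ∧ s.pmF σ = f ∧ s.sn 0 σ ≤ C * s.sn 5 f := by
  choose C hC0 hC using fun j => s.approx j (j + 6)
  refine ⟨C 0 + 1, by linarith [hC0 0], fun f hf hp => ?_⟩
  rcases (s.sn_nonneg 5 f).eq_or_lt with h0 | ha
  · have := s.eq_zero_of_sn hf h0.symm
    subst this
    exact ⟨0, s.smooth_zero, s.closed_zero, s.pmF_zero, by simp [sn_zero]⟩
  set a := s.sn 5 f with hadef
  have hη : ∀ j : ℕ, 0 < a * (1 / 2) ^ (j + 1) / (C (j + 1) + 1) := fun j => by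
    have := hC0 (j + 1); positivity
  choose σ h1 h2 h3 h4 using fun j (g : {g : Form X // s.Smooth g ∧ s.pmF g = g}) =>
    hC j g g.2.1 g.2.2 _ (hη j)
  let G : ℕ → {g : Form X // s.Smooth g ∧ s.pmF g = g} := fun n => Nat.rec ⟨f, hf, hp⟩
    (fun j g => ⟨g - s.pmF (σ j g), g.2.1.sub (h1 j g).pmF, by
      rw [pmF_sub, g.2.2, pmF_pmF]⟩) n
  have hG : ∀ j : ℕ, (G (j + 1)).1 = (G j).1 - s.pmF (σ j (G j)) := fun j => rfl
  have hG0 : (G 0).1 = f := rfl
  have hb : ∀ j, s.sn (j + 6) (G (j + 1)).1 ≤ a * (1 / 2) ^ (j + 1) / (C (j + 1) + 1) :=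
    fun j => h4 j (G j)
  obtain ⟨τ, t1, t2, t3, t4⟩ := s.exists_sum (σ := fun n => σ n (G n)) (fun n => h1 _ _)
    (fun n => h2 _ _) (a := a) (fun n hn => by
      obtain ⟨j, rfl⟩ := Nat.exists_eq_add_of_le' hn
      refine (h3 _ _).trans ((mul_le_mul_of_nonneg_left (hb j) (hC0 _)).trans ?_)
      have := hC0 (j + 1)
      rw [← mul_div_assoc, div_le_iff₀ (by positivity)]
      have : 0 ≤ a * (1 / 2) ^ (j + 1) := by positivity
      nlinarith)
  refine ⟨τ, t1, t2, funext fun x => ?_, ?_⟩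
  · have e1 := ((t3 x).mapL (pm (s.J x))).tendsto_sum_nat
    have e2 : ∀ n, ∑ j ∈ Finset.range n, pm (s.J x) (σ j (G j) x) = f x - (G n).1 x := by
      intro n
      induction n with
      | zero => simp [hG0]
      | succ n ih => rw [Finset.sum_range_succ, ih, hG]; simp [pmF]; abel
    obtain ⟨K, hK⟩ := SurjAux.pt s x
    have e3 : Filter.Tendsto (fun n : ℕ => (G (n + 1)).1 x) Filter.atTop (𝓝 0) := by
      have l1 : Filter.Tendsto (fun n : ℕ => |K| * (a * (1 / 2) ^ (n + 1))) Filter.atTop (𝓝 0) := by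
        have := (((tendsto_pow_atTop_nhds_zero_of_lt_one (r := (1 / 2 : ℝ)) (by norm_num)
          (by norm_num)).comp (Filter.tendsto_add_atTop_nat 1)).const_mul a).const_mul |K|
        simpa using this
      refine squeeze_zero_norm (fun n => (hK _ (G (n + 1)).2.1).trans ?_) l1
      refine mul_le_mul (le_abs_self K) ?_ (s.sn_nonneg _ _) (abs_nonneg K)
      refine (s.sn_mono (Nat.zero_le _) _).trans ((hb n).trans ?_)
      exact div_le_self (by positivity) (by linarith [hC0 (n + 1)])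
    have e4 := (Filter.tendsto_add_atTop_iff_nat (f := fun n => (G n).1 x) 1).1 e3
    simp only [e2] at e1
    have e5 := tendsto_nhds_unique e1 (e4.const_sub (f x))
    simpa [pmF] using e5
  · have := h3 0 (G 0)
    rw [hG0] at this
    simp only [zero_add] at this
    nlinarith

/-- `riesz_extension` on `contSub` with the cone of `Pos` forms and the functional
`σ + t F ↦ t` on the span of `F = ppF om` and of the smooth closed `σ` with `pmF σ = 0` (if
`σ + t F` is `Pos` with `t < 0` then `σ` is compatible; `Tame.pos_add` for density). For closed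
`σ` and `σ'` from `surj` for `pmF σ`: `T σ = T σ'`, so `|T σ| ≤ C sn 5 (pmF σ)`
(`Tame.abs_le_sn`); extend `-T` from `zSub` to `smSub` under the sublinear function
`C sn 5 (pmF ·)`. -/
theorem exists_T {s : Setup X} {om : Form X} (h : s.Tame om) (hno : ¬∃ σ, s.Compat σ) :
    ∃ (T α : GF X) (b : ℝ), (∀ φ, s.Cont φ → s.Pos φ → 0 ≤ T φ) ∧ T (s.ppF om) = 1 ∧
      (∀ σ, s.Smooth σ → s.Closed σ → T σ + α σ = 0) ∧
      ∀ φ, s.Smooth φ → |α φ| ≤ b * s.sn 5 (s.pmF φ) := by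
  have hF : s.Smooth (s.ppF om) := h.smooth.ppF
  let Z : Submodule ℝ s.contSub :=
    { carrier := {σ | s.Smooth σ ∧ s.Closed σ ∧ s.pmF σ = 0}
      add_mem' := fun {a b} ha hb => ⟨ha.1.add hb.1, ha.2.1.add hb.2.1 ha.1 hb.1, by
        rw [Submodule.coe_add, pmF_add, ha.2.2, hb.2.2, add_zero]⟩
      zero_mem' := ⟨s.smooth_zero, s.closed_zero, s.pmF_zero⟩
      smul_mem' := fun t a ha => ⟨ha.1.smul t, ha.2.1.smul t, by
        rw [Submodule.coe_smul, pmF_smul, ha.2.2, smul_zero]⟩ }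
  let F : s.contSub := ⟨s.ppF om, hF.cont⟩
  have hFp : ∀ x b, b ≠ 0 → 0 < ev (s.ppF om x) b (s.J x b) := fun x b hb => by
    rw [ppF, ev_pp_J (s.J_sq x)]; exact h.pos x b hb
  have hZ : ∀ σ ∈ Z, ∀ t : ℝ, s.Pos (σ + t • F : s.contSub) → 0 ≤ t := by
    intro σ hσ t hp
    by_contra ht
    refine hno ⟨σ, ⟨hσ.1, hσ.2.1, fun x b hb => ?_⟩, fun x => inv_of_pm (congrFun hσ.2.2 x)⟩
    have h1 := hp x b
    simp only [Submodule.coe_add, Submodule.coe_smul, Pi.add_apply, Pi.smul_apply, ev_add,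
      ev_smul, F] at h1
    nlinarith [hFp x b hb]
  have hFZ : F ∉ Z := fun hm => by
    have := hZ F hm (-1) (by intro x b; simp [ev_zero])
    linarith
  obtain ⟨f, hf0, hf1⟩ := LinearMap.exists_extend_of_notMem (0 : Z →ₗ[ℝ] ℝ) hFZ 1
  have hf0' : ∀ σ ∈ Z, f σ = 0 := fun σ hσ => LinearMap.congr_fun hf0 ⟨σ, hσ⟩
  let P : PointedCone ℝ s.contSub :=
    { carrier := {φ | s.Pos φ}
      add_mem' := fun {a b} ha hb x v => by
        rw [Submodule.coe_add, Pi.add_apply, ev_add]; exact add_nonneg (ha x v) (hb x v)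
      zero_mem' := fun x v => by simp [ev_zero]
      smul_mem' := fun t a ha x v => by
        have : ((t • a : s.contSub) : Form X) x = (t : ℝ) • (a : Form X) x := rfl
        rw [this, ev_smul]; exact mul_nonneg t.2 (ha x v) }
  obtain ⟨C₁, -, hC₁⟩ := h.pos_add
  obtain ⟨g, hg, hg0⟩ := riesz_extension P
    (⟨Z ⊔ Submodule.span ℝ {F}, f.domRestrict _⟩ : s.contSub →ₗ.[ℝ] ℝ)
    (fun φ hφ => by
      obtain ⟨σ, hσ, w, hw, he⟩ := Submodule.mem_sup.1 φ.2
      obtain ⟨t, rfl⟩ := Submodule.mem_span_singleton.1 hw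
      have h1 := hZ σ hσ t (by rw [he]; exact hφ)
      change 0 ≤ f φ
      rw [← he, map_add, map_smul, hf0' σ hσ, hf1]
      simpa using h1)
    (fun φ => ⟨⟨(C₁ * s.sn 0 φ) • F, Submodule.mem_sup_right
      (Submodule.smul_mem _ _ (Submodule.mem_span_singleton_self F))⟩, (hC₁ φ φ.2).1⟩)
  obtain ⟨T, hT⟩ := LinearMap.exists_extend g
  have he : ∀ φ : s.contSub, T φ = g φ := fun φ => LinearMap.congr_fun hT φ
  have hpos : ∀ φ, s.Cont φ → s.Pos φ → 0 ≤ T φ := fun φ h1 h2 => by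
    rw [he ⟨φ, h1⟩]; exact hg0 _ h2
  have hT1 : T (s.ppF om) = 1 := by
    rw [he F, hg ⟨F, Submodule.mem_sup_right (Submodule.mem_span_singleton_self F)⟩]
    exact hf1
  have hT0 : ∀ σ, s.Smooth σ → s.Closed σ → s.pmF σ = 0 → T σ = 0 := fun σ h1 h2 h3 => by
    rw [he ⟨σ, h1.cont⟩, hg ⟨⟨σ, h1.cont⟩, Submodule.mem_sup_left ⟨h1, h2, h3⟩⟩]
    exact hf0' _ ⟨h1, h2, h3⟩
  obtain ⟨C₂, hC₂, hS⟩ := s.surj
  obtain ⟨C₃, hC₃, hA⟩ := h.abs_le_sn
  obtain ⟨α, h1, h2⟩ := SurjAux.ext s (T := T) (b := C₃ * C₂) (by positivity) fun σ h1 h2 => by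
    obtain ⟨σ', a1, a2, a3, a4⟩ := hS _ h1.pmF (s.pmF_pmF σ)
    have a5 := hT0 _ (h1.sub a1) (h2.sub a2 h1 a1) (by rw [pmF_sub, a3, sub_self])
    rw [map_sub, sub_eq_zero] at a5
    have a6 := hA T hpos σ' a1.cont
    rw [hT1, mul_one] at a6
    rw [a5, mul_assoc]
    exact a6.trans (mul_le_mul_of_nonneg_left a4 hC₃)
  exact ⟨T, α, _, hpos, hT1, h1, h2⟩

end Setup

end Vale.Agent.P204
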