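import Vale.Agent.P204.Final
import Vale.Agent.P204.Polar
import Vale.Agent.P204.Surj

/-! Tamed implies compatible, for a finite atlas. -/

namespace Vale.Agent.P204

universe u

theorem main_setup {X : Type u} [TopologicalSpace X] [T2Space X] [CompactSpace X]
    [SecondCountableTopology X] (s : Setup X) (om : Form X) (h : s.Tame om) :
    ∃ σ, s.Compat σ := by
  by_contra hno
  rcases isEmpty_or_nonempty X with hX | hX
  · exact hno ⟨om, ⟨h, fun x => (IsEmpty.false x).elim⟩⟩
  borelize X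
  obtain ⟨M, K, R, N, ε₀, hM⟩ := Mo.exists_moll s
  obtain ⟨T, α, b, hpos, hT1, hZ, hα⟩ := Setup.exists_T h hno
  obtain ⟨μ, hT⟩ := h.exists_posCur hpos
  obtain ⟨A₀, D, hA, hL2, hD⟩ := hM.alpha_L2 h hT hZ hα
  obtain ⟨S, μ', D', hS, hS', hD'⟩ := Setup.exists_good_kcur h
  exact hM.final h hT hT1 hZ hα hA hL2 hD hS hS' hD'

end Vale.Agent.P204
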