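import Vale.Agent.P204.Setup

/-! Basic algebra of two-forms in coordinates, for the mollifier package. -/

open scoped ContDiff

namespace Vale.Agent.P204.Mo

theorem mk_ev (a : W) : mk (ev a) = a := by
  ext i; fin_cases i <;> simp [mk, ev, eb]

theorem W_ext {a b : W} (h : ∀ u v, ev a u v = ev b u v) : a = b := by
  rw [← mk_ev a, ← mk_ev b]; congr 1; funext u v; exact h u v

theorem E_eq_sum (u : E) : u = u 0 • eb 0 + u 1 • eb 1 + u 2 • eb 2 + u 3 • eb 3 := by
  ext i; fin_cases i <;> simp [eb]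

theorem ev_mk (f : E →ₗ[ℝ] E →ₗ[ℝ] ℝ) (hf : ∀ v, f v v = 0) (u v : E) :
    ev (mk fun u v => f u v) u v = f u v := by
  have ha : ∀ a b, f a b = -f b a := fun a b => by
    have := hf (a + b)
    simp only [map_add, LinearMap.add_apply, hf] at this
    linarith
  conv_rhs => rw [E_eq_sum u, E_eq_sum v]
  simp only [map_add, map_smul, LinearMap.add_apply, LinearMap.smul_apply, smul_eq_mul, hf]
  rw [ha (eb 1) (eb 0), ha (eb 2) (eb 0), ha (eb 3) (eb 0), ha (eb 2) (eb 1), ha (eb 3) (eb 1),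
    ha (eb 3) (eb 2)]
  simp [mk, ev]
  ring

/-- Evaluation as a bilinear map. -/
noncomputable def evB (a : W) : E →ₗ[ℝ] E →ₗ[ℝ] ℝ :=
  LinearMap.mk₂ ℝ (ev a) (fun u u' v => by simp [ev]; ring) (fun t u v => by simp [ev]; ring)
    (fun u v v' => by simp [ev]; ring) (fun t u v => by simp [ev]; ring)

@[simp] theorem evB_apply (a : W) (u v : E) : evB a u v = ev a u v := rfl

theorem ev_self (a : W) (u : E) : ev a u u = 0 := by simp [ev]; ring

theorem ev_swap (a : W) (u v : E) : ev a u v = -ev a v u := by simp [ev]; ring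

/-- Evaluation on a fixed pair of vectors, as a continuous linear functional. -/
noncomputable def evL (u v : E) : W →L[ℝ] ℝ :=
  LinearMap.toContinuousLinearMap
    { toFun := fun a => ev a u v
      map_add' := fun a b => by simp [ev]; ring
      map_smul' := fun t a => by simp [ev]; ring }

@[simp] theorem evL_apply (u v : E) (a : W) : evL u v a = ev a u v := rfl

theorem pull_apply (L : E →L[ℝ] E) (a : W) : pull L a = mk fun u v => ev a (L u) (L v) := rfl

theorem ev_pull (L : E →L[ℝ] E) (a : W) (u v : E) : ev (pull L a) u v = ev a (L u) (L v) := by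
  have := ev_mk ((evB a).compl₁₂ (L : E →ₗ[ℝ] E) (L : E →ₗ[ℝ] E)) (fun v => ev_self _ _) u v
  simpa [pull_apply] using this

theorem pull_pull (L₁ L₂ : E →L[ℝ] E) (a : W) : pull L₁ (pull L₂ a) = pull (L₂ ∘L L₁) a :=
  W_ext fun u v => by simp [ev_pull]

theorem pull_congr {L₁ L₂ : E →L[ℝ] E} (h : ∀ v, L₁ v = L₂ v) : pull L₁ = pull L₂ := by
  rw [ContinuousLinearMap.ext h]

theorem pull_id : pull (ContinuousLinearMap.id ℝ E) = ContinuousLinearMap.id ℝ W := by
  refine ContinuousLinearMap.ext fun a => W_ext fun u v => by simp [ev_pull]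

theorem pull_of_id {L : E →L[ℝ] E} (h : ∀ v, L v = v) (a : W) : pull L a = a :=
  W_ext fun u v => by simp [ev_pull, h]

theorem contDiff_ev {Y : Type*} [NormedAddCommGroup Y] [NormedSpace ℝ Y] {n : WithTop ℕ∞}
    {a : Y → W} {u v : Y → E} {y : Y} (ha : ContDiffAt ℝ n a y) (hu : ContDiffAt ℝ n u y)
    (hv : ContDiffAt ℝ n v y) : ContDiffAt ℝ n (fun y => ev (a y) (u y) (v y)) y := by
  have h1 := contDiffAt_euclidean.1 ha
  have h2 := contDiffAt_euclidean.1 hu
  have h3 := contDiffAt_euclidean.1 hv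
  unfold ev
  refine (((((ContDiffAt.mul (h1 0) ?_).add (ContDiffAt.mul (h1 1) ?_)).add
    (ContDiffAt.mul (h1 2) ?_)).add (ContDiffAt.mul (h1 3) ?_)).add
    (ContDiffAt.mul (h1 4) ?_)).add (ContDiffAt.mul (h1 5) ?_) <;>
  exact ((h2 _).mul (h3 _)).sub ((h2 _).mul (h3 _))

theorem contDiffAt_mk {Y : Type*} [NormedAddCommGroup Y] [NormedSpace ℝ Y] {n : WithTop ℕ∞}
    {f : Y → E → E → ℝ} {y : Y} (hf : ∀ u v, ContDiffAt ℝ n (fun y => f y u v) y) :
    ContDiffAt ℝ n (fun y => mk (f y)) y := by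
  refine contDiffAt_euclidean.2 fun i => ?_
  fin_cases i <;> simpa [mk] using hf _ _

theorem contDiff_pull : ContDiff ℝ ∞ pull := by
  refine contDiff_clm_apply_iff.2 fun a => contDiff_iff_contDiffAt.2 fun L => ?_
  simp only [pull_apply]
  refine contDiffAt_mk fun u v => contDiff_ev contDiffAt_const ?_ ?_ <;>
  exact contDiffAt_id.clm_apply contDiffAt_const

theorem det_eq (L : E →L[ℝ] E) :
    L.det = vol4 (L (eb 0)) (L (eb 1)) (L (eb 2)) (L (eb 3)) := by
  have h := LinearMap.det_toMatrix (EuclideanSpace.basisFun (Fin 4) ℝ).toBasis (L : E →ₗ[ℝ] E)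
  rw [ContinuousLinearMap.det, ← h]
  have hm : ∀ i j, LinearMap.toMatrix (EuclideanSpace.basisFun (Fin 4) ℝ).toBasis
      (EuclideanSpace.basisFun (Fin 4) ℝ).toBasis (L : E →ₗ[ℝ] E) i j = L (eb j) i := by
    intro i j; simp [LinearMap.toMatrix_apply, eb]
  simp only [Matrix.det_succ_row_zero, Fin.sum_univ_succ, Matrix.submatrix_apply, hm]
  simp [vol4, ev, zeta, Fin.succAbove, Fin.lt_def]
  ring

theorem contDiff_det : ContDiff ℝ ∞ fun L : E →L[ℝ] E => L.det := by
  simp only [det_eq, vol4]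
  refine contDiff_iff_contDiffAt.2 fun L => ?_
  have h : ∀ i, ContDiffAt ℝ ∞ (fun L : E →L[ℝ] E => L (eb i)) L := fun i =>
    contDiffAt_id.clm_apply contDiffAt_const
  refine contDiff_ev ?_ (h 2) (h 3)
  have h0 := contDiffAt_euclidean.1 (h 0)
  have h1 := contDiffAt_euclidean.1 (h 1)
  refine contDiffAt_euclidean.2 fun i => ?_
  fin_cases i <;> simp only [zeta] <;> simp <;> fun_prop

theorem contDiff_bp (a b : ℝ) : ContDiff ℝ ∞ (bp a b) := by
  unfold bp
  exact Real.smoothTransition.contDiff.comp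
    ((contDiff_const.sub (contDiff_norm_sq ℝ)).div_const _)

theorem bp_nonneg (a b : ℝ) (y : E) : 0 ≤ bp a b y := Real.smoothTransition.nonneg _

theorem bp_le_one (a b : ℝ) (y : E) : bp a b y ≤ 1 := Real.smoothTransition.le_one _

theorem bp_one {a b : ℝ} (ha : 0 ≤ a) (hab : a < b) {y : E} (hy : ‖y‖ ≤ a) : bp a b y = 1 := by
  apply Real.smoothTransition.one_of_one_le
  have h1 : 0 < b ^ 2 - a ^ 2 := by nlinarith
  rw [le_div_iff₀ h1]
  nlinarith [norm_nonneg y]

theorem bp_zero {a b : ℝ} (ha : 0 ≤ a) (hab : a < b) {y : E} (hy : b ≤ ‖y‖) : bp a b y = 0 := by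
  apply Real.smoothTransition.zero_of_nonpos
  have h1 : 0 < b ^ 2 - a ^ 2 := by nlinarith
  exact div_nonpos_of_nonpos_of_nonneg (by nlinarith) h1.le

theorem bp_pos {a b : ℝ} (ha : 0 ≤ a) (hab : a < b) {y : E} (hy : ‖y‖ < b) : 0 < bp a b y := by
  apply Real.smoothTransition.pos_of_pos
  have h1 : 0 < b ^ 2 - a ^ 2 := by nlinarith
  exact div_pos (by nlinarith [norm_nonneg y]) h1

end Vale.Agent.P204.Mo
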