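import Vale.Agent.P204.MoAlg
import Vale.Agent.P204.Par

/-! Integrals with parameters and the Hadamard quotient. -/

open scoped ContDiff Topology
open MeasureTheory Metric Filter

namespace Vale.Agent.P204.Mo

/-- Smoothness and differentiation of an integral with parameters. -/
theorem par_smooth {Y P F : Type} [NormedAddCommGroup Y] [NormedSpace ℝ Y] [FiniteDimensional ℝ Y]
    [NormedAddCommGroup P] [NormedSpace ℝ P] [FiniteDimensional ℝ P] [MeasurableSpace P]
    [BorelSpace P] [NormedAddCommGroup F] [NormedSpace ℝ F] [CompleteSpace F]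
    (μ : Measure P) [IsFiniteMeasure μ] {K : Set P} (hK : IsCompact K) (hμ : ∀ᵐ p ∂μ, p ∈ K)
    {G : Y × P → F} (hG : ContDiff ℝ ∞ G) :
    ContDiff ℝ ∞ (fun y => ∫ p, G (y, p) ∂μ) ∧ ∀ y, HasFDerivAt (fun y => ∫ p, G (y, p) ∂μ)
      (∫ p, fderiv ℝ (fun y' => G (y', p)) y ∂μ) y := by
  have h : μ.restrict K = μ := Measure.restrict_eq_self_of_ae_mem hμ
  have h1 := contDiff_setInt hG μ hK
  have h2 := hasFDerivAt_setInt hG μ hK
  rw [h] at h1 h2
  exact ⟨h1, h2⟩

/-- The Hadamard quotient in the second variable. -/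
theorem hadamard {Y P F : Type} [NormedAddCommGroup Y] [NormedSpace ℝ Y] [FiniteDimensional ℝ Y]
    [NormedAddCommGroup P] [NormedSpace ℝ P] [FiniteDimensional ℝ P]
    [NormedAddCommGroup F] [NormedSpace ℝ F] [CompleteSpace F]
    {G : Y × P → F} (hG : ContDiff ℝ ∞ G) :
    ∃ h : ℝ × Y × P → F, ContDiff ℝ ∞ h ∧
      (∀ ε y v, G (y, ε • v) = G (y, 0) + ε • h (ε, y, v)) ∧
      ∀ y v, h (0, y, v) = fderiv ℝ (fun w => G (y, w)) 0 v := by
  have hf : ContDiff ℝ ∞ fun q : ℝ × (Y × P) => G (q.2.1, q.1 • q.2.2) - G (q.2.1, 0) :=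
    (hG.comp (by fun_prop)).sub (hG.comp (by fun_prop))
  obtain ⟨g, hg, he, -⟩ := P204.hadamard hf (fun y => by simp)
  have he' : ∀ ε y v, G (y, ε • v) = G (y, 0) + ε • g (ε, y, v) := fun ε y v => by
    rw [← he ε (y, v)]; simp
  refine ⟨g, hg, he', fun y v => ?_⟩
  have h1 : HasDerivAt (fun ε : ℝ => G (y, ε • v)) (fderiv ℝ (fun w => G (y, w)) 0 v) 0 := by
    have h2 : DifferentiableAt ℝ (fun w => G (y, w)) ((0 : ℝ) • v) :=
      (hG.differentiable (by simp) _).comp _ (by fun_prop)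
    have h3 := h2.hasFDerivAt.comp_hasDerivAt (0 : ℝ) ((hasDerivAt_id (0 : ℝ)).smul_const v)
    simpa [Function.comp_def] using h3
  have h4 : DifferentiableAt ℝ (fun ε : ℝ => g (ε, y, v)) 0 :=
    (hg.differentiable (by simp) _).comp _ (by fun_prop)
  have h5 : HasDerivAt (fun ε : ℝ => G (y, 0) + ε • g (ε, y, v)) (g (0, y, v)) 0 := by
    have := ((hasDerivAt_id (0 : ℝ)).smul h4.hasDerivAt).const_add (G (y, 0))
    simpa using this
  simp only [he'] at h1
  exact h5.unique h1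

end Vale.Agent.P204.Mo
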