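import Vale.Agent.P204.MoPi
import Vale.Agent.P204.MoPar
import Vale.Agent.P204.MoCalc

/-! Averages of pull-backs are smooth and commute with the exterior derivative. -/

open scoped ContDiff Topology
open MeasureTheory Metric Filter

namespace Vale.Agent.P204.Mo

variable {m : ℕ} {F : E × (Fin m → E) → E}

namespace MoAvgAux

theorem slice_deriv {Z : Type} [NormedAddCommGroup Z] [NormedSpace ℝ Z]
    {H : E × (Fin m → E) → Z} (hH : ContDiff ℝ ∞ H) :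
    ContDiff ℝ ∞ fun q : E × (Fin m → E) => fderiv ℝ (fun y' => H (y', q.2)) q.1 :=
  ContDiff.fderiv (f := fun (q : E × (Fin m → E)) y' => H (y', q.2)) (g := Prod.fst) (m := ∞)
    (hH.comp (contDiff_snd.prodMk contDiff_fst.snd)) contDiff_fst le_rfl

theorem sm_T (hF : ContDiff ℝ ∞ F) (ε : ℝ) :
    ContDiff ℝ ∞ fun q : E × (Fin m → E) => F (q.1, ε • q.2) :=
  hF.comp (contDiff_fst.prodMk (contDiff_snd.const_smul ε))

theorem sm_DT (hF : ContDiff ℝ ∞ F) (ε : ℝ) :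
    ContDiff ℝ ∞ fun q : E × (Fin m → E) => fderiv ℝ (fun y' => F (y', ε • q.2)) q.1 :=
  slice_deriv (sm_T hF ε)

theorem sm_G (hF : ContDiff ℝ ∞ F) (ε : ℝ) {θ : E → W} (hθ : ContDiff ℝ ∞ θ) :
    ContDiff ℝ ∞ fun q : E × (Fin m → E) =>
      pull (fderiv ℝ (fun y' => F (y', ε • q.2)) q.1) (θ (F (q.1, ε • q.2))) :=
  (contDiff_pull.comp (sm_DT hF ε)).clm_apply (hθ.comp (sm_T hF ε))

theorem sm_G1 (hF : ContDiff ℝ ∞ F) (ε : ℝ) {p : E → E →L[ℝ] ℝ} (hp : ContDiff ℝ ∞ p) :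
    ContDiff ℝ ∞ fun q : E × (Fin m → E) =>
      p (F (q.1, ε • q.2)) ∘L fderiv ℝ (fun y' => F (y', ε • q.2)) q.1 :=
  (hp.comp (sm_T hF ε)).clm_comp (sm_DT hF ε)

theorem par {Z : Type} [NormedAddCommGroup Z] [NormedSpace ℝ Z] [CompleteSpace Z]
    {H : E × (Fin m → E) → Z} (hH : ContDiff ℝ ∞ H) :
    ContDiff ℝ ∞ (fun y => ∫ v, H (y, v) ∂piM m) ∧ ∀ (y : E) (Λ : (E →L[ℝ] Z) →L[ℝ] ℝ),
      Λ (fderiv ℝ (fun y => ∫ v, H (y, v) ∂piM m) y) =
        ∫ v, Λ (fderiv ℝ (fun y' => H (y', v)) y) ∂piM m := by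
  have := piM_prob m
  obtain ⟨h1, h2⟩ := par_smooth (piM m) (isCompact_closedBall 0 1) (piM_ae m) hH
  refine ⟨h1, fun y Λ => ?_⟩
  rw [(h2 y).fderiv, Λ.integral_comp_comm]
  exact piM_integrable
    ((slice_deriv hH).continuous.comp (continuous_const.prodMk continuous_id))

theorem slice (hF : ContDiff ℝ ∞ F) (w : Fin m → E) (y : E) :
    ContDiffAt ℝ ∞ (fun y' => F (y', w)) y :=
  (hF.comp (contDiff_id.prodMk contDiff_const)).contDiffAt

end MoAvgAux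

open MoAvgAux

theorem avg_integrable (hF : ContDiff ℝ ∞ F) (ε : ℝ) {θ : E → W} (hθ : Continuous θ) (y : E) :
    Integrable (fun v => pull (fderiv ℝ (fun y' => F (y', ε • v)) y) (θ (F (y, ε • v))))
      (piM m) := by
  have h1 : Continuous fun q : E × (Fin m → E) =>
      pull (fderiv ℝ (fun y' => F (y', ε • q.2)) q.1) (θ (F (q.1, ε • q.2))) :=
    (contDiff_pull.comp (sm_DT hF ε)).continuous.clm_apply (hθ.comp (sm_T hF ε).continuous)
  have h2 := h1.comp (continuous_const.prodMk continuous_id :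
    Continuous fun v : Fin m → E => ((y, v) : E × (Fin m → E)))
  exact piM_integrable h2

theorem avg_smooth (hF : ContDiff ℝ ∞ F) (ε : ℝ) {θ : E → W} (hθ : ContDiff ℝ ∞ θ) :
    ContDiff ℝ ∞ (avg F ε θ) := (par (sm_G hF ε hθ)).1

theorem avg_closed (hF : ContDiff ℝ ∞ F) (ε : ℝ) {θ : E → W} (hθ : ContDiff ℝ ∞ θ) {y : E}
    (hc : ∀ v : Fin m → E, ‖v‖ ≤ 1 → ClosedAt θ (F (y, ε • v))) : ClosedAt (avg F ε θ) y := by
  intro a b c
  have h := (par (sm_G hF ε hθ)).2 y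
    (evL b c ∘L ContinuousLinearMap.apply ℝ W a + evL c a ∘L ContinuousLinearMap.apply ℝ W b +
      evL a b ∘L ContinuousLinearMap.apply ℝ W c)
  refine Eq.trans ?_ (h.trans (integral_eq_zero_of_ae ?_))
  · rfl
  · filter_upwards [piM_ae m] with v hv
    exact closedAt_pull (slice hF (ε • v) y) hθ.contDiffAt (hc v (mem_closedBall_zero_iff.1 hv))
      a b c

theorem avg1_smooth (hF : ContDiff ℝ ∞ F) (ε : ℝ) {p : E → E →L[ℝ] ℝ} (hp : ContDiff ℝ ∞ p) :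
    ContDiff ℝ ∞ (avg1 F ε p) := (par (sm_G1 hF ε hp)).1

theorem avg_d1 (hF : ContDiff ℝ ∞ F) (ε : ℝ) {p : E → E →L[ℝ] ℝ} (hp : ContDiff ℝ ∞ p) (y : E) :
    avg F ε (d1 p) y = d1 (avg1 F ε p) y := by
  refine W_ext fun a b => ?_
  have h := (par (sm_G1 hF ε hp)).2 y
    (ContinuousLinearMap.apply ℝ ℝ b ∘L ContinuousLinearMap.apply ℝ (E →L[ℝ] ℝ) a -
      ContinuousLinearMap.apply ℝ ℝ a ∘L ContinuousLinearMap.apply ℝ (E →L[ℝ] ℝ) b)
  have hd : Continuous (d1 p) :=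
    continuous_iff_continuousAt.2 fun z => (contDiffAt_d1 hp.contDiffAt).continuousAt
  have h2 := (evL a b).integral_comp_comm (avg_integrable hF ε hd y)
  rw [ev_d1]
  refine Eq.trans h2.symm (Eq.trans (integral_congr_ae (Eventually.of_forall fun v => ?_)) h.symm)
  have h3 := d1_pull (slice hF (ε • v) y) (p := p) hp.contDiffAt
  simp only [evL_apply]
  rw [← h3, ev_d1]
  rfl

end Vale.Agent.P204.Mo
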