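import Vale.Agent.P204.MoAtl
import Vale.Agent.P204.MoAvg

/-! The averages in different charts agree. -/

open scoped ContDiff Topology
open MeasureTheory Metric Filter

namespace Vale.Agent.P204.Mo

universe u

variable {X : Type u} [TopologicalSpace X] [T2Space X] (s : Setup X)

variable {s} {Φ : (Fin s.m → E) → X → X} {F : Fin s.m → E × (Fin s.m → E) → E} {δ : ℝ}

namespace MoCompAux

omit [T2Space X] in
theorem point (h : IsFlow s Φ F δ) (φ : Form X) {w : Fin s.m → E} (hw : ‖w‖ < δ)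
    {i j : Fin s.m} {x : X} (hi : x ∈ (s.ψ i).source)
    (hj : x ∈ (s.ψ j).source) (hi' : ‖s.ψ i x‖ < 8) (hj' : ‖s.ψ j x‖ < 8) :
    pull (s.Q i x) (pull (fderiv ℝ (fun y' => F i (y', w)) (s.ψ i x))
      (cut s i φ (F i (s.ψ i x, w)))) =
    pull (s.Q j x) (pull (fderiv ℝ (fun y' => F j (y', w)) (s.ψ j x))
      (cut s j φ (F j (s.ψ j x, w)))) := by
  obtain ⟨a1, a2, a3⟩ := h.mem i _ w hi' hw
  obtain ⟨b1, b2, b3⟩ := h.mem j _ w hj' hw
  rw [(s.ψ i).left_inv hi] at a1 a2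
  rw [(s.ψ j).left_inv hj] at b1 b2
  have hd : ∀ k y, HasFDerivAt (fun y' => F k (y', w)) (fderiv ℝ (fun y' => F k (y', w)) y) y :=
    fun k y => (((h.smooth k).comp (contDiff_id.prodMk contDiff_const)).differentiable
      (by simp) y).hasFDerivAt
  have t1 := s.trans_deriv j i x hj hi
  have t2 := s.trans_deriv j i _ b1 a1
  have e : (fun y' => F i (y', w)) ∘ (fun y => s.ψ i ((s.ψ j).symm y)) =ᶠ[𝓝 (s.ψ j x)]
      (fun y => s.ψ i ((s.ψ j).symm y)) ∘ fun y' => F j (y', w) := by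
    have c1 := ((s.ψ j).continuousAt_symm ((s.ψ j).map_source hj)).preimage_mem_nhds
      ((s.ψ i).open_source.mem_nhds (by rwa [(s.ψ j).left_inv hj]))
    have c2 := t1.continuousAt.norm.eventually_lt continuousAt_const
      (show _ < (8 : ℝ) by rwa [(s.ψ j).left_inv hj])
    filter_upwards [c1, c2, continuous_norm.continuousAt.eventually_lt continuousAt_const hj']
      with y y1 y2 y3
    obtain ⟨d1, d2, -⟩ := h.mem j y w y3 hw
    have d3 := (h.mem i _ w y2 hw).2.1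
    rw [(s.ψ i).left_inv y1] at d3
    simp only [Function.comp_apply]
    rw [← d3, ← d2, (s.ψ j).left_inv d1]
  have k1 := HasFDerivAt.comp (s.ψ j x) (hd i _) t1
  have k2 := (HasFDerivAt.comp (s.ψ j x) (b2 ▸ t2 :) (hd j _)).congr_of_eventuallyEq e
  have k3 := k1.unique k2
  rw [(s.ψ j).left_inv hj] at k3
  rw [cut_eq s i φ a3.le, cut_eq s j φ b3.le, ← a2, ← b2]
  simp only [Setup.loc, LinearMap.coe_mk, AddHom.coe_mk, pull_pull, (s.ψ i).left_inv a1,
    (s.ψ j).left_inv b1]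
  rw [pull_congr fun v => ?_]
  have k4 := congrArg (s.P i (Φ w x)) (DFunLike.congr_fun k3 (s.Q j x v))
  simpa only [ContinuousLinearMap.comp_apply, s.PQ j x hj, s.PQ i _ a1] using k4

omit [T2Space X] in
theorem ev_Mop {φ : Form X} {ε : ℝ} {i : Fin s.m}
    (h : ∀ {y : E}, ‖y‖ < 8 → s.loc i (Mop s F ε φ) y = avg (F i) ε (cut s i φ) y) {y : E}
    (hy : ‖y‖ ≤ 1) : s.loc i (Mop s F ε φ) =ᶠ[𝓝 y] avg (F i) ε (cut s i φ) :=
  (continuous_norm.continuousAt.eventually_lt continuousAt_const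
    (show ‖y‖ < 8 by linarith)).mono fun _ hz => h hz

theorem small {m : ℕ} {ε δ : ℝ} (hε : ε ∈ Set.Ioo 0 δ) {v : Fin m → E} (hv : ‖v‖ ≤ 1) :
    ‖ε • v‖ < δ := by
  rw [norm_smul, Real.norm_of_nonneg hε.1.le]
  exact (mul_le_of_le_one_right hε.1.le hv).trans_lt hε.2

end MoCompAux

omit [T2Space X] in
theorem avg_compat (h : IsFlow s Φ F δ) {φ : Form X} (hφ : s.Smooth φ) {ε : ℝ}
    (hε : ε ∈ Set.Ioo 0 δ) {i j : Fin s.m} {x : X} (hi : x ∈ (s.ψ i).source)
    (hj : x ∈ (s.ψ j).source) (hi' : ‖s.ψ i x‖ < 8) (hj' : ‖s.ψ j x‖ < 8) :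
    pull (s.Q i x) (avg (F i) ε (cut s i φ) (s.ψ i x)) =
      pull (s.Q j x) (avg (F j) ε (cut s j φ) (s.ψ j x)) := by
  simp only [avg]
  rw [← ContinuousLinearMap.integral_comp_comm _
      (avg_integrable (h.smooth i) ε (cut_smooth s hφ i).continuous _),
    ← ContinuousLinearMap.integral_comp_comm _
      (avg_integrable (h.smooth j) ε (cut_smooth s hφ j).continuous _)]
  exact integral_congr_ae ((piM_ae _).mono fun v hv => MoCompAux.point h φ
    (MoCompAux.small hε (mem_closedBall_zero_iff.1 hv)) hi hj hi' hj')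

omit [T2Space X] in
theorem loc_Mop (h : IsFlow s Φ F δ) {φ : Form X} (hφ : s.Smooth φ) {ε : ℝ}
    (hε : ε ∈ Set.Ioo 0 δ) (j : Fin s.m) {y : E} (hy : ‖y‖ < 8) :
    s.loc j (Mop s F ε φ) y = avg (F j) ε (cut s j φ) y := by
  classical
  have hy' : y ∈ (s.ψ j).target := by
    rw [s.target, mem_ball_zero_iff]; linarith
  have hj := (s.ψ j).map_target hy'
  have hr := (s.ψ j).right_inv hy'
  have e : Mop s F ε φ ((s.ψ j).symm y) =
      pull (s.Q j ((s.ψ j).symm y)) (avg (F j) ε (cut s j φ) y) := by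
    rw [← one_smul ℝ (pull _ _), ← s.c_sum ((s.ψ j).symm y), Finset.sum_smul, Mop,
      Finset.sum_apply]
    refine Finset.sum_congr rfl fun i _ => ?_
    simp only [Setup.glob, LinearMap.coe_mk, AddHom.coe_mk]
    split_ifs with hi
    · rw [map_smul]
      by_cases h1 : 1 < ‖s.ψ i ((s.ψ j).symm y)‖
      · rw [(s.c_test i).2 _ h1, zero_smul, zero_smul]
      · rw [avg_compat h hφ hε hi hj (by linarith) (by rwa [hr]), hr]
    · rw [zero_smul]
  simp only [Setup.loc, LinearMap.coe_mk, AddHom.coe_mk]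
  rw [e, pull_pull]
  exact pull_of_id (s.QP j _ hj) _

omit [T2Space X] in
theorem Mop_smooth (h : IsFlow s Φ F δ) {φ : Form X} (hφ : s.Smooth φ) {ε : ℝ}
    (hε : ε ∈ Set.Ioo 0 δ) : s.Smooth (Mop s F ε φ) := by
  exact smooth_of_local s fun i y hy =>
    (avg_smooth (h.smooth i) ε (cut_smooth s hφ i)).contDiffAt.congr_of_eventuallyEq
      (MoCompAux.ev_Mop (loc_Mop h hφ hε i) hy)

omit [T2Space X] in
theorem Mop_closed (h : IsFlow s Φ F δ) {φ : Form X} (hφ : s.Smooth φ) (hc : s.Closed φ) {ε : ℝ}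
    (hε : ε ∈ Set.Ioo 0 δ) : s.Closed (Mop s F ε φ) := by
  refine closed_of_local s (Mop_smooth h hφ hε) fun i y hy => closedAt_congr
    (MoCompAux.ev_Mop (loc_Mop h hφ hε i) hy)
    (avg_closed (h.smooth i) ε (cut_smooth s hφ i) fun v hv => ?_)
  have h1 := (h.mem i y _ (by linarith) (MoCompAux.small hε hv)).2.2
  exact closedAt_congr ((continuous_norm.continuousAt.eventually_lt continuousAt_const h1).mono
    fun z hz => cut_eq s i φ hz.le) (hc i _ (mem_ball_zero_iff.2 (by linarith)))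

end Vale.Agent.P204.Mo
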