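import Vale.Agent.P204.MoAlg

/-! Definitions for the mollifier package: averages of pull-backs along small deformations
of the identity. -/

open scoped ContDiff
open MeasureTheory Metric

namespace Vale.Agent.P204.Mo

universe u

/-- A smooth probability density supported in the unit ball. -/
noncomputable def rho (u : E) : ℝ := (∫ w : E, bp 0 1 w)⁻¹ * bp 0 1 u

/-- The probability measure with density `rho`. -/
noncomputable def mu1 : Measure E := volume.withDensity fun u => ENNReal.ofReal (rho u)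

/-- The product of `m` copies of `mu1`. -/
noncomputable def piM (m : ℕ) : Measure (Fin m → E) := Measure.pi fun _ => mu1

/-- Average of the pull-backs of a two-form along the maps `F (·, ε v)`. -/
noncomputable def avg {m : ℕ} (F : E × (Fin m → E) → E) (ε : ℝ) (θ : E → W) (y : E) : W :=
  ∫ v, pull (fderiv ℝ (fun y' => F (y', ε • v)) y) (θ (F (y, ε • v))) ∂piM m

/-- Average of the pull-backs of a one-form along the maps `F (·, ε v)`. -/
noncomputable def avg1 {m : ℕ} (F : E × (Fin m → E) → E) (ε : ℝ) (p : E → E →L[ℝ] ℝ) (y : E) :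
    E →L[ℝ] ℝ :=
  ∫ v, p (F (y, ε • v)) ∘L fderiv ℝ (fun y' => F (y', ε • v)) y ∂piM m

/-- `IsKer` without the two smallness conditions on `ε₀`. -/
structure PreKer (K : ℝ × E × E → W →L[ℝ] W) (R N ε₀ : ℝ) : Prop extends SKer K R where
  zero : ∃ k : E → E → ℝ,
    (∀ y ∈ closedBall (0 : E) 6, ∀ z, K (0, y, z) = k y z • ContinuousLinearMap.id ℝ W) ∧
      ∀ y ∈ closedBall (0 : E) 6, ∫ z, k y z = 1
  np : ∀ ε ∈ Set.Ioo 0 ε₀, ∀ y ∈ closedBall (0 : E) 6, ∀ z, ∀ ℓ : (W →L[ℝ] W) →L[ℝ] ℝ,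
    (∀ L : E →L[ℝ] E, ‖L - ContinuousLinearMap.id ℝ E‖ ≤ N * ε → 0 ≤ ℓ (pull L)) →
      0 ≤ ℓ (K (ε, y, z))
  Npos : 0 ≤ N
  epos : 0 < ε₀

variable {X : Type u} [TopologicalSpace X] (s : Setup X)

open Classical in
/-- Translation by `w` in the middle of chart `k`, the identity outside. -/
noncomputable def step (k : Fin s.m) (w : E) (x : X) : X :=
  if x ∈ (s.ψ k).source then (s.ψ k).symm (s.ψ k x + bp 7 8 (s.ψ k x) • w) else x

/-- Composition of the maps `step k (w k)` along a list of charts. -/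
noncomputable def fl (l : List (Fin s.m)) (w : Fin s.m → E) (x : X) : X :=
  l.foldr (fun k z => step s k (w k) z) x

/-- A family of deformations of the identity, with globally smooth expressions in the charts. -/
structure IsFlow (Φ : (Fin s.m → E) → X → X) (F : Fin s.m → E × (Fin s.m → E) → E) (δ : ℝ) :
    Prop where
  pos : 0 < δ
  smooth : ∀ j, ContDiff ℝ ∞ (F j)
  mem : ∀ j y w, ‖y‖ < 8 → ‖w‖ < δ → Φ w ((s.ψ j).symm y) ∈ (s.ψ j).source ∧
    s.ψ j (Φ w ((s.ψ j).symm y)) = F j (y, w) ∧ ‖F j (y, w)‖ < 9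
  zero : ∀ j y, ‖y‖ < 8 → F j (y, 0) = y
  single : ∀ j y u, ‖y‖ ≤ 7 → ‖u‖ < δ → F j (y, Pi.single j u) = y + u
  supp : ∀ i x w, ‖w‖ < δ → Φ w x ∈ (s.ψ i).source → ‖s.ψ i (Φ w x)‖ ≤ 1 →
    x ∈ (s.ψ i).source ∧ ‖s.ψ i x‖ ≤ 2

/-- The expression of a form in chart `j`, cut off near the boundary of the chart. -/
noncomputable def cut (j : Fin s.m) (φ : Form X) (y : E) : W := bp 9 (19 / 2) y • s.loc j φ y

/-- The regularisation operator. -/
noncomputable def Mop (F : Fin s.m → E × (Fin s.m → E) → E) (ε : ℝ) (φ : Form X) : Form X :=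
  ∑ j, s.glob j fun y => s.c j y • avg (F j) ε (cut s j φ) y

end Vale.Agent.P204.Mo
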