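import Vale.Agent.P204.MoDefs

/-! Continuity and smoothness of the compositions of chart translations. -/

open scoped ContDiff Topology
open MeasureTheory Metric Filter

namespace Vale.Agent.P204.Mo

universe u

variable {X : Type u} [TopologicalSpace X] [T2Space X] (s : Setup X)

namespace MoFlow1Aux

omit [T2Space X] in
theorem step_zero (k : Fin s.m) (x : X) : step s k 0 x = x := by
  unfold step
  split_ifs with h
  · rw [smul_zero, add_zero, (s.ψ k).left_inv h]
  · rfl

omit [T2Space X] in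
theorem fl_cons (k : Fin s.m) (l : List (Fin s.m)) (w : Fin s.m → E) (x : X) :
    fl s (k :: l) w x = step s k (w k) (fl s l w x) := rfl

omit [T2Space X] in
theorem fl_single (j : Fin s.m) (u : E) (x : X) (l : List (Fin s.m)) (hl : l.Nodup) :
    fl s l (Pi.single j u) x = if j ∈ l then step s j u x else x := by
  induction l with
  | nil => rfl
  | cons k l ih =>
    obtain ⟨h1, h2⟩ := List.nodup_cons.1 hl
    rw [fl_cons, ih h2]
    by_cases h : k = j
    · subst h
      rw [if_neg h1, if_pos List.mem_cons_self, Pi.single_eq_same]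
    · rw [Pi.single_eq_of_ne h, step_zero]
      simp only [List.mem_cons, Ne.symm h, false_or]

omit [T2Space X] in
theorem tau_mem {k : Fin s.m} {u : E} (hu : ‖u‖ < 1) {x : X} (hx : x ∈ (s.ψ k).source) :
    s.ψ k x + bp 7 8 (s.ψ k x) • u ∈ (s.ψ k).target := by
  by_cases h : 8 ≤ ‖s.ψ k x‖
  · rw [bp_zero (by norm_num) (by norm_num) h, zero_smul, add_zero]
    exact (s.ψ k).map_source hx
  · rw [s.target, mem_ball_zero_iff]
    refine (norm_add_le _ _).trans_lt ?_
    rw [norm_smul, Real.norm_of_nonneg (bp_nonneg _ _ _)]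
    have := mul_le_of_le_one_left (norm_nonneg u) (bp_le_one 7 8 (s.ψ k x))
    linarith [not_le.1 h]

omit [T2Space X] in
theorem ev_in {k : Fin s.m} {x : X} (hx : x ∈ (s.ψ k).source) : ∀ᶠ x' in 𝓝 x, ∀ u,
    step s k u x' = (s.ψ k).symm (s.ψ k x' + bp 7 8 (s.ψ k x') • u) := by
  filter_upwards [(s.ψ k).open_source.mem_nhds hx] with x' h u
  rw [step, if_pos h]

theorem ev_out {k : Fin s.m} {x : X} (hx : x ∉ (s.ψ k).source) : ∀ᶠ x' in 𝓝 x, ∀ u,
    step s k u x' = x' := by
  have hs : closedBall (0 : E) 8 ⊆ (s.ψ k).target := by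
    rw [s.target]
    exact closedBall_subset_ball (by norm_num)
  have hc : IsCompact ((s.ψ k).symm '' closedBall (0 : E) 8) :=
    (isCompact_closedBall _ _).image_of_continuousOn ((s.ψ k).continuousOn_symm.mono hs)
  have hx' : x ∉ (s.ψ k).symm '' closedBall (0 : E) 8 := by
    rintro ⟨y, hy, rfl⟩
    exact hx ((s.ψ k).map_target (hs hy))
  filter_upwards [hc.isClosed.isOpen_compl.mem_nhds hx'] with x' h u
  unfold step
  split_ifs with h1
  · have : 8 ≤ ‖s.ψ k x'‖ := by
      by_contra h2
      exact h ⟨_, mem_closedBall_zero_iff.2 (not_le.1 h2).le, (s.ψ k).left_inv h1⟩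
    rw [bp_zero (by norm_num) (by norm_num) this, zero_smul, add_zero, (s.ψ k).left_inv h1]
  · rfl

theorem step_cont {P : Type*} [TopologicalSpace P] {G : P → X} {u : P → E} {p : P} (k : Fin s.m)
    (hG : ContinuousAt G p) (hu : ContinuousAt u p) (h1 : ‖u p‖ < 1) :
    ContinuousAt (fun q => step s k (u q) (G q)) p := by
  by_cases hx : G p ∈ (s.ψ k).source
  · have c1 : ContinuousAt (fun q => s.ψ k (G q)) p := ((s.ψ k).continuousAt hx).comp hG
    have c2 : ContinuousAt (fun q => s.ψ k (G q) + bp 7 8 (s.ψ k (G q)) • u q) p :=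
      c1.add (((contDiff_bp 7 8).continuous.continuousAt.comp c1).smul hu)
    refine (ContinuousAt.comp (f := fun q => s.ψ k (G q) + bp 7 8 (s.ψ k (G q)) • u q)
      ((s.ψ k).continuousAt_symm (tau_mem s h1 hx)) c2).congr ?_
    filter_upwards [hG.eventually (ev_in s hx)] with q h using (h _).symm
  · refine hG.congr ?_
    filter_upwards [hG.eventually (ev_out s hx)] with q h using (h _).symm

variable {P : Type*} [NormedAddCommGroup P] [NormedSpace ℝ P] {G : P → X} {p : P}

/-- Smoothness at a point of a map into the manifold. -/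
def SmAt (G : P → X) (p : P) : Prop := ContinuousAt G p ∧
  ∀ j, G p ∈ (s.ψ j).source → ContDiffAt ℝ ∞ (fun q => s.ψ j (G q)) p

omit [T2Space X] in
theorem of_one {i : Fin s.m} (hG : ContinuousAt G p) (hi : G p ∈ (s.ψ i).source)
    (h : ContDiffAt ℝ ∞ (fun q => s.ψ i (G q)) p) : SmAt s G p := by
  refine ⟨hG, fun j hj => ?_⟩
  have h1 : ContDiffAt ℝ ∞ (fun y => s.ψ j ((s.ψ i).symm y)) (s.ψ i (G p)) :=
    (s.trans_smooth i j).contDiffAt (((s.ψ i).symm.isOpen_inter_preimage
      (s.ψ j).open_source).mem_nhds ⟨(s.ψ i).map_source hi, by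
        rw [Set.mem_preimage, (s.ψ i).left_inv hi]; exact hj⟩)
  refine (ContDiffAt.comp (f := fun q => s.ψ i (G q)) p h1 h).congr_of_eventuallyEq ?_
  filter_upwards [hG.eventually ((s.ψ i).open_source.mem_nhds hi)] with q hq
  rw [Function.comp_apply, (s.ψ i).left_inv hq]

theorem step_sm {u : P → E} (k : Fin s.m) (hG : SmAt s G p) (hu : ContDiffAt ℝ ∞ u p)
    (h1 : ‖u p‖ < 1) : SmAt s (fun q => step s k (u q) (G q)) p := by
  have hc := step_cont s k hG.1 hu.continuousAt h1
  by_cases hx : G p ∈ (s.ψ k).source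
  · have c1 := hG.2 k hx
    have c2 : ContDiffAt ℝ ∞ (fun q => s.ψ k (G q) + bp 7 8 (s.ψ k (G q)) • u q) p :=
      c1.add (((contDiff_bp 7 8).contDiffAt.comp p c1).smul hu)
    refine of_one s (i := k) hc ?_ (c2.congr_of_eventuallyEq ?_)
    · rw [(ev_in s hx).self_of_nhds]
      exact (s.ψ k).map_target (tau_mem s h1 hx)
    · filter_upwards [hG.1.eventually (ev_in s hx), c2.continuousAt.eventually
        ((s.ψ k).open_target.mem_nhds (tau_mem s h1 hx))] with q h h'
      rw [h, (s.ψ k).right_inv h']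
  · have e := hG.1.eventually (ev_out s hx)
    refine ⟨hc, fun j hj => (hG.2 j ?_).congr_of_eventuallyEq ?_⟩
    · exact e.self_of_nhds (u p) ▸ hj
    · filter_upwards [e] with q h
      rw [h]

theorem fl_sm {w : P → Fin s.m → E} (l : List (Fin s.m)) (hG : SmAt s G p)
    (hw : ContDiffAt ℝ ∞ w p) (h1 : ‖w p‖ < 1) : SmAt s (fun q => fl s l (w q) (G q)) p := by
  induction l with
  | nil => exact hG
  | cons k l ih =>
    exact step_sm s k ih (contDiffAt_pi.1 hw k) ((norm_le_pi_norm _ k).trans_lt h1)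

end MoFlow1Aux
open MoFlow1Aux

theorem fl_zero (l : List (Fin s.m)) (x : X) : fl s l 0 x = x := by
  induction l with
  | nil => rfl
  | cons k l ih => rw [fl_cons, ih, Pi.zero_apply, step_zero]

theorem fl_single (j : Fin s.m) (u : E) (x : X) :
    fl s (List.finRange s.m) (Pi.single j u) x = step s j u x := by
  rw [MoFlow1Aux.fl_single s j u x _ (List.nodup_finRange _), if_pos (List.mem_finRange j)]

theorem fl_cont (l : List (Fin s.m)) {w : Fin s.m → E} (hw : ‖w‖ < 1) (x : X) :
    ContinuousAt (fun q : (Fin s.m → E) × X => fl s l q.1 q.2) (w, x) := by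
  induction l with
  | nil => exact continuousAt_snd
  | cons k l ih =>
    exact step_cont s k ih ((continuous_apply k).comp continuous_fst).continuousAt
      ((norm_le_pi_norm _ k).trans_lt hw)

theorem fl_smooth (l : List (Fin s.m)) {w : Fin s.m → E} (hw : ‖w‖ < 1) {i j : Fin s.m} {x : X}
    (hi : x ∈ (s.ψ i).source) (hj : fl s l w x ∈ (s.ψ j).source) :
    ContDiffAt ℝ ∞ (fun q : E × (Fin s.m → E) => s.ψ j (fl s l q.2 ((s.ψ i).symm q.1)))
      (s.ψ i x, w) := by
  have ht := (s.ψ i).map_source hi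
  have h0 : SmAt s (fun q : E × (Fin s.m → E) => (s.ψ i).symm q.1) (s.ψ i x, w) := by
    refine of_one s (i := i) (ContinuousAt.comp (f := Prod.fst) ((s.ψ i).continuousAt_symm ht)
      continuousAt_fst) ((s.ψ i).map_target ht) (contDiffAt_fst.congr_of_eventuallyEq ?_)
    filter_upwards [(continuousAt_fst (p := (s.ψ i x, w))).eventually
      ((s.ψ i).open_target.mem_nhds ht)] with q h using (s.ψ i).right_inv h
  refine (fl_sm s l h0 contDiffAt_snd hw).2 j ?_
  change fl s l w ((s.ψ i).symm (s.ψ i x)) ∈ _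
  rwa [(s.ψ i).left_inv hi]

end Vale.Agent.P204.Mo
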