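import Vale.Agent.P204.MoFlow1

/-! Existence of the family of deformations. -/

open scoped ContDiff Topology
open MeasureTheory Metric Filter

namespace Vale.Agent.P204.Mo

universe u

variable {X : Type u} [TopologicalSpace X] [T2Space X] (s : Setup X)

namespace MoFlow2Aux

omit [T2Space X] in
theorem mem_target (j : Fin s.m) {y : E} (hy : ‖y‖ < 10) : y ∈ (s.ψ j).target := by
  rw [s.target, mem_ball_zero_iff]; exact hy

theorem near (l : List (Fin s.m)) (j : Fin s.m) : ∀ᶠ w in 𝓝 (0 : Fin s.m → E),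
    ∀ y ∈ closedBall (0 : E) (17 / 2), fl s l w ((s.ψ j).symm y) ∈ (s.ψ j).source ∧
      ‖s.ψ j (fl s l w ((s.ψ j).symm y))‖ < 9 := by
  refine (isCompact_closedBall (0 : E) (17 / 2)).eventually_forall_of_forall_eventually
    fun y hy => ?_
  rw [mem_closedBall_zero_iff] at hy
  have ht := mem_target s j (y := y) (by linarith)
  have h1 : ContinuousAt (fun z : (Fin s.m → E) × E => ((z.1, (s.ψ j).symm z.2) : _ × X)) (0, y) :=
    continuousAt_fst.prodMk (ContinuousAt.comp (f := Prod.snd) ((s.ψ j).continuousAt_symm ht)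
      continuousAt_snd)
  have h2 := ContinuousAt.comp (f := fun z : (Fin s.m → E) × E => ((z.1, (s.ψ j).symm z.2) : _ × X))
    (fl_cont s l (w := 0) (by simp) ((s.ψ j).symm y)) h1
  have h3 : (s.ψ j).source ∩ s.ψ j ⁻¹' ball 0 9 ∈ 𝓝 (fl s l 0 ((s.ψ j).symm y)) := by
    refine ((s.ψ j).isOpen_inter_preimage isOpen_ball).mem_nhds ?_
    rw [fl_zero]
    refine ⟨(s.ψ j).map_target ht, ?_⟩
    rw [Set.mem_preimage, (s.ψ j).right_inv ht, mem_ball_zero_iff]
    linarith
  filter_upwards [h2.eventually h3] with z hz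
  exact ⟨hz.1, mem_ball_zero_iff.1 hz.2⟩

theorem far [CompactSpace X] (l : List (Fin s.m)) (i : Fin s.m) : ∀ᶠ w in 𝓝 (0 : Fin s.m → E),
    ∀ x, fl s l w x ∈ (s.ψ i).source → ‖s.ψ i (fl s l w x)‖ ≤ 1 →
      x ∈ (s.ψ i).source ∧ ‖s.ψ i x‖ ≤ 2 := by
  have hK : IsCompact ((s.ψ i).source ∩ s.ψ i ⁻¹' ball 0 2)ᶜ :=
    ((s.ψ i).isOpen_inter_preimage isOpen_ball).isClosed_compl.isCompact
  have hsub : closedBall (0 : E) 1 ⊆ (s.ψ i).target := fun y hy =>
    mem_target s i (by rw [mem_closedBall_zero_iff] at hy; linarith)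
  have hC : IsClosed ((s.ψ i).symm '' closedBall 0 1) :=
    ((isCompact_closedBall (0 : E) 1).image_of_continuousOn
      ((s.ψ i).continuousOn_symm.mono hsub)).isClosed
  have h1 := hK.eventually_forall_of_forall_eventually (x₀ := (0 : Fin s.m → E))
    (P := fun w x => fl s l w x ∈ ((s.ψ i).symm '' closedBall 0 1)ᶜ) fun x hx => by
      refine (fl_cont s l (w := 0) (by simp) x).eventually (hC.isOpen_compl.mem_nhds ?_)
      simp only [fl_zero]
      rintro ⟨y, hy, rfl⟩
      refine hx ⟨(s.ψ i).map_target (hsub hy), ?_⟩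
      rw [Set.mem_preimage, (s.ψ i).right_inv (hsub hy), mem_ball_zero_iff]
      rw [mem_closedBall_zero_iff] at hy
      linarith
  filter_upwards [h1] with w hw x h2 h3
  by_contra hc
  refine hw x (fun h4 => hc ⟨h4.1, (mem_ball_zero_iff.1 h4.2).le⟩)
    ⟨_, mem_closedBall_zero_iff.2 h3, (s.ψ i).left_inv h2⟩

/-- The cutoff in the variables `(y, w)`. -/
noncomputable def co (m : ℕ) (d : ℝ) (q : E × (Fin m → E)) : ℝ :=
  bp 8 (33 / 4) q.1 * ∏ k, bp d (3 * d / 2) (q.2 k)

theorem co_smooth (m : ℕ) (d : ℝ) : ContDiff ℝ ∞ (co m d) :=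
  ((contDiff_bp _ _).comp contDiff_fst).mul
    (contDiff_prod fun k _ => (contDiff_bp _ _).comp ((contDiff_apply ℝ E k).comp contDiff_snd))

theorem co_one {m : ℕ} {d : ℝ} (hd : 0 < d) {y : E} {w : Fin m → E} (hy : ‖y‖ < 8)
    (hw : ‖w‖ < d) : co m d (y, w) = 1 := by
  unfold co
  rw [bp_one (by norm_num) (by norm_num) hy.le, one_mul]
  exact Finset.prod_eq_one fun k _ =>
    bp_one hd.le (by linarith) ((norm_le_pi_norm w k).trans hw.le)

theorem co_zero {m : ℕ} {d : ℝ} (hd : 0 < d) {q : E × (Fin m → E)}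
    (hq : ¬ (‖q.1‖ < 17 / 2 ∧ ‖q.2‖ < 2 * d)) : ∀ᶠ r in 𝓝 q, co m d r = 0 := by
  by_cases h1 : ‖q.1‖ < 17 / 2
  · have h2 : ∃ k, 3 * d / 2 < ‖q.2 k‖ := by
      by_contra hc
      simp only [not_exists, not_lt] at hc
      have := (pi_norm_le_iff_of_nonneg (by positivity)).2 hc
      exact hq ⟨h1, by linarith⟩
    obtain ⟨k, hk⟩ := h2
    have hc : Continuous fun r : E × (Fin m → E) => ‖r.2 k‖ := by fun_prop
    filter_upwards [hc.continuousAt.eventually (lt_mem_nhds hk)] with r hr
    unfold co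
    rw [Finset.prod_eq_zero (Finset.mem_univ k) (bp_zero hd.le (by linarith) hr.le), mul_zero]
  · have hk : (33 / 4 : ℝ) < ‖q.1‖ := by linarith [not_lt.1 h1]
    have hc : Continuous fun r : E × (Fin m → E) => ‖r.1‖ := by fun_prop
    filter_upwards [hc.continuousAt.eventually (lt_mem_nhds hk)] with r hr
    unfold co
    rw [bp_zero (by norm_num) (by norm_num) hr.le, zero_mul]

end MoFlow2Aux

open MoFlow2Aux in
theorem exists_flow [CompactSpace X] : ∃ Φ F δ, IsFlow s Φ F δ := by
  obtain ⟨ε, hε, h⟩ := Metric.eventually_nhds_iff.1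
    ((eventually_all.2 (near s (List.finRange s.m))).and
      (eventually_all.2 (far s (List.finRange s.m))))
  simp only [dist_zero_right] at h
  obtain ⟨d, hd, hd1, hd2⟩ : ∃ d : ℝ, 0 < d ∧ 2 * d ≤ ε ∧ 2 * d ≤ 1 :=
    ⟨min ε 1 / 2, by positivity, by linarith [min_le_left ε 1], by linarith [min_le_right ε 1]⟩
  refine ⟨fl s (List.finRange s.m), fun j q => co s.m d q •
    s.ψ j (fl s (List.finRange s.m) q.2 ((s.ψ j).symm q.1)), d, hd, fun j => ?_,
    fun j y w hy hw => ?_, fun j y hy => ?_, fun j y u hy hu => ?_,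
    fun i x w hw => (h (by linarith)).2 i x⟩
  · refine contDiff_iff_contDiffAt.2 fun q => ?_
    by_cases hq : ‖q.1‖ < 17 / 2 ∧ ‖q.2‖ < 2 * d
    · have ht := mem_target s j (y := q.1) (by linarith [hq.1])
      have h1 := fl_smooth s (List.finRange s.m) (w := q.2) (by linarith [hq.2])
        ((s.ψ j).map_target ht)
        ((h (y := q.2) (by linarith [hq.2])).1 j q.1 (mem_closedBall_zero_iff.2 hq.1.le)).1
      rw [(s.ψ j).right_inv ht] at h1
      exact (co_smooth _ _).contDiffAt.smul h1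
    · refine (contDiffAt_const (c := (0 : E))).congr_of_eventuallyEq ?_
      filter_upwards [co_zero hd hq] with r hr
      rw [hr, zero_smul]
  · have h1 := (h (y := w) (by linarith)).1 j y (mem_closedBall_zero_iff.2 (by linarith))
    simp only [co_one hd hy hw, one_smul]
    exact ⟨h1.1, trivial, h1.2⟩
  · simp only [co_one hd hy (w := 0) (by simpa using hd), one_smul, fl_zero]
    exact (s.ψ j).right_inv (mem_target s j (by linarith))
  · have ht := mem_target s j (y := y) (by linarith)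
    have hw : ‖(Pi.single j u : Fin s.m → E)‖ < d := by rwa [Pi.norm_single]
    simp only [co_one hd (y := y) (by linarith) hw, one_smul, fl_single]
    rw [step, if_pos ((s.ψ j).map_target ht), (s.ψ j).right_inv ht,
      bp_one (by norm_num) (by norm_num) hy, one_smul]
    exact (s.ψ j).right_inv (mem_target s j (by linarith [norm_add_le y u]))

end Vale.Agent.P204.Mo
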