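import Vale.Agent.P204.MoAlg

/-! Global inverse of a small perturbation of the identity, and change of variables. -/

open scoped ContDiff Topology
open MeasureTheory Metric Filter

namespace Vale.Agent.P204.Mo

namespace MoIftAux

theorem inj {A : E →L[ℝ] E} (hA : ‖A‖ ≤ 1 / 2) {v : E} (h : v + A v = 0) : v = 0 := by
  have h1 := A.le_of_opNorm_le hA v
  rw [← neg_eq_iff_add_eq_zero.2 h, norm_neg] at h1
  exact norm_le_zero_iff.1 (by linarith)

theorem bij {s : E → E} (hs : Differentiable ℝ s) (hb : ∀ u, ‖fderiv ℝ s u‖ ≤ 1 / 2) :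
    Function.Bijective fun u => u + s u := by
  have h1 : LipschitzWith (1 / 2) s := lipschitzWith_of_nnnorm_fderiv_le hs fun u => by
    exact_mod_cast hb u
  have h2 : ∀ z, ContractingWith (1 / 2) fun u => z - s u := fun z =>
    ⟨by norm_num, LipschitzWith.of_dist_le_mul fun x y => by
      simpa only [dist_sub_left] using h1.dist_le_mul x y⟩
  refine ⟨fun u v h => (h2 (v + s v)).fixedPoint_unique' ?_ (add_sub_cancel_right v _),
    fun z => ⟨_, (sub_eq_iff_eq_add.1 (h2 z).fixedPoint_isFixedPt).symm⟩⟩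
  exact sub_eq_iff_eq_add.2 h.symm

theorem inv {A : Type} [NormedAddCommGroup A] [NormedSpace ℝ A] [FiniteDimensional ℝ A]
    (e : A ≃ A) (he : ContDiff ℝ ∞ e) (hi : ∀ a u, fderiv ℝ e a u = 0 → u = 0) :
    ContDiff ℝ ∞ e.symm := by
  have := FiniteDimensional.complete ℝ A
  refine contDiff_iff_contDiffAt.2 (e.surjective.forall.2 fun a => ?_)
  have h1 : HasFDerivAt e ((LinearEquiv.ofInjectiveEndo (fderiv ℝ e a : A →ₗ[ℝ] A)
      ((injective_iff_map_eq_zero _).2 (hi a))).toContinuousLinearEquiv : A →L[ℝ] A) a :=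
    (he.differentiable (by simp) a).hasFDerivAt.congr_fderiv (by ext u; rfl)
  refine (he.contDiffAt.to_localInverse h1 (by simp)).congr_of_eventuallyEq ?_
  filter_upwards [(he.contDiffAt.hasStrictFDerivAt' h1 (by simp)).eventually_right_inverse]
    with y hy using e.symm_apply_eq.2 hy.symm

end MoIftAux

theorem det_pos_of_near {A : E →L[ℝ] E} (hA : ‖A‖ ≤ 1 / 2) :
    0 < (ContinuousLinearMap.id ℝ E + A).det := by
  by_contra h
  have h1 : Continuous fun t : ℝ => (ContinuousLinearMap.id ℝ E + t • A).det :=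
    ContinuousLinearMap.continuous_det.comp (by fun_prop)
  obtain ⟨t, ht, h2⟩ := intermediate_value_Icc' zero_le_one h1.continuousOn (a := 0)
    ⟨by simpa using h, by simp [ContinuousLinearMap.det]⟩
  refine LinearMap.det_eq_zero_iff_ker_ne_bot.1 h2 (LinearMap.ker_eq_bot'.2 fun v hv =>
    MoIftAux.inj (A := t • A) ?_ hv)
  rw [norm_smul, Real.norm_of_nonneg ht.1]
  exact (mul_le_of_le_one_left (norm_nonneg _) ht.2).trans hA

/-- Inverse of `u ↦ u + s (p, u)`, smooth in both variables. -/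
theorem ift {P : Type} [NormedAddCommGroup P] [NormedSpace ℝ P] [FiniteDimensional ℝ P]
    {s : P × E → E} (hs : ContDiff ℝ ∞ s)
    (hb : ∀ p u, ‖fderiv ℝ (fun u' => s (p, u')) u‖ ≤ 1 / 2) :
    ∃ g : P × E → E, ContDiff ℝ ∞ g ∧ (∀ p u, g (p, u + s (p, u)) = u) ∧
      (∀ p z, g (p, z) + s (p, g (p, z)) = z) ∧
      ∀ p z, 0 < (fderiv ℝ (fun z' => g (p, z')) z).det := by
  have hd := hs.differentiable (by simp)
  have h1 : ∀ p, Differentiable ℝ fun u => s (p, u) := fun p => by fun_prop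
  obtain ⟨e, he⟩ : ∃ e : P × E ≃ P × E, ⇑e = fun a => (a.1, a.2 + s a) :=
    ⟨Equiv.prodCongrRight fun p => Equiv.ofBijective _ (MoIftAux.bij (h1 p) (hb p)), rfl⟩
  have h2 : ContDiff ℝ ∞ e.symm := MoIftAux.inv e (by rw [he]; fun_prop) fun a v hv => by
    rw [he, (hasFDerivAt_fst.prodMk (hasFDerivAt_snd.fun_add (hd a).hasFDerivAt)).fderiv] at hv
    obtain ⟨v1, v2⟩ := v
    obtain rfl : v1 = 0 := congrArg Prod.fst hv
    have h3 := ((hd (a.1, a.2)).hasFDerivAt.comp a.2 (hasFDerivAt_prodMk_right a.1 a.2)).fderiv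
    exact congrArg _ (MoIftAux.inj (hb a.1 a.2)
      ((congrArg (fun T : E →L[ℝ] E => v2 + T v2) h3).trans (congrArg Prod.snd hv)))
  have h3 : ∀ p z, (e.symm (p, z)).2 + s (p, (e.symm (p, z)).2) = z := fun p z => by
    have h4 := e.apply_symm_apply (p, z)
    rw [he, Prod.ext_iff] at h4
    exact (congrArg (fun q => _ + s (q, _)) h4.1.symm).trans h4.2
  refine ⟨fun a => (e.symm a).2, h2.snd, fun p u => ?_, h3, fun p z => ?_⟩
  · exact congrArg Prod.snd (e.symm_apply_eq.2 (congrFun he (p, u)).symm)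
  have h4 : DifferentiableAt ℝ (fun z' => (e.symm (p, z')).2) z := by
    have := h2.differentiable (by simp)
    fun_prop
  have h5 := (HasFDerivAt.comp (f := fun z' => (e.symm (p, z')).2) z
    ((hasFDerivAt_id _).add (h1 p _).hasFDerivAt) h4.hasFDerivAt).unique
    ((hasFDerivAt_id z).congr_of_eventuallyEq (.of_forall (h3 p)))
  have h6 := (LinearMap.det_comp _ _).symm.trans
    ((congrArg ContinuousLinearMap.det h5).trans LinearMap.det_id)
  exact (pos_iff_pos_of_mul_pos (one_pos.trans_eq h6.symm)).1 (det_pos_of_near (hb p _))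

/-- Change of variables along a smooth bijection with positive Jacobian. -/
theorem cov {F : Type} [NormedAddCommGroup F] [NormedSpace ℝ F] {g : E → E}
    (hg : ContDiff ℝ ∞ g) (hb : Function.Bijective g) (hd : ∀ z, 0 < (fderiv ℝ g z).det)
    (G : E → F) : ∫ u, G u = ∫ z, (fderiv ℝ g z).det • G (g z) := by
  have := integral_image_eq_integral_abs_det_fderiv_smul volume MeasurableSet.univ
    (fun z _ => (hg.differentiable (by simp) z).hasFDerivAt.hasFDerivWithinAt) hb.1.injOn G
  simpa only [Set.image_univ, hb.2.range_eq, Measure.restrict_univ, abs_of_pos (hd _)] using this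

end Vale.Agent.P204.Mo
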