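import Vale.Agent.P204.MoDefs
import Vale.Agent.P204.MoPar

/-! Normal form of the deformations in the variable of one chart. -/

open scoped ContDiff Topology
open MeasureTheory Metric Filter

namespace Vale.Agent.P204.Mo

namespace MoKer1Aux

/-- Cut-off in the parameters. -/
noncomputable def chi {m : ℕ} (p : E × (Fin m → E)) : ℝ := bp 6 7 p.1 * ∏ k, bp 1 2 (p.2 k)

theorem chi_smooth {m : ℕ} : ContDiff ℝ ∞ (chi (m := m)) :=
  ((contDiff_bp 6 7).comp contDiff_fst).mul
    (contDiff_prod fun k _ => (contDiff_bp 1 2).comp ((contDiff_apply ℝ E k).comp contDiff_snd))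

theorem chi_one {m : ℕ} {y : E} {v : Fin m → E} (hy : ‖y‖ ≤ 6) (hv : ‖v‖ ≤ 1) :
    chi (y, v) = 1 := by
  simp only [chi]
  rw [bp_one (by norm_num) (by norm_num) hy, one_mul]
  exact Finset.prod_eq_one fun k _ =>
    bp_one (by norm_num) (by norm_num) ((norm_le_pi_norm v k).trans hv)

theorem chi_ne {m : ℕ} {y : E} {v : Fin m → E} (h : chi (y, v) ≠ 0) : ‖y‖ ≤ 7 ∧ ‖v‖ ≤ 2 := by
  simp only [chi] at h
  refine ⟨not_lt.1 fun h' => left_ne_zero_of_mul h (bp_zero (by norm_num) (by norm_num) h'.le),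
    (pi_norm_le_iff_of_nonneg (by norm_num)).2 fun k => not_lt.1 fun h' => ?_⟩
  exact right_ne_zero_of_mul h
    (Finset.prod_eq_zero (Finset.mem_univ k) (bp_zero (by norm_num) (by norm_num) h'.le))

theorem upd_smooth {m : ℕ} (j : Fin m) :
    ContDiff ℝ ∞ fun q : (Fin m → E) × E => Function.update q.1 j q.2 := by
  refine contDiff_pi.2 fun k => ?_
  by_cases hk : k = j
  · subst hk; simpa using contDiff_snd
  · simp only [Function.update_of_ne hk]
    exact (contDiff_apply ℝ E k).comp contDiff_fst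

end MoKer1Aux
open MoKer1Aux

theorem nform {m : ℕ} (j : Fin m) {F : E × (Fin m → E) → E} (hF : ContDiff ℝ ∞ F) {δ : ℝ}
    (hδ : 0 < δ) (h0 : ∀ y, ‖y‖ < 8 → F (y, 0) = y)
    (h1 : ∀ y u, ‖y‖ ≤ 7 → ‖u‖ < δ → F (y, Pi.single j u) = y + u) :
    ∃ (s : (ℝ × E × (Fin m → E)) × E → E) (S ε₁ : ℝ), ContDiff ℝ ∞ s ∧ 0 < ε₁ ∧
      (∀ p u, ‖fderiv ℝ (fun u' => s (p, u')) u‖ ≤ 1 / 2) ∧ (∀ q, ‖s q‖ ≤ S) ∧
      ∀ (ε : ℝ) (y : E) (v : Fin m → E) (u : E), |ε| < ε₁ → ‖y‖ ≤ 6 → ‖v‖ ≤ 1 → ‖u‖ ≤ 1 →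
        F (y, ε • Function.update v j u) = y + ε • (u + s ((ε, y, v), u)) := by
  obtain ⟨h, hh, he, hz⟩ := hadamard hF
  -- the remainder
  set r : (ℝ × E × (Fin m → E)) × E → E :=
    fun q => h (q.1.1, q.1.2.1, Function.update q.1.2.2 j q.2) - q.2 with hr
  have hrs : ContDiff ℝ ∞ r :=
    (hh.comp (contDiff_fst.fst.prodMk (contDiff_fst.snd.fst.prodMk
      ((upd_smooth j).comp (contDiff_fst.snd.snd.prodMk contDiff_snd))))).sub contDiff_snd
  have hr0 : ∀ (y : E) (v : Fin m → E) (u : E), ‖y‖ ≤ 7 → r ((0, y, v), u) = r ((0, y, v), 0) := by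
    intro y v u hy
    have hd : fderiv ℝ (fun w => F (y, w)) 0 (Pi.single j u) = u := by
      have a1 : DifferentiableAt ℝ (fun w => F (y, w)) ((0 : ℝ) • (Pi.single j u : Fin m → E)) :=
        (hF.differentiable (by simp) _).comp _ (by fun_prop)
      have a2 := a1.hasFDerivAt.comp_hasDerivAt (0 : ℝ)
        ((hasDerivAt_id (0 : ℝ)).smul_const (Pi.single j u : Fin m → E))
      have a3 : HasDerivAt (fun t : ℝ => y + t • u) u 0 := by
        simpa using ((hasDerivAt_id (0 : ℝ)).smul_const u).const_add y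
      have a4 : ∀ᶠ t in 𝓝 (0 : ℝ), ‖t • u‖ < δ := by
        have : ContinuousAt (fun t : ℝ => ‖t • u‖) 0 := by fun_prop
        exact this.eventually_lt_const (by simpa using hδ)
      have a5 := a3.congr_of_eventuallyEq (f₁ := (fun w => F (y, w)) ∘
        fun t : ℝ => id t • (Pi.single j u : Fin m → E)) (a4.mono fun t ht => by
          simp only [Function.comp, id]
          rw [← h1 y _ hy ht, Pi.single_smul])
      simpa using a2.unique a5
    have hu : Function.update v j u = Function.update v j 0 + Pi.single j u := by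
      funext k; by_cases hk : k = j
      · subst hk; simp
      · simp [Function.update_of_ne hk, Pi.single_eq_of_ne hk]
    simp only [hr, hz]
    rw [hu, map_add, hd]
    simp
  -- the function before the cut-off in `ε`
  set a : (ℝ × E × (Fin m → E)) × E → E := fun q => chi q.1.2 •
    (bp 1 2 q.2 • (r q - r ((0, q.1.2), 0)) + r ((0, q.1.2), 0)) with ha
  have hr1 : ContDiff ℝ ∞ fun q : (ℝ × E × (Fin m → E)) × E => r ((0, q.1.2), 0) :=
    hrs.comp ((contDiff_const.prodMk contDiff_fst.snd).prodMk contDiff_const)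
  have has : ContDiff ℝ ∞ a := (chi_smooth.comp contDiff_fst.snd).smul
    ((((contDiff_bp 1 2).comp contDiff_snd).smul (hrs.sub hr1)).add hr1)
  set D : (ℝ × E × (Fin m → E)) × E → E →L[ℝ] E :=
    fun q => fderiv ℝ (fun u => a (q.1, u)) q.2 with hD
  have hDc : Continuous D :=
    (ContDiff.fderiv (f := fun (q : (ℝ × E × (Fin m → E)) × E) u => a (q.1, u)) (m := ∞) (n := ∞)
      (has.comp (contDiff_fst.fst.prodMk contDiff_snd)) contDiff_snd le_rfl).continuous
  have hD0 : ∀ (y : E) (v : Fin m → E) (u : E), D ((0, y, v), u) = 0 := by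
    intro y v u
    have : (fun u => a ((0, y, v), u)) = fun _ => chi (y, v) • r ((0, y, v), 0) := by
      funext u
      by_cases hc : chi (y, v) = 0
      · simp [ha, hc]
      · simp only [ha]; rw [hr0 y v u (chi_ne hc).1]; simp
    simp only [hD]; rw [this]; simp
  have hD1 : ∀ (ε : ℝ) (y : E) (v : Fin m → E) (u : E),
      ¬(‖y‖ ≤ 7 ∧ ‖v‖ ≤ 2 ∧ ‖u‖ ≤ 2) → D ((ε, y, v), u) = 0 := by
    intro ε y v u hn
    by_cases hc : chi (y, v) = 0
    · have : (fun u => a ((ε, y, v), u)) = fun _ => 0 := by funext u; simp [ha, hc]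
      simp only [hD]; rw [this]; simp
    · have hu : 2 < ‖u‖ := not_le.1 fun h' => hn ⟨(chi_ne hc).1, (chi_ne hc).2, h'⟩
      have : (fun u => a ((ε, y, v), u)) =ᶠ[𝓝 u] fun _ => chi (y, v) • r ((0, y, v), 0) := by
        filter_upwards [continuous_norm.continuousAt.eventually_const_lt hu] with u' hu'
        simp [ha, bp_zero (a := 1) (b := 2) (by norm_num) (by norm_num) hu'.le]
      simp only [hD]; rw [this.fderiv_eq]; simp
  have hK : IsCompact (closedBall (0 : E) 7 ×ˢ closedBall (0 : Fin m → E) 2 ×ˢ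
      closedBall (0 : E) 2) :=
    (isCompact_closedBall _ _).prod ((isCompact_closedBall _ _).prod (isCompact_closedBall _ _))
  have hev : ∀ᶠ ε in 𝓝 (0 : ℝ), ∀ q ∈ closedBall (0 : E) 7 ×ˢ closedBall (0 : Fin m → E) 2 ×ˢ
      closedBall (0 : E) 2, ‖D ((ε, q.1, q.2.1), q.2.2)‖ ≤ 1 / 2 := by
    refine hK.eventually_forall_of_forall_eventually fun q _ => ?_
    have : ContinuousAt (fun z : ℝ × E × (Fin m → E) × E =>
        ‖D ((z.1, z.2.1, z.2.2.1), z.2.2.2)‖) (0, q) :=
      (hDc.comp (by fun_prop)).norm.continuousAt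
    exact this.eventually_le_const (by simp [hD0])
  obtain ⟨e, he0, he1⟩ := Metric.eventually_nhds_iff.1 hev
  have hDb : ∀ ε, |ε| < e → ∀ y v u, ‖D ((ε, y, v), u)‖ ≤ 1 / 2 := by
    intro ε hε y v u
    by_cases hn : ‖y‖ ≤ 7 ∧ ‖v‖ ≤ 2 ∧ ‖u‖ ≤ 2
    · exact he1 (by simpa using hε) (y, v, u) (by simpa using hn)
    · rw [hD1 ε y v u hn]; simp
  -- cut-off in `ε`
  set c : ℝ → ℝ := fun ε => Real.smoothTransition (2 - (2 * ε / e) ^ 2) with hc
  have hcs : ContDiff ℝ ∞ c := Real.smoothTransition.contDiff.comp (by fun_prop)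
  have hc1 : ∀ ε, |ε| < e / 2 → c ε = 1 := fun ε hε => by
    refine Real.smoothTransition.one_of_one_le ?_
    have : |2 * ε / e| ≤ 1 := by
      rw [abs_div, abs_mul, abs_of_pos he0, div_le_one he0, abs_two]; linarith
    have := (sq_le_one_iff_abs_le_one _).2 this
    linarith
  have hc0 : ∀ ε, e ≤ |ε| → c ε = 0 := fun ε hε => by
    refine Real.smoothTransition.zero_of_nonpos ?_
    have : 2 ≤ |2 * ε / e| := by
      rw [abs_div, abs_mul, abs_of_pos he0, le_div_iff₀ he0, abs_two]; linarith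
    rw [← sq_abs]; nlinarith
  have hcb : ∀ ε, |c ε| ≤ 1 := fun ε => by
    rw [abs_of_nonneg (Real.smoothTransition.nonneg _)]; exact Real.smoothTransition.le_one _
  -- bound
  obtain ⟨S, hS⟩ := (((isCompact_closedBall (0 : ℝ) e).prod
    ((isCompact_closedBall (0 : E) 7).prod (isCompact_closedBall (0 : Fin m → E) 2))).prod
    (isCompact_closedBall (0 : E) 2)).exists_bound_of_continuousOn has.continuous.continuousOn
  have hS0 : 0 ≤ S := (norm_nonneg _).trans (hS ((0, 0, 0), 0) (by simp [he0.le]))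
  have haS : ∀ ε, |ε| < e → ∀ y v u, ‖a ((ε, y, v), u)‖ ≤ S := by
    intro ε hε y v u
    by_cases hc : chi (y, v) = 0
    · simpa [ha, hc] using hS0
    · have hyv := chi_ne hc
      by_cases hu : ‖u‖ ≤ 2
      · exact hS _ (by simpa using ⟨⟨hε.le, hyv⟩, hu⟩)
      · have hb : ‖(2 : ℝ) • eb 0‖ = 2 := by simp [eb, norm_smul]
        have : a ((ε, y, v), u) = a ((ε, y, v), (2 : ℝ) • eb 0) := by
          simp only [ha]
          rw [bp_zero (a := 1) (b := 2) (by norm_num) (by norm_num) (not_le.1 hu).le,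
            bp_zero (a := 1) (b := 2) (by norm_num) (by norm_num) hb.ge]
          simp
        rw [this]
        exact hS _ (by simpa using ⟨⟨hε.le, hyv⟩, hb.le⟩)
  refine ⟨fun q => c q.1.1 • a q, S, e / 2, (hcs.comp contDiff_fst.fst).smul has, by linarith,
    ?_, ?_, ?_⟩
  · rintro ⟨ε, y, v⟩ u
    have : fderiv ℝ (fun u' => c ε • a ((ε, y, v), u')) u = c ε • D ((ε, y, v), u) :=
      fderiv_fun_const_smul ((has.differentiable (by simp) _).comp u (by fun_prop)) _
    simp only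
    rw [this]
    by_cases hε : |ε| < e
    · rw [norm_smul, Real.norm_eq_abs]
      nlinarith [hcb ε, hDb ε hε y v u, norm_nonneg (D ((ε, y, v), u)), abs_nonneg (c ε)]
    · rw [hc0 ε (not_lt.1 hε), norm_smul, norm_zero, zero_mul]; norm_num
  · rintro ⟨⟨ε, y, v⟩, u⟩
    simp only
    by_cases hε : |ε| < e
    · rw [norm_smul, Real.norm_eq_abs]
      nlinarith [hcb ε, haS ε hε y v u, norm_nonneg (a ((ε, y, v), u)), abs_nonneg (c ε)]
    · simpa [hc0 ε (not_lt.1 hε)] using hS0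
  · intro ε y v u hε hy hv hu
    simp only [ha, hc1 ε hε, chi_one hy hv, bp_one (a := 1) (b := 2) (by norm_num) (by norm_num) hu,
      one_smul]
    rw [he, h0 y (by linarith)]
    simp [hr]

/-- The derivative in `y` is close to the identity. -/
theorem fderiv_near {m : ℕ} {F : E × (Fin m → E) → E} (hF : ContDiff ℝ ∞ F)
    (h0 : ∀ y, ‖y‖ < 8 → F (y, 0) = y) :
    ∃ N : ℝ, 0 ≤ N ∧ ∀ (y : E) (w : Fin m → E), ‖y‖ ≤ 6 → ‖w‖ ≤ 1 →
      ‖fderiv ℝ (fun y' => F (y', w)) y - ContinuousLinearMap.id ℝ E‖ ≤ N * ‖w‖ := by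
  have hG := contDiff_fderiv_fst hF
  set G : E × (Fin m → E) → E →L[ℝ] E := fun q => fderiv ℝ (fun y => F (y, q.2)) q.1 with hGd
  have hK : IsCompact (closedBall (0 : E) 6 ×ˢ closedBall (0 : Fin m → E) 1) :=
    (isCompact_closedBall _ _).prod (isCompact_closedBall _ _)
  obtain ⟨N, hN⟩ := hK.exists_bound_of_continuousOn
    (hG.continuous_fderiv (by simp)).continuousOn
  have hN0 : 0 ≤ N := (norm_nonneg _).trans (hN (0, 0) (by simp))
  refine ⟨N, hN0, fun y w hy hw => ?_⟩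
  have h1 : G (y, 0) = ContinuousLinearMap.id ℝ E := by
    have : (fun y' => F (y', 0)) =ᶠ[𝓝 y] id := by
      filter_upwards [continuous_norm.continuousAt.eventually_lt_const
        (show ‖y‖ < 8 by linarith)] with y' hy' using h0 y' hy'
    simp only [hGd]; rw [this.fderiv_eq, fderiv_id]
  have h2 := Convex.norm_image_sub_le_of_norm_fderiv_le (𝕜 := ℝ) (f := G)
    (fun q _ => hG.differentiable (by simp) q) hN
    ((convex_closedBall _ _).prod (convex_closedBall _ _))
    (x := (y, 0)) (y := (y, w)) (by simpa using hy) (by simpa using ⟨hy, hw⟩)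
  rw [h1] at h2
  simpa [hGd] using h2

end Vale.Agent.P204.Mo
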