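import Vale.Agent.P204.MoPi
import Vale.Agent.P204.MoPar
import Vale.Agent.P204.MoIft
import Vale.Agent.P204.MoKer1

/-! The kernel of the average of pull-backs. -/

open scoped ContDiff Topology
open MeasureTheory Metric Filter

namespace Vale.Agent.P204.Mo

/-- The kernel, given the inverse `g` of the normal form. -/
noncomputable def kerOf {m : ℕ} (j : Fin m) (F : E × (Fin m → E) → E)
    (g : (ℝ × E × (Fin m → E)) × E → E) (q : ℝ × E × E) : W →L[ℝ] W :=
  ∫ v, (rho (g ((q.1, q.2.1, v), q.2.2)) *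
      (fderiv ℝ (fun z' => g ((q.1, q.2.1, v), z')) q.2.2).det) •
    pull (fderiv ℝ (fun y' => F (y', q.1 • Function.update v j (g ((q.1, q.2.1, v), q.2.2))))
      q.2.1) ∂piM m

/-- The data produced by `nform` and `ift`. -/
structure KData {m : ℕ} (j : Fin m) (F : E × (Fin m → E) → E)
    (s g : (ℝ × E × (Fin m → E)) × E → E) (S ε₁ : ℝ) : Prop where
  hF : ContDiff ℝ ∞ F
  h0 : ∀ y, ‖y‖ < 8 → F (y, 0) = y
  hs : ContDiff ℝ ∞ s
  hg : ContDiff ℝ ∞ g
  epos : 0 < ε₁
  sbd : ∀ q, ‖s q‖ ≤ S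
  nf : ∀ (ε : ℝ) (y : E) (v : Fin m → E) (u : E), |ε| < ε₁ → ‖y‖ ≤ 6 → ‖v‖ ≤ 1 → ‖u‖ ≤ 1 →
    F (y, ε • Function.update v j u) = y + ε • (u + s ((ε, y, v), u))
  left : ∀ p u, g (p, u + s (p, u)) = u
  right : ∀ p z, g (p, z) + s (p, g (p, z)) = z
  det : ∀ p z, 0 < (fderiv ℝ (fun z' => g (p, z')) z).det

theorem exists_kdata {m : ℕ} (j : Fin m) {F : E × (Fin m → E) → E} (hF : ContDiff ℝ ∞ F) {δ : ℝ}
    (hδ : 0 < δ) (h0 : ∀ y, ‖y‖ < 8 → F (y, 0) = y)
    (h1 : ∀ y u, ‖y‖ ≤ 7 → ‖u‖ < δ → F (y, Pi.single j u) = y + u) :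
    ∃ s g S ε₁, KData j F s g S ε₁ := by
  obtain ⟨s, S, ε₁, hs, he, hb, hS, hnf⟩ := nform j hF hδ h0 h1
  obtain ⟨g, hg, hl, hr, hd⟩ := ift hs hb
  exact ⟨s, g, S, ε₁, hF, h0, hs, hg, he, hS, hnf, hl, hr, hd⟩

variable {m : ℕ} {j : Fin m} {F : E × (Fin m → E) → E} {s g : (ℝ × E × (Fin m → E)) × E → E}
  {S ε₁ : ℝ}

/-- The integrand of `kerOf` is jointly smooth. -/
theorem KData.integrand_smooth (h : KData j F s g S ε₁) :
    ContDiff ℝ ∞ fun r : (ℝ × E × E) × (Fin m → E) =>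
      (rho (g ((r.1.1, r.1.2.1, r.2), r.1.2.2)) *
        (fderiv ℝ (fun z' => g ((r.1.1, r.1.2.1, r.2), z')) r.1.2.2).det) •
      pull (fderiv ℝ (fun y' => F (y', r.1.1 •
        Function.update r.2 j (g ((r.1.1, r.1.2.1, r.2), r.1.2.2)))) r.1.2.1) := by
  have hg := h.hg
  have hF := h.hF
  have h1 : ContDiff ℝ ∞ fun r : (ℝ × E × E) × (Fin m → E) =>
      g ((r.1.1, r.1.2.1, r.2), r.1.2.2) := hg.comp (by fun_prop)
  have h2 : ContDiff ℝ ∞ fun r : (ℝ × E × E) × (Fin m → E) =>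
      fderiv ℝ (fun z' => g ((r.1.1, r.1.2.1, r.2), z')) r.1.2.2 :=
    ContDiff.fderiv (f := fun (r : (ℝ × E × E) × (Fin m → E)) z' => g ((r.1.1, r.1.2.1, r.2), z'))
      (m := ∞) (hg.comp (by fun_prop)) (by fun_prop) le_rfl
  have h3 : ContDiff ℝ ∞ fun r : (ℝ × E × E) × (Fin m → E) =>
      r.1.1 • Function.update r.2 j (g ((r.1.1, r.1.2.1, r.2), r.1.2.2)) := by
    refine ContDiff.smul contDiff_fst.fst (contDiff_pi.2 fun i => ?_)
    by_cases hi : i = j
    · simpa [hi] using h1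
    · simp only [Function.update_of_ne hi]
      fun_prop
  refine (((contDiff_rho.comp h1).mul (contDiff_det.comp h2))).smul (contDiff_pull.comp ?_)
  exact ContDiff.fderiv (f := fun (r : (ℝ × E × E) × (Fin m → E)) y' => F (y', r.1.1 •
    Function.update r.2 j (g ((r.1.1, r.1.2.1, r.2), r.1.2.2)))) (m := ∞)
    (hF.comp (contDiff_snd.prodMk (h3.comp contDiff_fst))) (by fun_prop) le_rfl

namespace MoKer2Aux

theorem int_prod {X : Type} [NormedAddCommGroup X] {Φ : (Fin m → E) × E → X} (hc : Continuous Φ)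
    {R : ℝ} (h0 : ∀ v z, R < ‖z‖ → Φ (v, z) = 0) : Integrable Φ ((piM m).prod volume) := by
  have := piM_prob m
  refine (hc.continuousOn.integrableOn_compact ((isCompact_closedBall (0 : Fin m → E) 1).prod
    (isCompact_closedBall (0 : E) R))).integrable_of_ae_notMem_eq_zero ?_
  filter_upwards [Measure.quasiMeasurePreserving_fst.ae (piM_ae m)] with p hp hn
  exact h0 p.1 p.2 (by simpa using fun h => hn ⟨hp, mem_closedBall_zero_iff.2 h⟩)

theorem int_slice {Y X : Type} [TopologicalSpace Y] [NormedAddCommGroup X]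
    {κ : Y × (Fin m → E) → X} (h : Continuous κ) (q : Y) : Integrable (fun v => κ (q, v)) (piM m) :=
  piM_integrable (h.comp (continuous_const.prodMk continuous_id))

theorem rho_far (h : KData j F s g S ε₁) (p : ℝ × E × (Fin m → E)) {z : E} (hz : S + 1 < ‖z‖) :
    rho (g (p, z)) = 0 := by
  refine rho_zero ?_
  have h1 := norm_add_le (g (p, z)) (s (p, g (p, z)))
  rw [h.right] at h1
  linarith [h.sbd (p, g (p, z))]

theorem cov' (h : KData j F s g S ε₁) (p : ℝ × E × (Fin m → E)) {X : Type} [NormedAddCommGroup X]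
    [NormedSpace ℝ X] (G : E → X) : ∫ u, rho u • G u =
      ∫ z, (rho (g (p, z)) * (fderiv ℝ (fun z' => g (p, z')) z).det) • G (g (p, z)) := by
  have hb : Function.Bijective fun z => g (p, z) :=
    ⟨Function.LeftInverse.injective (g := fun u => u + s (p, u)) (h.right p),
      Function.RightInverse.surjective (g := fun u => u + s (p, u)) (h.left p)⟩
  rw [cov (g := fun z => g (p, z)) (h.hg.comp (by fun_prop)) hb (h.det p)]
  simp only [smul_smul, mul_comm]

theorem norm_update {v : Fin m → E} (hv : ‖v‖ ≤ 1) {u : E} (hu : ‖u‖ ≤ 1) :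
    ‖Function.update v j u‖ ≤ 1 := by
  refine (pi_norm_le_iff_of_nonneg zero_le_one).2 fun i => ?_
  by_cases hi : i = j
  · simpa [hi] using hu
  · rw [Function.update_of_ne hi]
    exact (norm_le_pi_norm v i).trans hv

end MoKer2Aux

open MoKer2Aux in
theorem KData.preKer (h : KData j F s g S ε₁) :
    ∃ N : ℝ, PreKer (kerOf j F g) (S + 1) N (min ε₁ 1) := by
  have := piM_prob m
  obtain ⟨N, hN, hN'⟩ := fderiv_near h.hF h.h0
  have hS : 0 ≤ S := (norm_nonneg _).trans (h.sbd 0)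
  have hI := h.integrand_smooth
  refine ⟨N, ⟨(par_smooth (piM m) (isCompact_closedBall 0 1) (piM_ae m) hI).1,
    fun ε y z hz => ?_, by linarith⟩, ⟨fun y z => ∫ v, rho (g ((0, y, v), z)) *
      (fderiv ℝ (fun z' => g ((0, y, v), z')) z).det ∂piM m, fun y hy z => ?_, fun y _ => ?_⟩,
    fun ε hε y hy z ℓ hℓ => ?_, hN, lt_min h.epos one_pos⟩
  · refine integral_eq_zero_of_ae (Eventually.of_forall fun v => ?_)
    simp only [rho_far h _ hz, zero_mul]
    exact zero_smul _ _
  · have e : fderiv ℝ (fun y' => F (y', 0)) y = ContinuousLinearMap.id ℝ E := by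
      have : (fun y' => F (y', 0)) =ᶠ[𝓝 y] id := by
        filter_upwards [(isOpen_ball (x := (0 : E)) (ε := 8)).mem_nhds
          (closedBall_subset_ball (by norm_num) hy)] with y' hy'
          using h.h0 y' (mem_ball_zero_iff.1 hy')
      rw [this.fderiv_eq, fderiv_id]
    simp only [kerOf, zero_smul, e, pull_id]
    exact integral_smul_const _ _
  · have hc : Continuous fun r : (Fin m → E) × E => rho (g ((0, y, r.1), r.2)) *
        (fderiv ℝ (fun z' => g ((0, y, r.1), z')) r.2).det :=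
      ((contDiff_rho.comp (h.hg.comp (by fun_prop))).mul (contDiff_det.comp (ContDiff.fderiv
        (f := fun (r : (Fin m → E) × E) z' => g ((0, y, r.1), z')) (m := ∞)
        (h.hg.comp (by fun_prop)) contDiff_snd le_rfl))).continuous
    rw [← integral_integral_swap (int_prod hc (R := S + 1) fun v z hz => by
      simp [rho_far h _ hz])]
    have e : ∀ v, ∫ z, rho (g ((0, y, v), z)) * (fderiv ℝ (fun z' => g ((0, y, v), z')) z).det
        = 1 := fun v => by
      simpa [integral_rho] using (cov' h (0, y, v) fun _ => (1 : ℝ)).symm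
    simp [e]
  · have hi := int_slice hI.continuous (ε, y, z)
    unfold kerOf
    dsimp only at hi ⊢
    rw [← ℓ.integral_comp_comm hi]
    refine integral_nonneg_of_ae ?_
    filter_upwards [piM_ae m] with v hv
    simp only [map_smul, smul_eq_mul, Pi.zero_apply]
    by_cases h1 : 1 ≤ ‖g ((ε, y, v), z)‖
    · simp [rho_zero h1]
    have h2 : ‖ε • Function.update v j (g ((ε, y, v), z))‖ ≤ ε := by
      rw [norm_smul, Real.norm_of_nonneg hε.1.le]
      exact mul_le_of_le_one_right hε.1.le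
        (norm_update (mem_closedBall_zero_iff.1 hv) (not_le.1 h1).le)
    refine mul_nonneg (mul_nonneg (rho_nonneg _) (h.det _ _).le) (hℓ _ ?_)
    exact (hN' y _ (mem_closedBall_zero_iff.1 hy) (h2.trans (hε.2.le.trans
      (min_le_right _ _)))).trans (mul_le_mul_of_nonneg_left h2 hN)

end Vale.Agent.P204.Mo
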