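import Vale.Agent.P204.MoKer2

/-! The kernel represents the average of pull-backs. -/

open scoped ContDiff Topology
open MeasureTheory Metric Filter

namespace Vale.Agent.P204.Mo

variable {m : ℕ} {j : Fin m} {F : E × (Fin m → E) → E} {s g : (ℝ × E × (Fin m → E)) × E → E}
  {S ε₁ : ℝ}

namespace MoKer3Aux

theorem swap {Y : Type} [TopologicalSpace Y] {κ : Y × (Fin m → E) → W →L[ℝ] W} (hκ : Continuous κ)
    {q : E → Y} (hq : Continuous q) {R : ℝ} (h0 : ∀ v z, R < ‖z‖ → κ (q z, v) = 0) {θ : E → W}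
    (hθ : Continuous θ) :
    ∫ v, (∫ z, κ (q z, v) (θ z)) ∂piM m = ∫ z, (∫ v, κ (q z, v) ∂piM m) (θ z) := by
  have := piM_prob m
  have hc : Continuous fun r : (Fin m → E) × E => κ (q r.2, r.1) (θ r.2) :=
    (hκ.comp ((hq.comp continuous_snd).prodMk continuous_fst)).clm_apply (hθ.comp continuous_snd)
  rw [integral_integral_swap (MoKer2Aux.int_prod hc (R := R) fun v z hz => by
    rw [Function.uncurry_apply_pair, h0 v z hz, zero_apply])]
  refine integral_congr_ae (Eventually.of_forall fun z => ?_)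
  exact (ContinuousLinearMap.integral_apply (MoKer2Aux.int_slice hκ (q z)) (θ z)).symm

end MoKer3Aux

open MoKer2Aux MoKer3Aux in
theorem KData.rep (h : KData j F s g S ε₁) {ε : ℝ} (hε : ε ∈ Set.Ioo 0 ε₁) {y : E}
    (hy : y ∈ closedBall (0 : E) 6) {θ : E → W} (hθ : Continuous θ) :
    avg F ε θ y = Kop (kerOf j F g) ε θ y := by
  have hF := h.hF
  have h1 : Continuous fun v : Fin m → E =>
      pull (fderiv ℝ (fun y' => F (y', ε • v)) y) (θ (F (y, ε • v))) := by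
    refine (contDiff_pull.continuous.comp ?_).clm_apply (hθ.comp (hF.continuous.comp (by fun_prop)))
    exact (ContDiff.fderiv (f := fun (v : Fin m → E) y' => F (y', ε • v)) (m := ∞) (n := ∞)
      (hF.comp (by fun_prop)) contDiff_const le_rfl).continuous
  have h2 := swap h.integrand_smooth.continuous (q := fun z => (ε, y, z)) (by fun_prop)
    (R := S + 1) (fun v z hz => by
      simp only [rho_far h _ hz, zero_mul]
      exact zero_smul ℝ (_ : W →L[ℝ] W)) (θ := fun z => θ (y + ε • z)) (by fun_prop)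
  refine ((integral_update j h1).trans (integral_congr_ae ?_)).trans h2
  filter_upwards [piM_ae m] with v hv
  rw [cov' h (ε, y, v)]
  refine integral_congr_ae (Eventually.of_forall fun z => ?_)
  dsimp only
  rw [smul_apply]
  by_cases h3 : 1 ≤ ‖g ((ε, y, v), z)‖
  · simp only [rho_zero h3, zero_mul, zero_smul]
  · rw [h.nf ε y v _ (by rw [abs_of_pos hε.1]; exact hε.2) (mem_closedBall_zero_iff.1 hy)
      (mem_closedBall_zero_iff.1 hv) (not_le.1 h3).le, h.right]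

theorem PreKer.isKer {K : ℝ × E × E → W →L[ℝ] W} {R N ε₀ R' N' ε' : ℝ} (h : PreKer K R N ε₀)
    (hR : R ≤ R') (hN : N ≤ N') (h0 : 0 < ε') (h1 : ε' ≤ ε₀) (h2 : ε' * (R' + 1) ≤ 1 / 4)
    (h3 : N' * ε' ≤ 1 / 10) : IsKer K R' N' ε' :=
  ⟨⟨h.smooth, fun ε y z hz => h.supp ε y z (hR.trans_lt hz), h.Rpos.trans hR⟩, h.zero,
    fun ε hε y hy z ℓ hℓ => h.np ε ⟨hε.1, hε.2.trans_le h1⟩ y hy z ℓ fun L hL =>
      hℓ L (hL.trans (mul_le_mul_of_nonneg_right hN hε.1.le)), h.Npos.trans hN, h0, h2, h3⟩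

theorem exists_preKer (j : Fin m) (hF : ContDiff ℝ ∞ F) {δ : ℝ}
    (hδ : 0 < δ) (h0 : ∀ y, ‖y‖ < 8 → F (y, 0) = y)
    (h1 : ∀ y u, ‖y‖ ≤ 7 → ‖u‖ < δ → F (y, Pi.single j u) = y + u) :
    ∃ K R N ε₀, PreKer K R N ε₀ ∧ ∀ ε ∈ Set.Ioo 0 ε₀, ∀ y ∈ closedBall (0 : E) 6,
      ∀ θ : E → W, Continuous θ → avg F ε θ y = Kop K ε θ y := by
  obtain ⟨s, g, S, ε₁, h⟩ := exists_kdata j hF hδ h0 h1
  obtain ⟨N, hN⟩ := h.preKer
  exact ⟨_, _, N, _, hN, fun ε hε y hy θ hθ =>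
    h.rep ⟨hε.1, hε.2.trans_le (min_le_left _ _)⟩ hy hθ⟩

end Vale.Agent.P204.Mo
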