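import Vale.Agent.P204.MoComp
import Vale.Agent.P204.MoEx

/-! The regularisation preserves exact forms. -/

open scoped ContDiff Topology
open MeasureTheory Metric Filter

namespace Vale.Agent.P204.Mo

universe u

variable {X : Type u} [TopologicalSpace X] [T2Space X] (s : Setup X)

variable {s} {Φ : (Fin s.m → E) → X → X} {F : Fin s.m → E × (Fin s.m → E) → E} {δ : ℝ}

namespace MoMexAux

theorem ae_small {m : ℕ} {ε δ : ℝ} (hε : ε ∈ Set.Ioo 0 δ) : ∀ᵐ v ∂piM m, ‖ε • v‖ < δ := by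
  filter_upwards [piM_ae m] with v hv
  rw [norm_smul, Real.norm_of_nonneg hε.1.le]
  exact (mul_le_of_le_one_right hε.1.le (mem_closedBall_zero_iff.1 hv)).trans_lt hε.2

omit [T2Space X] in
theorem cut_glob (i : Fin s.m) {θ : E → W} (hθ : Test 1 θ) : cut s i (s.glob i θ) = θ := by
  funext y
  by_cases h9 : ‖y‖ ≤ 9
  · rw [cut_eq s i _ h9, loc_glob s i θ (by linarith)]
  have h0 : θ y = 0 := hθ.2 y (by linarith)
  by_cases h10 : ‖y‖ < 10
  · rw [cut, loc_glob s i θ h10, h0, smul_zero]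
  · rw [cut, bp_zero (by norm_num) (by norm_num) (by linarith), zero_smul, h0]

omit [T2Space X] in
theorem avg1_zero (h : IsFlow s Φ F δ) {ε : ℝ} (hε : ε ∈ Set.Ioo 0 δ) (i : Fin s.m)
    {p : E → E →L[ℝ] ℝ} (hp : Test 1 p) {y : E} (h2 : 2 < ‖y‖) (h8 : ‖y‖ < 8) :
    avg1 (F i) ε p y = 0 := by
  refine integral_eq_zero_of_ae ?_
  filter_upwards [ae_small hε] with v hv
  obtain ⟨a, b, -⟩ := h.mem i y _ h8 hv
  have : p (F i (y, ε • v)) = 0 := by
    refine hp.2 _ (not_le.1 fun h1 => ?_)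
    have := (h.supp i _ _ hv a (b ▸ h1)).2
    rw [(s.ψ i).right_inv (by rw [s.target, mem_ball_zero_iff]; linarith)] at this
    linarith
  simp [this]

omit [T2Space X] in
theorem glob_flow (h : IsFlow s Φ F δ) (i : Fin s.m) {θ : E → W} (hθ : Test 1 θ) {x : X}
    (hx : ¬(x ∈ (s.ψ i).source ∧ ‖s.ψ i x‖ < 8)) {w : Fin s.m → E} (hw : ‖w‖ < δ) :
    s.glob i θ (Φ w x) = 0 := by
  by_cases hs : Φ w x ∈ (s.ψ i).source
  · have : θ (s.ψ i (Φ w x)) = 0 := by
      refine hθ.2 _ (not_le.1 fun h1 => hx ?_)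
      have := h.supp i x w hw hs h1
      exact ⟨this.1, by linarith [this.2]⟩
    simp [Setup.glob, this]
  · simp [Setup.glob, hs]

end MoMexAux

open MoMexAux

theorem Mop_ex (h : IsFlow s Φ F δ) {ε : ℝ} (hε : ε ∈ Set.Ioo 0 δ) (i : Fin s.m)
    {p : E → E →L[ℝ] ℝ} (hp : Test 1 p) : Mop s F ε (s.glob i (d1 p)) ∈ s.Ex := by
  have hφ : s.Smooth (s.glob i (d1 p)) :=
    smooth_glob s i ⟨(test_d1 hp).1, fun y hy => (test_d1 hp).2 y (by linarith)⟩
  let q : E → E →L[ℝ] ℝ := fun y => bp 3 4 y • avg1 (F i) ε p y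
  have hq : Test 4 q := ⟨(contDiff_bp 3 4).smul (avg1_smooth (h.smooth i) ε hp.1), fun y hy => by
    simp only [q]
    rw [bp_zero (by norm_num) (by norm_num) hy.le, zero_smul]⟩
  have hq' : ∀ y : E, ‖y‖ < 8 → avg1 (F i) ε p y = q y := fun y hy => by
    simp only [q]
    by_cases h3 : ‖y‖ ≤ 3
    · rw [bp_one (by norm_num) (by norm_num) h3, one_smul]
    · rw [avg1_zero h hε i hp (by linarith) hy, smul_zero]
  suffices e : Mop s F ε (s.glob i (d1 p)) = s.glob i (d1 q) by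
    rw [e]
    exact ex_of_test s i ⟨hq.1, fun y hy => hq.2 y (by linarith)⟩
  funext x
  by_cases hx : x ∈ (s.ψ i).source ∧ ‖s.ψ i x‖ < 8
  · have e : avg1 (F i) ε p =ᶠ[𝓝 (s.ψ i x)] q := by
      filter_upwards [(isOpen_lt continuous_norm continuous_const).mem_nhds hx.2] with y hy
      exact hq' y hy
    rw [← pull_loc s i (Mop s F ε _) hx.1, loc_Mop h hφ hε i hx.2, cut_glob i (test_d1 hp),
      avg_d1 (h.smooth i) ε hp.1, d1_congr e]
    simp [Setup.glob, hx.1]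
  · have e1 : s.glob i (d1 q) x = 0 := by
      by_cases hs : x ∈ (s.ψ i).source
      · have : d1 q (s.ψ i x) = 0 :=
          (test_d1 hq).2 _ (by linarith [not_lt.1 fun h8 => hx ⟨hs, h8⟩])
        simp [Setup.glob, this]
      · simp [Setup.glob, hs]
    obtain ⟨j, hj, hj'⟩ := cover s x
    have h8 : ‖s.ψ j x‖ < 8 := by linarith
    have e2 : avg (F j) ε (cut s j (s.glob i (d1 p))) (s.ψ j x) = 0 := by
      refine integral_eq_zero_of_ae ?_
      filter_upwards [ae_small hε] with v hv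
      obtain ⟨a, b, c⟩ := h.mem j _ _ h8 hv
      rw [(s.ψ j).left_inv hj] at a b
      have : cut s j (s.glob i (d1 p)) (F j (s.ψ j x, ε • v)) = 0 := by
        rw [cut_eq s j _ c.le, ← b]
        change pull _ (s.glob i (d1 p) _) = 0
        rw [(s.ψ j).left_inv a, glob_flow h i (test_d1 hp) hx hv, map_zero]
      simp [this]
    rw [e1, ← pull_loc s j (Mop s F ε _) hj, loc_Mop h hφ hε j h8, e2, map_zero]

end Vale.Agent.P204.Mo
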