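import Vale.Agent.P204.MoDefs

/-! The probability measures used for averaging. -/

open scoped ContDiff Topology
open MeasureTheory Metric Filter

namespace Vale.Agent.P204.Mo

namespace MoPiAux

theorem bp_cpt : HasCompactSupport (bp 0 1 : E → ℝ) :=
  HasCompactSupport.intro (isCompact_closedBall (0 : E) 1) fun _ hy =>
    bp_zero le_rfl one_pos (not_le.1 (mt mem_closedBall_zero_iff.2 hy)).le

theorem int_pos : 0 < ∫ w : E, bp 0 1 w :=
  (contDiff_bp 0 1).continuous.integral_pos_of_hasCompactSupport_nonneg_nonzero bp_cpt
    (bp_nonneg 0 1) (x := 0) (bp_pos le_rfl one_pos (by simp)).ne'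

end MoPiAux

open MoPiAux

theorem contDiff_rho : ContDiff ℝ ∞ rho := by
  exact contDiff_const.mul (contDiff_bp 0 1)

theorem rho_nonneg (u : E) : 0 ≤ rho u := by
  exact mul_nonneg (inv_nonneg.2 int_pos.le) (bp_nonneg 0 1 u)

theorem rho_zero {u : E} (hu : 1 ≤ ‖u‖) : rho u = 0 := by
  rw [rho, bp_zero le_rfl one_pos hu, mul_zero]

theorem integral_rho : ∫ u, rho u = 1 := by
  unfold rho
  rw [integral_const_mul, inv_mul_cancel₀ int_pos.ne']

namespace MoPiAux

theorem rho_int : Integrable rho :=
  contDiff_rho.continuous.integrable_of_hasCompactSupport bp_cpt.mul_left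

theorem rho_meas : Measurable fun u => ENNReal.ofReal (rho u) :=
  contDiff_rho.continuous.measurable.ennreal_ofReal

theorem mu1_prob : IsProbabilityMeasure mu1 := by
  constructor
  rw [mu1, withDensity_apply _ MeasurableSet.univ, Measure.restrict_univ,
    ← ofReal_integral_eq_lintegral_ofReal rho_int (Eventually.of_forall rho_nonneg), integral_rho,
    ENNReal.ofReal_one]

theorem mu1_ae : ∀ᵐ u ∂mu1, ‖u‖ ≤ 1 := by
  rw [mu1, ae_withDensity_iff rho_meas]
  refine Eventually.of_forall fun u hu => ?_
  by_contra h
  exact hu (by rw [rho_zero (not_le.1 h).le, ENNReal.ofReal_zero])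

theorem update_mp {m : ℕ} (j : Fin m) :
    MeasurePreserving (fun p : (Fin m → E) × E => Function.update p.1 j p.2)
      ((piM m).prod mu1) (piM m) := by
  have := mu1_prob
  refine ⟨measurable_update', (Measure.pi_eq fun s hs => ?_).symm⟩
  have e : (fun p : (Fin m → E) × E => Function.update p.1 j p.2) ⁻¹' Set.univ.pi s =
      Set.univ.pi (Function.update s j Set.univ) ×ˢ s j := by
    ext p
    simp only [Set.mem_preimage, Set.mem_univ_pi, Set.mem_prod]
    constructor
    · intro h
      refine ⟨fun i => ?_, by simpa using h j⟩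
      rcases eq_or_ne i j with rfl | hi
      · simp
      · simpa [Function.update_of_ne hi] using h i
    · rintro ⟨h, h'⟩ i
      rcases eq_or_ne i j with rfl | hi
      · simpa using h'
      · simpa [Function.update_of_ne hi] using h i
  rw [Measure.map_apply measurable_update' (MeasurableSet.univ_pi hs), e, Measure.prod_prod, piM,
    Measure.pi_pi, ← Finset.prod_erase_mul _ _ (Finset.mem_univ j),
    ← Finset.prod_erase_mul _ (fun i => mu1 (s i)) (Finset.mem_univ j), Function.update_self,
    measure_univ, mul_one]
  congr 1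
  exact Finset.prod_congr rfl fun i hi => by
    rw [Function.update_of_ne (Finset.ne_of_mem_erase hi)]

end MoPiAux

theorem piM_prob (m : ℕ) : IsProbabilityMeasure (piM m) := by
  have := mu1_prob
  unfold piM
  infer_instance

theorem piM_ae (m : ℕ) : ∀ᵐ v ∂piM m, v ∈ closedBall (0 : Fin m → E) 1 := by
  have := mu1_prob
  have h : ∀ᵐ v ∂piM m, ∀ i, ‖v i‖ ≤ 1 :=
    eventually_all.2 fun i =>
      (Measure.tendsto_eval_ae_ae (μ := fun _ : Fin m => mu1) (i := i)).eventually mu1_ae
  filter_upwards [h] with v hv
  exact mem_closedBall_zero_iff.2 ((pi_norm_le_iff_of_nonneg zero_le_one).2 hv)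

/-- A continuous function is integrable for `piM`. -/
theorem piM_integrable {m : ℕ} {F : Type} [NormedAddCommGroup F] {G : (Fin m → E) → F}
    (hG : Continuous G) : Integrable G (piM m) := by
  have := piM_prob m
  have h : IntegrableOn G (closedBall (0 : Fin m → E) 1) (piM m) :=
    hG.continuousOn.integrableOn_compact (isCompact_closedBall _ _)
  rwa [IntegrableOn, Measure.restrict_eq_self_of_ae_mem (piM_ae m)] at h

/-- Integrating out the coordinate `j`. -/
theorem integral_update {m : ℕ} (j : Fin m) {F : Type} [NormedAddCommGroup F] [NormedSpace ℝ F]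
    [CompleteSpace F] {G : (Fin m → E) → F} (hG : Continuous G) :
    ∫ v, G v ∂piM m = ∫ v, (∫ u, rho u • G (Function.update v j u)) ∂piM m := by
  have := mu1_prob
  have := piM_prob m
  have hi := (update_mp j).integrable_comp_of_integrable (piM_integrable hG)
  have h1 : ∫ v, G v ∂piM m =
      ∫ p : (Fin m → E) × E, G (Function.update p.1 j p.2) ∂(piM m).prod mu1 := by
    rw [← integral_map (update_mp j).measurable.aemeasurable hG.aestronglyMeasurable,
      (update_mp j).map_eq]
  rw [h1, integral_prod (fun p : (Fin m → E) × E => G (Function.update p.1 j p.2)) hi]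
  refine integral_congr_ae (Eventually.of_forall fun v => ?_)
  simp only
  rw [mu1, integral_withDensity_eq_integral_toReal_smul rho_meas
    (Eventually.of_forall fun _ => ENNReal.ofReal_lt_top)]
  simp only [ENNReal.toReal_ofReal (rho_nonneg _)]

end Vale.Agent.P204.Mo
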