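import Vale.Agent.P204.MoMex
import Vale.Agent.P204.MoKer3
import Vale.Agent.P204.MoFlow2

/-! Existence of the regularisation operator. -/

open scoped ContDiff Topology
open MeasureTheory Metric Filter

namespace Vale.Agent.P204.Mo

universe u

variable {X : Type u} [TopologicalSpace X] [T2Space X] (s : Setup X)

theorem exists_moll [CompactSpace X] : ∃ M K R N ε₀, s.Moll M K R N ε₀ := by
  obtain ⟨Φ, F, δ, h⟩ := exists_flow s
  have hk := fun j => exists_preKer j (h.smooth j) h.pos (h.zero j) (h.single j)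
  choose K R N e hK hrep using hk
  obtain ⟨R', hR0, hR⟩ : ∃ R' : ℝ, 0 ≤ R' ∧ ∀ j, R j ≤ R' :=
    ⟨∑ j, R j, Finset.sum_nonneg fun j _ => (hK j).Rpos, fun j =>
      Finset.single_le_sum (fun j _ => (hK j).Rpos) (Finset.mem_univ j)⟩
  obtain ⟨N', hN0, hN⟩ : ∃ N' : ℝ, 0 ≤ N' ∧ ∀ j, N j ≤ N' :=
    ⟨∑ j, N j, Finset.sum_nonneg fun j _ => (hK j).Npos, fun j =>
      Finset.single_le_sum (fun j _ => (hK j).Npos) (Finset.mem_univ j)⟩
  have hev : ∀ᶠ ε in 𝓝[>] (0 : ℝ), (∀ j, ε ≤ e j) ∧ ε ≤ δ ∧ ε * (R' + 1) ≤ 1 / 4 ∧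
      N' * ε ≤ 1 / 10 := by
    refine Filter.Eventually.filter_mono nhdsWithin_le_nhds ?_
    refine (eventually_all.2 fun j => ?_).and (Eventually.and ?_ (Eventually.and ?_ ?_))
    · exact eventually_le_nhds (hK j).epos
    · exact eventually_le_nhds h.pos
    · have : ContinuousAt (fun ε : ℝ => ε * (R' + 1)) 0 := by fun_prop
      exact this.eventually_le_const (by norm_num)
    · have : ContinuousAt (fun ε : ℝ => N' * ε) 0 := by fun_prop
      exact this.eventually_le_const (by norm_num)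
  obtain ⟨ε₀, ⟨he, hδ, h2, h3⟩, h0⟩ := (hev.and self_mem_nhdsWithin).exists
  have h0' : 0 < ε₀ := h0
  have hker : ∀ j, IsKer (K j) R' N' ε₀ := fun j =>
    (hK j).isKer (hR j) (hN j) h0' (he j) h2 h3
  have hI : ∀ ε ∈ Set.Ioo 0 ε₀, ε ∈ Set.Ioo 0 δ := fun ε hε => ⟨hε.1, hε.2.trans_le hδ⟩
  refine ⟨Mop s F, K, R', N', ε₀, hker, fun ε hε φ hφ => Mop_smooth h hφ (hI ε hε),
    fun ε hε φ hφ hc => Mop_closed h hφ hc (hI ε hε),
    fun ε hε i p hp => Mop_ex h (hI ε hε) i hp, fun ε hε φ hφ j y hy => ?_⟩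
  have hy' : ‖y‖ ≤ 6 := by simpa using hy
  rw [loc_Mop h hφ (hI ε hε) j (by linarith), hrep j ε ⟨hε.1, hε.2.trans_le (he j)⟩ y hy _
    (cut_smooth s hφ j).continuous]
  unfold Kop
  refine integral_congr_ae (Eventually.of_forall fun z => ?_)
  by_cases hz : R' < ‖z‖
  · simp [(hker j).supp ε y z hz]
  · have h9 : ‖y + ε • z‖ ≤ 9 := by
      have h4 : ‖ε • z‖ ≤ 1 / 4 := by
        rw [norm_smul, Real.norm_of_nonneg hε.1.le]
        have := not_lt.1 hz
        nlinarith [hε.1, hε.2, norm_nonneg z]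
      linarith [norm_add_le y (ε • z)]
    simp only [cut_eq s j φ h9]

end Vale.Agent.P204.Mo
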