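import Vale.Agent.P204.PullVol
import Vale.Agent.P204.LocAPI
import Vale.Agent.P204.Dist
import Vale.Agent.P204.Calc1

/-! The potential of a positive current: smoothness and size. -/

open scoped ContDiff RealInnerProductSpace Topology
open MeasureTheory Metric

namespace Vale.Agent.P204

variable {J : E → E →L[ℝ] E} {S : LF} {μ : Measure E} {c C : ℝ}

namespace PotUAux

theorem hasFD (hJ : GoodJ J) (x : E) :
    HasFDerivAt (fun x' => Aop (J x')) (fderiv ℝ (fun x' => Aop (J x')) x) x :=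
  (hJ.contDiff_Aop.differentiable (by simp) x).hasFDerivAt

theorem param {w : E → E → E} (h : ContDiff ℝ ∞ fun p : E × E => w p.1 p.2) :
    ContDiff ℝ ∞ fun p : E × E => fderiv ℝ (fun x' => w x' p.2) p.1 := by
  have h0 : ContDiff ℝ ∞ fun q : (E × E) × E => ((q.2, q.1.2) : E × E) := by fun_prop
  exact ContDiff.fderiv (f := fun (p : E × E) (x' : E) => w x' p.2) (g := fun p => p.1) (m := ∞)
    (n := ∞) (h.comp h0) contDiff_fst le_rfl

theorem zeta_sum (a : E) (B : E →L[ℝ] E) (v : E) :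
    zeta a (B v) = ∑ i, v i • zeta a (B (eb i)) := by
  ext k
  fin_cases k <;> simp [zeta, Fin.sum_univ_four, Alg1Aux.clm_coord B v] <;> ring

theorem inv_bounds {r w ε : ℝ} (hε : 0 < ε) (hr : 0 ≤ r) (h1 : 99 / 100 * r ≤ w)
    (h2 : w ≤ 101 / 100 * r) :
    (w ^ 2 + ε ^ 2)⁻¹ ≤ 2 * (r ^ 2 + ε ^ 2)⁻¹ ∧ (r ^ 2 + ε ^ 2)⁻¹ ≤ 2 * (w ^ 2 + ε ^ 2)⁻¹ := by
  have a1 := pow_le_pow_left₀ (by positivity) h1 2
  have a2 := pow_le_pow_left₀ (le_trans (by positivity) h1) h2 2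
  have a3 := sq_nonneg r
  have a4 := pow_pos hε 2
  have a5 := sq_nonneg w
  constructor
  · rw [← div_eq_mul_inv, inv_eq_one_div, div_le_div_iff₀ (by positivity) (by positivity)]
    linarith
  · rw [← div_eq_mul_inv, inv_eq_one_div, div_le_div_iff₀ (by positivity) (by positivity)]
    linarith

theorem bp_far {y : E} (hy : 7 < ‖y‖) : bp 3 4 y = 0 :=
  bp_eq_zero (by norm_num) (by norm_num) (by linarith)

end PotUAux

open PotUAux

theorem contDiff_wv (hJ : GoodJ J) : ContDiff ℝ ∞ fun p : E × E => wv J p.1 p.2 :=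
  (hJ.contDiff_Aop.comp contDiff_fst).clm_apply (contDiff_fst.sub contDiff_snd)
theorem contDiff_Bm (hJ : GoodJ J) : ContDiff ℝ ∞ fun p : E × E => Bm J p.1 p.2 := by
  have h1 := contDiff_wv hJ
  unfold Bm
  generalize wv J = w at h1
  exact param h1
theorem norm_wv_bounds (hJ : GoodJ J) (x y : E) :
    99 / 100 * ‖x - y‖ ≤ ‖wv J x y‖ ∧ ‖wv J x y‖ ≤ 101 / 100 * ‖x - y‖ :=
  ⟨(hJ.near x).le_norm_Aop _, ((Aop (J x)).le_opNorm _).trans
    (mul_le_mul_of_nonneg_right (hJ.near x).norm_Aop_le (norm_nonneg _))⟩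
theorem Bm_apply (hJ : GoodJ J) (x y v : E) :
    Bm J x y v = Aop (J x) v + fderiv ℝ (fun x' => Aop (J x')) x v (x - y) := by
  have h := ((hasFD hJ x).clm_apply ((hasFDerivAt_id x).sub_const y)).fderiv
  have e : Bm J x y = _ := h
  rw [e]
  simp
theorem exists_Bm_sub_le (hJ : GoodJ J) :
    ∃ L : ℝ, 0 ≤ L ∧ ∀ x y, ‖Bm J x y - Aop (J x)‖ ≤ L * ‖x - y‖ := by
  obtain ⟨L, hL, h⟩ := hJ.lipschitz
  refine ⟨L, hL, fun x y => ContinuousLinearMap.opNorm_le_bound _ (by positivity) fun v => ?_⟩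
  have h1 : ‖fderiv ℝ (fun x' => Aop (J x')) x‖ ≤ L :=
    norm_fderiv_le_of_lip' ℝ hL (Filter.Eventually.of_forall fun z =>
      (norm_Aop_sub_Aop _ _).trans (h z x))
  rw [sub_apply, Bm_apply hJ, add_sub_cancel_left, mul_right_comm]
  exact ContinuousLinearMap.le_of_opNorm_le _ (ContinuousLinearMap.le_of_opNorm_le _ h1 v) _
/-- The joint derivative of `w`. -/
theorem fderiv_wv (hJ : GoodJ J) (x y v b : E) :
    fderiv ℝ (fun p : E × E => wv J p.1 p.2) (x, y) (v, b) = Bm J x y v - Aop (J x) b := by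
  have h := (((hasFD hJ x).comp (x, y) (hasFDerivAt_fst (𝕜 := ℝ) (p := (x, y)))).clm_apply
    ((hasFDerivAt_fst (𝕜 := ℝ) (p := (x, y))).sub hasFDerivAt_snd)).fderiv
  have e : fderiv ℝ (fun p : E × E => wv J p.1 p.2) (x, y) = _ := h
  rw [e, Bm_apply hJ]
  simp
  abel

/-- `DistBd.contDiff` with `LocPos.distBd`. -/
theorem contDiff_potU (h : LocPos J S μ c C) (hJ : GoodJ J) {ε : ℝ} (hε : 0 < ε) :
    ContDiff ℝ ∞ (potU J S ε) :=
  (h.distBd hJ 0).contDiff
    (κ := fun p : E × E => (bp 3 4 p.2 * Gk ε (wv J p.1 p.2)) • pull (Aop (J p.1)) om0)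
    ((((contDiff_bp 3 4).comp contDiff_snd).mul ((contDiff_Gk hε).comp (contDiff_wv hJ))).smul
      ((contDiff_pull.comp (hJ.contDiff_Aop.comp contDiff_fst)).clm_apply contDiff_const))
    fun p y hy => by simp only [bp_far hy, zero_mul, zero_smul]
theorem contDiff_potA (h : LocPos J S μ c C) (hJ : GoodJ J) {ε : ℝ} (hε : 0 < ε) :
    ContDiff ℝ ∞ (potA J S ε) :=
  ContDiff.sum fun i _ => ContDiff.smul ((h.distBd hJ 0).contDiff
    (κ := fun p : E × E => bp 3 4 p.2 •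
      pull (Aop (J p.1)) (zeta (Zk ε (wv J p.1 p.2)) (Bm J p.1 p.2 (eb i))))
    (((contDiff_bp 3 4).comp contDiff_snd).smul
      ((contDiff_pull.comp (hJ.contDiff_Aop.comp contDiff_fst)).clm_apply
        (contDiff_zeta2.comp (((contDiff_Zk hε).comp (contDiff_wv hJ)).prodMk
          ((contDiff_Bm hJ).clm_apply contDiff_const)))))
    fun p y hy => by simp only [bp_far hy, zero_smul]) contDiff_const
theorem potA_apply (J : E → E →L[ℝ] E) (S : LF) (ε : ℝ) (x v : E) :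
    potA J S ε x v =
      S fun y => bp 3 4 y • pull (Aop (J x)) (zeta (Zk ε (wv J x y)) (Bm J x y v)) := by
  have e : (fun y => bp 3 4 y • pull (Aop (J x)) (zeta (Zk ε (wv J x y)) (Bm J x y v))) =
      ∑ i, v i • fun y => bp 3 4 y •
        pull (Aop (J x)) (zeta (Zk ε (wv J x y)) (Bm J x y (eb i))) := by
    funext y
    rw [zeta_sum, map_sum, Finset.smul_sum, Finset.sum_apply]
    refine Finset.sum_congr rfl fun i _ => ?_
    rw [map_smul, smul_comm]
    rfl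
  rw [e, map_sum, potA, sum_apply]
  refine Finset.sum_congr rfl fun i _ => ?_
  rw [map_smul, smul_apply, smul_eq_mul, smul_eq_mul, mul_comm]
  rfl
/-- `Near.pull_om0_bounds`, `norm_wv_bounds`, `LocPos.le`. -/
theorem potU_bounds (h : LocPos J S μ c C) (hJ : GoodJ J) : ∃ c' > (0 : ℝ), ∃ C' : ℝ, 0 ≤ C' ∧
    ∀ ε : ℝ, 0 < ε → ∀ x, -(C' * Ipot μ ε x) ≤ potU J S ε x ∧ potU J S ε x ≤ -(c' * Ipot μ ε x) := by
  refine ⟨c / 4, by linarith [h.cpos], 4 * C, by linarith [h.Cpos], fun ε hε x => ?_⟩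
  have hb : CTest 9 (bp 3 4) := ((test_bp (by norm_num) (by norm_num)).mono (by norm_num)).ctest
  have hθ : CTest 9 fun y => (bp 3 4 y * Gk ε (wv J x y)) • pull (Aop (J x)) om0 :=
    (hb.smul_fun ((contDiff_Gk hε).continuous.comp ((contDiff_wv hJ).continuous.comp
      (Continuous.prodMk_right x)))).smul_fun continuous_const
  have hg : CTest 9 fun y => bp 3 4 y * (‖x - y‖ ^ 2 + ε ^ 2)⁻¹ :=
    hb.smul_fun (Continuous.inv₀ (by fun_prop) fun y => by positivity)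
  have hg0 : ∀ y, 0 ≤ bp 3 4 y * (‖x - y‖ ^ 2 + ε ^ 2)⁻¹ := fun y =>
    mul_nonneg (bp_nonneg _ _ _) (by positivity)
  have hz : CTest 9 fun _ : E => (0 : ℝ) := ⟨continuous_const, fun _ _ => rfl⟩
  have key : ∀ y b, -(4 * (bp 3 4 y * (‖x - y‖ ^ 2 + ε ^ 2)⁻¹) * ‖b‖ ^ 2) ≤
      ev ((bp 3 4 y * Gk ε (wv J x y)) • pull (Aop (J x)) om0) b (J y b) ∧
      ev ((bp 3 4 y * Gk ε (wv J x y)) • pull (Aop (J x)) om0) b (J y b) ≤
        -(1 / 4 * (bp 3 4 y * (‖x - y‖ ^ 2 + ε ^ 2)⁻¹) * ‖b‖ ^ 2) := fun y b => by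
    obtain ⟨a1, a2⟩ := (hJ.near y).pull_om0_bounds (hJ.near x) b
    obtain ⟨a3, a4⟩ := inv_bounds hε (norm_nonneg _) (norm_wv_bounds hJ x y).1
      (norm_wv_bounds hJ x y).2
    have a5 := bp_nonneg 3 4 y
    have a6 : 0 ≤ (‖wv J x y‖ ^ 2 + ε ^ 2)⁻¹ := by positivity
    have b1 := mul_le_mul_of_nonneg_left a1 (mul_nonneg a5 a6)
    have b2 := mul_le_mul_of_nonneg_left a2 (mul_nonneg a5 a6)
    have b3 := mul_le_mul_of_nonneg_left a3 (mul_nonneg a5 (sq_nonneg ‖b‖))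
    have b4 := mul_le_mul_of_nonneg_left a4 (mul_nonneg a5 (sq_nonneg ‖b‖))
    rw [ev_smul, Gk]
    constructor <;> linarith
  constructor
  · have h1 := h.le _ _ _ hθ hz (hg.smul 4) (fun _ => le_rfl)
      (fun y => mul_nonneg zero_le_four (hg0 y)) fun y b => by
        rw [zero_sub, neg_mul]
        exact (key y b).1
    simp only [Pi.smul_apply, smul_eq_mul] at h1
    rw [integral_const_mul, integral_zero] at h1
    unfold Ipot potU
    linarith
  · have h1 := h.le _ _ _ hθ.neg (hg.smul (1 / 4)) hz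
      (fun y => mul_nonneg (by norm_num) (hg0 y)) (fun _ => le_rfl) fun y b => by
        rw [sub_zero, Pi.neg_apply, ev_neg]
        exact le_neg.1 (key y b).2
    simp only [Pi.smul_apply, smul_eq_mul] at h1
    rw [integral_const_mul, integral_zero, map_neg] at h1
    unfold Ipot potU
    linarith

end Vale.Agent.P204
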