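import Vale.Agent.P204.Alg1
import Vale.Agent.P204.Ana

/-! The exterior derivative of the pull-back of `ι_Z vol`. -/

open scoped ContDiff RealInnerProductSpace Topology
open MeasureTheory Metric

namespace Vale.Agent.P204

/-- The pull-back of `vol(Z, ·, ·, ·)` by `w`. -/
noncomputable def lam3 {F : Type} [NormedAddCommGroup F] [NormedSpace ℝ F] (w : F → E) (Z : E → E)
    (a b c : F) (p : F) : ℝ :=
  vol4 (Z (w p)) (fderiv ℝ w p a) (fderiv ℝ w p b) (fderiv ℝ w p c)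

namespace PullVolAux

open Alg1Aux

theorem bil_zeta : IsBoundedBilinearMap ℝ fun p : E × E => zeta p.1 p.2 where
  add_left a b c := by ext i; fin_cases i <;> simp [zeta] <;> ring
  smul_left t a b := by ext i; fin_cases i <;> simp [zeta] <;> ring
  add_right a b c := by ext i; fin_cases i <;> simp [zeta] <;> ring
  smul_right t a b := by ext i; fin_cases i <;> simp [zeta] <;> ring
  bound := ⟨1, one_pos, fun a b => by rw [one_mul]; exact norm_zeta_le a b⟩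

variable {F : Type} [NormedAddCommGroup F] [NormedSpace ℝ F]

theorem hasFDerivAt_zeta {A B : F → E} {A' B' : F →L[ℝ] E} {p : F} (hA : HasFDerivAt A A' p)
    (hB : HasFDerivAt B B' p) : ∃ L : F →L[ℝ] W, HasFDerivAt (fun q => zeta (A q) (B q)) L p ∧
      ∀ a, L a = zeta (A p) (B' a) + zeta (A' a) (B p) := by
  have h := (bil_zeta.hasFDerivAt (A p, B p)).comp p (hA.prodMk hB)
  exact ⟨_, h, fun _ => rfl⟩

theorem fderiv_vol4 {A B C D : F → E} {A' B' C' D' : F →L[ℝ] E} {p : F} (hA : HasFDerivAt A A' p)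
    (hB : HasFDerivAt B B' p) (hC : HasFDerivAt C C' p) (hD : HasFDerivAt D D' p) (a : F) :
    fderiv ℝ (fun q => vol4 (A q) (B q) (C q) (D q)) p a =
      vol4 (A' a) (B p) (C p) (D p) + vol4 (A p) (B' a) (C p) (D p) +
        vol4 (A p) (B p) (C' a) (D p) + vol4 (A p) (B p) (C p) (D' a) := by
  obtain ⟨L, hL, eL⟩ := hasFDerivAt_zeta hA hB
  obtain ⟨K, hK, eK⟩ := hasFDerivAt_zeta hC hD
  have h := hL.inner ℝ (hstar.hasFDerivAt.comp p hK)
  have e : (fun q => vol4 (A q) (B q) (C q) (D q)) =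
      fun q => ⟪zeta (A q) (B q), (hstar ∘ fun q => zeta (C q) (D q)) q⟫ :=
    funext fun q => ev_eq_inner _ _ _
  rw [e, h.fderiv]
  show ⟪zeta (A p) (B p), hstar (K a)⟫ + ⟪L a, hstar (zeta (C p) (D p))⟫ = _
  rw [eL, eK, map_add, inner_add_left, inner_add_right]
  simp only [vol4, ev_eq_inner]
  ring

theorem fderiv_lam3 {w : F → E} {Z : E → E} {p : F}
    (hw : ContDiffAt ℝ 2 w p) (hZ : DifferentiableAt ℝ Z (w p)) (a b c e : F) :
    fderiv ℝ (lam3 w Z a b c) p e =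
      vol4 (fderiv ℝ Z (w p) (fderiv ℝ w p e)) (fderiv ℝ w p a) (fderiv ℝ w p b) (fderiv ℝ w p c) +
      vol4 (Z (w p)) (fderiv ℝ (fderiv ℝ w) p e a) (fderiv ℝ w p b) (fderiv ℝ w p c) +
      vol4 (Z (w p)) (fderiv ℝ w p a) (fderiv ℝ (fderiv ℝ w) p e b) (fderiv ℝ w p c) +
      vol4 (Z (w p)) (fderiv ℝ w p a) (fderiv ℝ w p b) (fderiv ℝ (fderiv ℝ w) p e c) := by
  have h1 : DifferentiableAt ℝ w p := hw.differentiableAt (by norm_num)
  have h2 : DifferentiableAt ℝ (fderiv ℝ w) p :=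
    (hw.fderiv_right (m := 1) (by norm_num)).differentiableAt (by norm_num)
  have h3 : ∀ v : F, HasFDerivAt (fun q => fderiv ℝ w q v)
      ((ContinuousLinearMap.apply ℝ E v).comp (fderiv ℝ (fderiv ℝ w) p)) p := fun v =>
    (ContinuousLinearMap.apply ℝ E v).hasFDerivAt.comp p h2.hasFDerivAt
  exact fderiv_vol4 (hZ.hasFDerivAt.comp p h1.hasFDerivAt) (h3 a) (h3 b) (h3 c) e

theorem pos {ε : ℝ} (hε : 0 < ε) (w : E) : 0 < ‖w‖ ^ 2 + ε ^ 2 := by positivity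

theorem hasFDerivAt_q (ε : ℝ) (w : E) :
    HasFDerivAt (fun w : E => ‖w‖ ^ 2 + ε ^ 2) (2 • innerSL ℝ w) w :=
  (hasStrictFDerivAt_norm_sq w).hasFDerivAt.add_const _

end PullVolAux

open PullVolAux

/-- Product rule in the four slots of `vol4`; the terms with second derivatives of `w` cancel by
symmetry (`ContDiffAt.isSymmSndFDerivAt`) and antisymmetry of `vol4`; the others give
`vol4_trace`. -/
theorem d_lam3 {F : Type} [NormedAddCommGroup F] [NormedSpace ℝ F] {w : F → E} {Z : E → E} {p : F}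
    (hw : ContDiffAt ℝ 2 w p) (hZ : DifferentiableAt ℝ Z (w p)) (a₀ a₁ a₂ a₃ : F) :
    fderiv ℝ (lam3 w Z a₁ a₂ a₃) p a₀ - fderiv ℝ (lam3 w Z a₀ a₂ a₃) p a₁ +
        fderiv ℝ (lam3 w Z a₀ a₁ a₃) p a₂ - fderiv ℝ (lam3 w Z a₀ a₁ a₂) p a₃ =
      LinearMap.trace ℝ E (fderiv ℝ Z (w p) : E →ₗ[ℝ] E) *
        vol4 (fderiv ℝ w p a₀) (fderiv ℝ w p a₁) (fderiv ℝ w p a₂) (fderiv ℝ w p a₃) := by
  have hs : IsSymmSndFDerivAt ℝ w p := hw.isSymmSndFDerivAt (by simp)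
  rw [← vol4_trace, fderiv_lam3 hw hZ, fderiv_lam3 hw hZ, fderiv_lam3 hw hZ, fderiv_lam3 hw hZ,
    hs a₁ a₀, hs a₂ a₀, hs a₃ a₀, hs a₂ a₁, hs a₃ a₁, hs a₃ a₂]
  simp only [vol4, ev, Alg1Aux.z0, Alg1Aux.z1, Alg1Aux.z2, Alg1Aux.z3, Alg1Aux.z4, Alg1Aux.z5]
  ring

theorem contDiff_Gk {ε : ℝ} (hε : 0 < ε) : ContDiff ℝ ∞ (Gk ε) :=
  (((contDiff_norm_sq ℝ).add contDiff_const).inv fun w => (pos hε w).ne').neg
theorem contDiff_Zk {ε : ℝ} (hε : 0 < ε) : ContDiff ℝ ∞ (Zk ε) :=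
  (contDiff_const.div (((contDiff_norm_sq ℝ).add contDiff_const).pow 2)
    fun w => (pow_pos (pos hε w) 2).ne').smul contDiff_id
theorem fderiv_Gk {ε : ℝ} (hε : 0 < ε) (w v : E) : fderiv ℝ (Gk ε) w v = ⟪Zk ε w, v⟫ := by
  have h : HasFDerivAt (Gk ε) _ w :=
    ((hasDerivAt_inv (pos hε w).ne').comp_hasFDerivAt w (hasFDerivAt_q ε w)).neg
  rw [h.fderiv, Zk, real_inner_smul_left]
  simp
  ring
theorem trace_fderiv_Zk {ε : ℝ} (hε : 0 < ε) (w : E) :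
    LinearMap.trace ℝ E (fderiv ℝ (Zk ε) w : E →ₗ[ℝ] E) = 8 * ε ^ 2 / (‖w‖ ^ 2 + ε ^ 2) ^ 3 := by
  have h0 := pos hε w
  have h1 : HasDerivAt (fun s : ℝ => 2 / s ^ 2) (-4 / (‖w‖ ^ 2 + ε ^ 2) ^ 3) (‖w‖ ^ 2 + ε ^ 2) := by
    refine ((hasDerivAt_const _ (2 : ℝ)).div (hasDerivAt_pow 2 _) (pow_pos h0 2).ne').congr_deriv ?_
    field_simp
    norm_num
    ring
  have h3 := HasDerivAt.comp_hasFDerivAt (h₂ := fun s : ℝ => 2 / s ^ 2) w h1 (hasFDerivAt_q ε w)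
  have h : HasFDerivAt (Zk ε) _ w := h3.smul (hasFDerivAt_id w)
  rw [h.fderiv, Alg1Aux.trace_eq]
  have h2 := Alg1Aux.normE w
  simp [eb, EuclideanSpace.inner_single_right]
  field_simp
  linarith

end Vale.Agent.P204
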