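import Vale.Agent.P204.AtlasInt2
import Vale.Agent.P204.KregDual
import Vale.Agent.P204.KerC

/-! Regularisation of functionals on `X`. -/

open scoped ContDiff RealInnerProductSpace Topology
open MeasureTheory Metric

namespace Vale.Agent.P204

universe u

namespace RegAux

variable {X : Type u} [TopologicalSpace X] [T2Space X] (s : Setup X)

omit [T2Space X] in
theorem sub_target (j : Fin s.m) {r : ℝ} (hr : r < 10) :
    closedBall (0 : E) r ⊆ (s.ψ j).target := by
  rw [s.target j]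
  exact closedBall_subset_ball hr

/-- Positive distance between the two compact sets. -/
theorem gap (i j : Fin s.m) : ∃ δ > (0 : ℝ), ∀ y : E, ‖y‖ ≤ 1 →
    (s.ψ j).symm y ∉ (s.ψ i).source ∩ s.ψ i ⁻¹' ball 0 5 → ∀ y' : E, ‖y'‖ ≤ 2 → dist y' y < δ →
      (s.ψ j).symm y' ∉ (s.ψ i).symm '' closedBall 0 4 := by
  have hU : IsOpen ((s.ψ i).source ∩ s.ψ i ⁻¹' ball 0 5) :=
    (s.ψ i).isOpen_inter_preimage isOpen_ball
  have hA : IsClosed (closedBall (0 : E) 1 ∩
      (s.ψ j).symm ⁻¹' ((s.ψ i).source ∩ s.ψ i ⁻¹' ball 0 5)ᶜ) :=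
    ((s.ψ j).continuousOn_symm.mono (sub_target s j (by norm_num))).preimage_isClosed_of_isClosed
      isClosed_closedBall hU.isClosed_compl
  have hB : IsClosed (closedBall (0 : E) 2 ∩
      (s.ψ j).symm ⁻¹' ((s.ψ i).symm '' closedBall 0 4)) :=
    ((s.ψ j).continuousOn_symm.mono (sub_target s j (by norm_num))).preimage_isClosed_of_isClosed
      isClosed_closedBall (s.isCompact_piece i (by norm_num)).isClosed
  have hAc := (isCompact_closedBall (0 : E) 1).of_isClosed_subset hA Set.inter_subset_left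
  obtain ⟨δ, hδ, h⟩ := hAc.exists_thickening_subset_open hB.isOpen_compl (by
    rintro y ⟨-, hy⟩ ⟨-, z, hz, e⟩
    have hz' : ‖z‖ ≤ 4 := mem_closedBall_zero_iff.1 hz
    refine hy ?_
    rw [← e]
    refine ⟨s.symm_mem_source i (by linarith), ?_⟩
    rw [Set.mem_preimage, s.apply_symm i (by linarith), mem_ball_zero_iff]
    linarith)
  refine ⟨δ, hδ, fun y hy hy' y' h2 hd hm => ?_⟩
  exact h (mem_thickening_iff.2 ⟨y, ⟨mem_closedBall_zero_iff.2 hy, hy'⟩, hd⟩)
    ⟨mem_closedBall_zero_iff.2 h2, hm⟩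

omit [T2Space X] in
theorem glob_zero (i : Fin s.m) {θ : E → W} {r : ℝ} (hθ : ∀ y, r < ‖y‖ → θ y = 0) {x : X}
    (hx : x ∉ (s.ψ i).symm '' closedBall 0 r) : s.glob i θ x = 0 := by
  rw [Mo.MoAtlAux.glob_apply]
  split_ifs with h
  · rw [hθ _ (not_le.1 fun h' => hx ⟨_, mem_closedBall_zero_iff.2 h', (s.ψ i).left_inv h⟩),
      map_zero]
  · rfl

theorem R_le {K : ℝ × E × E → W →L[ℝ] W} {R N ε₀ : ℝ} (hK : IsKer K R N ε₀) {ε : ℝ}
    (hε : ε ∈ Set.Ioo 0 ε₀) : R * ε ≤ 1 / 4 := by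
  have := hK.R_mul_le hε
  nlinarith [hε.1]

theorem norm_le {y y' : E} {d : ℝ} (h : y' ∈ closedBall y d) : ‖y'‖ ≤ ‖y‖ + d := by
  have := norm_sub_norm_le y' y
  rw [mem_closedBall, dist_eq_norm] at h
  linarith

end RegAux

open RegAux

namespace Setup

variable {X : Type u} [TopologicalSpace X] [T2Space X] (s : Setup X)

variable {s} {M : ℝ → Form X → Form X} {K : Fin s.m → ℝ × E × E → W →L[ℝ] W} {R N ε₀ : ℝ}

/-- Support control. For each pair `i, j` the compact sets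
`A = closedBall 0 1 \ ψ j (source j ∩ (ψ i).symm '' ball 0 5)` and
`B = ψ j ((ψ i).symm '' closedBall 0 4 ∩ (ψ j).symm '' closedBall 0 2)` are disjoint, so at
positive distance (`Disjoint.exists_thickenings`). If `x` is in `(ψ i).symm '' ball 0 5` use
`Moll.rep` in chart `i` and `kop_congr`; otherwise both sides vanish, by `Moll.rep` in a chart `j`
from `Mo.cover`. -/
theorem Moll.glob_eq (hM : s.Moll M K R N ε₀) : ∃ ε₁ > (0 : ℝ),
    ∀ ε ∈ Set.Ioo 0 ε₁, ε < ε₀ → ∀ (i : Fin s.m) (θ : E → W), Test 4 θ →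
      M ε (s.glob i θ) = s.glob i (Kop (K i) ε θ) := by
  choose δ hδ H using gap s
  have hev : ∀ᶠ ε in 𝓝 (0 : ℝ), ∀ i j, R * ε < δ i j := by
    refine Filter.eventually_all.2 fun i => Filter.eventually_all.2 fun j => ?_
    have hc : ContinuousAt (fun ε : ℝ => R * ε) 0 := by fun_prop
    exact hc.eventually_lt continuousAt_const (by simpa using hδ i j)
  obtain ⟨ε₁, hε₁, h₁⟩ := Metric.eventually_nhds_iff.1 hev
  refine ⟨ε₁, hε₁, fun ε hε hε₀ i θ hθ => funext fun x => ?_⟩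
  have hε' : ε ∈ Set.Ioo 0 ε₀ := ⟨hε.1, hε₀⟩
  have hR := R_le (hM.ker i) hε'
  have hδ' := h₁ (y := ε) (by rw [Real.dist_0_eq_abs, abs_of_pos hε.1]; exact hε.2)
  have hs := Mo.smooth_glob s i (hθ.mono (by norm_num))
  by_cases hx : x ∈ (s.ψ i).source ∩ s.ψ i ⁻¹' ball 0 5
  · have h5 : ‖s.ψ i x‖ < 5 := mem_ball_zero_iff.1 hx.2
    rw [← Mo.pull_loc s i (M ε (s.glob i θ)) hx.1,
      hM.rep ε hε' _ hs i _ (mem_closedBall_zero_iff.2 (by linarith)),
      Mo.MoAtlAux.glob_apply, if_pos hx.1]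
    congr 1
    refine (hM.ker i).toSKer.kop_congr hε.1.le fun y hy => Mo.loc_glob s i θ ?_
    linarith [norm_le hy]
  · obtain ⟨j, hj, h1⟩ := Mo.cover s x
    have e₁ : s.glob i (Kop (K i) ε θ) x = 0 := by
      refine glob_zero s i ((hM.ker i).toSKer.kop_test hε.1.le hθ).2 ?_
      rintro ⟨z, hz, rfl⟩
      have hz' : ‖z‖ ≤ 4 + R * ε := mem_closedBall_zero_iff.1 hz
      refine hx ⟨s.symm_mem_source i (by linarith), ?_⟩
      rw [Set.mem_preimage, s.apply_symm i (by linarith), mem_ball_zero_iff]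
      linarith
    have e₂ : Kop (K j) ε (s.loc j (s.glob i θ)) (s.ψ j x) = Kop (K j) ε (0 : E → W) (s.ψ j x) := by
      refine (hM.ker j).toSKer.kop_congr hε.1.le fun y hy => ?_
      rw [Mo.MoAtlAux.loc_apply, glob_zero s i hθ.2 (H i j (s.ψ j x) h1
        (by rwa [(s.ψ j).left_inv hj]) y (by linarith [norm_le hy])
        ((mem_closedBall.1 hy).trans_lt (hδ' i j))), map_zero, Pi.zero_apply]
    rw [e₁, ← Mo.pull_loc s j (M ε (s.glob i θ)) hj,
      hM.rep ε hε' _ hs j _ (mem_closedBall_zero_iff.2 (by linarith)), e₂]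
    simp [Kop]

/-- `G = ∑ j, glob j (regLoc (K j) (lf L j) (c j) ε)`. Duality: `Int_glob`,
`integral_wedge_regLoc` (replace `loc j φ` by `bp 8 9 • loc j φ`), `Moll.rep`, `partition`.
The chart formula: `eqOn_of_weak` on `ball 0 4` with `Moll.glob_eq` and `integral_wedge_kreg`. -/
theorem Moll.exists_reg (hM : s.Moll M K R N ε₀) : ∃ ε₁ > (0 : ℝ), ∀ ε ∈ Set.Ioo 0 ε₁, ε < ε₀ →
    ∀ (k : ℕ) (L : GF X), (∀ i, DistBd k (s.lf L i)) → ∃ G, s.IsReg M K ε L G := by
  obtain ⟨ε₁, hε₁, H⟩ := hM.glob_eq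
  refine ⟨ε₁, hε₁, fun ε hε hε₀ k L hL => ?_⟩
  have hε' : ε ∈ Set.Ioo 0 ε₀ := ⟨hε.1, hε₀⟩
  have hT : ∀ j, Test 2 (regLoc (K j) (s.lf L j) (s.c j) ε) := fun j =>
    ((hM.ker j).toSKer.test_regLoc (hL j) (s.c_test j) (by norm_num) hε.1).mono
      (by linarith [R_le (hM.ker j) hε'])
  have hS : ∀ j, s.Smooth (s.glob j (regLoc (K j) (s.lf L j) (s.c j) ε)) := fun j =>
    Mo.smooth_glob s j ((hT j).mono (by norm_num))
  have hG : s.Smooth (∑ j, s.glob j (regLoc (K j) (s.lf L j) (s.c j) ε)) :=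
    s.smSub.sum_mem fun j _ => hS j
  have hd : ∀ φ, s.Smooth φ →
      s.Int (∑ j, s.glob j (regLoc (K j) (s.lf L j) (s.c j) ε)) φ = L (M ε φ) := by
    intro φ hφ
    rw [s.Int_sum_left _ (fun j _ => (hS j).cont) hφ.cont, s.partition (M ε φ), map_sum]
    refine Finset.sum_congr rfl fun j _ => ?_
    have hR := R_le (hM.ker j) hε'
    have ht := hφ.test_smul j (test_bp (a := 8) (b := 9) (by norm_num) (by norm_num))
      (by norm_num)
    rw [s.Int_glob j ((hT j).mono (by norm_num)).ctest hφ.cont]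
    have e₁ : ∫ y, wedge (regLoc (K j) (s.lf L j) (s.c j) ε y) (s.loc j φ y) =
        ∫ y, wedge (regLoc (K j) (s.lf L j) (s.c j) ε y) (bp 8 9 y • s.loc j φ y) := by
      refine integral_congr_ae (Filter.Eventually.of_forall fun y => ?_)
      rcases le_or_gt ‖y‖ 2 with hy | hy
      · simp only [bp_eq_one (a := 8) (b := 9) (by norm_num) (by norm_num)
          (hy.trans (by norm_num)), one_smul]
      · simp only [(hT j).2 y hy, wedge_zero_left]
    rw [e₁, (hM.ker j).toSKer.integral_wedge_regLoc (hL j) ((s.c_test j).mono (by norm_num))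
      hε.1 ht.1]
    refine congrArg (fun θ => L (s.glob j θ)) (funext fun y => ?_)
    rcases le_or_gt ‖y‖ 1 with hy | hy
    · rw [hM.rep ε hε' φ hφ j y (mem_closedBall_zero_iff.2 (by linarith))]
      congr 1
      refine (hM.ker j).toSKer.kop_congr hε.1.le fun z hz => ?_
      rw [bp_eq_one (by norm_num) (by norm_num) (by linarith [norm_le hz]), one_smul]
    · rw [(s.c_test j).2 y hy, zero_smul, zero_smul]
  refine ⟨_, hG, hd, fun i x hx => ?_⟩
  refine eqOn_of_weak (r := 4) ((hG i).continuousOn.mono (ball_subset_ball (by norm_num)))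
    ((hM.ker i).toSKer.contDiff_kreg (hL i) ε).continuous.continuousOn (fun r θ hr hθ => ?_) x
    (closedBall_subset_ball (by norm_num) hx)
  have h4 : Test 4 θ := hθ.mono hr.le
  rw [(hM.ker i).toSKer.integral_wedge_kreg (hL i) hε.1 (by linarith [R_le (hM.ker i) hε']) h4]
  simp only [wedge_comm _ (θ _)]
  rw [← s.Int_glob i (h4.mono (by norm_num)).ctest hG.cont, s.Int_comm,
    hd _ (Mo.smooth_glob s i (h4.mono (by norm_num))), H ε hε hε₀ i θ h4]
  rfl

/-- `closed_of_weak`. -/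
theorem IsReg.closed_of_ex (hM : s.Moll M K R N ε₀) {ε : ℝ} (hε : ε ∈ Set.Ioo 0 ε₀) {L : GF X}
    {G : Form X} (h : s.IsReg M K ε L G) (hL : ∀ e ∈ s.Ex, L e = 0) : s.Closed G :=
  s.closed_of_weak h.smooth fun i p hp => by
    rw [s.Int_comm, h.dual _ (Mo.smooth_glob s i (hp.d1.mono (by norm_num))),
      hL _ (hM.ex ε hε i p hp)]

/-- `G + G'` is closed by `closed_of_weak`, so `M ε (G + G')` is smooth and closed. -/
theorem IsReg.Int_self (hM : s.Moll M K R N ε₀) {ε : ℝ} (hε : ε ∈ Set.Ioo 0 ε₀) {B A : GF X}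
    {G G' : Form X} (h : s.IsReg M K ε B G) (h' : s.IsReg M K ε A G')
    (hZ : ∀ σ, s.Smooth σ → s.Closed σ → B σ + A σ = 0) :
    s.Int G G + 2 * s.Int G G' + s.Int G' G' = 0 := by
  have hS := h.smooth.add h'.smooth
  have key : ∀ φ, s.Smooth φ → s.Closed (M ε φ) → s.Int (G + G') φ = 0 := fun φ hφ hc => by
    rw [s.Int_add_left h.smooth.cont h'.smooth.cont hφ.cont, h.dual φ hφ, h'.dual φ hφ]
    exact hZ _ (hM.smooth ε hε φ hφ) hc
  have hC : s.Closed (G + G') := s.closed_of_weak hS fun i p hp => by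
    rw [s.Int_comm]
    exact key _ (Mo.smooth_glob s i (hp.d1.mono (by norm_num)))
      (s.ex_smooth_closed (hM.ex ε hε i p hp)).2
  have e := key _ hS (hM.closed ε hε _ hS hC)
  rw [s.Int_add_left h.smooth.cont h'.smooth.cont hS.cont,
    s.Int_add_right h.smooth.cont h.smooth.cont h'.smooth.cont,
    s.Int_add_right h'.smooth.cont h.smooth.cont h'.smooth.cont, s.Int_comm G' G] at e
  linarith

end Setup

end Vale.Agent.P204
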