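import Vale.Agent.P204.Norms2

/-! A crude Sobolev embedding. -/

open scoped ContDiff RealInnerProductSpace Topology
open MeasureTheory Metric

namespace Vale.Agent.P204

namespace SobolevAux

open scoped FourierTransform

theorem decay {f : E → ℂ} (hf : Test 7 f) {n : ℕ} (hn : n ≤ 5) (w : E) :
    ‖w‖ ^ n * ‖𝓕 f w‖ ≤ 32 * ∑ j ∈ Finset.range 6, ∫ v, ‖iteratedFDeriv ℝ j f v‖ := by
  have h := Real.pow_mul_norm_iteratedFDeriv_fourier_le (K := 0) (N := ⊤) hf.1
    (fun k m hk _ => by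
      obtain rfl : k = 0 := by simpa using hk
      simpa using ((hf.iteratedFDeriv m).ctest.integrable volume).norm)
    (k := 0) (n := n) le_rfl le_top w
  simp only [norm_iteratedFDeriv_zero, pow_zero, one_mul, Nat.cast_zero, mul_zero, zero_add,
    Finset.sum_product, Finset.sum_range_one] at h
  have h0 : ∀ j, 0 ≤ ∫ v, ‖iteratedFDeriv ℝ j f v‖ := fun j =>
    integral_nonneg fun _ => norm_nonneg _
  refine h.trans (mul_le_mul ?_ (Finset.sum_le_sum_of_subset_of_nonneg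
    (Finset.range_mono (by omega)) fun j _ _ => h0 j) (Finset.sum_nonneg fun j _ => h0 j)
    (by norm_num))
  exact (pow_le_pow_right₀ one_le_two hn).trans (by norm_num)

theorem sup_le {f : E → ℂ} (hf : Test 7 f) (y : E) :
    ‖f y‖ ≤ (1024 * ∫ w : E, (1 + ‖w‖) ^ (-5 : ℝ)) *
      ∑ j ∈ Finset.range 6, ∫ v, ‖iteratedFDeriv ℝ j f v‖ := by
  set S := ∑ j ∈ Finset.range 6, ∫ v, ‖iteratedFDeriv ℝ j f v‖ with hS
  have hi : Integrable f := hf.ctest.integrable volume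
  have hc : Continuous (𝓕 f) := VectorFourier.fourierIntegral_continuous
    Real.continuous_fourierChar continuous_inner hi
  have hw : Integrable fun w : E => (1 + ‖w‖) ^ (-5 : ℝ) :=
    integrable_one_add_norm (by simp; norm_num)
  have hb : ∀ w : E, ‖𝓕 f w‖ ≤ 1024 * S * (1 + ‖w‖) ^ (-5 : ℝ) := fun w => by
    have h0 := decay hf (n := 0) (by omega) w
    have h5 := decay hf (n := 5) le_rfl w
    have hp : 0 < 1 + ‖w‖ := by positivity
    have h1 := add_pow_le zero_le_one (norm_nonneg w) 5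
    rw [Real.rpow_neg hp.le, ← div_eq_mul_inv, le_div_iff₀ (by positivity),
      show (5 : ℝ) = ((5 : ℕ) : ℝ) by norm_num, Real.rpow_natCast]
    have h2 := mul_le_mul_of_nonneg_left h1 (norm_nonneg (𝓕 f w))
    norm_num at h2
    rw [← hS] at h0 h5
    nlinarith
  have hF : Integrable (𝓕 f) :=
    (hw.const_mul (1024 * S)).mono' hc.aestronglyMeasurable (ae_of_all _ hb)
  rw [← hi.fourierInv_fourier_eq hF hf.1.continuous.continuousAt, Real.fourierInv_eq]
  refine (norm_integral_le_of_norm_le (hw.const_mul (1024 * S)) (ae_of_all _ fun w => ?_)).trans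
    (le_of_eq ?_)
  · rw [Circle.norm_smul]
    exact hb w
  · rw [integral_const_mul]
    ring

theorem iter {C : ℝ} (hC : 0 ≤ C) (h : ∀ (F : Type) [NormedAddCommGroup F] [NormedSpace ℝ F]
    (θ : E → F), Test 7 θ → ∀ y, ‖θ y‖ ≤ C * Hn 5 θ) (j : ℕ) :
    ∀ (F : Type) [NormedAddCommGroup F] [NormedSpace ℝ F] (θ : E → F), Test 7 θ → ∀ y,
      ‖iteratedFDeriv ℝ j θ y‖ ≤ C * Hn (j + 5) θ := by
  induction j with
  | zero =>
    intro F _ _ θ hθ y
    rw [norm_iteratedFDeriv_zero, zero_add]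
    exact h F θ hθ y
  | succ j ih =>
    intro F _ _ θ hθ y
    rw [← norm_iteratedFDeriv_fderiv, add_right_comm]
    exact (ih _ _ hθ.fderiv y).trans (mul_le_mul_of_nonneg_left (Hn_fderiv_le _ θ) hC)

end SobolevAux

/-- Reduce to real valued `θ` with a norming functional (`exists_dual_vector''`,
`ContinuousLinearMap.norm_iteratedFDeriv_comp_left`), complexify, and use Fourier inversion
(`Continuous.fourierInv_fourier_eq`), the decay
`Real.pow_mul_norm_iteratedFDeriv_fourier_le` (with `k = 0`), `integrable_one_add_norm` and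
`integral_norm_le_nL2`. Any other proof is fine. -/
theorem sobolev : ∃ C : ℝ, 0 ≤ C ∧ ∀ (F : Type) [NormedAddCommGroup F] [NormedSpace ℝ F]
    (θ : E → F), Test 7 θ → ∀ y, ‖θ y‖ ≤ C * Hn 5 θ := by
  obtain ⟨C, hC, h⟩ := integral_norm_le_nL2 7
  have hI : 0 ≤ 1024 * ∫ w : E, (1 + ‖w‖) ^ (-5 : ℝ) :=
    mul_nonneg (by norm_num) (integral_nonneg fun w => by positivity)
  refine ⟨_, mul_nonneg hI hC, fun F _ _ θ hθ y => ?_⟩
  obtain ⟨g, g1, g2⟩ := exists_dual_vector'' ℝ (θ y)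
  set L : F →L[ℝ] ℂ := Complex.ofRealCLM.comp g with hL
  have L1 : ‖L‖ ≤ 1 := (ContinuousLinearMap.opNorm_comp_le _ _).trans (by
    rw [Complex.ofRealCLM_norm, one_mul]
    exact g1)
  have hf : Test 7 (L ∘ θ) := hθ.clm_apply (A := fun _ => L) contDiff_const
  have e : ‖(L ∘ θ) y‖ = ‖θ y‖ := by simp [hL, g2]
  rw [← e, mul_assoc]
  refine (SobolevAux.sup_le hf y).trans (mul_le_mul_of_nonneg_left ?_ hI)
  rw [Hn, Finset.mul_sum]
  refine Finset.sum_le_sum fun j _ => (h _ _ (hf.iteratedFDeriv j).ctest).trans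
    (mul_le_mul_of_nonneg_left ?_ hC)
  refine (nL2_le_of_le zero_le_one (hθ.iteratedFDeriv j).ctest fun x => ?_).trans_eq (one_mul _)
  exact (L.norm_iteratedFDeriv_comp_left hθ.1.contDiffAt (by exact_mod_cast le_top)).trans
    (mul_le_mul_of_nonneg_right L1 (norm_nonneg _))

/-- Induction on `k` over all `F`, with `norm_iteratedFDeriv_fderiv` and `Hn_fderiv_le`. -/
theorem Ck_le_Hn (k : ℕ) : ∃ C : ℝ, 0 ≤ C ∧ ∀ θ : E → W, Test 7 θ →
    Ck k θ ≤ C * Hn (k + 5) θ := by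
  obtain ⟨C, hC, h⟩ := sobolev
  refine ⟨(k + 1) * C, by positivity, fun θ hθ => ?_⟩
  rw [mul_assoc]
  exact Ck_le fun j hj y => (SobolevAux.iter hC h j _ θ hθ y).trans
    (mul_le_mul_of_nonneg_left (Hn_mono (by omega) θ) hC)

theorem DistBd.lBd {k n : ℕ} {L : LF} (h : DistBd k L) (hn : k + 5 ≤ n) :
    ∃ C : ℝ, 0 ≤ C ∧ ∀ t ∈ Set.Ioc (0 : ℝ) 1, LBd n L t 3 (C * (t ^ (k + 5))⁻¹) := by
  obtain ⟨C, hC⟩ := h
  obtain ⟨D, hD, h2⟩ := Ck_le_Hn k
  refine ⟨|C| * D, by positivity, fun t ht θ hθ => ?_⟩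
  have h7 : Test 7 θ := hθ.mono (by norm_num)
  have hp : 0 < t ^ (k + 5) := pow_pos ht.1 _
  have h3 : Hn (k + 5) θ ≤ (t ^ (k + 5))⁻¹ * nrm n t θ := by
    rw [le_inv_mul_iff₀ hp]
    exact Hn_le_nrm hn ht.1.le θ
  refine (hC θ h7).trans ((mul_le_mul_of_nonneg_right (le_abs_self C) (Ck_nonneg k θ)).trans ?_)
  rw [mul_assoc, mul_assoc]
  exact mul_le_mul_of_nonneg_left ((h2 θ h7).trans (mul_le_mul_of_nonneg_left h3 hD))
    (abs_nonneg C)

end Vale.Agent.P204
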