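import Vale.Agent.P204.GStep
import Vale.Agent.P204.AtlasSn
import Vale.Agent.P204.Sobolev
import Vale.Agent.P204.Boot
import Vale.Agent.P204.MoTop

/-! The a priori estimate that replaces elliptic theory. -/

open scoped ContDiff RealInnerProductSpace Topology
open MeasureTheory Metric

namespace Vale.Agent.P204

universe u

namespace Setup

variable {X : Type u} [TopologicalSpace X] [T2Space X] [CompactSpace X] (s : Setup X)

/-- If `s.m = 0` everything vanishes (`partition`). Otherwise take `Mo.exists_moll`,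
`p = k + 4`, `k₁ = max k k' + 5`, `n = k₁ + 1`. By `lf_le_of_sn` and `norm_kreg_le`, `Dom K B ε β`
holds with a constant function `h`, `β = C b ε^{-p}`. Apply `boot` to
`P t r a = ∀ i, LBd n (lf A i) t r a` with `DistBd.lBd` as start and `Moll.step` as step:
choose `λ ≥ max 2 (6 C)`, `κ = λ^{-n}`, `t₀ ≤ λ^{-n}`, `q = 3 C λ^{-n}`. Then `lower_order` and
`abs_le_sn_of_Hn`. All constants are chosen before `B, A, b`. -/
theorem reg_lemma (k k' : ℕ) : ∃ C : ℝ, 0 ≤ C ∧ ∀ (B A : GF X) (b b' : ℝ), 0 ≤ b →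
    (∀ φ, s.Smooth φ → |B φ| ≤ b * s.sn k φ) →
    (∀ φ, s.Smooth φ → |A φ| ≤ b' * s.sn k' (s.pmF φ)) →
    (∀ σ, s.Smooth σ → s.Closed σ → B σ + A σ = 0) →
      ∀ φ, s.Smooth φ → |A φ| ≤ C * b * s.sn (k + 5) (s.pmF φ) := by
  obtain ⟨Cf, hCf, hfin⟩ := s.abs_le_sn_of_Hn (k + 5)
  rcases isEmpty_or_nonempty (Fin s.m) with hm | ⟨⟨i₀⟩⟩
  · refine ⟨0, le_rfl, fun B A b b' _ _ hA _ φ hφ => ?_⟩
    simpa using hfin k' A b' 0 le_rfl hA (fun i => (IsEmpty.false i).elim) φ hφ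
  obtain ⟨M, K, R, N, ε₀, hM⟩ := Mo.exists_moll s
  have hk := hM.ker i₀
  have hR := hk.Rpos
  have hε₀ := hk.epos
  set k₀ : ℕ := max k k' with hk₀
  have hkk : k ≤ k₀ := le_max_left _ _
  have hkk' : k' ≤ k₀ := le_max_right _ _
  obtain ⟨Cs, hCs, ε₁, hε₁, hstep⟩ := hM.step (k₀ + 6)
  obtain ⟨Cl, hCl, hlf⟩ := s.lf_le_of_sn k
  choose Ck' hCk' hkr using fun i => (hM.ker i).toSKer.norm_kreg_le k
  set V : ℝ := Real.sqrt (volume.real (closedBall (0 : E) 1)) with hV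
  have hV0 : 0 ≤ V := Real.sqrt_nonneg _
  set Cb : ℝ := 3 * (∑ i, Ck' i) * Cl with hCb
  have hsum : 0 ≤ ∑ i, Ck' i := Finset.sum_nonneg fun i _ => hCk' i
  have hCb0 : 0 ≤ Cb := by positivity
  set lam' : ℝ := 6 * Cs + 2 with hlam
  have hl2 : 2 ≤ lam' := by linarith
  have hl0 : 0 < lam' := by linarith
  set κ : ℝ := (lam' ^ (k₀ + 6))⁻¹ with hκ
  have hκ0 : 0 < κ := by positivity
  have hl11 : 1 ≤ lam' ^ (k₀ + 6) := one_le_pow₀ (by linarith)
  have hκ1 : κ ≤ 1 := inv_le_one_of_one_le₀ hl11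
  set c : ℝ := ((k₀ + 6 : ℕ) : ℝ) * R with hc
  have hc0 : 0 ≤ c := by positivity
  set t₀ : ℝ := min (min (ε₁ / 2) (ε₀ / 2)) (min κ (1 / (c + 1))) with ht₀
  have ht₀0 : 0 < t₀ := by positivity
  have t1 : t₀ ≤ ε₁ / 2 := (min_le_left _ _).trans (min_le_left _ _)
  have t2 : t₀ ≤ ε₀ / 2 := (min_le_left _ _).trans (min_le_right _ _)
  have t3 : t₀ ≤ κ := (min_le_right _ _).trans (min_le_left _ _)
  have t4 : t₀ ≤ 1 / (c + 1) := (min_le_right _ _).trans (min_le_right _ _)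
  have hq : 3 * Cs * κ * lam' ^ (k₀ + 5) ≤ 1 / 2 := by
    have e : κ * lam' ^ (k₀ + 5) = lam'⁻¹ := by
      rw [hκ]; field_simp; ring
    rw [mul_assoc, e, ← div_eq_mul_inv, div_le_iff₀ hl0]
    linarith
  have hq0 : 3 * Cs * κ * lam' ^ (k + 4) ≤ 1 / 2 := by
    refine le_trans ?_ hq
    have : lam' ^ (k + 4) ≤ lam' ^ (k₀ + 5) := pow_le_pow_right₀ (by linarith) (by omega)
    gcongr
  choose Co hCo hlow using fun i =>
    (hM.ker i).lower_order (n := k₀ + 6) (p := k + 4) (by omega) ht₀0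
  have hsumo : 0 ≤ ∑ i, Co i := Finset.sum_nonneg fun i _ => hCo i
  set C₁ : ℝ := 2 * (Cs * (Cb * V / κ)) * lam' ^ (k + 4) with hC₁
  have hC₁0 : 0 ≤ C₁ := by positivity
  refine ⟨Cf * ((∑ i, Co i) * C₁), by positivity, fun B A b b' hb hB hA hZ φ hφ => ?_⟩
  have hBl := hlf B b hb hB
  have hDB : ∀ i, DistBd k₀ (s.lf B i) := fun i =>
    DistBd.mono ⟨Cl * b, fun θ hθ => hBl i θ hθ⟩ hkk
  have hDA : ∀ i, DistBd k₀ (s.lf A i) := fun i => (s.distBd_of_sn_pm hA i).mono hkk'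
  have hAn : ∀ i, AntiF (s.Jl i) (s.lf A i) := fun i => s.antiF_of_sn_pm hA i
  choose C₀ hC₀ h0 using fun i => (hDA i).lBd (n := k₀ + 6) (by omega)
  have hdom : ∀ ε ∈ Set.Ioc (0 : ℝ) 1, s.Dom K B ε (Cb * b * (ε ^ (k + 4))⁻¹ * V) := by
    intro ε hε
    have hε0 := hε.1
    refine ⟨fun i => ⟨fun _ => Cb * b * (ε ^ (k + 4))⁻¹, continuous_const,
      fun _ => by positivity, ?_, fun x _ => ?_⟩⟩
    · rw [setIntegral_const, mul_pow _ V, hV, Real.sq_sqrt measureReal_nonneg, smul_eq_mul,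
        mul_comm]
    · have h1 := hkr i (s.lf B i) (Cl * b) (by positivity) (hBl i) ε hε x
      have h5 : Ck' i ≤ ∑ j, Ck' j := Finset.single_le_sum (fun j _ => hCk' j) (Finset.mem_univ i)
      have h2 : 3 * ‖kreg (K i) (s.lf B i) ε x‖ ≤ Cb * b * (ε ^ (k + 4))⁻¹ := by
        calc 3 * ‖kreg (K i) (s.lf B i) ε x‖ ≤ 3 * ((∑ j, Ck' j) * (Cl * b) * (ε ^ (k + 4))⁻¹) := by
              refine mul_le_mul_of_nonneg_left (h1.trans ?_) (by norm_num)
              gcongr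
          _ = _ := by rw [hCb]; ring
      have hn := norm_nonneg (kreg (K i) (s.lf B i) ε x)
      have h3 : ‖kreg (K i) (s.lf B i) ε x‖ ≤ Cb * b * (ε ^ (k + 4))⁻¹ := by linarith
      refine ⟨h3.trans ?_, ?_, ?_⟩
      · exact le_mul_of_one_le_left (by positivity) (one_le_inv₀ hε0 |>.2 hε.2)
      · refine ((pm (s.Jl i x)).le_opNorm _).trans (le_trans ?_ h2)
        exact mul_le_mul_of_nonneg_right ((s.good i).near x).norm_pm_le hn
      · have h4 := abs_wedge_le (kreg (K i) (s.lf B i) ε x) (kreg (K i) (s.lf B i) ε x)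
        have h6 := neg_abs_le (wedge (kreg (K i) (s.lf B i) ε x) (kreg (K i) (s.lf B i) ε x))
        have h7 := mul_self_le_mul_self hn h3
        simp only [sq]
        linarith
  have key := boot (fun t r a => ∀ i, LBd (k₀ + 6) (s.lf A i) t r a) (k₀ + 5) (k + 4) (t₀ := t₀)
    (c := c) (C₀ := ∑ i, C₀ i) (C₁ := Cs * (Cb * V / κ) * b) (q := 3 * Cs * κ) (lam := lam')
    ht₀0 hc0
    (by
      rw [le_div_iff₀ (by positivity)] at t4
      nlinarith)
    hl2 (by positivity) (Finset.sum_nonneg fun i _ => hC₀ i) (by positivity) hq hq0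
    (fun t r r' a hr H i => (H i).mono_r hr)
    (fun t r a a' ht ha H i => (H i).mono_a ht.le ha)
    (fun t r a H i => LBd.of_forall fun η hη => H η hη i)
    (fun t ht i => by
      have ht1 : t ∈ Set.Ioc (0 : ℝ) 1 := ⟨ht.1, ht.2.trans (t3.trans hκ1)⟩
      refine (h0 i t ht1).mono_a ht.1.le ?_
      have := ht.1
      have h5 : C₀ i ≤ ∑ j, C₀ j := Finset.single_le_sum (fun j _ => hC₀ j) (Finset.mem_univ i)
      gcongr)
    (fun ε hε r a hr hr3 ha H i => by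
      have hε0 := hε.1
      have hε1 : ε ∈ Set.Ioc (0 : ℝ) 1 := ⟨hε.1, hε.2.trans (t3.trans hκ1)⟩
      have hs := hstep k₀ B A hDB hDA hAn hZ ε ⟨hε.1, by linarith [hε.2]⟩ (by linarith [hε.2])
        (Cb * b * (ε ^ (k + 4))⁻¹ * V) a lam' κ r (by positivity) ha (by linarith) hκ0 hκ1 hr
        hr3 (hdom ε hε1) H i
      refine hs.mono_a (by positivity) ?_
      have hεκ : ε * a ≤ κ * a := mul_le_mul_of_nonneg_right (hε.2.trans t3) ha
      rw [← hκ]
      have : Cb * b * (ε ^ (k + 4))⁻¹ * V / κ + (κ + ε + κ) * a ≤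
          Cb * b * (ε ^ (k + 4))⁻¹ * V / κ + 3 * κ * a := by nlinarith
      calc Cs * (Cb * b * (ε ^ (k + 4))⁻¹ * V / κ + (κ + ε + κ) * a)
          ≤ Cs * (Cb * b * (ε ^ (k + 4))⁻¹ * V / κ + 3 * κ * a) :=
            mul_le_mul_of_nonneg_left this hCs
        _ = _ := by ring)
  have hH : ∀ i θ, Test 1 θ → |s.lf A i θ| ≤ (∑ j, Co j) * C₁ * b * Hn (k + 5) θ := by
    intro i θ hθ
    have h1 := hlow i (s.lf A i) (C₁ * b) (by positivity) (fun t ht => by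
      refine (key t ht i).mono_a ht.1.le (le_of_eq ?_)
      rw [hC₁]; ring) θ hθ
    have h5 : Co i ≤ ∑ j, Co j := Finset.single_le_sum (fun j _ => hCo j) (Finset.mem_univ i)
    have h6 := Hn_nonneg (k + 5) θ
    calc |s.lf A i θ| ≤ Co i * (C₁ * b) * Hn (k + 5) θ := h1
      _ ≤ (∑ j, Co j) * (C₁ * b) * Hn (k + 5) θ := by gcongr
      _ = _ := by ring
  refine (hfin k' A b' _ (by positivity) hA hH φ hφ).trans (le_of_eq ?_)
  ring

end Setup

end Vale.Agent.P204
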