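import Vale.Agent.P204.Meas

/-! Restriction of a positive current to a Borel set. -/

open scoped ContDiff RealInnerProductSpace Topology
open MeasureTheory Metric

namespace Vale.Agent.P204

universe u

namespace Setup

variable {X : Type u} [TopologicalSpace X] [T2Space X] [CompactSpace X]
  [SecondCountableTopology X] [MeasurableSpace X] [BorelSpace X] (s : Setup X)

variable {om : Form X}

/-- `X` is metrizable (`TopologicalSpace.metrizableSpace_of_t3_secondCountable`), so `ν` is weakly
regular; `Integrable.exists_boundedContinuous_integral_sub_le`, then clamp to `[0, 1]`. -/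
theorem exists_approx (ν : Measure X) [IsFiniteMeasure ν] {A : Set X} (hA : MeasurableSet A)
    {η : ℝ} (hη : 0 < η) : ∃ g : X → ℝ, Continuous g ∧ (∀ x, 0 ≤ g x) ∧ (∀ x, g x ≤ 1) ∧
      ∫ x, |g x - A.indicator 1 x| ∂ν ≤ η := by
  have i1 : Integrable (A.indicator (1 : X → ℝ)) ν := (integrable_const (1 : ℝ)).indicator hA
  obtain ⟨g, hg, ig⟩ := i1.exists_boundedContinuous_integral_sub_le hη
  refine ⟨fun x => max 0 (min 1 (g x)), by fun_prop, fun x => le_max_left _ _,
    fun x => max_le zero_le_one (min_le_left _ _), le_trans (integral_mono_of_nonneg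
      (ae_of_all _ fun _ => abs_nonneg _) (i1.sub ig).norm (ae_of_all _ fun x => ?_)) hg⟩
  have h0 : 0 ≤ A.indicator (1 : X → ℝ) x := Set.indicator_nonneg (fun _ _ => zero_le_one) x
  have h1 : A.indicator (1 : X → ℝ) x ≤ 1 := Set.indicator_le_self' (fun _ _ => zero_le_one) x
  simp only [Real.norm_eq_abs, Pi.sub_apply]
  generalize A.indicator (1 : X → ℝ) x = a at h0 h1 ⊢
  have h2 := le_abs_self (a - g x)
  have h3 := neg_abs_le (a - g x)
  rcases le_total 1 (g x) with h | h
  · rw [min_eq_left h, max_eq_right zero_le_one, abs_le]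
    constructor <;> linarith
  · rw [min_eq_right h]
    rcases le_total 0 (g x) with h' | h'
    · rw [max_eq_right h', abs_sub_comm]
    · rw [max_eq_left h', abs_le]
      constructor <;> linarith

omit [T2Space X] [SecondCountableTopology X] in
theorem RestrictAux.integrable (ν : Measure X) [IsFiniteMeasure ν] {g : X → ℝ}
    (hg : Continuous g) : Integrable g ν :=
  hg.integrable_of_hasCompactSupport (HasCompactSupport.of_compactSpace g)

omit [T2Space X] [SecondCountableTopology X] in
theorem RestrictAux.tri (ν : Measure X) [IsFiniteMeasure ν] {A : Set X} (hA : MeasurableSet A)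
    {g g' : X → ℝ} (hg : Continuous g) (hg' : Continuous g') : ∫ x, |g x - g' x| ∂ν ≤
      ∫ x, |g x - A.indicator 1 x| ∂ν + ∫ x, |g' x - A.indicator 1 x| ∂ν := by
  have i1 : Integrable (A.indicator (1 : X → ℝ)) ν := (integrable_const (1 : ℝ)).indicator hA
  have i2 := ((RestrictAux.integrable ν hg).sub i1).abs
  have i3 := ((RestrictAux.integrable ν hg').sub i1).abs
  refine le_trans (integral_mono_of_nonneg (ae_of_all _ fun _ => abs_nonneg _) (i2.add i3)
    (ae_of_all _ fun x => ?_)) (integral_add i2 i3).le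
  exact (abs_sub_le _ (A.indicator 1 x) _).trans_eq (by rw [abs_sub_comm _ (g' x)]; rfl)

/-- Choose `g_n` with `∫ |g_n - 1_A| dμ → 0`. For continuous `φ` the sequence `S (g_n • φ)` is
Cauchy (`PosCur.abs_le`); the limit is linear on `contSub`; extend by `LinearMap.exists_extend`. -/
theorem PosCur.exists_restrict {s : Setup X} (h : s.Tame om) {S : GF X} {μ : Measure X}
    (hS : s.PosCur (s.ppF om) S μ) {A : Set X} (hA : MeasurableSet A) :
    ∃ S' : GF X, s.PosCur (s.ppF om) S' (μ.restrict A) ∧ ∀ φ, s.Cont φ → ∃ C : ℝ, 0 ≤ C ∧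
      ∀ g : X → ℝ, Continuous g →
        |S' φ - S fun x => g x • φ x| ≤ C * ∫ x, |g x - A.indicator 1 x| ∂μ := by
  have fin := hS.fin
  choose g gc g0 _ hg using fun n : ℕ =>
    exists_approx μ hA (η := 1 / ((n : ℝ) + 1)) Nat.one_div_pos_of_nat
  have t0 : Filter.Tendsto (fun n => ∫ x, |g n x - A.indicator 1 x| ∂μ) Filter.atTop (𝓝 0) :=
    squeeze_zero (fun _ => integral_nonneg fun _ => abs_nonneg _) hg
      tendsto_one_div_add_atTop_nhds_zero_nat
  have key : ∀ φ, s.Cont φ → ∃ C : ℝ, 0 ≤ C ∧ ∀ f f' : X → ℝ, Continuous f → Continuous f' →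
      |S (fun x => f x • φ x) - S fun x => f' x • φ x| ≤
        C * (∫ x, |f x - A.indicator 1 x| ∂μ + ∫ x, |f' x - A.indicator 1 x| ∂μ) := by
    intro φ hφ
    obtain ⟨C, C0, hC⟩ := hS.abs_le h hφ
    refine ⟨C, C0, fun f f' hf hf' => ?_⟩
    have e1 : (fun x => f x • φ x) - (fun x => f' x • φ x) = fun x => (f x - f' x) • φ x := by
      funext x
      rw [Pi.sub_apply, sub_smul]
    rw [← map_sub, e1]
    exact (hC _ (hf.sub hf')).trans
      (mul_le_mul_of_nonneg_left (RestrictAux.tri μ hA hf hf') C0)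
  have ex : ∀ φ : s.contSub, ∃ a : ℝ,
      Filter.Tendsto (fun n => S fun x => g n x • φ.1 x) Filter.atTop (𝓝 a) := by
    intro φ
    obtain ⟨C, C0, hC⟩ := key φ.1 φ.2
    refine cauchySeq_tendsto_of_complete (cauchySeq_of_le_tendsto_0'
      (fun n : ℕ => C * (1 / ((n : ℝ) + 1) + 1 / ((n : ℝ) + 1))) (fun n m hnm => ?_) ?_)
    · refine (hC _ _ (gc n) (gc m)).trans (mul_le_mul_of_nonneg_left
        (add_le_add (hg n) ((hg m).trans ?_)) C0)
      exact Nat.one_div_le_one_div hnm
    · simpa using (tendsto_one_div_add_atTop_nhds_zero_nat.add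
        tendsto_one_div_add_atTop_nhds_zero_nat).const_mul C
  choose L hL using ex
  obtain ⟨S', hS'⟩ := LinearMap.exists_extend (p := s.contSub)
    { toFun := L
      map_add' := fun a b => tendsto_nhds_unique (hL _) (((hL a).add (hL b)).congr fun n => by
        rw [← map_add]
        exact congrArg S (funext fun x => (smul_add _ _ _).symm))
      map_smul' := fun t a => tendsto_nhds_unique (hL _) (((hL a).const_smul t).congr fun n => by
        rw [← map_smul]
        exact congrArg S (funext fun x => smul_comm t (g n x) (a.1 x))) }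
  have lim : ∀ φ, s.Cont φ →
      Filter.Tendsto (fun n => S fun x => g n x • φ x) Filter.atTop (𝓝 (S' φ)) := fun φ hφ =>
    (LinearMap.congr_fun hS' ⟨φ, hφ⟩).symm ▸ hL ⟨φ, hφ⟩
  refine ⟨S', ⟨inferInstance, fun φ hφ hp => ?_, fun f hf => ?_⟩, fun φ hφ => ?_⟩
  · refine ge_of_tendsto' (lim φ hφ) fun n => hS.pos _ (hφ.fun_smul (gc n)) fun x b => ?_
    rw [ev_smul]
    exact mul_nonneg (g0 n x) (hp x b)
  · refine tendsto_nhds_unique (lim _ (h.smooth.ppF.cont.fun_smul hf)) ?_
    simp only [smul_smul]
    obtain ⟨M, hM⟩ := isCompact_univ.exists_bound_of_continuousOn hf.continuousOn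
    have i1 : Integrable (A.indicator (1 : X → ℝ)) μ := (integrable_const (1 : ℝ)).indicator hA
    rw [tendsto_iff_norm_sub_tendsto_zero]
    refine squeeze_zero (fun _ => norm_nonneg _) (fun n => ?_)
      (by simpa using t0.const_mul M)
    have c1 : Continuous fun x => g n x * f x := (gc n).mul hf
    rw [hS.trace _ c1, ← integral_indicator hA, ← integral_sub
      (RestrictAux.integrable μ c1) ((RestrictAux.integrable μ hf).indicator hA),
      ← integral_const_mul]
    refine norm_integral_le_of_norm_le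
      (((RestrictAux.integrable μ (gc n)).sub i1).abs.const_mul M) (ae_of_all _ fun x => ?_)
    have e1 : g n x * f x - A.indicator f x = f x * (g n x - A.indicator 1 x) := by
      by_cases hx : x ∈ A <;> simp [hx] <;> ring
    rw [e1, norm_mul]
    exact mul_le_mul_of_nonneg_right (hM x trivial) (norm_nonneg _)
  · obtain ⟨C, C0, hC⟩ := key φ hφ
    refine ⟨C, C0, fun f hf => ?_⟩
    refine le_of_tendsto_of_tendsto' ((lim φ hφ).sub_const _).abs ?_ fun n => hC _ _ (gc n) hf
    simpa using (t0.add_const _).const_mul C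

end Setup

end Vale.Agent.P204
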