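import Vale.Agent.P204.Ana

/-! A compact almost complex four-manifold described by a finite atlas. -/

open scoped ContDiff
open MeasureTheory Metric

namespace Vale.Agent.P204

universe u

open Classical in
/-- Finite atlas with frames, a partition of unity and an almost complex structure.
`P i x` sends chart vectors to tangent vectors at `x`, and `Q i x` is its inverse. -/
structure Setup (X : Type u) [TopologicalSpace X] where
  m : ℕ
  ψ : Fin m → OpenPartialHomeomorph X E
  P : Fin m → X → E →L[ℝ] E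
  Q : Fin m → X → E →L[ℝ] E
  c : Fin m → E → ℝ
  J : X → E →L[ℝ] E
  Jl : Fin m → E → E →L[ℝ] E
  target : ∀ i, (ψ i).target = ball 0 10
  PQ : ∀ i, ∀ x ∈ (ψ i).source, ∀ v, P i x (Q i x v) = v
  QP : ∀ i, ∀ x ∈ (ψ i).source, ∀ v, Q i x (P i x v) = v
  trans_smooth : ∀ i j, ContDiffOn ℝ ∞ (fun y => ψ j ((ψ i).symm y))
    ((ψ i).target ∩ (ψ i).symm ⁻¹' (ψ j).source)
  trans_deriv : ∀ i j, ∀ x ∈ (ψ i).source, x ∈ (ψ j).source →
    HasFDerivAt (fun y => ψ j ((ψ i).symm y)) (Q j x ∘L P i x) (ψ i x)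
  c_test : ∀ i, Test 1 (c i)
  c_nonneg : ∀ i y, 0 ≤ c i y
  c_sum : ∀ x, ∑ i, (if x ∈ (ψ i).source then c i (ψ i x) else 0) = 1
  J_sq : ∀ x v, J x (J x v) = -v
  good : ∀ i, GoodJ (Jl i)
  Jl_eq : ∀ i, ∀ x ∈ (ψ i).source, Jl i (ψ i x) = Q i x ∘L J x ∘L P i x

/-- Two-forms on `X` (no regularity). -/
abbrev Form (X : Type u) : Type u := X → W

/-- Linear functionals on two-forms. -/
abbrev GF (X : Type u) : Type u := (X → W) →ₗ[ℝ] ℝ

namespace Setup

variable {X : Type u} [TopologicalSpace X] (s : Setup X)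

/-- The expression of a form in chart `i`. -/
noncomputable def loc (i : Fin s.m) : Form X →ₗ[ℝ] (E → W) where
  toFun φ y := pull (s.P i ((s.ψ i).symm y)) (φ ((s.ψ i).symm y))
  map_add' a b := by ext1 y; simp
  map_smul' t a := by ext1 y; simp

open Classical in
/-- The form given in chart `i` by `θ`, zero outside the chart. -/
noncomputable def glob (i : Fin s.m) : (E → W) →ₗ[ℝ] Form X where
  toFun θ x := if x ∈ (s.ψ i).source then pull (s.Q i x) (θ (s.ψ i x)) else 0
  map_add' a b := by ext1 x; by_cases h : x ∈ (s.ψ i).source <;> simp [h]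
  map_smul' t a := by ext1 x; by_cases h : x ∈ (s.ψ i).source <;> simp [h]

open Classical in
/-- The function given in chart `i` by `h`, zero outside the chart. -/
noncomputable def glob0 (i : Fin s.m) (h : E → ℝ) (x : X) : ℝ :=
  if x ∈ (s.ψ i).source then h (s.ψ i x) else 0

/-- Continuous forms. -/
def Cont (φ : Form X) : Prop := ∀ i, ContinuousOn (s.loc i φ) (ball 0 10)

/-- Smooth forms. -/
def Smooth (φ : Form X) : Prop := ∀ i, ContDiffOn ℝ ∞ (s.loc i φ) (ball 0 10)

/-- Closed forms. -/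
def Closed (φ : Form X) : Prop := ∀ i, ∀ y ∈ ball (0 : E) 10, ClosedAt (s.loc i φ) y

/-- Forms that are nonnegative on complex lines. -/
def Pos (φ : Form X) : Prop := ∀ x b, 0 ≤ ev (φ x) b (s.J x b)

/-- Invariant part. -/
noncomputable def ppF (φ : Form X) : Form X := fun x => pp (s.J x) (φ x)

/-- Anti-invariant part. -/
noncomputable def pmF (φ : Form X) : Form X := fun x => pm (s.J x) (φ x)

/-- The span of the exterior derivatives of one-forms supported in the middle of a chart. -/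
def Ex : Submodule ℝ (Form X) :=
  Submodule.span ℝ {φ | ∃ (i : Fin s.m) (p : E → E →L[ℝ] ℝ), Test 1 p ∧ φ = s.glob i (d1 p)}

/-- The integral of the wedge product of two forms. -/
noncomputable def Int (φ φ' : Form X) : ℝ :=
  ∑ j, ∫ y, s.c j y * wedge (s.loc j φ y) (s.loc j φ' y)

/-- The `C^k` norm of a form. -/
noncomputable def sn (k : ℕ) (φ : Form X) : ℝ := ∑ j, Ck k fun y => s.c j y • s.loc j φ y

/-- A closed taming form. -/
structure Tame (om : Form X) : Prop where
  smooth : s.Smooth om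
  closed : s.Closed om
  pos : ∀ x b, b ≠ 0 → 0 < ev (om x) b (s.J x b)

/-- A closed compatible form. -/
structure Compat (σ : Form X) : Prop extends s.Tame σ where
  inv : ∀ x, pull (s.J x) (σ x) = σ x

/-- The functional in chart `i`. -/
noncomputable def lf (L : GF X) (i : Fin s.m) : LF := L ∘ₗ s.glob i

/-- The measure in chart `i`. -/
noncomputable def lm [MeasurableSpace X] (μ : Measure X) (i : Fin s.m) : Measure E :=
  (μ.restrict (s.ψ i).source).map (s.ψ i)

/-- A positive current with trace measure `μ` with respect to `F`. -/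
structure PosCur [MeasurableSpace X] (F : Form X) (T : GF X) (μ : Measure X) : Prop where
  fin : IsFiniteMeasure μ
  pos : ∀ φ, s.Cont φ → s.Pos φ → 0 ≤ T φ
  trace : ∀ f : X → ℝ, Continuous f → T (fun x => f x • F x) = ∫ x, f x ∂μ

/-- A closed current bounded below by `F`. -/
structure KCur (F : Form X) (S : GF X) : Prop where
  ge : ∀ φ, s.Cont φ → s.Pos φ → s.Int φ F ≤ S φ
  ex : ∀ e ∈ s.Ex, S e = 0

/-- A regularisation operator on forms that commutes with `d`, with its kernels in the charts. -/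
structure Moll (M : ℝ → Form X → Form X) (K : Fin s.m → ℝ × E × E → W →L[ℝ] W)
    (R N ε₀ : ℝ) : Prop where
  ker : ∀ j, IsKer (K j) R N ε₀
  smooth : ∀ ε ∈ Set.Ioo 0 ε₀, ∀ φ, s.Smooth φ → s.Smooth (M ε φ)
  closed : ∀ ε ∈ Set.Ioo 0 ε₀, ∀ φ, s.Smooth φ → s.Closed φ → s.Closed (M ε φ)
  ex : ∀ ε ∈ Set.Ioo 0 ε₀, ∀ (i : Fin s.m) (p : E → E →L[ℝ] ℝ), Test 1 p →
    M ε (s.glob i (d1 p)) ∈ s.Ex
  rep : ∀ ε ∈ Set.Ioo 0 ε₀, ∀ φ, s.Smooth φ → ∀ j, ∀ y ∈ closedBall (0 : E) 6,
    s.loc j (M ε φ) y = Kop (K j) ε (s.loc j φ) y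

/-- `G` is the regularisation of the functional `L` at scale `ε`. -/
structure IsReg (M : ℝ → Form X → Form X) (K : Fin s.m → ℝ × E × E → W →L[ℝ] W) (ε : ℝ)
    (L : GF X) (G : Form X) : Prop where
  smooth : s.Smooth G
  dual : ∀ φ, s.Smooth φ → s.Int G φ = L (M ε φ)
  loc : ∀ i, ∀ x ∈ closedBall (0 : E) 3, s.loc i G x = kreg (K i) (s.lf L i) ε x

end Setup

end Vale.Agent.P204
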