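import Vale.Agent.P204.Main
import Vale.Agent.P204.InSetup
import Vale.Agent.P204.InForm

/-! Tamed implies compatible on a closed four-manifold. -/

open scoped Manifold ContDiff

namespace Vale.Agent.P204

theorem donaldson {X : Type*} [TopologicalSpace X] [T2Space X] [CompactSpace X]
    [ChartedSpace E X] [IsManifold 𝓘(ℝ, E) ∞ X] {J : EndField E X} (hJ : IsAlmostComplex J)
    {σ : BilField E X} (hσ : IsSymplectic σ) (ht : Tames σ J) :
    ∃ τ : BilField E X, IsSymplectic τ ∧ Compatible τ J := by
  have : SecondCountableTopology X := ChartedSpace.secondCountable_of_sigmaCompact E X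
  obtain ⟨s, hs⟩ := Mo.exists_setup hJ
  obtain ⟨φ, hφ⟩ := main_setup s _ (Mo.tame_of hs hσ ht)
  exact Mo.compat_of hs hφ

end Vale.Agent.P204
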